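import Claimed.Agent.R285.Base.RG
import Claimed.Agent.R285.Entry.VregB
import Claimed.Agent.R285.Entry.VregC
import Claimed.Agent.R285.Entry.ObsE
import Claimed.Agent.R285.Reg.Main
import Claimed.Agent.R285.Ker.Ext
import Claimed.Agent.R285.Scal.Dist

/-!
# ROW 285, package PK-OBS (#12671) = the OBSERVATION REGULATOR `Vobs`: [B] L9.2 (`B4.obs_extra`, `B4.obs_regulator`) + the regulator half of [F] L6.3, L6.4        (architect helper49)   -- KEEP

ONE FILE = ONE PACKAGE; the leaves `L-OBS-V*` share it: edit ONLY your theorems, pull before landing.  Helper lemmas: prefix `ov_`.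
Imports: `Base/RG` (definitions), `Entry/*` (abstract variational regulator `Vreg`, helper229), `Reg/*` (L4.4 and its lattice/grid/Gaussian kit, helper15).  NEVER `Read/B4.lean` (it will import this file).

## Idea
`Vobs a h p₁ gs g C X φ` depends on `(g, X)` only through `D = D_m(X)`: `VobsD`.  With `M = oM a gs D` (the matrix of the open observation energy `openE`), `B = avgM a gs` (`= √a ·` cell averages) and ANY factor
`R Rᵀ = C`:     `VobsD a h p₁ gs C D φ = Entry.Vreg M [B R, 1] h p₁ (B φ)`      (`vobsD_eq`),     and `Entry.VHyp M [B R, 1] h p₁` follows from the ONE hypothesis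
`Cac C :  ⟨C x, A C x⟩ ≤ ⟨x, C x⟩` (`A = lap G`; i.e. `A^{1/2} C A^{1/2} ≤ 1`), by the trial field `u = √a C x`  (`obs_vhyp`).
Everything else is the abstract calculus of `Entry/Vreg*.lean`.  The averaging lemma `vobsD_compose` holds for EVERY splitting `C_o + T` with `Cac (C_o + T)`: it serves
 * the shell step of [B] L9.2:  `C_o = C_{<u}`, `T = Γ_u`, `C_o + T = C_{<Lu}`;
 * [F] L6.3:  `C_o = C_{<u}`, `T = C_{≥u}`, `C_o + T = A⁺ + const`;
 * the short field of [F] s6.3, class `ℭ`:  `C_o = C_{<m'}`, `T = shell (m', v)`.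
The paper's matrix argument `S_o S_o^* + S_t S_t^* ≤ I`, `β S_t^* (1 - β A_o)⁻¹ S_t ≤ β` is `Entry.vreg_shell_le` + `Entry.vreg_compose`.

## Leaves (statements below; plans in the docstrings)
`L-OBS-V1` openE: `obs_avgM_mulVec, obs_bondE_nonneg, obs_bondE_mono, obs_bondE_le_lap, obs_openE_nonneg, obs_openE_trial, obs_openE_mono, obs_openE_const, obs_openE_union, obs_oM`      (~350 l.)
`L-OBS-V2` bridge: `obs_cac_iff, obs_vhyp, vobsD_eq`      (~200 l.)
`L-OBS-V3` elementary properties: `vobsD_nonneg, vobsD_homog, vobsD_const, vobsD_mono, vobsD_le_bondE, vobsD_form, vobsD_add_le`      (~200 l.)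
`L-OBS-V4` additivity: `vobsD_add`      (~300 l.)
`L-OBS-V5` averaging: `obs_gauss_factor, obs_trace_le, vobsD_compose, obs_cac_left`      (~350 l.)
`L-OBS-V6` geometry: `obs_cells_nonempty, obs_sep_dist, obs_bondTr_le, obs_term_of_shell`      (~250 l.)
`L-OBS-V7` Hoelder + measurability: `obs_holder_exp, obs_U_continuous, obs_vobsD_continuous`      (~200 l., the first is Mathlib only)
`L-OBS-V8` kernels (from `R285/Ker`): `obs_low_add_shell, obs_low_cac`      (~150 l.)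
`L-OBS-V9` glue `obs_extra'`      (~150 l.)
`L-OBS-V10` glue `obs_regulator'`      (~300 l.)
`L-OBS-V11` glue `obs_terminal_abs`, `obs_moment_abs`      (~350 l.)
-/

set_option autoImplicit false

namespace Claimed.Agent.R285.Obs

open scoped BigOperators ENNReal NNReal
open MeasureTheory ProbabilityTheory Matrix
open Claimed.Agent.R285.RG Claimed.Agent.R285.Entry Claimed.Agent.R285.Reg

noncomputable section

variable {G : Geom}

/-! ## 0. Definitions -/

/-- the parameters of the observation regulator (`B4.ObsPar` gives `OPar o.a o.hstar o.p1`: `p₁ h_* < p₁ / p₂ < 1`) -/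
structure OPar (a hs p1 : ℝ) : Prop where
  a_pos : 0 < a
  hs_pos : 0 < hs
  p1_gt : 1 < p1
  margin : p1 * hs < 1

/-- the joint contraction `C A C ≤ C` (`⟺ A^{1/2} C A^{1/2} ≤ 1`), in Cameron coordinates -/
def Cac (C : Matrix G.V G.V ℝ) : Prop :=
  ∀ x : G.V → ℝ, (C *ᵥ x) ⬝ᵥ (lap G *ᵥ (C *ᵥ x)) ≤ x ⬝ᵥ (C *ᵥ x)

/-- the observation matrix `√a B_s` -/
def avgM (a : ℝ) (gs : Grid G) : Matrix gs.I G.V ℝ := fun c v =>
  if gs.blk v = c then Real.sqrt a / ((gs.sites {c}).card : ℝ) else 0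

/-- the matrix of the quadratic form `openE a gs D`, by polarisation -/
def oM (a : ℝ) (gs : Grid G) (D : Finset G.V) : Matrix gs.I gs.I ℝ := fun c c' =>
  (openE a gs D (Pi.single c 1 + Pi.single c' 1) - openE a gs D (Pi.single c 1) - openE a gs D (Pi.single c' 1)) / 2

/-- the Gaussian Hilbert coordinates `[√a B_s R, 1]` (old field, observation noise) -/
def oL {W : Type} [Fintype W] (a : ℝ) (gs : Grid G) (R : Matrix G.V W ℝ) : Matrix gs.I (W ⊕ gs.I) ℝ :=
  Matrix.fromCols (avgM a gs * R) (1 : Matrix gs.I gs.I ℝ)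

/-- `Vobs` as a function of the domain `D = D_m (X)` -/
def VobsD (a hs p1 : ℝ) (gs : Grid G) (C : Matrix G.V G.V ℝ) (D : Finset G.V) (φ : G.V → ℝ) : ℝ :=
  (1 / 2) * ⨆ x : (G.V → ℝ) × (gs.I → ℝ),
    (hs * openE a gs D (fun c => cellAvg gs (fun v => Real.sqrt a * (φ v + C.mulVec x.1 v)) c + x.2 c)
      - p1⁻¹ * (x.1 ⬝ᵥ C.mulVec x.1 + ∑ c, x.2 c ^ 2))

theorem vobs_eq (a hs p1 : ℝ) (gs g : Grid G) (C : Matrix G.V G.V ℝ) (X : Finset g.I) (φ : G.V → ℝ) :
    Vobs a hs p1 gs g C X φ = VobsD a hs p1 gs C (g.Dm X) φ := rfl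

/-- the expected bond energy `E ⟨ζ, A_D ζ⟩`, `Cov ζ = T` (all bonds issued from `D`) -/
def bondTr (D : Finset G.V) (T : Matrix G.V G.V ℝ) : ℝ :=
  (1 / 2) * ∑ v ∈ D, ∑ e : Fin 4, kdif G ![e] ![e] T (G.ι v) (G.ι v)

theorem obs_defs_eqns_cite : True := by
  have := @Cac.eq_1; have := @avgM.eq_1; have := @oM.eq_1; have := @oL.eq_1; have := @VobsD.eq_1; have := @bondTr.eq_1
  trivial

variable {a hs p1 : ℝ}

/-! ## 1. LEAF `L-OBS-V1`: the open observation energy -/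

theorem obs_avgM_mulVec (a : ℝ) (gs : Grid G) (φ : G.V → ℝ) (c : gs.I) :
    (avgM a gs *ᵥ φ) c = cellAvg gs (fun v => Real.sqrt a * φ v) c := by
  simp only [Matrix.mulVec, dotProduct, avgM, cellAvg, Grid.sites, Finset.mem_singleton, Finset.sum_filter, Finset.sum_div]
  apply Finset.sum_congr rfl
  intro v _
  split_ifs
  · ring
  · simp

theorem obs_bondE_nonneg (D : Finset G.V) (u : G.V → ℝ) : 0 ≤ bondE D u := by
  unfold bondE
  apply mul_nonneg (by norm_num)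
  apply Finset.sum_nonneg
  intro v _
  apply Finset.sum_nonneg
  intro e _
  split_ifs
  · positivity
  · exact le_rfl

theorem obs_bondE_mono {D D' : Finset G.V} (h : D ⊆ D') (u : G.V → ℝ) : bondE D u ≤ bondE D' u := by
  unfold bondE
  apply mul_le_mul_of_nonneg_left _ (by norm_num)
  calc ∑ v ∈ D, ∑ e : Fin 4, (if G.π (G.ι v + dir e) ∈ D then dif (dir e) (G.lift u) (G.ι v) ^ 2 else 0)
      ≤ ∑ v ∈ D, ∑ e : Fin 4, (if G.π (G.ι v + dir e) ∈ D' then dif (dir e) (G.lift u) (G.ι v) ^ 2 else 0) := by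
        apply Finset.sum_le_sum
        intro v _
        apply Finset.sum_le_sum
        intro e _
        by_cases h1 : G.π (G.ι v + dir e) ∈ D
        · rw [if_pos h1, if_pos (h h1)]
        · rw [if_neg h1]
          split_ifs
          · positivity
          · exact le_rfl
    _ ≤ _ := by
        apply Finset.sum_le_sum_of_subset_of_nonneg h
        intro v _ _
        apply Finset.sum_nonneg
        intro e _
        split_ifs
        · positivity
        · exact le_rfl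

theorem ov_lap_mulVec (u : G.V → ℝ) (v : G.V) : (lap G *ᵥ u) v = ∑ e : Fin 4, (u v - u (regNb G v e)) := by
  simp only [Matrix.mulVec, dotProduct, lap, Finset.sum_mul]
  rw [Finset.sum_comm]
  apply Finset.sum_congr rfl
  intro e _
  simp only [sub_mul, ite_mul, one_mul, zero_mul, Finset.sum_sub_distrib, Finset.sum_ite_eq, Finset.mem_univ, if_true, regNb]

/-- the involution `(v, e) ↦ (v + e, -e)` on genuine steps -/
def ovRev (G : Geom) (p : G.V × Fin 4) : G.V × Fin 4 :=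
  if regNb G p.1 p.2 = p.1 then p else (regNb G p.1 p.2, regOpp p.2)

theorem ov_rev_rev : Function.Involutive (ovRev G) := by
  rintro ⟨v, e⟩
  by_cases h : regNb G v e = v
  · simp [ovRev, h]
  · have h2 := reg_nb_rev G v e h
    have h3 : ovRev G (v, e) = (regNb G v e, regOpp e) := by simp [ovRev, h]
    rw [h3]
    have h4 : ¬ (v = regNb G v e) := fun h' => h h'.symm
    simp only [ovRev, h2, reg_opp_opp, if_neg h4]

theorem ov_rev_fst (p : G.V × Fin 4) : (ovRev G p).1 = regNb G p.1 p.2 := by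
  obtain ⟨v, e⟩ := p
  by_cases h : regNb G v e = v
  · simp [ovRev, h]
  · simp [ovRev, h]

theorem ov_sum_nb (F : G.V → ℝ) : ∑ v, ∑ e : Fin 4, F (regNb G v e) = ∑ v : G.V, ∑ _e : Fin 4, F v := by
  rw [← Fintype.sum_prod_type' (fun v e => F (regNb G v e)), ← Fintype.sum_prod_type' (fun (v : G.V) (_ : Fin 4) => F v)]
  have := Equiv.sum_comp (Function.Involutive.toPerm (ovRev G) ov_rev_rev) (fun p : G.V × Fin 4 => F p.1)
  rw [← this]
  apply Finset.sum_congr rfl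
  intro p _
  show F (regNb G p.1 p.2) = F (ovRev G p).1
  rw [ov_rev_fst]

theorem ov_lap_form (u : G.V → ℝ) : u ⬝ᵥ (lap G *ᵥ u) = (1 / 2) * ∑ v, ∑ e : Fin 4, (u (regNb G v e) - u v) ^ 2 := by
  have h1 := ov_sum_nb (fun v => u v ^ 2)
  have h2 : ∑ v, ∑ e : Fin 4, (u (regNb G v e) - u v) ^ 2
      = ∑ v, ∑ e : Fin 4, u (regNb G v e) ^ 2 + ∑ v : G.V, ∑ _e : Fin 4, u v ^ 2 - 2 * ∑ v, ∑ e : Fin 4, u v * u (regNb G v e) := by
    rw [Finset.mul_sum, ← Finset.sum_add_distrib, ← Finset.sum_sub_distrib]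
    apply Finset.sum_congr rfl
    intro v _
    rw [Finset.mul_sum, ← Finset.sum_add_distrib, ← Finset.sum_sub_distrib]
    apply Finset.sum_congr rfl
    intro e _
    ring
  rw [h2, h1]
  simp only [dotProduct, ov_lap_mulVec, Finset.mul_sum]
  have h3 : ∀ v : G.V, ∀ e : Fin 4, u v * (u v - u (regNb G v e)) = u v ^ 2 - u v * u (regNb G v e) := by
    intro v e; ring
  simp only [h3, Finset.sum_sub_distrib, ← Finset.mul_sum]
  ring

/-- `⟨u, A u⟩ = ½ ∑_v ∑_e (∇_e u (v))²` (`Ker.ker_nbr_sum` / `Reg.reg_nb_rev`: the folded neighbour relation is symmetric) -/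
theorem obs_bondE_le_lap (D : Finset G.V) (u : G.V → ℝ) : bondE D u ≤ u ⬝ᵥ (lap G *ᵥ u) := by
  rw [ov_lap_form]
  unfold bondE
  apply mul_le_mul_of_nonneg_left _ (by norm_num)
  calc ∑ v ∈ D, ∑ e : Fin 4, (if G.π (G.ι v + dir e) ∈ D then dif (dir e) (G.lift u) (G.ι v) ^ 2 else 0)
      ≤ ∑ v ∈ D, ∑ e : Fin 4, (u (regNb G v e) - u v) ^ 2 := by
        apply Finset.sum_le_sum
        intro v _
        apply Finset.sum_le_sum
        intro e _
        rw [reg_dif_lift]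
        split_ifs
        · exact le_rfl
        · positivity
    _ ≤ _ := by
        apply Finset.sum_le_sum_of_subset_of_nonneg (Finset.subset_univ _)
        intro v _ _
        apply Finset.sum_nonneg
        intro e _
        positivity

/-- the functional minimised by `openE` -/
def ovVal (a : ℝ) (gs : Grid G) (D : Finset G.V) (y : gs.I → ℝ) (u : G.V → ℝ) : ℝ :=
  a⁻¹ * bondE D u + ∑ c ∈ cellsIn gs D, (cellAvg gs u c - y c) ^ 2

theorem ov_openE_def (a : ℝ) (gs : Grid G) (D : Finset G.V) (y : gs.I → ℝ) : openE a gs D y = ⨅ u, ovVal a gs D y u := rfl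

theorem ov_val_nonneg (ha : 0 < a) (gs : Grid G) (D : Finset G.V) (y : gs.I → ℝ) (u : G.V → ℝ) : 0 ≤ ovVal a gs D y u := by
  unfold ovVal
  have := obs_bondE_nonneg D u
  have h2 : 0 ≤ ∑ c ∈ cellsIn gs D, (cellAvg gs u c - y c) ^ 2 := Finset.sum_nonneg fun c _ => sq_nonneg _
  positivity

theorem ov_bdd (ha : 0 < a) (gs : Grid G) (D : Finset G.V) (y : gs.I → ℝ) : BddBelow (Set.range (ovVal a gs D y)) :=
  ⟨0, by rintro _ ⟨u, rfl⟩; exact ov_val_nonneg ha gs D y u⟩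

theorem ov_openE_le (ha : 0 < a) (gs : Grid G) (D : Finset G.V) (y : gs.I → ℝ) (u : G.V → ℝ) :
    openE a gs D y ≤ ovVal a gs D y u := ciInf_le (ov_bdd ha gs D y) u

theorem ov_bondE_eq (D : Finset G.V) (u : G.V → ℝ) :
    bondE D u = (1 / 2) * ∑ v ∈ D, ∑ e : Fin 4, if regNb G v e ∈ D then (u (regNb G v e) - u v) ^ 2 else 0 := by
  unfold bondE
  congr 1
  apply Finset.sum_congr rfl
  intro v _
  apply Finset.sum_congr rfl
  intro e _
  rw [reg_dif_lift]
  rfl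

theorem ov_bondE_smul (D : Finset G.V) (t : ℝ) (u : G.V → ℝ) : bondE D (fun v => t * u v) = t ^ 2 * bondE D u := by
  rw [ov_bondE_eq, ov_bondE_eq, mul_left_comm]
  congr 1
  rw [Finset.mul_sum]
  apply Finset.sum_congr rfl
  intro v _
  rw [Finset.mul_sum]
  apply Finset.sum_congr rfl
  intro e _
  split_ifs
  · ring
  · simp

theorem ov_bondE_shift (D : Finset G.V) (t : ℝ) (u : G.V → ℝ) : bondE D (fun v => u v + t) = bondE D u := by
  rw [ov_bondE_eq, ov_bondE_eq]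
  simp only [add_sub_add_right_eq_sub]

theorem ov_cellAvg_shift (gs : Grid G) (c : gs.I) (hne : (gs.sites {c}).Nonempty) (u : G.V → ℝ) (t : ℝ) :
    cellAvg gs (fun v => u v + t) c = cellAvg gs u c + t := by
  unfold cellAvg
  have h : ((gs.sites {c}).card : ℝ) ≠ 0 := by
    have := Finset.card_pos.2 hne
    exact_mod_cast this.ne'
  rw [Finset.sum_add_distrib, Finset.sum_const, nsmul_eq_mul]
  field_simp

theorem obs_openE_nonneg (ha : 0 < a) (gs : Grid G) (D : Finset G.V) (y : gs.I → ℝ) : 0 ≤ openE a gs D y := by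
  exact Real.iInf_nonneg fun u => ov_val_nonneg ha gs D y u

/-- the trial field `u = √a ζ` -/
theorem obs_openE_trial (ha : 0 < a) (gs : Grid G) (D : Finset G.V) (ζ : G.V → ℝ) (e : gs.I → ℝ) :
    openE a gs D (avgM a gs *ᵥ ζ + e) ≤ bondE D ζ + e ⬝ᵥ e := by
  refine (ov_openE_le ha gs D _ (fun v => Real.sqrt a * ζ v)).trans ?_
  unfold ovVal
  rw [ov_bondE_smul, Real.sq_sqrt ha.le, ← mul_assoc, inv_mul_cancel₀ ha.ne', one_mul]
  apply add_le_add le_rfl
  calc ∑ c ∈ cellsIn gs D, (cellAvg gs (fun v => Real.sqrt a * ζ v) c - (avgM a gs *ᵥ ζ + e) c) ^ 2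
      = ∑ c ∈ cellsIn gs D, e c * e c := by
        apply Finset.sum_congr rfl
        intro c _
        rw [Pi.add_apply, obs_avgM_mulVec]
        ring
    _ ≤ ∑ c, e c * e c := by
        apply Finset.sum_le_sum_of_subset_of_nonneg (Finset.subset_univ _)
        intro c _ _
        exact mul_self_nonneg _

theorem ov_cellsIn_mono (gs : Grid G) {D D' : Finset G.V} (h : D ⊆ D') : cellsIn gs D ⊆ cellsIn gs D' := by
  intro c hc
  simp only [cellsIn, Finset.mem_filter, Finset.mem_univ, true_and] at hc ⊢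
  exact hc.trans h

theorem obs_openE_mono (ha : 0 < a) (gs : Grid G) {D D' : Finset G.V} (h : D ⊆ D') (y : gs.I → ℝ) :
    openE a gs D y ≤ openE a gs D' y := by
  rw [ov_openE_def, ov_openE_def]
  apply ciInf_mono (ov_bdd ha gs D y)
  intro u
  unfold ovVal
  apply add_le_add
  · exact mul_le_mul_of_nonneg_left (obs_bondE_mono h u) (by positivity)
  · apply Finset.sum_le_sum_of_subset_of_nonneg (ov_cellsIn_mono gs h)
    intro c _ _
    positivity

/-- the energy is blind to constants (shift the trial field) -/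
theorem obs_openE_const (ha : 0 < a) (gs : Grid G) (hne : ∀ c : gs.I, (gs.sites {c}).Nonempty) (D : Finset G.V) (y : gs.I → ℝ) (t : ℝ) :
    openE a gs D (fun c => y c + t) = openE a gs D y := by
  rw [ov_openE_def, ov_openE_def]
  symm
  apply (Equiv.addRight (fun _ : G.V => t)).iInf_congr
  intro u
  unfold ovVal
  have e1 : (Equiv.addRight (fun _ : G.V => t)) u = fun v => u v + t := rfl
  rw [e1, ov_bondE_shift]
  congr 1
  apply Finset.sum_congr rfl
  intro c _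
  rw [ov_cellAvg_shift gs c (hne c)]
  ring

theorem ov_bondE_union (D D' : Finset G.V) (hd : Disjoint D D') (u : G.V → ℝ) :
    bondE D u + bondE D' u ≤ bondE (D ∪ D') u := by
  classical
  rw [ov_bondE_eq, ov_bondE_eq, ov_bondE_eq, Finset.sum_union hd, mul_add]
  apply add_le_add
  · apply mul_le_mul_of_nonneg_left _ (by norm_num)
    apply Finset.sum_le_sum
    intro v _
    apply Finset.sum_le_sum
    intro e _
    by_cases h1 : regNb G v e ∈ D
    · rw [if_pos h1, if_pos (Finset.mem_union_left _ h1)]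
    · rw [if_neg h1]
      split_ifs
      · positivity
      · exact le_rfl
  · apply mul_le_mul_of_nonneg_left _ (by norm_num)
    apply Finset.sum_le_sum
    intro v _
    apply Finset.sum_le_sum
    intro e _
    by_cases h1 : regNb G v e ∈ D'
    · rw [if_pos h1, if_pos (Finset.mem_union_right _ h1)]
    · rw [if_neg h1]
      split_ifs
      · positivity
      · exact le_rfl

theorem ov_cellsIn_disj (gs : Grid G) (hne : ∀ c : gs.I, (gs.sites {c}).Nonempty) (D D' : Finset G.V) (hd : Disjoint D D') :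
    Disjoint (cellsIn gs D) (cellsIn gs D') := by
  rw [Finset.disjoint_left]
  intro c hc hc'
  simp only [cellsIn, Finset.mem_filter, Finset.mem_univ, true_and] at hc hc'
  obtain ⟨v, hv⟩ := hne c
  exact (Finset.disjoint_left.1 hd) (hc hv) (hc' hv)

/-- restriction of one trial field to two disjoint domains -/
theorem obs_openE_union (ha : 0 < a) (gs : Grid G) (hne : ∀ c : gs.I, (gs.sites {c}).Nonempty) (D D' : Finset G.V) (hd : Disjoint D D')
    (y : gs.I → ℝ) : openE a gs D y + openE a gs D' y ≤ openE a gs (D ∪ D') y := by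
  classical
  rw [ov_openE_def a gs (D ∪ D')]
  apply le_ciInf
  intro u
  refine (add_le_add (ov_openE_le ha gs D y u) (ov_openE_le ha gs D' y u)).trans ?_
  unfold ovVal
  have h1 := ov_bondE_union D D' hd u
  have h2 : ∑ c ∈ cellsIn gs D, (cellAvg gs u c - y c) ^ 2 + ∑ c ∈ cellsIn gs D', (cellAvg gs u c - y c) ^ 2
      ≤ ∑ c ∈ cellsIn gs (D ∪ D'), (cellAvg gs u c - y c) ^ 2 := by
    rw [← Finset.sum_union (ov_cellsIn_disj gs hne D D' hd)]
    apply Finset.sum_le_sum_of_subset_of_nonneg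
    · exact Finset.union_subset (ov_cellsIn_mono gs Finset.subset_union_left) (ov_cellsIn_mono gs Finset.subset_union_right)
    · intro c _ _
      positivity
  have h3 : a⁻¹ * (bondE D u + bondE D' u) ≤ a⁻¹ * bondE (D ∪ D') u := mul_le_mul_of_nonneg_left h1 (by positivity)
  linarith

/-- the rows of the gradient restricted to the bonds inside `D` -/
def ovRw (D : Finset G.V) : Matrix (G.V × Fin 4) G.V ℝ := fun k z =>
  if k.1 ∈ D ∧ regNb G k.1 k.2 ∈ D then (if regNb G k.1 k.2 = z then 1 else 0) - (if k.1 = z then 1 else 0) else 0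

theorem ov_Rw_mulVec (D : Finset G.V) (u : G.V → ℝ) (k : G.V × Fin 4) :
    (ovRw D *ᵥ u) k = if k.1 ∈ D ∧ regNb G k.1 k.2 ∈ D then u (regNb G k.1 k.2) - u k.1 else 0 := by
  simp only [Matrix.mulVec, dotProduct, ovRw]
  split_ifs with h
  · simp [sub_mul, Finset.sum_sub_distrib]
  · simp

/-- the matrix of `a⁻¹ bondE D` -/
def ovA (a : ℝ) (D : Finset G.V) : Matrix G.V G.V ℝ := (a⁻¹ / 2) • ((ovRw D)ᵀ * ovRw D)

theorem ov_A_psd (ha : 0 < a) (D : Finset G.V) : (ovA a D).PosSemidef := by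
  unfold ovA
  apply Matrix.PosSemidef.smul _ (by positivity)
  have := Matrix.posSemidef_conjTranspose_mul_self (ovRw D)
  simpa [Matrix.conjTranspose_eq_transpose_of_trivial] using this

theorem ov_A_form (a : ℝ) (D : Finset G.V) (u : G.V → ℝ) : u ⬝ᵥ (ovA a D *ᵥ u) = a⁻¹ * bondE D u := by
  unfold ovA
  rw [Matrix.smul_mulVec, dotProduct_smul, ← Matrix.mulVec_mulVec, Matrix.dotProduct_mulVec, Matrix.vecMul_transpose,
    ov_bondE_eq]
  have h1 : ∑ v ∈ D, ∑ e : Fin 4, (if regNb G v e ∈ D then (u (regNb G v e) - u v) ^ 2 else 0)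
      = ∑ v, if v ∈ D then ∑ e : Fin 4, (if regNb G v e ∈ D then (u (regNb G v e) - u v) ^ 2 else 0) else 0 := by
    rw [Finset.sum_ite_mem, Finset.univ_inter]
  have h2 : (ovRw D *ᵥ u) ⬝ᵥ (ovRw D *ᵥ u)
      = ∑ v ∈ D, ∑ e : Fin 4, (if regNb G v e ∈ D then (u (regNb G v e) - u v) ^ 2 else 0) := by
    rw [h1]
    simp only [dotProduct, ov_Rw_mulVec]
    rw [Fintype.sum_prod_type (f := fun k : G.V × Fin 4 =>
      (if k.1 ∈ D ∧ regNb G k.1 k.2 ∈ D then u (regNb G k.1 k.2) - u k.1 else 0)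
        * (if k.1 ∈ D ∧ regNb G k.1 k.2 ∈ D then u (regNb G k.1 k.2) - u k.1 else 0))]
    apply Finset.sum_congr rfl
    intro v _
    by_cases hv : v ∈ D
    · simp only [hv, true_and, if_true]
      apply Finset.sum_congr rfl
      intro e _
      split_ifs
      · ring
      · simp
    · simp [hv]
  rw [h2, smul_eq_mul]
  ring

/-- the averages over the cells inside `D` -/
def ovB (gs : Grid G) (D : Finset G.V) : Matrix gs.I G.V ℝ := fun c v =>
  if c ∈ cellsIn gs D then (if gs.blk v = c then 1 / ((gs.sites {c}).card : ℝ) else 0) else 0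

theorem ov_B_mulVec (gs : Grid G) (D : Finset G.V) (u : G.V → ℝ) (c : gs.I) :
    (ovB gs D *ᵥ u) c = if c ∈ cellsIn gs D then cellAvg gs u c else 0 := by
  simp only [Matrix.mulVec, dotProduct, ovB]
  split_ifs with h
  · simp only [cellAvg, Grid.sites, Finset.mem_singleton, Finset.sum_filter, Finset.sum_div]
    apply Finset.sum_congr rfl
    intro v _
    split_ifs
    · ring
    · simp
  · simp

/-- the projection onto the cells inside `D` -/
def ovP (gs : Grid G) (D : Finset G.V) : Matrix gs.I gs.I ℝ := Matrix.diagonal fun c => if c ∈ cellsIn gs D then 1 else 0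

theorem ov_P_mulVec (gs : Grid G) (D : Finset G.V) (y : gs.I → ℝ) (c : gs.I) :
    (ovP gs D *ᵥ y) c = if c ∈ cellsIn gs D then y c else 0 := by
  simp only [ovP, Matrix.mulVec_diagonal]
  split_ifs <;> simp

theorem ov_openE_obsE (a : ℝ) (gs : Grid G) (D : Finset G.V) (y : gs.I → ℝ) :
    openE a gs D y = obsE (ovA a D) (ovB gs D) (ovP gs D *ᵥ y) := by
  unfold openE obsE
  congr 1
  funext u
  rw [ov_A_form]
  congr 1
  rw [← Finset.univ_inter (cellsIn gs D), ← Finset.sum_ite_mem]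
  apply Finset.sum_congr rfl
  intro c _
  rw [ov_B_mulVec, ov_P_mulVec]
  split_ifs <;> simp

/-- `openE` is a positive semidefinite quadratic form `≤ |y|²`, which sees only the cells inside `D`.
PLAN: `bondE D u = u ⬝ᵥ A_D u` with `A_D = ∑ (rows)ᵀ(rows)` psd; `openE a gs D y = Entry.obsE (a⁻¹ A_D) B' (mask y)`, `B'` = rows of the cell averages masked by `cellsIn gs D`;
`Entry.obsE_quadratic` gives `M'`; the form of `openE` is `P M' P`; a symmetric matrix is recovered from its quadratic form by polarisation, so `oM = P M' P`. -/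
theorem obs_oM (ha : 0 < a) (gs : Grid G) (D : Finset G.V) :
    (oM a gs D).PosSemidef ∧ (∀ y, qf (oM a gs D) y = openE a gs D y) ∧ (∀ y, openE a gs D y ≤ ∑ c ∈ cellsIn gs D, y c ^ 2) ∧
      ∀ y y' : gs.I → ℝ, (∀ c ∈ cellsIn gs D, y c = y' c) → openE a gs D y = openE a gs D y' := by
  obtain ⟨M', hM', hq, hle⟩ := obsE_quadratic (ovA a D) (ov_A_psd ha D) (ovB gs D)
  have hN : ((ovP gs D)ᵀ * M' * ovP gs D).PosSemidef := by
    have := hM'.conjTranspose_mul_mul_same (ovP gs D)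
    simpa [Matrix.conjTranspose_eq_transpose_of_trivial] using this
  have hNq : ∀ y, qf ((ovP gs D)ᵀ * M' * ovP gs D) y = openE a gs D y := by
    intro y
    rw [ov_openE_obsE, hq, vreg_qf_pull]
    rfl
  have hoM : oM a gs D = (ovP gs D)ᵀ * M' * ovP gs D := by
    ext c c'
    simp only [oM, ← hNq]
    rw [qf_add _ hN]
    simp
    ring
  refine ⟨hoM ▸ hN, fun y => by rw [hoM]; exact hNq y, fun y => ?_, fun y y' hy => ?_⟩
  · refine (ov_openE_le ha gs D y 0).trans (le_of_eq ?_)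
    unfold ovVal
    have h0 : bondE D (0 : G.V → ℝ) = 0 := by
      rw [ov_bondE_eq]; simp
    rw [h0, mul_zero, zero_add]
    apply Finset.sum_congr rfl
    intro c _
    simp [cellAvg]
  · rw [ov_openE_def, ov_openE_def]
    congr 1
    funext u
    unfold ovVal
    congr 1
    apply Finset.sum_congr rfl
    intro c hc
    rw [hy c hc]

/-! ## 2. LEAF `L-OBS-V2`: the bridge to `Entry.Vreg` -/

section bridge

variable {W : Type} [Fintype W]

/-- `Cac` in Gaussian Hilbert coordinates.  (⇒) `Entry.exists_preimage_le`: `x` with `C x = R ξ`, `⟨x, C x⟩ ≤ |ξ|²`.  (⇐) `ξ = Rᵀ x`. -/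
theorem obs_cac_iff (C : Matrix G.V G.V ℝ) (R : Matrix G.V W ℝ) (hR : R * R.transpose = C) :
    Cac C ↔ ∀ ξ : W → ℝ, (R *ᵥ ξ) ⬝ᵥ (lap G *ᵥ (R *ᵥ ξ)) ≤ ξ ⬝ᵥ ξ := by
  subst hR
  constructor
  · intro h ξ
    obtain ⟨u, hu1, hu2⟩ := vregC_exists_cameron R ξ
    have := h u
    rw [← hu1]
    exact this.trans hu2
  · intro h x
    have := h (R.transpose *ᵥ x)
    rw [quad_transpose_dot] at this
    have e : R *ᵥ (R.transpose *ᵥ x) = (R * R.transpose) *ᵥ x := Matrix.mulVec_mulVec _ _ _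
    rw [e] at this
    exact this

/-- **(9.15)**.  PLAN: `ξ = (ξ₁, ξ₂)`; `Entry.exists_preimage_le` gives `x` with `C x = R ξ₁`, `⟨x, C x⟩ ≤ |ξ₁|²`; `obs_openE_trial` with `ζ = C x`, `e = ξ₂`; `obs_bondE_le_lap`; `Cac`. -/
theorem obs_vhyp (h : OPar a hs p1) (gs : Grid G) (D : Finset G.V) (C : Matrix G.V G.V ℝ) (R : Matrix G.V W ℝ) (hR : R * R.transpose = C)
    (hC : Cac C) : VHyp (oM a gs D) (oL a gs R) hs p1 := by
  obtain ⟨hpsd, hq, -, -⟩ := obs_oM h.a_pos gs D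
  refine ⟨hpsd, fun ξ => ?_, h.hs_pos, h.p1_gt, h.margin⟩
  have e1 : oL a gs R *ᵥ ξ = avgM a gs *ᵥ (R *ᵥ (ξ ∘ Sum.inl)) + ξ ∘ Sum.inr := by
    unfold oL
    rw [Matrix.fromCols_mulVec, Matrix.one_mulVec, Matrix.mulVec_mulVec]
  rw [e1, hq, vreg_dot_sum]
  refine (obs_openE_trial h.a_pos gs D _ _).trans ?_
  apply add_le_add _ le_rfl
  exact (obs_bondE_le_lap D _).trans ((obs_cac_iff C R hR).1 hC _)

/-- PLAN: unfold; `obs_avgM_mulVec`, `obs_oM`: `VobsD = Entry.VregC (oM a gs D) (avgM a gs) C hs p1 (avgM a gs *ᵥ φ)`; then `Entry.vregC_eq`. -/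
theorem vobsD_eq (h : OPar a hs p1) (gs : Grid G) (D : Finset G.V) (C : Matrix G.V G.V ℝ) (R : Matrix G.V W ℝ) (hR : R * R.transpose = C)
    (φ : G.V → ℝ) : VobsD a hs p1 gs C D φ = Vreg (oM a gs D) (oL a gs R) hs p1 (avgM a gs *ᵥ φ) := by
  obtain ⟨-, hq, -, -⟩ := obs_oM h.a_pos gs D
  have hp : (0 : ℝ) ≤ p1 := by linarith [h.p1_gt]
  have e := vregC_eq (oM a gs D) (avgM a gs) C R hR hs p1 hp (avgM a gs *ᵥ φ)
  unfold oL
  rw [← e]
  unfold VobsD VregC
  congr 2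
  funext x
  rw [hq]
  congr 3
  · funext c
    simp only [Pi.add_apply]
    rw [← Pi.add_apply (avgM a gs *ᵥ φ), ← Matrix.mulVec_add, obs_avgM_mulVec]
    rfl
  · simp only [dotProduct, sq]

end bridge

/-! ## 3. LEAF `L-OBS-V3`: elementary properties (all: `Entry.exists_factor`, `vobsD_eq`, `obs_vhyp` + one lemma of `Entry/VregA.lean`, `VregB.lean`) -/

section elementary

variable (h : OPar a hs p1) (gs : Grid G) (C : Matrix G.V G.V ℝ) (hC : C.PosSemidef) (hcac : Cac C)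
include h hC hcac

theorem vobsD_nonneg (D : Finset G.V) (φ : G.V → ℝ) : 0 ≤ VobsD a hs p1 gs C D φ := by
  classical
  obtain ⟨R, hR⟩ := exists_factor C hC
  have H := obs_vhyp h gs D C R hR hcac
  rw [vobsD_eq h gs D C R hR]
  refine le_trans ?_ (vreg_bounds H _).1
  have := qf_nonneg _ H.psd (avgM a gs *ᵥ φ)
  have := h.hs_pos
  positivity

theorem vobsD_homog (D : Finset G.V) (t : ℝ) (φ : G.V → ℝ) : VobsD a hs p1 gs C D (t • φ) = t ^ 2 * VobsD a hs p1 gs C D φ := by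
  classical
  obtain ⟨R, hR⟩ := exists_factor C hC
  have H := obs_vhyp h gs D C R hR hcac
  rw [vobsD_eq h gs D C R hR, vobsD_eq h gs D C R hR, Matrix.mulVec_smul, vreg_smul H]

theorem vobsD_const (hne : ∀ c : gs.I, (gs.sites {c}).Nonempty) (D : Finset G.V) (φ : G.V → ℝ) (t : ℝ) :
    VobsD a hs p1 gs C D (fun v => φ v + t) = VobsD a hs p1 gs C D φ := by
  classical
  obtain ⟨R, hR⟩ := exists_factor C hC
  have H := obs_vhyp h gs D C R hR hcac
  obtain ⟨-, hq, hle, -⟩ := obs_oM h.a_pos gs D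
  rw [vobsD_eq h gs D C R hR, vobsD_eq h gs D C R hR]
  have e : (fun v => φ v + t) = φ + fun _ => t := rfl
  rw [e, Matrix.mulVec_add]
  apply vreg_add_null H
  rw [hq]
  have e2 : avgM a gs *ᵥ (fun _ : G.V => t) = fun c => (0 : gs.I → ℝ) c + Real.sqrt a * t := by
    funext c
    rw [obs_avgM_mulVec]
    have := ov_cellAvg_shift gs c (hne c) (fun _ => 0) (Real.sqrt a * t)
    simp only [zero_add] at this
    rw [this]
    simp [cellAvg]
  rw [e2, obs_openE_const h.a_pos gs hne]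
  apply le_antisymm
  · refine (hle 0).trans ?_
    simp
  · exact obs_openE_nonneg h.a_pos gs D 0

theorem vobsD_mono {D D' : Finset G.V} (hD : D ⊆ D') (φ : G.V → ℝ) : VobsD a hs p1 gs C D φ ≤ VobsD a hs p1 gs C D' φ := by
  classical
  obtain ⟨R, hR⟩ := exists_factor C hC
  have H := obs_vhyp h gs D C R hR hcac
  have H' := obs_vhyp h gs D' C R hR hcac
  rw [vobsD_eq h gs D C R hR, vobsD_eq h gs D' C R hR]
  apply vreg_mono H H'
  intro y
  rw [(obs_oM h.a_pos gs D).2.1, (obs_oM h.a_pos gs D').2.1]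
  exact obs_openE_mono h.a_pos gs hD y

/-- (9.14) -/
theorem vobsD_le_bondE (D : Finset G.V) (φ : G.V → ℝ) : VobsD a hs p1 gs C D φ ≤ (1 - p1 * hs)⁻¹ * hs / 2 * bondE D φ := by
  classical
  obtain ⟨R, hR⟩ := exists_factor C hC
  have H := obs_vhyp h gs D C R hR hcac
  rw [vobsD_eq h gs D C R hR]
  refine (vreg_bounds H _).2.trans ?_
  have h1 : qf (oM a gs D) (avgM a gs *ᵥ φ) ≤ bondE D φ := by
    rw [(obs_oM h.a_pos gs D).2.1]
    have := obs_openE_trial h.a_pos gs D φ 0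
    simpa using this
  have h2 : 0 < 1 - p1 * hs := by linarith [h.margin]
  have h3 := h.hs_pos
  calc hs / (2 * (1 - p1 * hs)) * qf (oM a gs D) (avgM a gs *ᵥ φ) ≤ hs / (2 * (1 - p1 * hs)) * bondE D φ :=
        mul_le_mul_of_nonneg_left h1 (by positivity)
    _ = _ := by field_simp

/-- `2 V` is a positive semidefinite quadratic form of the field (`Entry.vreg_quadratic`, `H' = Bᵀ H B`) -/
theorem vobsD_form (D : Finset G.V) : ∃ H : Matrix G.V G.V ℝ, H.PosSemidef ∧ ∀ φ, 2 * VobsD a hs p1 gs C D φ = φ ⬝ᵥ (H *ᵥ φ) := by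
  classical
  obtain ⟨R, hR⟩ := exists_factor C hC
  have H := obs_vhyp h gs D C R hR hcac
  obtain ⟨Hm, hHm, hq⟩ := vreg_quadratic H
  refine ⟨(avgM a gs)ᵀ * Hm * avgM a gs, ?_, fun φ => ?_⟩
  · have := hHm.conjTranspose_mul_mul_same (avgM a gs)
    simpa [Matrix.conjTranspose_eq_transpose_of_trivial] using this
  · rw [vobsD_eq h gs D C R hR, hq, vreg_qf_pull]

/-- from `vobsD_form`: `q (φ + ψ) ≤ (1 + ε) q (φ) + (1 + ε⁻¹) q (ψ)` -/
theorem vobsD_add_le (D : Finset G.V) (ε : ℝ) (hε : 0 < ε) (φ ψ : G.V → ℝ) :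
    VobsD a hs p1 gs C D (φ + ψ) ≤ (1 + ε) * VobsD a hs p1 gs C D φ + (1 + ε⁻¹) * VobsD a hs p1 gs C D ψ := by
  obtain ⟨H, hH, hq⟩ := vobsD_form h gs C hC hcac D
  have := qf_add_le H hH ε hε φ ψ
  unfold qf at this
  rw [← hq, ← hq, ← hq] at this
  linarith

end elementary

/-! ## 4. LEAF `L-OBS-V4`: additivity on domains separated by more than the range of `C` -/

/-- the functional maximised by `VobsD` -/
def ovF (a hs p1 : ℝ) (gs : Grid G) (C : Matrix G.V G.V ℝ) (D : Finset G.V) (φ : G.V → ℝ) (x : (G.V → ℝ) × (gs.I → ℝ)) : ℝ :=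
  hs * openE a gs D (fun c => cellAvg gs (fun v => Real.sqrt a * (φ v + C.mulVec x.1 v)) c + x.2 c)
      - p1⁻¹ * (x.1 ⬝ᵥ C.mulVec x.1 + ∑ c, x.2 c ^ 2)

theorem ov_vobsD_def (a hs p1 : ℝ) (gs : Grid G) (C : Matrix G.V G.V ℝ) (D : Finset G.V) (φ : G.V → ℝ) :
    VobsD a hs p1 gs C D φ = (1 / 2) * ⨆ x, ovF a hs p1 gs C D φ x := rfl

theorem ov_obs_eq (a : ℝ) (gs : Grid G) (φ ζ : G.V → ℝ) (e : gs.I → ℝ) :
    (fun c => cellAvg gs (fun v => Real.sqrt a * (φ v + ζ v)) c + e c) = avgM a gs *ᵥ φ + avgM a gs *ᵥ ζ + e := by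
  funext c
  rw [← Matrix.mulVec_add, Pi.add_apply, obs_avgM_mulVec]
  rfl

theorem ov_F_bdd (h : OPar a hs p1) (gs : Grid G) (C : Matrix G.V G.V ℝ) (hC : C.PosSemidef) (hcac : Cac C) (D : Finset G.V)
    (φ : G.V → ℝ) : BddAbove (Set.range (ovF a hs p1 gs C D φ)) := by
  classical
  obtain ⟨R, hR⟩ := exists_factor C hC
  have H := obs_vhyp h gs D C R hR hcac
  refine ⟨hs / (1 - p1 * hs) * qf (oM a gs D) (avgM a gs *ᵥ φ), ?_⟩
  rintro _ ⟨x, rfl⟩
  have := vreg_pt_le H (avgM a gs *ᵥ φ) (Sum.elim (Rᵀ *ᵥ x.1) x.2)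
  refine le_trans (le_of_eq ?_) this
  have e0 : R *ᵥ (Rᵀ *ᵥ x.1) = C *ᵥ x.1 := by rw [Matrix.mulVec_mulVec, hR]
  have e1 : oL a gs R *ᵥ (Sum.elim (Rᵀ *ᵥ x.1) x.2) = avgM a gs *ᵥ (C *ᵥ x.1) + x.2 := by
    unfold oL
    rw [Matrix.fromCols_mulVec, Matrix.one_mulVec, ← Matrix.mulVec_mulVec]
    simp only [Sum.elim_comp_inl, Sum.elim_comp_inr, e0]
  have e2 : (Sum.elim (Rᵀ *ᵥ x.1) x.2 : G.V ⊕ gs.I → ℝ) ⬝ᵥ (Sum.elim (Rᵀ *ᵥ x.1) x.2)
      = x.1 ⬝ᵥ C *ᵥ x.1 + ∑ c, x.2 c ^ 2 := by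
    rw [vreg_dot_sum]
    simp only [Sum.elim_comp_inl, Sum.elim_comp_inr]
    rw [quad_transpose_dot, e0]
    simp only [dotProduct, sq]
  rw [e1, e2, (obs_oM h.a_pos gs D).2.1]
  unfold ovF
  rw [ov_obs_eq, add_assoc]

/-- projection of a Cameron coordinate to the domain -/
theorem ov_project (C : Matrix G.V G.V ℝ) (hC : C.PosSemidef) (D : Finset G.V) (x : G.V → ℝ) :
    ∃ y : G.V → ℝ, (∀ v, v ∉ D → y v = 0) ∧ (∀ v ∈ D, (C *ᵥ y) v = (C *ᵥ x) v) ∧ y ⬝ᵥ (C *ᵥ y) ≤ x ⬝ᵥ (C *ᵥ x) := by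
  classical
  obtain ⟨R, hR⟩ := exists_factor C hC
  set P : Matrix G.V G.V ℝ := Matrix.diagonal (fun v => if v ∈ D then 1 else 0) with hP
  obtain ⟨u, hu1, hu2⟩ := vregC_exists_cameron (P * R) (Rᵀ *ᵥ x)
  have hPT : Pᵀ = P := Matrix.diagonal_transpose _
  have e0 : R *ᵥ (Rᵀ *ᵥ x) = C *ᵥ x := by rw [Matrix.mulVec_mulVec, hR]
  have e1 : ((P * R) * (P * R)ᵀ) *ᵥ u = P *ᵥ (C *ᵥ (P *ᵥ u)) := by
    rw [Matrix.transpose_mul, hPT, Matrix.mulVec_mulVec, Matrix.mulVec_mulVec, ← hR]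
    simp only [Matrix.mul_assoc]
  have e2 : (P * R) *ᵥ (Rᵀ *ᵥ x) = P *ᵥ (C *ᵥ x) := by
    rw [← Matrix.mulVec_mulVec, e0]
  rw [e1] at hu1 hu2
  rw [e2] at hu1
  refine ⟨P *ᵥ u, ?_, ?_, ?_⟩
  · intro v hv
    simp [hP, Matrix.mulVec_diagonal, hv]
  · intro v hv
    have := congrFun hu1 v
    simpa [hP, Matrix.mulVec_diagonal, hv] using this
  · have e3 : (P *ᵥ u) ⬝ᵥ (C *ᵥ (P *ᵥ u)) = u ⬝ᵥ (P *ᵥ (C *ᵥ (P *ᵥ u))) := by
      conv_lhs => rw [← hPT]
      rw [quad_transpose_dot, hPT]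
    rw [e3]
    refine hu2.trans (le_of_eq ?_)
    rw [quad_transpose_dot, e0]

theorem ov_range_zero (C : Matrix G.V G.V ℝ) (ρ : ℕ) (hρ : FinRange C ρ) (D D' : Finset G.V)
    (hsep : ∀ v ∈ D, ∀ w ∈ D', ρ < G.dist v w) (y' : G.V → ℝ) (hy' : ∀ v, v ∉ D' → y' v = 0) (v : G.V) (hv : v ∈ D) :
    (C *ᵥ y') v = 0 := by
  simp only [Matrix.mulVec, dotProduct]
  apply Finset.sum_eq_zero
  intro w _
  by_cases hw : w ∈ D'
  · rw [hρ v w (hsep v hv w hw), zero_mul]
  · rw [hy' w hw, mul_zero]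

theorem ov_dot_zero (D : Finset G.V) (y z : G.V → ℝ) (hy : ∀ v, v ∉ D → y v = 0) (hz : ∀ v ∈ D, z v = 0) : y ⬝ᵥ z = 0 := by
  simp only [dotProduct]
  apply Finset.sum_eq_zero
  intro v _
  by_cases hv : v ∈ D
  · rw [hz v hv, mul_zero]
  · rw [hy v hv, zero_mul]

theorem ov_cellAvg_congr (gs : Grid G) (c : gs.I) (u u' : G.V → ℝ) (h : ∀ v ∈ gs.sites {c}, u v = u' v) :
    cellAvg gs u c = cellAvg gs u' c := by
  unfold cellAvg
  rw [Finset.sum_congr rfl h]

/-- **[B] L9.2, additivity.**  DIRECT PLAN (no block matrices).  Boundedness of the three suprema: `Entry.vreg_bdd` through `vobsD_eq`.  Take `x = (x₁, x₂)` for `D`, `x' = (x₁', x₂')` for `D'`.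
(1) PROJECTION: there is `y₁` SUPPORTED IN `D` with `(C y₁) v = (C x₁) v` for `v ∈ D` and `⟨y₁, C y₁⟩ ≤ ⟨x₁, C x₁⟩` (`R Rᵀ = C`, `R_D` = rows in `D`, `Entry.exists_preimage_le` for `R_D` and `ξ = Rᵀ x₁`);
`openE a gs D` sees only cells inside `D` (`obs_oM`, last clause), hence only the field on `D`.  Same for `D'`.
(2) `x'' = (y₁ + y₁', 1_{cells in D} x₂ + 1_{cells in D'} x₂')`: by `FinRange`, `(C y₁') v = 0` on `D`, `⟨y₁, C y₁'⟩ = 0`: the penalty is at most the sum, the observations on `D` (`D'`) are those of `x` (`x'`).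
(3) `obs_openE_union`. -/
theorem vobsD_add (h : OPar a hs p1) (gs : Grid G) (hne : ∀ c : gs.I, (gs.sites {c}).Nonempty) (C : Matrix G.V G.V ℝ) (hC : C.PosSemidef)
    (hcac : Cac C) (ρ : ℕ) (hρ : FinRange C ρ) (D D' : Finset G.V) (hsep : ∀ v ∈ D, ∀ w ∈ D', ρ < G.dist v w) (φ : G.V → ℝ) :
    VobsD a hs p1 gs C D φ + VobsD a hs p1 gs C D' φ ≤ VobsD a hs p1 gs C (D ∪ D') φ := by
  classical
  have hdisj : Disjoint D D' := by
    rw [Finset.disjoint_left]
    intro v hv hv'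
    have := hsep v hv v hv'
    rw [reg_dist_self] at this
    omega
  have hsym : ∀ v w, C v w = C w v := by
    intro v w
    have := hC.1.apply v w
    simpa using this.symm
  have hρ' : ∀ v ∈ D', ∀ w ∈ D, C v w = 0 := by
    intro v hv w hw
    rw [hsym]
    exact hρ w v (hsep w hw v hv)
  have key : ∀ x x', ovF a hs p1 gs C D φ x + ovF a hs p1 gs C D' φ x' ≤ ⨆ z, ovF a hs p1 gs C (D ∪ D') φ z := by
    intro x x'
    obtain ⟨y, hy0, hyD, hyle⟩ := ov_project C hC D x.1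
    obtain ⟨y', hy0', hyD', hyle'⟩ := ov_project C hC D' x'.1
    set e : gs.I → ℝ := fun c => (if c ∈ cellsIn gs D then x.2 c else 0) + (if c ∈ cellsIn gs D' then x'.2 c else 0) with he
    refine le_trans ?_ (le_ciSup (ov_F_bdd h gs C hC hcac (D ∪ D') φ) (y + y', e))
    have hcd := ov_cellsIn_disj gs hne D D' hdisj
    have z1 : ∀ v ∈ D, (C *ᵥ y') v = 0 := ov_range_zero C ρ hρ D D' hsep y' hy0'
    have z2 : ∀ v ∈ D', (C *ᵥ y) v = 0 := by
      intro v hv
      simp only [Matrix.mulVec, dotProduct]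
      apply Finset.sum_eq_zero
      intro w _
      by_cases hw : w ∈ D
      · rw [hρ' v hv w hw, zero_mul]
      · rw [hy0 w hw, mul_zero]
    -- the penalty
    have p1' : (y + y') ⬝ᵥ (C *ᵥ (y + y')) = y ⬝ᵥ (C *ᵥ y) + y' ⬝ᵥ (C *ᵥ y') := by
      rw [Matrix.mulVec_add, add_dotProduct, dotProduct_add, dotProduct_add, ov_dot_zero D y _ hy0 z1,
        ov_dot_zero D' y' _ hy0' z2]
      ring
    have p2 : ∑ c, e c ^ 2 ≤ ∑ c, x.2 c ^ 2 + ∑ c, x'.2 c ^ 2 := by
      rw [← Finset.sum_add_distrib]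
      apply Finset.sum_le_sum
      intro c _
      simp only [he]
      by_cases h1 : c ∈ cellsIn gs D
      · have h2 : c ∉ cellsIn gs D' := Finset.disjoint_left.1 hcd h1
        simp only [h1, h2, if_true, if_false, add_zero]
        have := sq_nonneg (x'.2 c)
        linarith
      · by_cases h2 : c ∈ cellsIn gs D'
        · simp only [h1, h2, if_true, if_false, zero_add]
          have := sq_nonneg (x.2 c)
          linarith
        · simp only [h1, h2, if_false, add_zero]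
          have := sq_nonneg (x.2 c)
          have := sq_nonneg (x'.2 c)
          nlinarith
    -- the observations
    set Y : gs.I → ℝ := fun c => cellAvg gs (fun v => Real.sqrt a * (φ v + C.mulVec (y + y') v)) c + e c with hY
    have o1 : openE a gs D Y = openE a gs D (fun c => cellAvg gs (fun v => Real.sqrt a * (φ v + C.mulVec x.1 v)) c + x.2 c) := by
      apply (obs_oM h.a_pos gs D).2.2.2
      intro c hc
      have h2 : c ∉ cellsIn gs D' := Finset.disjoint_left.1 hcd hc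
      simp only [hY, he, hc, h2, if_true, if_false, add_zero]
      congr 1
      apply ov_cellAvg_congr
      intro v hv
      have hvD : v ∈ D := by
        simp only [cellsIn, Finset.mem_filter, Finset.mem_univ, true_and] at hc
        exact hc hv
      rw [Matrix.mulVec_add, Pi.add_apply, z1 v hvD, hyD v hvD, add_zero]
    have o2 : openE a gs D' Y = openE a gs D' (fun c => cellAvg gs (fun v => Real.sqrt a * (φ v + C.mulVec x'.1 v)) c + x'.2 c) := by
      apply (obs_oM h.a_pos gs D').2.2.2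
      intro c hc
      have h2 : c ∉ cellsIn gs D := Finset.disjoint_right.1 hcd hc
      simp only [hY, he, hc, h2, if_true, if_false, zero_add]
      congr 1
      apply ov_cellAvg_congr
      intro v hv
      have hvD : v ∈ D' := by
        simp only [cellsIn, Finset.mem_filter, Finset.mem_univ, true_and] at hc
        exact hc hv
      rw [Matrix.mulVec_add, Pi.add_apply, z2 v hvD, hyD' v hvD, zero_add]
    have o3 := obs_openE_union h.a_pos gs hne D D' hdisj Y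
    rw [o1, o2] at o3
    have hp : 0 < p1⁻¹ := by have := h.p1_gt; positivity
    unfold ovF
    simp only []
    rw [p1']
    have q1 := mul_le_mul_of_nonneg_left o3 h.hs_pos.le
    have q2 : p1⁻¹ * (y ⬝ᵥ (C *ᵥ y) + y' ⬝ᵥ (C *ᵥ y') + ∑ c, e c ^ 2)
        ≤ p1⁻¹ * ((x.1 ⬝ᵥ (C *ᵥ x.1) + ∑ c, x.2 c ^ 2) + (x'.1 ⬝ᵥ (C *ᵥ x'.1) + ∑ c, x'.2 c ^ 2)) :=
      mul_le_mul_of_nonneg_left (by linarith) hp.le
    linarith
  rw [ov_vobsD_def, ov_vobsD_def, ov_vobsD_def, ← mul_add]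
  apply mul_le_mul_of_nonneg_left _ (by norm_num)
  rw [← le_sub_iff_add_le]
  apply ciSup_le
  intro x
  rw [le_sub_iff_add_le, add_comm, ← le_sub_iff_add_le]
  apply ciSup_le
  intro x'
  rw [le_sub_iff_add_le, add_comm]
  exact key x x'

/-! ## 5. LEAF `L-OBS-V5`: Gaussian averages -/

/-- a centred Gaussian is the image of the standard one (`Reg.regg_factor`, `Reg.reg_gauss_map`, `Reg.regg_gauss_one`; `Entry.stdG` is `Measure.pi` of standard normals) -/
theorem obs_gauss_factor (T : Matrix G.V G.V ℝ) (hT : T.PosSemidef) :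
    ∃ R : Matrix G.V G.V ℝ, R * R.transpose = T ∧ gauss G T = (stdG G.V).map fun z => R *ᵥ z := by
  classical
  obtain ⟨R, d, hR, -, -, -, -⟩ := regg_factor hT
  refine ⟨R, by simpa using hR, ?_⟩
  rw [reg_gauss_eq, ← hR, ← reg_gauss_map Matrix.PosSemidef.one R, regg_gauss_one]
  rfl

theorem ov_bondE_le_rows (D : Finset G.V) (ζ : G.V → ℝ) :
    bondE D ζ ≤ (1 / 2) * ∑ v ∈ D, ∑ e : Fin 4, (regRow G ![e] v ⬝ᵥ ζ) ^ 2 := by
  unfold bondE
  apply mul_le_mul_of_nonneg_left _ (by norm_num)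
  apply Finset.sum_le_sum
  intro v _
  apply Finset.sum_le_sum
  intro e _
  rw [reg_row_dot, reg_difs_one]
  split_ifs
  · exact le_rfl
  · positivity

theorem ov_row_sum (R : Matrix G.V G.V ℝ) (b : G.V → ℝ) :
    ∑ j, (b ⬝ᵥ (R *ᵥ Pi.single j 1)) ^ 2 = b ⬝ᵥ ((R * Rᵀ) *ᵥ b) := by
  rw [← Matrix.mulVec_mulVec, ← quad_transpose_dot]
  simp only [dotProduct, sq]
  apply Finset.sum_congr rfl
  intro j _
  have : ∑ i, b i * (R *ᵥ Pi.single j 1) i = (Rᵀ *ᵥ b) j := by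
    have h1 := quad_transpose_dot R b (Pi.single j 1)
    rw [dotProduct_single_one] at h1
    rw [h1]
    rfl
  rw [this]

/-- `tr (B R)ᵀ M (B R) = ∑_k E_D (B R e_k) ≤ ∑_k bondE D (R e_k) ≤ ½ ∑_{v ∈ D} ∑_e ∑_k (∇_e (R e_k)(v))² = bondTr D (R Rᵀ)`  (`obs_openE_trial`, `Reg.reg_row_dot`, `Reg.reg_row_cov`) -/
theorem obs_trace_le (ha : 0 < a) (gs : Grid G) (D : Finset G.V) (R : Matrix G.V G.V ℝ) :
    ((avgM a gs * R).transpose * oM a gs D * (avgM a gs * R)).trace ≤ bondTr D (R * R.transpose) := by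
  classical
  rw [vreg_trace_eq_sum]
  have h1 : ∀ j, qf (oM a gs D) ((avgM a gs * R) *ᵥ Pi.single j 1)
      ≤ (1 / 2) * ∑ v ∈ D, ∑ e : Fin 4, (regRow G ![e] v ⬝ᵥ (R *ᵥ Pi.single j 1)) ^ 2 := by
    intro j
    rw [(obs_oM ha gs D).2.1, ← Matrix.mulVec_mulVec]
    have := obs_openE_trial ha gs D (R *ᵥ Pi.single j 1) 0
    simp only [add_zero, dotProduct_zero] at this
    exact this.trans (ov_bondE_le_rows D _)
  refine (Finset.sum_le_sum fun j _ => h1 j).trans (le_of_eq ?_)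
  unfold bondTr
  rw [← Finset.mul_sum, Finset.sum_comm]
  congr 1
  apply Finset.sum_congr rfl
  intro v _
  rw [Finset.sum_comm]
  apply Finset.sum_congr rfl
  intro e _
  rw [ov_row_sum, reg_row_cov]

theorem ov_fromCols_sq {m n₁ n₂ : Type} [Fintype n₁] [Fintype n₂] (A : Matrix m n₁ ℝ) (B : Matrix m n₂ ℝ) :
    Matrix.fromCols A B * (Matrix.fromCols A B)ᵀ = A * Aᵀ + B * Bᵀ := by
  rw [Matrix.transpose_fromCols, Matrix.fromCols_mul_fromRows]

/-- **the averaging lemma** ([B] (9.17) + determinant bound; [F] L6.3, matrix argument).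
PLAN: `R_o R_oᵀ = C_o` (`Entry.exists_factor`), `R_T` from `obs_gauss_factor`; `lintegral_map`; `vobsD_eq`; `avgM *ᵥ (φ + R_T z) = avgM *ᵥ φ + (avgM * R_T) *ᵥ z`;
`Entry.vreg_compose` with `Lm = oL a gs R_o`, `T = avgM a gs * R_T`.  Its hypothesis `VHyp M (fromCols Lm T)`: psd, margins from `obs_vhyp`; the contraction as in `obs_vhyp` for the factor `[R_o, R_T]` of `C_o + T`
(or `obs_vhyp` for `R' = fromCols R_o R_T` + a permutation of the columns: `Entry.vreg_congr`, `Contr` only depends on `L Lᵀ` through `exists_preimage_le`).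
`Vreg M (fromCols Lm T) = VobsD (C_o + T)`: `Entry.vreg_congr` (`L Lᵀ = B (C_o + T) Bᵀ + 1` on both sides) + `vobsD_eq`.  Trace: `obs_trace_le`. -/
theorem vobsD_compose (h : OPar a hs p1) (gs : Grid G) (Co T : Matrix G.V G.V ℝ) (hCo : Co.PosSemidef) (hT : T.PosSemidef) (hcac : Cac (Co + T))
    (D : Finset G.V) (φ : G.V → ℝ) :
    ∫⁻ ζ, ENNReal.ofReal (Real.exp (p1 * VobsD a hs p1 gs Co D (φ + ζ))) ∂(gauss G T)
      ≤ ENNReal.ofReal (Real.exp (p1 * VobsD a hs p1 gs (Co + T) D φ + p1 * hs / (2 * (1 - p1 * hs) ^ 2) * bondTr D T)) := by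
  classical
  obtain ⟨Ro, hRo⟩ := exists_factor Co hCo
  obtain ⟨RT, hRT, hg⟩ := obs_gauss_factor T hT
  have hR' : Matrix.fromCols Ro RT * (Matrix.fromCols Ro RT)ᵀ = Co + T := by rw [ov_fromCols_sq, hRo, hRT]
  have hcac' := (obs_cac_iff (Co + T) (Matrix.fromCols Ro RT) hR').1 hcac
  obtain ⟨hpsd, hq, -, -⟩ := obs_oM h.a_pos gs D
  have H : VHyp (oM a gs D) (Matrix.fromCols (oL a gs Ro) (avgM a gs * RT)) hs p1 := by
    refine ⟨hpsd, fun ξ => ?_, h.hs_pos, h.p1_gt, h.margin⟩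
    have e1 : Matrix.fromCols (oL a gs Ro) (avgM a gs * RT) *ᵥ ξ
        = avgM a gs *ᵥ (Matrix.fromCols Ro RT *ᵥ (Sum.elim (ξ ∘ Sum.inl ∘ Sum.inl) (ξ ∘ Sum.inr))) + ξ ∘ Sum.inl ∘ Sum.inr := by
      unfold oL
      rw [Matrix.fromCols_mulVec, Matrix.fromCols_mulVec, Matrix.fromCols_mulVec, Matrix.one_mulVec, Matrix.mulVec_add,
        ← Matrix.mulVec_mulVec, ← Matrix.mulVec_mulVec]
      simp only [Sum.elim_comp_inl, Sum.elim_comp_inr, Function.comp_assoc]
      abel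
    rw [e1, hq]
    refine (obs_openE_trial h.a_pos gs D _ _).trans ?_
    refine (add_le_add ((obs_bondE_le_lap D _).trans (hcac' _)) le_rfl).trans (le_of_eq ?_)
    rw [vreg_dot_sum ξ, vreg_dot_sum (ξ ∘ Sum.inl), vreg_dot_sum (Sum.elim (ξ ∘ Sum.inl ∘ Sum.inl) (ξ ∘ Sum.inr))]
    simp only [Sum.elim_comp_inl, Sum.elim_comp_inr, Function.comp_assoc]
    ring
  have hp : (0 : ℝ) ≤ p1 := by linarith [h.p1_gt]
  have e2 : Vreg (oM a gs D) (Matrix.fromCols (oL a gs Ro) (avgM a gs * RT)) hs p1 (avgM a gs *ᵥ φ)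
      = VobsD a hs p1 gs (Co + T) D φ := by
    rw [vobsD_eq h gs D (Co + T) (Matrix.fromCols Ro RT) hR']
    apply vreg_congr _ _ hp
    unfold oL
    rw [ov_fromCols_sq, ov_fromCols_sq, ov_fromCols_sq, Matrix.mul_fromCols, ov_fromCols_sq]
    abel
  have h3 := vreg_compose (avgM a gs * RT) H (avgM a gs *ᵥ φ)
  rw [e2] at h3
  rw [hg]
  refine (lintegral_map_le _ _).trans ?_
  have e4 : ∀ z : G.V → ℝ, VobsD a hs p1 gs Co D (φ + RT *ᵥ z)
      = Vreg (oM a gs D) (oL a gs Ro) hs p1 (avgM a gs *ᵥ φ + (avgM a gs * RT) *ᵥ z) := by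
    intro z
    rw [vobsD_eq h gs D Co Ro hRo, Matrix.mulVec_add, Matrix.mulVec_mulVec]
  simp only [e4]
  refine h3.trans ?_
  apply ENNReal.ofReal_le_ofReal
  apply Real.exp_le_exp.2
  apply add_le_add le_rfl
  have h5 := obs_trace_le h.a_pos gs D RT
  rw [hRT] at h5
  apply mul_le_mul_of_nonneg_left h5
  have := h.hs_pos
  have : 0 < 1 - p1 * hs := by linarith [h.margin]
  positivity

/-- a part of a contraction is a contraction (used for `C_o` alone): `obs_cac_iff` for the factor `[R_o, R_T]` of `C_o + T`, at `ξ = (ξ₁, 0)` -/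
theorem obs_cac_left (Co T : Matrix G.V G.V ℝ) (hCo : Co.PosSemidef) (hT : T.PosSemidef) (hcac : Cac (Co + T)) : Cac Co := by
  classical
  obtain ⟨Ro, hRo⟩ := exists_factor Co hCo
  obtain ⟨RT, hRT⟩ := exists_factor T hT
  have hR' : Matrix.fromCols Ro RT * (Matrix.fromCols Ro RT)ᵀ = Co + T := by rw [ov_fromCols_sq, hRo, hRT]
  have hcac' := (obs_cac_iff (Co + T) (Matrix.fromCols Ro RT) hR').1 hcac
  rw [obs_cac_iff Co Ro hRo]
  intro ξ
  have := hcac' (Sum.elim ξ 0)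
  rw [Matrix.fromCols_mulVec, vreg_dot_sum] at this
  simpa using this

/-! ## 6. LEAF `L-OBS-V6`: geometry -/

theorem obs_cells_nonempty (gs : Grid G) (hgs : gs.Ok) (c : gs.I) : (gs.sites {c}).Nonempty := by
  obtain ⟨i, hi⟩ := hgs.surj c.1
  obtain ⟨j, hj⟩ := hgs.surj c.2
  refine ⟨(i, j), ?_⟩
  rw [reg_mem_sites, Finset.mem_singleton]
  exact Prod.ext hi hj

/-- index separation `> 2 p + 8` of the supports: the collars (2 blocks each) are more than `2 p + 3` blocks apart, every block has side `≥ m` -/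
theorem obs_sep_dist (g : Grid G) (hg : g.Ok) (X X' : Finset g.I) (h : g.Sep (2 * pp + 8) X X') :
    ∀ v ∈ g.Dm X, ∀ w ∈ g.Dm X', pp * g.m < G.dist v w := by
  intro v hv w hw
  rw [reg_mem_Dm, regd_mem_collar] at hv hw
  obtain ⟨a', ha', hav⟩ := hv
  obtain ⟨b, hb, hbw⟩ := hw
  have h1 := h a' ha' b hb
  have h2 := reg_idist_triangle g a' (g.blk v) b
  have h3 := reg_idist_triangle g (g.blk v) (g.blk w) b
  rw [reg_idist_comm g (g.blk w) b] at h3
  have h4 := Scal.dist_of_idist g hg v w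
  have h5 : (2 * pp + 5) * g.m ≤ g.idist (g.blk v) (g.blk w) * g.m := Nat.mul_le_mul_right _ (by omega)
  have h6 : (2 * pp + 5) * g.m = pp * g.m + (pp + 4) * g.m + g.m := by ring
  have h7 : 0 ≤ (pp + 4) * g.m := Nat.zero_le _
  omega

/-- `Reg.reg_Dm_card` + `TermBounds.diag` at `r = 1` -/
theorem obs_bondTr_le (g : Grid G) (hg : g.Ok) (Ct : ℝ) (hCt : 0 ≤ Ct) (T : Matrix G.V G.V ℝ) (hT : TermBounds G Ct g.m T) (X : Finset g.I) :
    bondTr (g.Dm X) T ≤ 200 * Ct * X.card := by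
  have hm : (0 : ℝ) < (g.m : ℝ) := by exact_mod_cast hg.pos
  unfold bondTr
  have h1 : ∀ v ∈ g.Dm X, ∑ e : Fin 4, kdif G ![e] ![e] T (G.ι v) (G.ι v) ≤ 4 * (Ct * ((g.m : ℝ) ^ 2)⁻¹) := by
    intro v _
    calc ∑ e : Fin 4, kdif G ![e] ![e] T (G.ι v) (G.ι v) ≤ ∑ _e : Fin 4, Ct * ((g.m : ℝ) ^ 2)⁻¹ := by
          apply Finset.sum_le_sum
          intro e _
          have := hT.diag 1 le_rfl (by norm_num) ![e] v
          simpa using this
      _ = _ := by simp
  have h2 : ((g.Dm X).card : ℝ) ≤ 100 * (g.m : ℝ) ^ 2 * X.card := by exact_mod_cast reg_Dm_card g hg X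
  calc (1 / 2) * ∑ v ∈ g.Dm X, ∑ e : Fin 4, kdif G ![e] ![e] T (G.ι v) (G.ι v)
      ≤ (1 / 2) * ∑ _v ∈ g.Dm X, 4 * (Ct * ((g.m : ℝ) ^ 2)⁻¹) :=
        mul_le_mul_of_nonneg_left (Finset.sum_le_sum h1) (by norm_num)
    _ = ((g.Dm X).card : ℝ) * (2 * (Ct * ((g.m : ℝ) ^ 2)⁻¹)) := by
        rw [Finset.sum_const, nsmul_eq_mul]; ring
    _ ≤ (100 * (g.m : ℝ) ^ 2 * X.card) * (2 * (Ct * ((g.m : ℝ) ^ 2)⁻¹)) :=
        mul_le_mul_of_nonneg_right h2 (by positivity)
    _ = 200 * Ct * X.card := by field_simp; ring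

/-- the shells have the positive-order bounds of a terminal covariance (`grad` = `grad`; `diag` from `mixed` at `v = w`) -/
theorem obs_term_of_shell (C c : ℝ) (L m : ℕ) (T : Matrix G.V G.V ℝ) (hT : ShellBounds G C c L m T) : TermBounds G C m T := by
  refine ⟨hT.grad, fun r h1 h6 a' v => ?_⟩
  have := hT.mixed r r (by omega) (by omega) a' a' v v
  rw [reg_dist_self] at this
  refine (le_abs_self _).trans (this.trans (le_of_eq ?_))
  simp [two_mul]

/-! ## 7. LEAF `L-OBS-V7`: Hoelder, measurability -/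

/-- Mathlib only: `ENNReal.lintegral_mul_le_Lp_mul_Lq` -/
theorem obs_holder_exp {Ω : Type} [MeasurableSpace Ω] (μ : Measure Ω) (f g : Ω → ℝ) (hf : Measurable f) (hg : Measurable g) (p q : ℝ)
    (hpq : p.HolderConjugate q) :
    ∫⁻ x, ENNReal.ofReal (Real.exp (f x + g x)) ∂μ
      ≤ (∫⁻ x, ENNReal.ofReal (Real.exp (p * f x)) ∂μ) ^ (1 / p) * (∫⁻ x, ENNReal.ofReal (Real.exp (q * g x)) ∂μ) ^ (1 / q) := by
  have h := ENNReal.lintegral_mul_le_Lp_mul_Lq μ hpq
    (f := fun x => ENNReal.ofReal (Real.exp (f x))) (g := fun x => ENNReal.ofReal (Real.exp (g x)))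
    (Real.measurable_exp.comp hf).ennreal_ofReal.aemeasurable
    (Real.measurable_exp.comp hg).ennreal_ofReal.aemeasurable
  have e1 : ∀ x, ENNReal.ofReal (Real.exp (f x + g x)) =
      ENNReal.ofReal (Real.exp (f x)) * ENNReal.ofReal (Real.exp (g x)) := fun x => by
    rw [Real.exp_add, ENNReal.ofReal_mul (Real.exp_pos _).le]
  have e2 : ∀ (r : ℝ) (hr : 0 ≤ r) (y : ℝ), ENNReal.ofReal (Real.exp y) ^ r =
      ENNReal.ofReal (Real.exp (r * y)) := fun r hr y => by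
    rw [ENNReal.ofReal_rpow_of_nonneg (Real.exp_pos _).le hr, ← Real.exp_mul, mul_comm]
  simp only [e1]
  simp only [e2 p hpq.nonneg, e2 q hpq.symm.nonneg] at h
  exact h

theorem obs_difs_cont (l : List (Fin 4)) : ∀ x : ℤ × ℤ,
    Continuous fun φ : G.V → ℝ => (l.foldr (fun i g => dif (dir i) g) (G.lift φ)) x := by
  induction l with
  | nil => intro x; exact continuous_apply _
  | cons i l ih =>
    intro x
    exact (ih (x + dir i)).sub (ih x)

theorem obs_dif_cont (e x : ℤ × ℤ) : Continuous fun φ : G.V → ℝ => dif e (G.lift φ) x :=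
  (continuous_apply _).sub (continuous_apply _)

theorem obs_U_continuous (g : Grid G) (δ : ℝ) (X : Finset g.I) : Continuous fun φ : G.V → ℝ => U g δ X φ := by
  unfold U gE PE TE
  refine (Continuous.add ?_ ?_).add ?_
  · refine continuous_const.mul (continuous_finsetSum _ fun v _ => continuous_finsetSum _ fun e _ => ?_)
    exact (obs_dif_cont _ _).pow 2
  · refine continuous_const.mul (continuous_const.mul
      (continuous_finsetSum _ fun v _ => continuous_finsetSum _ fun e _ => ?_))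
    split_ifs
    · exact continuous_const
    · exact (obs_dif_cont _ _).pow 2
  · refine continuous_finsetSum _ fun b _ => continuous_const.mul (Continuous.pow ?_ 2)
    refine NNReal.continuous_coe.comp ?_
    refine Continuous.finset_sup_apply fun v _ => ?_
    unfold nab
    refine Continuous.finset_sup_apply fun w _ => ?_
    exact (obs_difs_cont _ _).nnnorm

theorem obs_vobsD_continuous (h : OPar a hs p1) (gs : Grid G) (C : Matrix G.V G.V ℝ) (hC : C.PosSemidef) (hcac : Cac C) (D : Finset G.V) :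
    Continuous fun φ : G.V → ℝ => VobsD a hs p1 gs C D φ := by
  obtain ⟨H, -, hH⟩ := vobsD_form h gs C hC hcac D
  have e : (fun φ : G.V → ℝ => VobsD a hs p1 gs C D φ) = fun φ => (1 / 2) * (φ ⬝ᵥ (H *ᵥ φ)) := by
    funext φ
    rw [← hH]
    ring
  rw [e]
  exact continuous_const.mul (continuous_id.dotProduct (continuous_const.matrix_mulVec continuous_id))

/-! ## 8. LEAF `L-OBS-V8`: kernel inputs (to be proved from `R285/Ker`; helper198) -/

/-- polynomial identity `lowP m + shellP m S = lowP S` (`divX` is additive), `cov` is linear -/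
theorem obs_low_add_shell (G : Geom) (F : Fam) (m S : ℕ) : low G F m + shell G F m S = low G F S :=
  Claimed.Agent.R285.Ker.ker_low_add_shell G F m S

/-- `λ c(λ)² ≤ c(λ)` on `[0, 8]` for `c = lowP u`: `λ c = 1 - Q_u (1 - λ/64) ∈ [0, 1]`, `c ≥ 0`; monotonicity of `P ↦ ⟨f, cov G P f⟩` (`Ker`: `ker_poly_mono`) -/
theorem obs_low_cac (G : Geom) (u : ℕ) (hu : 1 ≤ u) : Cac (low G Fam.entry u) :=
  fun x => Claimed.Agent.R285.Ker.ker_low_cac G u hu x

/-! ## 9. Exports -/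

/-- **[B] L9.2, first half** = `B4.obs_extra` (the kernel facts are hypotheses: `B4.low_psd`, `B4.low_range` with `d = 0`, `obs_low_cac`).   LEAF `L-OBS-V9` (glue). -/
theorem obs_extra' (h : OPar a hs p1) (gs g : Grid G) (hgs : gs.Ok) (hg : g.Ok) (C : Matrix G.V G.V ℝ) (hC : C.PosSemidef) (hcac : Cac C)
    (hρ : FinRange C (pp * g.m)) :
    ∃ V : Extra g, V.sep ≤ 2 * pp + 8 ∧ (∀ X φ, V.V X φ = Vobs a hs p1 gs g C X φ) ∧
      ∀ X φ, V.V X φ ≤ (1 - p1 * hs)⁻¹ * hs / 2 * bondE (g.Dm X) φ := by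
  have hne := obs_cells_nonempty gs hgs
  refine ⟨{ V := fun X φ => Vobs a hs p1 gs g C X φ
            sep := 2 * pp + 8
            nonneg := fun X φ => vobsD_nonneg h gs C hC hcac (g.Dm X) φ
            homog := fun X t φ => vobsD_homog h gs C hC hcac (g.Dm X) t φ
            const := fun X φ c => vobsD_const h gs C hC hcac hne (g.Dm X) φ c
            mono := fun X X' φ hX => vobsD_mono h gs C hC hcac (reg_sites_mono g (reg_collar_mono g hX)) φ
            add := fun X X' φ hsep => ?_ }, le_rfl, fun X φ => rfl, fun X φ => vobsD_le_bondE h gs C hC hcac (g.Dm X) φ⟩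
  have e : g.Dm (X ∪ X') = g.Dm X ∪ g.Dm X' := by
    unfold Grid.Dm
    rw [reg_collar_union, reg_sites_union]
  rw [vobs_eq, vobs_eq, vobs_eq, e]
  exact vobsD_add h gs hne C hC hcac (pp * g.m) hρ _ _ (obs_sep_dist g hg X X' hsep) φ

theorem ov_ofReal_exp_rpow (x r : ℝ) : ENNReal.ofReal (Real.exp x) ^ r = ENNReal.ofReal (Real.exp (r * x)) := by
  rw [ENNReal.ofReal_rpow_of_pos (Real.exp_pos x), ← Real.exp_mul, mul_comm]

theorem ov_ofReal_exp_mul (x y : ℝ) :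
    ENNReal.ofReal (Real.exp x) * ENNReal.ofReal (Real.exp y) = ENNReal.ofReal (Real.exp (x + y)) := by
  rw [Real.exp_add, ENNReal.ofReal_mul (Real.exp_pos x).le]

theorem ov_ofReal_exp_pow (c : ℝ) (n : ℕ) :
    ENNReal.ofReal (2 * Real.exp c) ^ n = ENNReal.ofReal (Real.exp (n * (Real.log 2 + c))) := by
  rw [← ENNReal.ofReal_pow (by positivity), Real.exp_nat_mul, Real.exp_add, Real.exp_log (by norm_num)]

theorem ov_holder (h : OPar a hs p1) : (p1 / (p1 - 1)).HolderConjugate p1 := by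
  have h1 := h.p1_gt
  have h2 : 0 < p1 - 1 := by linarith
  rw [Real.holderConjugate_iff]
  constructor
  · rw [lt_div_iff₀ h2]; linarith
  · field_simp
    ring

theorem ov_meas_U (g : Grid G) (δ c : ℝ) (X : Finset g.I) (φ : G.V → ℝ) : Measurable fun ζ : G.V → ℝ => c * U g δ X (φ + ζ) :=
  (continuous_const.mul ((obs_U_continuous g δ X).comp (continuous_const.add continuous_id))).measurable

theorem ov_meas_V (h : OPar a hs p1) (gs : Grid G) (C : Matrix G.V G.V ℝ) (hC : C.PosSemidef) (hcac : Cac C) (D : Finset G.V)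
    (φ : G.V → ℝ) : Measurable fun ζ : G.V → ℝ => VobsD a hs p1 gs C D (φ + ζ) :=
  ((obs_vobsD_continuous h gs C hC hcac D).comp (continuous_const.add continuous_id)).measurable

/-- one shell average of `W^κ e^V`, from L4.4 at `κ p₁'` and `vobsD_compose`: the step of `obs_regulator'` with all constants explicit.
`q = p₁' = p₁/(p₁ - 1)`.  `hreg`: the conclusion of L4.4 for `X`, `Y` at the exponent `q κ` (right side `q κ'`, `κ' = κ` or `κ/2`).   Part of LEAF `L-OBS-V10`. -/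
theorem obs_step (h : OPar a hs p1) (gs g g' : Grid G) (hg : g.Ok) (Co T : Matrix G.V G.V ℝ) (hCo : Co.PosSemidef) (hT : T.PosSemidef)
    (hcac : Cac (Co + T)) (Ct : ℝ) (hCt : 0 ≤ Ct) (hTb : TermBounds G Ct g.m T) (δ κ κ' : ℝ) (X : Finset g.I) (Y : Finset g'.I) (hXY : g.Dm X ⊆ g'.Dm Y)
    (φ : G.V → ℝ)
    (hreg : ∫⁻ ζ, ENNReal.ofReal (Real.exp (p1 / (p1 - 1) * κ * U g δ X (φ + ζ))) ∂(gauss G T)
      ≤ 2 ^ X.card * ENNReal.ofReal (Real.exp (p1 / (p1 - 1) * κ' * U g' δ Y φ))) :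
    ∫⁻ ζ, ENNReal.ofReal (Real.exp (κ * U g δ X (φ + ζ) + Vobs a hs p1 gs g Co X (φ + ζ))) ∂(gauss G T)
      ≤ ENNReal.ofReal (2 * Real.exp (hs / (2 * (1 - p1 * hs) ^ 2) * (200 * Ct))) ^ X.card
        * ENNReal.ofReal (Real.exp (κ' * U g' δ Y φ + Vobs a hs p1 gs g' (Co + T) Y φ)) := by
  have hp1 := h.p1_gt
  have hq : 0 < p1 - 1 := by linarith
  have hq' : 0 < p1 / (p1 - 1) := by positivity
  have hcacO := obs_cac_left Co T hCo hT hcac
  have H := obs_holder_exp (gauss G T) (fun ζ => κ * U g δ X (φ + ζ)) (fun ζ => VobsD a hs p1 gs Co (g.Dm X) (φ + ζ))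
    (ov_meas_U g δ κ X φ) (ov_meas_V h gs Co hCo hcacO (g.Dm X) φ) (p1 / (p1 - 1)) p1 (ov_holder h)
  simp only [vobs_eq]
  refine H.trans ?_
  -- first factor
  have A1 : (∫⁻ ζ, ENNReal.ofReal (Real.exp (p1 / (p1 - 1) * (κ * U g δ X (φ + ζ)))) ∂(gauss G T)) ^ (1 / (p1 / (p1 - 1)))
      ≤ ENNReal.ofReal (Real.exp (κ' * U g' δ Y φ + (X.card : ℝ) * Real.log 2)) := by
    have e : ∀ ζ : G.V → ℝ, p1 / (p1 - 1) * (κ * U g δ X (φ + ζ)) = p1 / (p1 - 1) * κ * U g δ X (φ + ζ) := fun ζ => by ring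
    simp only [e]
    rw [← reg_two_pow] at hreg
    refine (ENNReal.rpow_le_rpow hreg (by positivity)).trans ?_
    rw [ov_ofReal_exp_rpow]
    apply ENNReal.ofReal_le_ofReal
    apply Real.exp_le_exp.2
    have h1 : 1 / (p1 / (p1 - 1)) * (p1 / (p1 - 1) * κ' * U g' δ Y φ + (X.card : ℝ) * Real.log 2)
        = κ' * U g' δ Y φ + (1 / (p1 / (p1 - 1))) * ((X.card : ℝ) * Real.log 2) := by
      field_simp
    rw [h1]
    apply add_le_add le_rfl
    have h2 : 1 / (p1 / (p1 - 1)) ≤ 1 := by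
      rw [div_le_one hq', le_div_iff₀ hq]; linarith
    have h3 : 0 ≤ (X.card : ℝ) * Real.log 2 := mul_nonneg (by positivity) (Real.log_nonneg (by norm_num))
    nlinarith
  -- second factor
  have hc : 0 ≤ hs / (2 * (1 - p1 * hs) ^ 2) := by
    have := h.hs_pos
    have : 0 < 1 - p1 * hs := by linarith [h.margin]
    positivity
  have A2 : (∫⁻ ζ, ENNReal.ofReal (Real.exp (p1 * VobsD a hs p1 gs Co (g.Dm X) (φ + ζ))) ∂(gauss G T)) ^ (1 / p1)
      ≤ ENNReal.ofReal (Real.exp (VobsD a hs p1 gs (Co + T) (g'.Dm Y) φ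
          + (X.card : ℝ) * (hs / (2 * (1 - p1 * hs) ^ 2) * (200 * Ct)))) := by
    refine (ENNReal.rpow_le_rpow (vobsD_compose h gs Co T hCo hT hcac (g.Dm X) φ) (by positivity)).trans ?_
    rw [ov_ofReal_exp_rpow]
    apply ENNReal.ofReal_le_ofReal
    apply Real.exp_le_exp.2
    have h1 : 1 / p1 * (p1 * VobsD a hs p1 gs (Co + T) (g.Dm X) φ + p1 * hs / (2 * (1 - p1 * hs) ^ 2) * bondTr (g.Dm X) T)
        = VobsD a hs p1 gs (Co + T) (g.Dm X) φ + hs / (2 * (1 - p1 * hs) ^ 2) * bondTr (g.Dm X) T := by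
      have : 0 < 1 - p1 * hs := by linarith [h.margin]
      field_simp
    rw [h1]
    apply add_le_add
    · exact vobsD_mono h gs (Co + T) (hCo.add hT) hcac hXY φ
    · have := mul_le_mul_of_nonneg_left (obs_bondTr_le g hg Ct hCt T hTb X) hc
      linarith
  refine (mul_le_mul' A1 A2).trans (le_of_eq ?_)
  rw [ov_ofReal_exp_pow, ov_ofReal_exp_mul, ov_ofReal_exp_mul]
  congr 2
  ring

/-- **[B] L9.2, second half** = `B4.obs_regulator`.   LEAF `L-OBS-V10` (glue): `Reg.reg_regulator Ck ck (pp + 1) R n0` at `κ p₁'` (`κ0 := κ0^{reg}/p₁'`, `κmin^{reg} := κmin p₁'`), `obs_step`,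
`obs_low_add_shell`, `obs_low_cac`, `obs_term_of_shell`, `Reg.reg_Dm_subset`.  `hlow` = `B4.low_psd`. -/
theorem obs_regulator' (h : OPar a hs p1) (hlow : ∀ (G : Geom) (u : ℕ), 1 ≤ u → (low G Fam.entry u).PosSemidef) (Ck ck : ℝ) (R n0 : ℕ) :
    ∃ D1 : ℕ, ∃ δ0 > (0 : ℝ), ∀ δ ∈ Set.Ioc 0 δ0, ∃ κ0 > (0 : ℝ),
    ∀ κmin > (0 : ℝ), ∃ (cst : ℝ≥0) (ℓ0 : ℕ), ∀ D0 ≥ D1, ∀ (G : Geom) (ℓ : ℕ), ℓ0 ≤ ℓ → ∀ (P : Pair G D0 ℓ) (gs : Grid G) (_ : gs.Ok)
      (_ : Nest gs P.g), ShellOK Ck ck (pp + 1) P (shell G Fam.entry P.g.m P.g'.m) →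
      ∀ (Vf : Extra P.g) (Vc : Extra P.g'),
        (∀ X φ, Vf.V X φ = Vobs a hs p1 gs P.g (low G Fam.entry P.g.m) X φ) →
        (∀ X φ, Vc.V X φ = Vobs a hs p1 gs P.g' (low G Fam.entry P.g'.m) X φ) →
        ∀ κ ∈ Set.Icc κmin κ0, RegStable R n0 cst δ κ P Vf Vc (shell G Fam.entry P.g.m P.g'.m) := by
  have hp1 := h.p1_gt
  have hq : 0 < p1 - 1 := by linarith
  have hq' : 0 < p1 / (p1 - 1) := by positivity
  obtain ⟨D1, δ0, hδ0, H⟩ := reg_regulator Ck ck (pp + 1) R n0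
  refine ⟨D1, δ0, hδ0, fun δ hδ => ?_⟩
  obtain ⟨κ0, hκ0, H⟩ := H δ hδ
  refine ⟨κ0 / (p1 / (p1 - 1)), by positivity, fun κmin hκmin => ?_⟩
  obtain ⟨ℓ0, H⟩ := H (κmin * (p1 / (p1 - 1))) (by positivity)
  refine ⟨Real.toNNReal (2 * Real.exp (hs / (2 * (1 - p1 * hs) ^ 2) * (200 * Ck))), ℓ0, ?_⟩
  intro D0 hD0 G ℓ hℓ P gs hgs N hS Vf Vc hVf hVc κ hκ
  have hκ' : p1 / (p1 - 1) * κ ∈ Set.Icc (κmin * (p1 / (p1 - 1))) κ0 := by
    constructor
    · rw [mul_comm]; exact mul_le_mul_of_nonneg_left hκ.1 hq'.le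
    · have := hκ.2
      rw [le_div_iff₀ hq'] at this
      linarith
  have HR := H D0 hD0 G ℓ hℓ P _ hS _ hκ'
  have hCk : 0 ≤ Ck := by
    by_contra hneg
    push Not at hneg
    have v : G.V := (⟨0, G.hM⟩, ⟨0, G.hM⟩)
    have h1 := hS.bounds.pointwise v v
    have h2 : 0 < 1 + Real.posLog (((2 ^ ℓ : ℕ) * P.g.m : ℝ) / (P.g.m + G.dist v v)) := by
      have := @Real.posLog_nonneg (((2 ^ ℓ : ℕ) * P.g.m : ℝ) / (P.g.m + G.dist v v))
      linarith
    have h3 := abs_nonneg (shell G Fam.entry P.g.m P.g'.m v v)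
    nlinarith
  have hCo := hlow G P.g.m P.ok.pos
  have hsum : low G Fam.entry P.g.m + shell G Fam.entry P.g.m P.g'.m = low G Fam.entry P.g'.m := obs_low_add_shell G _ _ _
  have hcac : Cac (low G Fam.entry P.g.m + shell G Fam.entry P.g.m P.g'.m) := by
    rw [hsum]; exact obs_low_cac G _ P.ok'.pos
  have hTb := obs_term_of_shell Ck ck (2 ^ ℓ) P.g.m _ hS.bounds
  constructor
  · intro X Y hXY φ
    have h1 := HR.main X Y hXY φ
    simp only [Wt, Extra.zero, add_zero] at h1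
    have := obs_step h gs P.g P.g' P.ok _ _ hCo hS.psd hcac Ck hCk hTb δ κ κ X Y (reg_Dm_subset P.N P.ok P.ok' X Y hXY) φ h1
    rw [hsum] at this
    simp only [Wt, hVf, hVc]
    exact this
  · intro X hX hn φ
    have h1 := HR.small X hX hn φ
    simp only [Wt, Extra.zero, add_zero] at h1
    have e : p1 / (p1 - 1) * κ / 2 = p1 / (p1 - 1) * (κ / 2) := by ring
    rw [e] at h1
    have := obs_step h gs P.g P.g' P.ok _ _ hCo hS.psd hcac Ck hCk hTb δ κ (κ / 2) X (P.N.cl X)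
      (reg_Dm_subset P.N P.ok P.ok' X _ le_rfl) φ h1
    rw [hsum] at this
    simp only [Wt, hVf, hVc]
    exact this

theorem ov_holder' (s : ℝ) (hs1 : 1 < s) : (s / (s - 1)).HolderConjugate s := by
  have h2 : 0 < s - 1 := by linarith
  rw [Real.holderConjugate_iff]
  constructor
  · rw [lt_div_iff₀ h2]; linarith
  · field_simp
    ring

theorem ov_Ct_nonneg (g : Grid G) (hg : g.Ok) (Ct : ℝ) (Γ : Matrix G.V G.V ℝ) (hΓ : Γ.PosSemidef) (hT : TermBounds G Ct g.m Γ) :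
    0 ≤ Ct := by
  have hm : (0 : ℝ) < (g.m : ℝ) := by exact_mod_cast hg.pos
  have v : G.V := (⟨0, G.hM⟩, ⟨0, G.hM⟩)
  have h1 := hT.diag 1 le_rfl (by norm_num) ![0] v
  rw [← reg_row_cov] at h1
  have h2 : 0 ≤ regRow G ![0] v ⬝ᵥ Γ *ᵥ regRow G ![0] v := reg_qf_nonneg hΓ _
  have h3 : 0 < ((g.m : ℝ) ^ (2 * 1))⁻¹ := by positivity
  by_contra hneg
  push Not at hneg
  nlinarith

theorem ov_vobsD_zero (h : OPar a hs p1) (gs : Grid G) (C : Matrix G.V G.V ℝ) (hC : C.PosSemidef) (hcac : Cac C) (D : Finset G.V) :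
    VobsD a hs p1 gs C D 0 = 0 := by
  have := vobsD_homog h gs C hC hcac D 0 0
  simpa using this

/-- Hoelder + `vobsD_compose` at `φ = 0` -/
theorem ov_core (h : OPar a hs p1) (gs g : Grid G) (hg : g.Ok) (Co Γ : Matrix G.V G.V ℝ) (hCo : Co.PosSemidef) (hΓ : Γ.PosSemidef)
    (hcac : Cac (Co + Γ)) (Ct : ℝ) (hT : TermBounds G Ct g.m Γ) (q : ℝ) (hq : 1 < q) (α δ : ℝ) (X : Finset g.I) (Cr : ℝ≥0∞)
    (hCr : 1 ≤ Cr)
    (hU : ∫⁻ ζ, ENNReal.ofReal (Real.exp (q / (q - 1) * α * U g δ X ζ)) ∂(gauss G Γ) ≤ Cr ^ X.card) :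
    ∫⁻ ζ, ENNReal.ofReal (Real.exp (α * U g δ X ζ + p1 / q * VobsD a hs p1 gs Co (g.Dm X) ζ)) ∂(gauss G Γ)
      ≤ Cr ^ X.card * ENNReal.ofReal (Real.exp ((X.card : ℝ) * (p1 / q * (hs / (2 * (1 - p1 * hs) ^ 2)) * (200 * Ct)))) := by
  have hp1 := h.p1_gt
  have hq0 : 0 < q := by linarith
  have hq1 : 0 < q - 1 := by linarith
  have hq' : 0 < q / (q - 1) := by positivity
  have hCt := ov_Ct_nonneg g hg Ct Γ hΓ hT
  have hcacO := obs_cac_left Co Γ hCo hΓ hcac
  have m1 : Measurable fun ζ : G.V → ℝ => α * U g δ X ζ := by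
    have := ov_meas_U g δ α X 0
    simpa using this
  have m2 : Measurable fun ζ : G.V → ℝ => p1 / q * VobsD a hs p1 gs Co (g.Dm X) ζ := by
    have := (ov_meas_V h gs Co hCo hcacO (g.Dm X) 0).const_mul (p1 / q)
    simpa using this
  refine (obs_holder_exp (gauss G Γ) _ _ m1 m2 (q / (q - 1)) q (ov_holder' q hq)).trans ?_
  apply mul_le_mul'
  · have e : ∀ ζ : G.V → ℝ, q / (q - 1) * (α * U g δ X ζ) = q / (q - 1) * α * U g δ X ζ := fun ζ => by ring
    simp only [e]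
    refine (ENNReal.rpow_le_rpow hU (by positivity)).trans ?_
    have h2 : 1 / (q / (q - 1)) ≤ 1 := by
      rw [div_le_one hq', le_div_iff₀ hq1]; linarith
    refine (ENNReal.rpow_le_rpow_of_exponent_le (one_le_pow₀ hCr) h2).trans ?_
    rw [ENNReal.rpow_one]
  · have e : ∀ ζ : G.V → ℝ, q * (p1 / q * VobsD a hs p1 gs Co (g.Dm X) ζ) = p1 * VobsD a hs p1 gs Co (g.Dm X) (0 + ζ) := by
      intro ζ
      rw [zero_add]
      field_simp
    simp only [e]
    refine (ENNReal.rpow_le_rpow (vobsD_compose h gs Co Γ hCo hΓ hcac (g.Dm X) 0) (by positivity)).trans ?_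
    rw [ov_ofReal_exp_rpow, ov_vobsD_zero h gs _ (hCo.add hΓ) hcac]
    apply ENNReal.ofReal_le_ofReal
    apply Real.exp_le_exp.2
    have hc : 0 ≤ p1 / q * (hs / (2 * (1 - p1 * hs) ^ 2)) := by
      have := h.hs_pos
      have : 0 < 1 - p1 * hs := by linarith [h.margin]
      positivity
    have := mul_le_mul_of_nonneg_left (obs_bondTr_le g hg Ct hCt Γ hT X) hc
    calc 1 / q * (p1 * 0 + p1 * hs / (2 * (1 - p1 * hs) ^ 2) * bondTr (g.Dm X) Γ)
        = p1 / q * (hs / (2 * (1 - p1 * hs) ^ 2)) * bondTr (g.Dm X) Γ := by ring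
      _ ≤ p1 / q * (hs / (2 * (1 - p1 * hs) ^ 2)) * (200 * Ct * X.card) := this
      _ = _ := by ring

theorem ov_exp_nat (c : ℝ) (n : ℕ) : ENNReal.ofReal (Real.exp ((n : ℝ) * c)) = ((Real.toNNReal (Real.exp c) : ℝ≥0) : ℝ≥0∞) ^ n := by
  rw [Real.exp_nat_mul, ENNReal.ofReal_pow (Real.exp_pos c).le]
  rfl

/-- **[F] L6.3 in abstract form**: ANY covariance `Γ` with the positive-order bounds at the scale of the blocks and the joint contraction with the old covariance `C_o`.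
LEAF `L-OBS-V11` (glue): `obs_holder_exp` (`p₁'`, `p₁`), `Reg.reg_regulator_terminal Ct` at `κ p₁'`, `vobsD_compose` at `φ = 0` (`VobsD .. 0 = 0` by `vobsD_homog`), `obs_bondTr_le`. -/
theorem obs_terminal_abs (h : OPar a hs p1) (Ct : ℝ) : ∃ δ0 > (0 : ℝ), ∀ δ ∈ Set.Ioc 0 δ0, ∃ κ0 > (0 : ℝ), ∃ C : ℝ≥0,
    ∀ κ ∈ Set.Ioc 0 κ0, ∀ (G : Geom) (gs g : Grid G), g.Ok → ∀ Co Γ : Matrix G.V G.V ℝ, Co.PosSemidef → Γ.PosSemidef → Cac (Co + Γ) →
    TermBounds G Ct g.m Γ → ∀ X : Finset g.I,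
      ∫⁻ ζ, ENNReal.ofReal (Real.exp (κ * U g δ X ζ + Vobs a hs p1 gs g Co X ζ)) ∂(gauss G Γ) ≤ (C : ℝ≥0∞) ^ X.card := by
  have hp1 := h.p1_gt
  have hq : 0 < p1 - 1 := by linarith
  have hq' : 0 < p1 / (p1 - 1) := by positivity
  obtain ⟨δ0, hδ0, H⟩ := reg_regulator_terminal Ct
  refine ⟨δ0, hδ0, fun δ hδ => ?_⟩
  obtain ⟨κ0, hκ0, Cr, hCr, H⟩ := H δ hδ
  refine ⟨κ0 / (p1 / (p1 - 1)), by positivity,
    (max Cr 1).toNNReal * Real.toNNReal (Real.exp (p1 / p1 * (hs / (2 * (1 - p1 * hs) ^ 2)) * (200 * Ct))), ?_⟩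
  intro κ hκ G gs g hg Co Γ hCo hΓ hcac hT X
  have hκ' : p1 / (p1 - 1) * κ ∈ Set.Ioc 0 κ0 := by
    constructor
    · exact mul_pos hq' hκ.1
    · have := hκ.2
      rw [le_div_iff₀ hq'] at this
      linarith
  have h1 := H _ hκ' G g hg Γ hΓ hT X
  simp only [W] at h1
  have hmax : max Cr 1 ≠ ⊤ := by
    rw [Ne, max_eq_top]; push Not; exact ⟨hCr, ENNReal.one_ne_top⟩
  have h2 := ov_core h gs g hg Co Γ hCo hΓ hcac Ct hT p1 hp1 κ δ X (max Cr 1) (le_max_right _ _)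
    (h1.trans (pow_le_pow_left₀ (zero_le) (le_max_left _ _) _))
  rw [ov_exp_nat, ← mul_pow] at h2
  rw [ENNReal.coe_mul, ENNReal.coe_toNNReal hmax]
  refine le_trans (le_of_eq ?_) h2
  simp only [vobs_eq]
  congr 1
  funext ζ
  rw [div_self (by linarith : p1 ≠ 0), one_mul]

/-- **[F] L6.4, (obs:terminal-moment) in abstract form**.  `p_seg = p₁^{1/3}`.
LEAF `L-OBS-V11` (glue): `exp (..) ^ p = exp (p ..)`; `U (ζ + h) ≤ 2 U ζ + 2 U h` (`Reg.reg_U_add_le`); `vobsD_add_le` with `1 + ε = p₁^{1/3}`; `obs_holder_exp` with `q = p₁^{1/3}` on the factor `e^V`: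
`q p_seg (1 + ε) = p₁`; `vobsD_le_bondE` for `V (h)`; `Reg.reg_regulator_terminal` at `2 q' p_seg κ`; `vobsD_compose` at `φ = 0`. -/
theorem obs_moment_abs (h : OPar a hs p1) (Ct : ℝ) : ∃ pseg > (1 : ℝ), ∃ δ0 > (0 : ℝ), ∀ δ ∈ Set.Ioc 0 δ0, ∃ κ0 > (0 : ℝ), ∀ Ctr : ℝ, ∃ C : ℝ≥0,
    ∀ κ ∈ Set.Ioc 0 κ0, ∀ (G : Geom) (gs g : Grid G), g.Ok → ∀ Co Γ : Matrix G.V G.V ℝ, Co.PosSemidef → Γ.PosSemidef → Cac (Co + Γ) →
    TermBounds G Ct g.m Γ → ∀ (X : Finset g.I) (f : G.V → ℝ), U g δ X f + bondE (g.Dm X) f ≤ Ctr * X.card →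
      ∫⁻ ζ, ENNReal.ofReal (Real.exp (κ * U g δ X (ζ + f) + Vobs a hs p1 gs g Co X (ζ + f)) ^ pseg) ∂(gauss G Γ) ≤ (C : ℝ≥0∞) ^ X.card := by
  have hp1 := h.p1_gt
  have hp0 : 0 < p1 := by linarith
  set s : ℝ := p1 ^ (1 / 3 : ℝ) with hs_def
  have hs1 : 1 < s := Real.one_lt_rpow hp1 (by norm_num)
  have hs0 : 0 < s := by linarith
  have hs3 : s ^ 3 = p1 := by
    rw [hs_def, ← Real.rpow_natCast, ← Real.rpow_mul hp0.le]
    norm_num
  have hps : p1 / s = s ^ 2 := by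
    rw [div_eq_iff hs0.ne', ← hs3]; ring
  have hε : 0 < s - 1 := by linarith
  have hq' : 0 < s / (s - 1) := by positivity
  have hmar : 0 < 1 - p1 * hs := by linarith [h.margin]
  have hhs := h.hs_pos
  obtain ⟨δ0, hδ0, H⟩ := reg_regulator_terminal Ct
  refine ⟨s, hs1, δ0, hδ0, fun δ hδ => ?_⟩
  obtain ⟨κ0, hκ0, Cr, hCr, H⟩ := H δ hδ
  refine ⟨κ0 / (s / (s - 1) * (2 * s)), by positivity, fun Ctr => ?_⟩
  set K : ℝ := 2 * s * (κ0 / (s / (s - 1) * (2 * s))) + s * (1 + (s - 1)⁻¹) * ((1 - p1 * hs)⁻¹ * hs / 2) with hK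
  refine ⟨(max Cr 1).toNNReal * Real.toNNReal (Real.exp (p1 / s * (hs / (2 * (1 - p1 * hs) ^ 2)) * (200 * Ct)))
    * Real.toNNReal (Real.exp (K * Ctr)), ?_⟩
  intro κ hκ G gs g hg Co Γ hCo hΓ hcac hT X f hf
  have hκ' : s / (s - 1) * (2 * s * κ) ∈ Set.Ioc 0 κ0 := by
    constructor
    · exact mul_pos hq' (mul_pos (by positivity) hκ.1)
    · have := hκ.2
      rw [le_div_iff₀ (by positivity)] at this
      linarith
  have h1 := H _ hκ' G g hg Γ hΓ hT X
  simp only [W] at h1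
  have hmax : max Cr 1 ≠ ⊤ := by
    rw [Ne, max_eq_top]; push Not; exact ⟨hCr, ENNReal.one_ne_top⟩
  have h2 := ov_core h gs g hg Co Γ hCo hΓ hcac Ct hT s hs1 (2 * s * κ) δ X (max Cr 1) (le_max_right _ _)
    (h1.trans (pow_le_pow_left₀ (zero_le) (le_max_left _ _) _))
  rw [ov_exp_nat, ← mul_pow] at h2
  have hcacO := obs_cac_left Co Γ hCo hΓ hcac
  have hUf := reg_U_nonneg g hδ.1.le X f
  have hBf := obs_bondE_nonneg (g.Dm X) f
  have pt : ∀ ζ : G.V → ℝ, ENNReal.ofReal (Real.exp (κ * U g δ X (ζ + f) + Vobs a hs p1 gs g Co X (ζ + f)) ^ s)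
      ≤ ENNReal.ofReal (Real.exp (2 * s * κ * U g δ X ζ + p1 / s * VobsD a hs p1 gs Co (g.Dm X) ζ))
        * ENNReal.ofReal (Real.exp ((X.card : ℝ) * (K * Ctr))) := by
    intro ζ
    rw [ov_ofReal_exp_mul, ← Real.exp_mul, vobs_eq]
    apply ENNReal.ofReal_le_ofReal
    apply Real.exp_le_exp.2
    have a1 := reg_U_add_le g hδ.1.le X ζ f
    have a2 := vobsD_add_le h gs Co hCo hcacO (g.Dm X) (s - 1) hε ζ f
    have a3 := vobsD_le_bondE h gs Co hCo hcacO (g.Dm X) f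
    have a4 : 2 * s * κ * U g δ X f ≤ 2 * s * (κ0 / (s / (s - 1) * (2 * s))) * U g δ X f :=
      mul_le_mul_of_nonneg_right (mul_le_mul_of_nonneg_left hκ.2 (by positivity)) hUf
    have a5 : s * (1 + (s - 1)⁻¹) * VobsD a hs p1 gs Co (g.Dm X) f
        ≤ s * (1 + (s - 1)⁻¹) * ((1 - p1 * hs)⁻¹ * hs / 2 * bondE (g.Dm X) f) :=
      mul_le_mul_of_nonneg_left a3 (by positivity)
    have k1 : 0 ≤ 2 * s * (κ0 / (s / (s - 1) * (2 * s))) := by positivity
    have k2 : 0 ≤ s * (1 + (s - 1)⁻¹) * ((1 - p1 * hs)⁻¹ * hs / 2) := by positivity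
    have a6 : 2 * s * (κ0 / (s / (s - 1) * (2 * s))) * U g δ X f
        + s * (1 + (s - 1)⁻¹) * ((1 - p1 * hs)⁻¹ * hs / 2) * bondE (g.Dm X) f ≤ K * (Ctr * X.card) := by
      refine le_trans ?_ (mul_le_mul_of_nonneg_left hf (by rw [hK]; positivity))
      rw [hK]
      nlinarith [mul_nonneg k1 hBf, mul_nonneg k2 hUf]
    have a7 : s * (κ * U g δ X (ζ + f)) ≤ s * (κ * (2 * U g δ X ζ + 2 * U g δ X f)) :=
      mul_le_mul_of_nonneg_left (mul_le_mul_of_nonneg_left a1 hκ.1.le) hs0.le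
    have a8 : s * VobsD a hs p1 gs Co (g.Dm X) (ζ + f)
        ≤ s * ((1 + (s - 1)) * VobsD a hs p1 gs Co (g.Dm X) ζ + (1 + (s - 1)⁻¹) * VobsD a hs p1 gs Co (g.Dm X) f) :=
      mul_le_mul_of_nonneg_left a2 hs0.le
    rw [hps]
    nlinarith
  calc ∫⁻ ζ, ENNReal.ofReal (Real.exp (κ * U g δ X (ζ + f) + Vobs a hs p1 gs g Co X (ζ + f)) ^ s) ∂(gauss G Γ)
      ≤ ∫⁻ ζ, ENNReal.ofReal (Real.exp (2 * s * κ * U g δ X ζ + p1 / s * VobsD a hs p1 gs Co (g.Dm X) ζ))
        * ENNReal.ofReal (Real.exp ((X.card : ℝ) * (K * Ctr))) ∂(gauss G Γ) := lintegral_mono pt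
    _ = (∫⁻ ζ, ENNReal.ofReal (Real.exp (2 * s * κ * U g δ X ζ + p1 / s * VobsD a hs p1 gs Co (g.Dm X) ζ)) ∂(gauss G Γ))
        * ENNReal.ofReal (Real.exp ((X.card : ℝ) * (K * Ctr))) := lintegral_mul_const' _ _ ENNReal.ofReal_ne_top
    _ ≤ _ := by
        rw [ov_exp_nat]
        refine (mul_le_mul' h2 le_rfl).trans (le_of_eq ?_)
        rw [← mul_pow, ENNReal.coe_mul, ENNReal.coe_mul, ENNReal.coe_toNNReal hmax]

end

end Claimed.Agent.R285.Obs
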