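import Claimed.Agent.R285.Obs.Defs
import Claimed.Agent.R285.Obs.VReg

/-!
# ROW 285, unit OBS, post BP-OBS-TERM (#13348), part A: [F] L6.3, L6.4 = terminal regulator, terminal moment, terminal expansion      (architect helper49)   -- KEEP

ONE FILE = ONE PACKAGE; the leaves `L-OBS-TA*` share it: edit ONLY your theorems, pull before landing.  Helper lemmas: prefix `ta_`.
Exports (verbatim statements of `Read/F6.lean` s4): `Obs.terminal_regulator`, `Obs.terminal_moment`, `Obs.terminal_expansion`.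
Imports: `Obs/Defs` (definitions of F6 + the contract files of LOWER layers `Read/B4`, `Read/F4a`), `Obs/VReg` (observation regulator).  NEVER `Read/F6.lean`.

## Route
* L6.3, L6.4 (moment): `Obs.obs_terminal_abs`, `Obs.obs_moment_abs` (abstract covariance) + `term_cac` (`C_{<u} + C_{≥u} = A⁺ + const` is a joint contraction) + `B4.terminal_bounds`.  PROVED here.
* L6.4 (expansion).  No regularity is needed for upper bounds (`term_enorm_le`); linearity of `term` over the finite sum `ZA` needs `Tame` (continuity on real fields + a `t`-independent integrable majorant).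
  `|K X (φ)| ≤ ‖K X‖ Wt (X, φ)` (`ta_enorm_le`); regulators multiply over `RR`-separated components (`ta_wt_prod_le`) and are blind to constants (`ta_wt_const`); hence
  `|term (∏_{X ∈ Comp V} K_X)| ≤ ∏_X (ν (c_T / A)^{|X|})`.  `V ↦ Comp V` is injective, so `∑_V ∏_X w_X ≤ ∏_X (1 + w_X) ≤ e^b`, `b = ∑_X w_X ≤ |I| ν` (rooted count `B4.geometry_animals`, `A ≥ 4 C_an c_T`).

## Leaves
`L-OBS-TA1` kernels: `term_cac`      (~150 l.)
`L-OBS-TA2` calculus of `term`: `tame_add, tame_sum, tame_smul, tame_one, term_add, term_sub, term_sum, term_smul, term_one, term_enorm_le, term_eq_neutral`      (~350 l., measure theory, Mathlib only + definitions)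
`L-OBS-TA3` point bounds: `ta_enorm_le_ptNorm, ta_ptNorm_le, ta_enorm_le, ta_hol_continuous, ta_U_const, ta_wt_const, ta_wt_pos`      (~200 l.)
`L-OBS-TA4` products of regulators: `ta_obs_add, ta_wt_prod_le`      (~200 l.)
`L-OBS-TA5` families: `ta_tame_prod, ta_term_prod_le`      (~250 l.)
`L-OBS-TA6` combinatorics (pure finite sums): `ta_comps_inj, ta_sum_comps_le, ta_sum_comps2_le, ta_sum_comps1_le`      (~300 l.)
`L-OBS-TA7` rooted sums: `ta_rooted_le, ta_conn_sum_le`      (~200 l.)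
`L-OBS-TA8` assembly: `terminal_expansion_abs`      (~350 l.)
-/

set_option autoImplicit false

namespace Claimed.Agent.R285.Obs

open scoped BigOperators ENNReal NNReal
open MeasureTheory ProbabilityTheory Filter Topology
open Claimed.Agent.R285 Claimed.Agent.R285.RG Claimed.Agent.R285.B4 Claimed.Agent.R285.F4a Claimed.Agent.R285.F6

noncomputable section

variable {G : Geom}

theorem ta_opar (o : ObsPar) : OPar o.a o.hstar o.p1 where
  a_pos := o.a_pos
  hs_pos := o.h_pos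
  p1_gt := o.one_lt
  margin := by
    have hp1 : 0 < o.p1 := lt_trans one_pos o.one_lt
    have hp2 : 0 < o.p2 := lt_trans hp1 o.p_lt
    calc o.p1 * o.hstar < o.p1 * (1 / o.p2) := mul_lt_mul_of_pos_left o.h_lt hp1
      _ = o.p1 / o.p2 := by ring
      _ < 1 := (div_lt_one hp2).2 o.p_lt

/-! ## 1. LEAF `L-OBS-TA1`: the joint contraction of the old and the terminal covariance -/

/-- `T = C_{<u} + C_{≥u}` : `A T f = f` for `∑ f = 0` (`B4.fam_telescope` with `n = 0`: `X lowP u + termP u = 1`; `IsTerminal.eqn`), `T 𝟙 = c₀ 𝟙` with `c₀ ≥ 0` (`low` is a polynomial of `lap`, `lap 𝟙 = 0`; `B4.low_psd`;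
`IsTerminal.const`), `T` symmetric.  For `x = x₀ + \bar x 𝟙`: `⟨T x, A T x⟩ = ⟨T x, x₀⟩ = ⟨x₀, T x₀⟩ ≤ ⟨x₀, T x₀⟩ + \bar x² c₀ |V| = ⟨x, T x⟩`. -/
theorem term_cac (G : Geom) (u : ℕ) (hu : 1 ≤ u) (Γ : Matrix G.V G.V ℝ) (hΓ : IsTerminal G Fam.entry u Γ) :
    Cac (low G Fam.entry u + Γ) := by
  intro x
  have hlow : Ker.HasMul G (low G Fam.entry u) (fun t => (Fam.entry.lowP u).eval t) := Ker.ker_cov_mul G _
  have hT := Ker.ker_mul_add hlow (Ker.ker_terminal_mul Ker.ker_entry_adm u hΓ)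
  have hsym := Ker.ker_mul_symm hT
  have hAT : lap G * (low G Fam.entry u + Γ) = 1 - Ker.cmat G 1 := by
    refine Ker.ker_mul_ext (Ker.ker_mul_lap hT) (Ker.ker_mul_sub (Ker.ker_mul_one G) (Ker.ker_cmat_mul G 1)) ?_
    intro k
    by_cases hk : Ker.lam (Ker.per G) k = 0
    · simp [hk]
    · have h3 := Ker.ker_lowP_eval Fam.entry u hu (Ker.lam (Ker.per G) k)
      have h5 : Fam.entry.pref.eval (Ker.lam (Ker.per G) k) = 1 := by simp [Fam.entry]
      simp only [Ker.tm, hk, if_false, Ker.ker_termP_eval, mul_add, h3, h5]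
      field_simp
      ring
  have hmove : ∀ y : G.V → ℝ, ((low G Fam.entry u + Γ).mulVec x) ⬝ᵥ y = x ⬝ᵥ ((low G Fam.entry u + Γ).mulVec y) := by
    intro y
    rw [Matrix.dotProduct_mulVec x, ← Matrix.mulVec_transpose, hsym]
  have hΓc : Γ.mulVec ((Ker.cmat G 1).mulVec x) = 0 := by
    rw [Ker.ker_cmat_mulVec]
    have e : (fun _ : G.V => 1 / (G.M : ℝ) ^ 2 * ∑ v, x v) = (1 / (G.M : ℝ) ^ 2 * ∑ v, x v) • (fun _ : G.V => (1 : ℝ)) := by
      funext v
      simp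
    rw [e, Matrix.mulVec_smul, hΓ.const, smul_zero]
  have hpos : 0 ≤ ((low G Fam.entry u + Γ).mulVec x) ⬝ᵥ ((Ker.cmat G 1).mulVec x) := by
    rw [hmove, Matrix.add_mulVec, hΓc, add_zero, Matrix.mulVec_mulVec]
    refine Ker.ker_quad_nonneg (Ker.ker_mul_cov (Ker.ker_cmat_mul G 1) (Fam.entry.lowP u)) ?_ x
    intro k
    refine mul_nonneg (Ker.ker_low_nonneg Ker.ker_entry_adm u hu _ (Ker.ker_lam_nonneg _ k) (Ker.ker_lam_le _ k)) ?_
    split_ifs <;> norm_num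
  rw [Matrix.mulVec_mulVec, hAT, Matrix.sub_mulVec, Matrix.one_mulVec, dotProduct_sub, dotProduct_comm _ x]
  linarith

/-! ## 2. [F] L6.3 and the moment bound of L6.4 (PROVED from `Obs/VReg.lean`) -/

theorem ta_wt_eq (o : ObsPar) (c g : Grid G) (V : Extra g) (hV : IsObs o c g V) (δ κ : ℝ) (X : Finset g.I) (φ : G.V → ℝ) :
    Wt g δ κ V X φ = Real.exp (κ * U g δ X φ + Vobs o.a o.hstar o.p1 c g (low G Fam.entry g.m) X φ) := by
  unfold Wt
  rw [hV X φ]

/-- **Lemma 6.3** (`ent:terminal-regulator`) = `F6.terminal_regulator` -/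
theorem terminal_regulator (o : ObsPar) : ∃ δ0 > (0 : ℝ), ∀ δ ∈ Set.Ioc 0 δ0, ∃ κ0 > (0 : ℝ), ∃ C : ℝ≥0,
    ∀ κ ∈ Set.Ioc 0 κ0, ∀ (G : Geom) (c g : Grid G), Whole c → g.Ok → Nonempty (Nest c g) → 2 * g.m ≤ G.M →
    ∀ Γ : Matrix G.V G.V ℝ, IsTerminal G Fam.entry g.m Γ → ∀ V : Extra g, IsObs o c g V →
    ∀ X : Finset g.I, ∫⁻ ζ, ENNReal.ofReal (Wt g δ κ V X ζ) ∂(gauss G Γ) ≤ (C : ℝ≥0∞) ^ X.card := by
  obtain ⟨Ct, hCt⟩ := B4.terminal_bounds 1 1 64 0
  obtain ⟨δ0, hδ0, H⟩ := obs_terminal_abs (ta_opar o) Ct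
  refine ⟨δ0, hδ0, fun δ hδ => ?_⟩
  obtain ⟨κ0, hκ0, C, H⟩ := H δ hδ
  refine ⟨κ0, hκ0, C, fun κ hκ G c g _ hg _ hM Γ hΓ V hV X => ?_⟩
  have h1 := H κ hκ G c g hg (low G Fam.entry g.m) Γ (B4.low_psd G _ B4.entry_adm _ hg.pos) hΓ.psd
    (term_cac G _ hg.pos Γ hΓ) (hCt G _ B4.entry_adm le_rfl _ hg.pos hM Γ hΓ) X
  simpa only [ta_wt_eq o c g V hV] using h1

/-- **Lemma 6.4**, (obs:terminal-moment) = `F6.terminal_moment` -/
theorem terminal_moment (o : ObsPar) : ∃ pseg > (1 : ℝ), ∃ δ0 > (0 : ℝ), ∀ δ ∈ Set.Ioc 0 δ0, ∃ κ0 > (0 : ℝ), ∀ Ctr : ℝ, ∃ C : ℝ≥0,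
    ∀ κ ∈ Set.Ioc 0 κ0, ∀ (G : Geom) (c g : Grid G), Whole c → g.Ok → Nonempty (Nest c g) → 2 * g.m ≤ G.M →
    ∀ Γ : Matrix G.V G.V ℝ, IsTerminal G Fam.entry g.m Γ → ∀ V : Extra g, IsObs o c g V →
    ∀ (X : Finset g.I) (h : G.V → ℝ), U g δ X h + bondE (g.Dm X) h ≤ Ctr * X.card →
      ∫⁻ ζ, ENNReal.ofReal (Wt g δ κ V X (ζ + h) ^ pseg) ∂(gauss G Γ) ≤ (C : ℝ≥0∞) ^ X.card := by
  obtain ⟨Ct, hCt⟩ := B4.terminal_bounds 1 1 64 0
  obtain ⟨pseg, hp, δ0, hδ0, H⟩ := obs_moment_abs (ta_opar o) Ct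
  refine ⟨pseg, hp, δ0, hδ0, fun δ hδ => ?_⟩
  obtain ⟨κ0, hκ0, H⟩ := H δ hδ
  refine ⟨κ0, hκ0, fun Ctr => ?_⟩
  obtain ⟨C, H⟩ := H Ctr
  refine ⟨C, fun κ hκ G c g _ hg _ hM Γ hΓ V hV X h hh => ?_⟩
  have h1 := H κ hκ G c g hg (low G Fam.entry g.m) Γ (B4.low_psd G _ B4.entry_adm _ hg.pos) hΓ.psd
    (term_cac G _ hg.pos Γ hΓ) (hCt G _ B4.entry_adm le_rfl _ hg.pos hM Γ hΓ) X h hh
  simpa only [ta_wt_eq o c g V hV] using h1

/-! ## 3. LEAF `L-OBS-TA2`: calculus of `term` -/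

/-- what makes `term` linear: continuity on real fields and a majorant which is integrable and does not depend on the common phase -/
def Tame (Γ : Matrix G.V G.V ℝ) (F : Fn G) : Prop :=
  Continuous (fun φ : G.V → ℝ => F (toC φ)) ∧
    ∃ b : (G.V → ℝ) → ℝ, Integrable b (gauss G Γ) ∧ ∀ (φ : G.V → ℝ) (t : ℝ), ‖F (fun v => ((φ v + t : ℝ) : ℂ))‖ ≤ b φ

theorem tame_eqns_cite : True := by
  have := @Tame.eq_1; trivial

section calculus

variable (ω : ℝ) (Γ : Matrix G.V G.V ℝ)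

theorem ta_shift_continuous : Continuous fun x : (G.V → ℝ) × ℝ => (fun v => x.1 v + x.2 : G.V → ℝ) :=
  continuous_pi fun v => ((continuous_apply v).comp continuous_fst).add continuous_snd

variable {Γ} in
theorem ta_tame_cont2 {F : Fn G} (h : Tame Γ F) :
    Continuous fun x : (G.V → ℝ) × ℝ => F (fun v => ((x.1 v + x.2 : ℝ) : ℂ)) :=
  h.1.comp ta_shift_continuous

variable {Γ} in
theorem ta_tame_integrable {F : Fn G} (h : Tame Γ F) (t : ℝ) :
    Integrable (fun ζ : G.V → ℝ => F (fun v => ((ζ v + t : ℝ) : ℂ))) (gauss G Γ) := by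
  obtain ⟨b, hb, hle⟩ := h.2
  refine hb.mono' ?_ (Filter.Eventually.of_forall fun ζ => hle ζ t)
  exact ((ta_tame_cont2 h).comp (Continuous.prodMk_left t)).aestronglyMeasurable

variable {Γ} in
theorem ta_tame_outer {F : Fn G} (h : Tame Γ F) :
    Continuous fun t : ℝ => ∫ ζ, F (fun v => ((ζ v + t : ℝ) : ℂ)) ∂(gauss G Γ) := by
  obtain ⟨b, hb, hle⟩ := h.2
  refine continuous_of_dominated (bound := b) (fun t => (ta_tame_integrable h t).aestronglyMeasurable)
    (fun t => Filter.Eventually.of_forall fun ζ => hle ζ t) hb (Filter.Eventually.of_forall fun ζ => ?_)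
  exact (ta_tame_cont2 h).comp (Continuous.prodMk_right ζ)

theorem tame_zero : Tame Γ (0 : Fn G) := by
  refine ⟨continuous_const, fun _ => 0, integrable_const _, fun φ t => ?_⟩
  simp

theorem tame_one : Tame Γ (1 : Fn G) := by
  refine ⟨continuous_const, fun _ => 1, integrable_const _, fun φ t => ?_⟩
  simp

theorem tame_add {F F' : Fn G} (h : Tame Γ F) (h' : Tame Γ F') : Tame Γ (F + F') := by
  obtain ⟨b, hb, hle⟩ := h.2
  obtain ⟨b', hb', hle'⟩ := h'.2
  refine ⟨h.1.add h'.1, fun φ => b φ + b' φ, hb.add hb', fun φ t => ?_⟩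
  exact (norm_add_le _ _).trans (add_le_add (hle φ t) (hle' φ t))

theorem tame_sub {F F' : Fn G} (h : Tame Γ F) (h' : Tame Γ F') : Tame Γ (F - F') := by
  obtain ⟨b, hb, hle⟩ := h.2
  obtain ⟨b', hb', hle'⟩ := h'.2
  refine ⟨h.1.sub h'.1, fun φ => b φ + b' φ, hb.add hb', fun φ t => ?_⟩
  exact (norm_sub_le _ _).trans (add_le_add (hle φ t) (hle' φ t))

theorem tame_smul (c : ℂ) {F : Fn G} (h : Tame Γ F) : Tame Γ (c • F) := by
  obtain ⟨b, hb, hle⟩ := h.2
  refine ⟨h.1.const_smul c, fun φ => ‖c‖ * b φ, hb.const_mul _, fun φ t => ?_⟩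
  rw [Pi.smul_apply, norm_smul]
  exact mul_le_mul_of_nonneg_left (hle φ t) (norm_nonneg _)

theorem tame_sum {ι : Type} (s : Finset ι) (F : ι → Fn G) (h : ∀ i ∈ s, Tame Γ (F i)) : Tame Γ (∑ i ∈ s, F i) := by
  classical
  induction s using Finset.induction_on with
  | empty => simpa using tame_zero Γ
  | insert a s ha ih =>
    rw [Finset.sum_insert ha]
    exact tame_add Γ (h a (Finset.mem_insert_self a s)) (ih fun i hi => h i (Finset.mem_insert_of_mem hi))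

/-- inner integrals: `Integrable` by the majorant; outer: `t ↦ ∫ F (ζ + t)` is continuous (`continuous_of_dominated`), hence interval integrable -/
theorem term_add {F F' : Fn G} (h : Tame Γ F) (h' : Tame Γ F') : term ω Γ (F + F') = term ω Γ F + term ω Γ F' := by
  unfold term
  rw [← mul_add, ← intervalIntegral.integral_add ((ta_tame_outer h).intervalIntegrable _ _)
    ((ta_tame_outer h').intervalIntegrable _ _)]
  congr 1
  refine intervalIntegral.integral_congr fun t _ => ?_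
  exact integral_add (ta_tame_integrable h t) (ta_tame_integrable h' t)

theorem term_sub {F F' : Fn G} (h : Tame Γ F) (h' : Tame Γ F') : term ω Γ (F - F') = term ω Γ F - term ω Γ F' := by
  unfold term
  rw [← mul_sub, ← intervalIntegral.integral_sub ((ta_tame_outer h).intervalIntegrable _ _)
    ((ta_tame_outer h').intervalIntegrable _ _)]
  congr 1
  refine intervalIntegral.integral_congr fun t _ => ?_
  exact integral_sub (ta_tame_integrable h t) (ta_tame_integrable h' t)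

theorem term_smul (c : ℂ) (F : Fn G) : term ω Γ (c • F) = c * term ω Γ F := by
  unfold term
  have e : ∀ t : ℝ, ∫ ζ, (c • F) (fun v => ((ζ v + t : ℝ) : ℂ)) ∂(gauss G Γ)
      = c * ∫ ζ, F (fun v => ((ζ v + t : ℝ) : ℂ)) ∂(gauss G Γ) := fun t => by
    simp only [Pi.smul_apply, smul_eq_mul]
    exact integral_const_mul c _
  simp only [e]
  rw [intervalIntegral.integral_const_mul]
  ring

theorem term_sum {ι : Type} (s : Finset ι) (F : ι → Fn G) (h : ∀ i ∈ s, Tame Γ (F i)) :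
    term ω Γ (∑ i ∈ s, F i) = ∑ i ∈ s, term ω Γ (F i) := by
  classical
  induction s using Finset.induction_on with
  | empty =>
    simp only [Finset.sum_empty]
    unfold term
    simp
  | insert a s ha ih =>
    rw [Finset.sum_insert ha, Finset.sum_insert ha,
      term_add ω Γ (h a (Finset.mem_insert_self a s)) (tame_sum Γ s F fun i hi => h i (Finset.mem_insert_of_mem hi)),
      ih fun i hi => h i (Finset.mem_insert_of_mem hi)]

/-- `gauss G Γ` is a probability measure (`Reg.reg_gauss_prob`) -/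
theorem term_one (hω : 0 < ω) : term ω Γ (1 : Fn G) = 1 := by
  unfold term
  simp only [Pi.one_apply, integral_const, probReal_univ, one_smul, intervalIntegral.integral_const, sub_zero]
  rw [Complex.real_smul, mul_one, ← Complex.ofReal_mul, one_div, inv_mul_cancel₀ hω.ne', Complex.ofReal_one]

theorem term_zero : term ω Γ (0 : Fn G) = 0 := by
  unfold term
  simp

/-- values on real fields only -/
theorem term_congr {F F' : Fn G} (h : ∀ φ : G.V → ℝ, F (toC φ) = F' (toC φ)) : term ω Γ F = term ω Γ F' := by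
  unfold term
  congr 1
  refine intervalIntegral.integral_congr fun t _ => ?_
  exact integral_congr_ae (Filter.Eventually.of_forall fun ζ => h fun v => ζ v + t)

/-- upper bounds need NO regularity (`enorm_integral_le_lintegral_enorm`; if the right side is `⊤` there is nothing to prove; otherwise `intervalIntegral.norm_integral_le_of_norm_le_const`) -/
theorem term_enorm_le (hω : 0 < ω) (F : Fn G) (B : (G.V → ℝ) → ℝ≥0∞)
    (hB : ∀ (φ : G.V → ℝ) (t : ℝ), ‖F (fun v => ((φ v + t : ℝ) : ℂ))‖ₑ ≤ B φ) : ‖term ω Γ F‖ₑ ≤ ∫⁻ ζ, B ζ ∂(gauss G Γ) := by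
  by_cases htop : ∫⁻ ζ, B ζ ∂(gauss G Γ) = ⊤
  · rw [htop]
    exact le_top
  have h1 : ∀ t : ℝ, ‖∫ ζ, F (fun v => ((ζ v + t : ℝ) : ℂ)) ∂(gauss G Γ)‖ ≤ (∫⁻ ζ, B ζ ∂(gauss G Γ)).toReal := by
    intro t
    have h2 : ‖∫ ζ, F (fun v => ((ζ v + t : ℝ) : ℂ)) ∂(gauss G Γ)‖ₑ ≤ ∫⁻ ζ, B ζ ∂(gauss G Γ) :=
      (enorm_integral_le_lintegral_enorm _).trans (lintegral_mono fun ζ => hB ζ t)
    rw [← toReal_enorm]
    exact ENNReal.toReal_mono htop h2
  have h3 := intervalIntegral.norm_integral_le_of_norm_le_const (a := (0 : ℝ)) (b := ω)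
    (f := fun t : ℝ => ∫ ζ, F (fun v => ((ζ v + t : ℝ) : ℂ)) ∂(gauss G Γ)) fun t _ => h1 t
  rw [sub_zero, abs_of_pos hω] at h3
  have h4 : ‖term ω Γ F‖ ≤ (∫⁻ ζ, B ζ ∂(gauss G Γ)).toReal := by
    unfold term
    rw [norm_mul, Complex.norm_real, Real.norm_of_nonneg (by positivity)]
    calc 1 / ω * ‖∫ t in (0 : ℝ)..ω, ∫ ζ, F (fun v => ((ζ v + t : ℝ) : ℂ)) ∂(gauss G Γ)‖
        ≤ 1 / ω * ((∫⁻ ζ, B ζ ∂(gauss G Γ)).toReal * ω) := mul_le_mul_of_nonneg_left h3 (by positivity)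
      _ = (∫⁻ ζ, B ζ ∂(gauss G Γ)).toReal := by field_simp
  rw [← ofReal_norm, ← ENNReal.ofReal_toReal htop]
  exact ENNReal.ofReal_le_ofReal h4

/-- Fubini: the common phase is integrated first: `term` = Gaussian expectation of the NEUTRAL projection -/
theorem term_eq_neutral {F : Fn G} (h : Tame Γ F) : term ω Γ F = ∫ ζ, chargeProj ω 0 F (toC ζ) ∂(gauss G Γ) := by
  obtain ⟨b, hb, hle⟩ := h.2
  have : IsFiniteMeasure ((volume : Measure ℝ).restrict (Set.uIoc 0 ω)) := by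
    unfold Set.uIoc
    infer_instance
  have hint : Integrable (Function.uncurry fun (t : ℝ) (ζ : G.V → ℝ) => F (fun v => ((ζ v + t : ℝ) : ℂ)))
      ((volume.restrict (Set.uIoc 0 ω)).prod (gauss G Γ)) := by
    refine (hb.comp_snd (volume.restrict (Set.uIoc 0 ω))).mono' ?_ (Filter.Eventually.of_forall fun x => hle x.2 x.1)
    exact ((ta_tame_cont2 h).comp continuous_swap).aestronglyMeasurable
  unfold term
  rw [intervalIntegral_integral_swap hint, ← integral_const_mul]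
  refine integral_congr_ae (Filter.Eventually.of_forall fun ζ => ?_)
  show ((1 / ω : ℝ) : ℂ) * (∫ t in (0 : ℝ)..ω, F (fun v => ((ζ v + t : ℝ) : ℂ))) = chargeProj ω 0 F (toC ζ)
  unfold chargeProj
  congr 1
  refine intervalIntegral.integral_congr fun t _ => ?_
  simp only [Int.cast_zero, mul_zero, zero_mul, neg_zero, Complex.exp_zero, one_mul, toC, Complex.ofReal_add]

end calculus

/-! ## 4. LEAF `L-OBS-TA3`: point bounds -/

theorem ta_enorm_le_ptNorm (h0 : ℝ≥0) (g : Grid G) (X : Finset g.I) (F : Fn G) (φ : G.V → ℝ) (f : G.V → ℂ) (hf : tnorm g X f < h0) :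
    ‖F (toC φ + f)‖ₑ ≤ ptNorm h0 g X F φ := by
  rw [enorm_eq_nnnorm]
  exact Hol.le_ptNorm h0 g X F φ f hf

theorem ta_wt_pos (g : Grid G) (δ κ : ℝ) (V : Extra g) (X : Finset g.I) (φ : G.V → ℝ) : 0 < Wt g δ κ V X φ := Real.exp_pos _

theorem ta_ptNorm_le (p : Par) (g : Grid G) (V : Extra g) (X : Finset g.I) (F : Fn G) (φ : G.V → ℝ) :
    ptNorm p.h0 g X F φ ≤ fnSize p g V X F * ENNReal.ofReal (Wt g p.δ p.κ V X φ) := by
  exact Hol.ptNorm_le_fnSize_mul p g V X F φ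

theorem ta_enorm_le (p : Par) (hh : 0 < p.h0) (g : Grid G) (V : Extra g) (X : Finset g.I) (F : Fn G) (φ : G.V → ℝ) :
    ‖F (toC φ)‖ₑ ≤ fnSize p g V X F * ENNReal.ofReal (Wt g p.δ p.κ V X φ) := by
  have h := ta_enorm_le_ptNorm p.h0 g X F φ 0 (by rw [Hol.tnorm_zero]; exact hh)
  rw [add_zero] at h
  exact h.trans (ta_ptNorm_le p g V X F φ)

/-- real fields lie in the (open) strip -/
theorem ta_hol_continuous (h0 : ℝ≥0) (hh : 0 < h0) (g : Grid G) (X : Finset g.I) (F : Fn G) (hF : Hol h0 g X F) :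
    Continuous fun φ : G.V → ℝ => F (toC φ) := by
  refine hF.continuousOn.comp_continuous Hol.toC_continuous fun φ => ?_
  have h := Hol.toC_add_mem_strip (h := h0) (g := g) (X := X) φ (f := 0) (by rw [Hol.tnorm_zero]; exact hh)
  rwa [add_zero] at h

theorem ta_U_const (g : Grid G) (δ : ℝ) (X : Finset g.I) (φ : G.V → ℝ) (t : ℝ) : U g δ X (fun v => φ v + t) = U g δ X φ := by
  exact Hol.U_add_const g δ X φ t

theorem ta_wt_const (g : Grid G) (δ κ : ℝ) (V : Extra g) (X : Finset g.I) (φ : G.V → ℝ) (t : ℝ) :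
    Wt g δ κ V X (fun v => φ v + t) = Wt g δ κ V X φ := by
  exact Hol.Wt_add_const g δ κ V X φ t

/-! ## 5. LEAF `L-OBS-TA4`: products of regulators -/

/-- `Whole` grids are `Ok` -/
theorem ta_whole_ok (c : Grid G) (hc : Whole c) : c.Ok where
  pos := hc.pos
  mono := hc.mono
  surj := fun b => by
    have h : 0 < (Finset.univ.filter fun i => c.blk1 i = b).card := by rw [hc.size b]; exact hc.pos
    obtain ⟨i, hi⟩ := Finset.card_pos.1 h
    exact ⟨i, (Finset.mem_filter.1 hi).2⟩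
  size := fun b => by
    rw [hc.size b]
    have := hc.pos
    omega
  full := fun b _ => hc.size b

theorem ta_sep_mono (g : Grid G) {d d' : ℕ} (h : d ≤ d') {X X' : Finset g.I} (hs : g.Sep d' X X') : g.Sep d X X' :=
  fun a ha b hb => lt_of_le_of_lt h (hs a ha b hb)

theorem ta_obs_add (o : ObsPar) (c g : Grid G) (hc : Whole c) (hg : g.Ok) (N : Nest c g) (V : Extra g) (hV : IsObs o c g V)
    (X X' : Finset g.I) (φ : G.V → ℝ) (h : g.Sep (2 * pp + 8) X X') : V.V X φ + V.V X' φ ≤ V.V (X ∪ X') φ := by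
  obtain ⟨V', hsep, hV', -⟩ := obs_extra' (ta_opar o) c g (ta_whole_ok c hc) hg (low G Fam.entry g.m)
    (B4.low_psd G _ B4.entry_adm _ hg.pos) (obs_low_cac G _ hg.pos) (by simpa using B4.low_range G _ B4.entry_adm _ hg.pos)
  have e : ∀ Z, V.V Z φ = V'.V Z φ := fun Z => by rw [hV Z φ, hV' Z φ]
  rw [e, e, e]
  exact V'.add X X' φ (ta_sep_mono g hsep h)

theorem ta_U_empty (g : Grid G) (hg : g.Ok) (δ : ℝ) (φ : G.V → ℝ) : U g δ ∅ φ = 0 := by
  have h := B4.regulator_add g hg δ ∅ ∅ (fun a ha => by simp at ha) φ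
  rw [Finset.union_empty] at h
  linarith

theorem ta_sum_family_le (g : Grid G) (hg : g.Ok) (δ κ : ℝ) (V : Extra g)
    (hadd : ∀ (X X' : Finset g.I) (φ : G.V → ℝ), g.Sep (2 * pp + 8) X X' → V.V X φ + V.V X' φ ≤ V.V (X ∪ X') φ)
    (φ : G.V → ℝ) (S : Finset (Finset g.I)) (hS : ∀ X ∈ S, ∀ X' ∈ S, X ≠ X' → g.Sep RR X X') :
    ∑ X ∈ S, (κ * U g δ X φ + V.V X φ) ≤ κ * U g δ (S.biUnion id) φ + V.V (S.biUnion id) φ := by
  classical
  induction S using Finset.induction_on with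
  | empty =>
    rw [Finset.sum_empty, Finset.biUnion_empty, ta_U_empty g hg, mul_zero, zero_add]
    exact V.nonneg _ _
  | insert X S hX ih =>
    have ih' := ih fun Z hZ Z' hZ' hne => hS Z (Finset.mem_insert_of_mem hZ) Z' (Finset.mem_insert_of_mem hZ') hne
    have hsep : g.Sep RR X (S.biUnion id) := by
      intro a ha b hb
      obtain ⟨Z, hZ, hbZ⟩ := Finset.mem_biUnion.1 hb
      exact hS X (Finset.mem_insert_self X S) Z (Finset.mem_insert_of_mem hZ) (fun h => hX (h ▸ hZ)) a ha b hbZ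
    have h5 : (5 : ℕ) ≤ RR := by unfold RR r0; omega
    have h8 : 2 * pp + 8 ≤ RR := by unfold RR r0; omega
    rw [Finset.sum_insert hX, Finset.biUnion_insert, id, B4.regulator_add g hg δ _ _ (ta_sep_mono g h5 hsep) φ]
    have h2 := hadd X (S.biUnion id) φ (ta_sep_mono g h8 hsep)
    linarith

theorem ta_wt_prod_le (g : Grid G) (hg : g.Ok) (δ κ : ℝ) (V : Extra g)
    (hadd : ∀ (X X' : Finset g.I) (φ : G.V → ℝ), g.Sep (2 * pp + 8) X X' → V.V X φ + V.V X' φ ≤ V.V (X ∪ X') φ)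
    (Y : Finset g.I) (φ : G.V → ℝ) : ∏ X ∈ g.comps RR Y, Wt g δ κ V X φ ≤ Wt g δ κ V Y φ := by
  unfold Wt
  rw [← Real.exp_sum]
  refine Real.exp_le_exp.2 ?_
  have h := ta_sum_family_le g hg δ κ V hadd φ (g.comps RR Y) fun X hX X' hX' hne => Alg.comps_sep hX hX' hne
  rwa [Alg.comps_biUnion] at h

/-- an abstract `Extra` need not be measurable; the observation regulator is continuous -/
theorem ta_obs_continuous (o : ObsPar) (c g : Grid G) (hg : g.Ok) (V : Extra g) (hV : IsObs o c g V) (X : Finset g.I) :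
    Continuous fun φ : G.V → ℝ => V.V X φ := by
  have h := obs_vobsD_continuous (ta_opar o) c (low G Fam.entry g.m) (B4.low_psd G _ B4.entry_adm _ hg.pos)
    (obs_low_cac G _ hg.pos) (g.Dm X)
  have e : (fun φ : G.V → ℝ => V.V X φ) = fun φ => VobsD o.a o.hstar o.p1 c (low G Fam.entry g.m) (g.Dm X) φ := by
    funext φ
    rw [hV X φ]
    rfl
  rw [e]
  exact h

/-- `Wt` is continuous (`obs_U_continuous`) -/
theorem ta_wt_continuous (g : Grid G) (δ κ : ℝ) (V : Extra g) (hVc : ∀ X : Finset g.I, Continuous fun φ : G.V → ℝ => V.V X φ)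
    (X : Finset g.I) : Continuous fun φ : G.V → ℝ => Wt g δ κ V X φ := by
  unfold Wt
  exact Real.continuous_exp.comp (((obs_U_continuous g δ X).const_smul κ).add (hVc X))

/-! ## 6. LEAF `L-OBS-TA5`: families of activities -/

section families

variable (p : Par) (hh : 0 < p.h0) (g : Grid G) (hg : g.Ok) (V : Extra g)
  (hadd : ∀ (X X' : Finset g.I) (φ : G.V → ℝ), g.Sep (2 * pp + 8) X X' → V.V X φ + V.V X' φ ≤ V.V (X ∪ X') φ)
  (hVc : ∀ X : Finset g.I, Continuous fun φ : G.V → ℝ => V.V X φ)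
  (Γ : Matrix G.V G.V ℝ)
include hh hg hadd hVc

omit hh hg hadd hVc in
theorem ta_enorm_prod {ι : Type} (s : Finset ι) (f : ι → ℂ) : ‖∏ i ∈ s, f i‖ₑ = ∏ i ∈ s, ‖f i‖ₑ := by
  classical
  induction s using Finset.induction_on with
  | empty => simp
  | insert a s ha ih => rw [Finset.prod_insert ha, Finset.prod_insert ha, enorm_mul, ih]

omit hVc in
/-- the pointwise bound behind `ta_term_prod_le`, `ta_tame_prod` -/
theorem ta_prod_enorm_le (Y : Finset g.I) (Kx : Finset g.I → Fn G) (φ : G.V → ℝ) (t : ℝ) :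
    ‖(∏ X ∈ g.comps RR Y, Kx X) (fun v => ((φ v + t : ℝ) : ℂ))‖ₑ
      ≤ (∏ X ∈ g.comps RR Y, fnSize p g V X (Kx X)) * ENNReal.ofReal (Wt g p.δ p.κ V Y φ) := by
  rw [Finset.prod_apply, ta_enorm_prod]
  calc ∏ X ∈ g.comps RR Y, ‖Kx X (fun v => ((φ v + t : ℝ) : ℂ))‖ₑ
      ≤ ∏ X ∈ g.comps RR Y, (fnSize p g V X (Kx X) * ENNReal.ofReal (Wt g p.δ p.κ V X φ)) := by
        refine Finset.prod_le_prod' fun X _ => ?_
        have h := ta_enorm_le p hh g V X (Kx X) (fun v => φ v + t)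
        rwa [ta_wt_const] at h
    _ = (∏ X ∈ g.comps RR Y, fnSize p g V X (Kx X)) * ENNReal.ofReal (∏ X ∈ g.comps RR Y, Wt g p.δ p.κ V X φ) := by
        rw [Finset.prod_mul_distrib, ENNReal.ofReal_prod_of_nonneg fun X _ => (ta_wt_pos g p.δ p.κ V X φ).le]
    _ ≤ _ := by
        gcongr
        exact ta_wt_prod_le g hg p.δ p.κ V hadd Y φ

omit hh hg hadd in
/-- the regulator is integrable as soon as its lower integral is finite -/
theorem ta_wt_integrable (X : Finset g.I) (f : G.V → ℝ)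
    (hint : ∫⁻ ζ, ENNReal.ofReal (Wt g p.δ p.κ V X (ζ + f)) ∂(gauss G Γ) ≠ ⊤) :
    Integrable (fun ζ : G.V → ℝ => Wt g p.δ p.κ V X (ζ + f)) (gauss G Γ) := by
  have hc : Continuous fun ζ : G.V → ℝ => Wt g p.δ p.κ V X (ζ + f) :=
    (ta_wt_continuous g p.δ p.κ V hVc X).comp (continuous_id.add continuous_const)
  refine ⟨hc.aestronglyMeasurable, ?_⟩
  rw [hasFiniteIntegral_iff_ofReal (Filter.Eventually.of_forall fun ζ => (ta_wt_pos g p.δ p.κ V X _).le)]
  exact lt_top_iff_ne_top.2 hint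

/-- a compatible family: `Kx X` is any function measured on `X` (`K X` or `J X`) -/
theorem ta_term_prod_le (hω : 0 < p.ω) (Y : Finset g.I) (Kx : Finset g.I → Fn G) :
    ‖term p.ω Γ (∏ X ∈ g.comps RR Y, Kx X)‖ₑ
      ≤ (∏ X ∈ g.comps RR Y, fnSize p g V X (Kx X)) * ∫⁻ ζ, ENNReal.ofReal (Wt g p.δ p.κ V Y ζ) ∂(gauss G Γ) := by
  have hm : Measurable fun ζ : G.V → ℝ => ENNReal.ofReal (Wt g p.δ p.κ V Y ζ) :=
    ENNReal.measurable_ofReal.comp (ta_wt_continuous g p.δ p.κ V hVc Y).measurable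
  rw [← lintegral_const_mul _ hm]
  exact term_enorm_le p.ω Γ hω _ _ fun φ t => ta_prod_enorm_le p hh g hg V hadd Y Kx φ t

theorem ta_tame_prod (Y : Finset g.I) (Kx : Finset g.I → Fn G) (hhol : ∀ X ∈ g.comps RR Y, Hol p.h0 g X (Kx X))
    (hfin : ∀ X ∈ g.comps RR Y, fnSize p g V X (Kx X) ≠ ⊤)
    (hint : ∫⁻ ζ, ENNReal.ofReal (Wt g p.δ p.κ V Y ζ) ∂(gauss G Γ) ≠ ⊤) : Tame Γ (∏ X ∈ g.comps RR Y, Kx X) := by
  have hfin' : (∏ X ∈ g.comps RR Y, fnSize p g V X (Kx X)) ≠ ⊤ := ENNReal.prod_ne_top hfin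
  refine ⟨?_, fun φ => (∏ X ∈ g.comps RR Y, fnSize p g V X (Kx X)).toReal * Wt g p.δ p.κ V Y φ, ?_, fun φ t => ?_⟩
  · simp only [Finset.prod_apply]
    exact continuous_finsetProd _ fun X hX => ta_hol_continuous p.h0 hh g X (Kx X) (hhol X hX)
  · have h := ta_wt_integrable p g V hVc Γ Y 0 (by simpa using hint)
    simp only [add_zero] at h
    exact h.const_mul _
  · have h := ta_prod_enorm_le p hh g hg V hadd Y Kx φ t
    rw [← ENNReal.ofReal_toReal hfin', ← ENNReal.ofReal_mul ENNReal.toReal_nonneg, ← ofReal_norm] at h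
    exact (ENNReal.ofReal_le_ofReal_iff (mul_nonneg ENNReal.toReal_nonneg (ta_wt_pos g p.δ p.κ V Y φ).le)).1 h

omit hg hadd hVc in
theorem ta_shift_enorm_le (X : Finset g.I) (F : Fn G) (f φ : G.V → ℝ) (t : ℝ) :
    ‖F ((fun v => ((φ v + t : ℝ) : ℂ)) + toC f)‖ₑ ≤ fnSize p g V X F * ENNReal.ofReal (Wt g p.δ p.κ V X (φ + f)) := by
  have h := ta_enorm_le p hh g V X F (fun v => (φ + f) v + t)
  rw [ta_wt_const] at h
  have e : toC (fun v => (φ + f) v + t) = (fun v => ((φ v + t : ℝ) : ℂ)) + toC f := by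
    funext v
    simp only [toC, Pi.add_apply, Complex.ofReal_add]
    ring
  rwa [e] at h

/-- one function, translated by a real field -/
theorem ta_tame_shift (X : Finset g.I) (F : Fn G) (hhol : Hol p.h0 g X F) (hfin : fnSize p g V X F ≠ ⊤) (f : G.V → ℝ)
    (hint : ∫⁻ ζ, ENNReal.ofReal (Wt g p.δ p.κ V X (ζ + f)) ∂(gauss G Γ) ≠ ⊤) : Tame Γ (fun z => F (z + toC f)) := by
  refine ⟨?_, fun φ => (fnSize p g V X F).toReal * Wt g p.δ p.κ V X (φ + f), ?_, fun φ t => ?_⟩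
  · have h := (ta_hol_continuous p.h0 hh g X F hhol).comp (continuous_id.add (continuous_const (y := f)))
    refine h.congr fun φ => ?_
    show F (toC (φ + f)) = F (toC φ + toC f)
    rw [Hol.toC_add]
  · exact (ta_wt_integrable p g V hVc Γ X f hint).const_mul _
  · have h := ta_shift_enorm_le p hh g V X F f φ t
    rw [← ENNReal.ofReal_toReal hfin, ← ENNReal.ofReal_mul ENNReal.toReal_nonneg, ← ofReal_norm] at h
    exact (ENNReal.ofReal_le_ofReal_iff (mul_nonneg ENNReal.toReal_nonneg (ta_wt_pos g p.δ p.κ V X _).le)).1 h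

theorem ta_term_shift_le (hω : 0 < p.ω) (X : Finset g.I) (F : Fn G) (f : G.V → ℝ) :
    ‖term p.ω Γ (fun z => F (z + toC f))‖ₑ
      ≤ fnSize p g V X F * ∫⁻ ζ, ENNReal.ofReal (Wt g p.δ p.κ V X (ζ + f)) ∂(gauss G Γ) := by
  have hm : Measurable fun ζ : G.V → ℝ => ENNReal.ofReal (Wt g p.δ p.κ V X (ζ + f)) :=
    ENNReal.measurable_ofReal.comp
      ((ta_wt_continuous g p.δ p.κ V hVc X).comp (continuous_id.add continuous_const)).measurable
  rw [← lintegral_const_mul _ hm]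
  exact term_enorm_le p.ω Γ hω _ _ fun φ t => ta_shift_enorm_le p hh g V X F f φ t

end families

/-! ## 7. LEAF `L-OBS-TA6`: combinatorics of the subset expansion (pure finite sums) -/

section combinatorics

variable (g : Grid G) (R : ℕ)

theorem ta_comps_inj : Function.Injective (g.comps R) := by
  intro Y Y' h
  rw [← Alg.comps_biUnion (R := R) Y, ← Alg.comps_biUnion (R := R) Y', h]

open Classical in
theorem ta_comps_mem_powerset (Y : Finset g.I) :
    g.comps R Y ∈ (Finset.univ.filter (fun X : Finset g.I => g.Conn R X)).powerset := by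
  rw [Finset.mem_powerset]
  intro X hX
  exact Finset.mem_filter.2 ⟨Finset.mem_univ _, Alg.comps_conn hX⟩

open Classical in
/-- transfer of a sum over subsets `Y` to a sum over families of polymers -/
theorem ta_sum_comps_transfer (q : Finset (Finset g.I) → Prop) [DecidablePred q] (F : Finset (Finset g.I) → ℝ) (hF : ∀ S, 0 ≤ F S) :
    ∑ Y ∈ Finset.univ.filter (fun Y : Finset g.I => q (g.comps R Y)), F (g.comps R Y)
      ≤ ∑ S ∈ (Finset.univ.filter (fun X : Finset g.I => g.Conn R X)).powerset.filter q, F S := by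
  rw [← Finset.sum_image (f := F) (g := g.comps R) (fun a _ b _ h => ta_comps_inj g R h)]
  refine Finset.sum_le_sum_of_subset_of_nonneg ?_ fun S _ _ => hF S
  intro S hS
  obtain ⟨Y, hY, rfl⟩ := Finset.mem_image.1 hS
  exact Finset.mem_filter.2 ⟨ta_comps_mem_powerset g R Y, (Finset.mem_filter.1 hY).2⟩

theorem ta_prod_one_add_le {ι : Type} (P : Finset ι) (w : ι → ℝ) (hw : ∀ X, 0 ≤ w X) :
    ∏ X ∈ P, (1 + w X) ≤ Real.exp (∑ X ∈ P, w X) := by
  rw [Real.exp_sum]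
  refine Finset.prod_le_prod (fun X _ => by have := hw X; linarith) fun X _ => ?_
  have := Real.add_one_le_exp (w X)
  linarith

open Classical in
theorem ta_sum_comps_le (w : Finset g.I → ℝ) (hw : ∀ X, 0 ≤ w X) :
    ∑ Y : Finset g.I, ∏ X ∈ g.comps R Y, w X ≤ Real.exp (∑ X ∈ Finset.univ.filter (fun X => g.Conn R X), w X) := by
  have h := ta_sum_comps_transfer g R (fun _ => True) (fun S => ∏ X ∈ S, w X) (fun S => Finset.prod_nonneg fun X _ => hw X)
  simp only [Finset.filter_true] at h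
  refine h.trans ?_
  rw [← Finset.prod_one_add]
  exact ta_prod_one_add_le _ w hw

theorem ta_powerset_small {ι : Type} [DecidableEq ι] (P : Finset ι) (w : ι → ℝ) :
    ∑ S ∈ P.powerset.filter (fun S => ¬ 2 ≤ S.card), ∏ X ∈ S, w X = 1 + ∑ X ∈ P, w X := by
  have e : P.powerset.filter (fun S => ¬ 2 ≤ S.card) = insert ∅ (P.image fun X => ({X} : Finset ι)) := by
    ext S
    simp only [Finset.mem_filter, Finset.mem_powerset, Finset.mem_insert, Finset.mem_image, not_le]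
    constructor
    · rintro ⟨hS, hc⟩
      rcases Nat.lt_succ_iff_lt_or_eq.1 hc with h0 | h1
      · left
        exact Finset.card_eq_zero.1 (by omega)
      · right
        obtain ⟨X, rfl⟩ := Finset.card_eq_one.1 h1
        exact ⟨X, hS (Finset.mem_singleton_self X), rfl⟩
    · rintro (rfl | ⟨X, hX, rfl⟩)
      · simp
      · simp [hX]
  rw [e, Finset.sum_insert, Finset.prod_empty, Finset.sum_image]
  · simp
  · intro a _ b _ h
    exact Finset.singleton_injective h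
  · simp

open Classical in
theorem ta_sum_comps2_le (w : Finset g.I → ℝ) (hw : ∀ X, 0 ≤ w X) (hb : ∑ X ∈ Finset.univ.filter (fun X => g.Conn R X), w X ≤ 1) :
    ∑ Y ∈ Finset.univ.filter (fun Y : Finset g.I => 2 ≤ (g.comps R Y).card), ∏ X ∈ g.comps R Y, w X
      ≤ (∑ X ∈ Finset.univ.filter (fun X => g.Conn R X), w X) ^ 2 := by
  have h := ta_sum_comps_transfer g R (fun S => 2 ≤ S.card) (fun S => ∏ X ∈ S, w X) (fun S => Finset.prod_nonneg fun X _ => hw X)
  refine h.trans ?_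
  set P := Finset.univ.filter (fun X : Finset g.I => g.Conn R X) with hP
  have h1 := Finset.sum_filter_add_sum_filter_not P.powerset (fun S => 2 ≤ S.card) (fun S => ∏ X ∈ S, w X)
  rw [ta_powerset_small, ← Finset.prod_one_add] at h1
  have h2 := ta_prod_one_add_le P w hw
  have hb0 : 0 ≤ ∑ X ∈ P, w X := Finset.sum_nonneg fun X _ => hw X
  have h3 := Real.abs_exp_sub_one_sub_id_le (x := ∑ X ∈ P, w X) (by rw [abs_of_nonneg hb0]; exact hb)
  have h4 := (abs_le.1 h3).2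
  linarith

theorem ta_powerset_marked {ι : Type} [DecidableEq ι] (P : Finset ι) (w wJ : ι → ℝ) :
    ∑ S ∈ P.powerset, ∑ X ∈ S, wJ X * ∏ X' ∈ S.erase X, w X' = ∑ X ∈ P, wJ X * ∏ X' ∈ P.erase X, (1 + w X') := by
  have e1 : ∑ S ∈ P.powerset, ∑ X ∈ S, wJ X * ∏ X' ∈ S.erase X, w X'
      = ∑ X ∈ P, ∑ S ∈ P.powerset.filter (fun S => X ∈ S), wJ X * ∏ X' ∈ S.erase X, w X' := by
    refine Finset.sum_comm' ?_
    intro S X
    simp only [Finset.mem_powerset, Finset.mem_filter]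
    constructor
    · rintro ⟨h1, h2⟩
      exact ⟨⟨h1, h2⟩, h1 h2⟩
    · rintro ⟨⟨h1, h2⟩, _⟩
      exact ⟨h1, h2⟩
  rw [e1]
  refine Finset.sum_congr rfl fun X hX => ?_
  rw [Finset.prod_one_add, Finset.mul_sum]
  refine Finset.sum_bij' (fun S _ => S.erase X) (fun S _ => insert X S) ?_ ?_ ?_ ?_ ?_
  · intro S hS
    obtain ⟨h1, _⟩ := Finset.mem_filter.1 hS
    exact Finset.mem_powerset.2 (Finset.erase_subset_erase X (Finset.mem_powerset.1 h1))
  · intro S hS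
    have h1 := Finset.mem_powerset.1 hS
    refine Finset.mem_filter.2 ⟨Finset.mem_powerset.2 ?_, Finset.mem_insert_self X S⟩
    exact Finset.insert_subset hX (h1.trans (Finset.erase_subset X P))
  · intro S hS
    exact Finset.insert_erase (Finset.mem_filter.1 hS).2
  · intro S hS
    have h1 := Finset.mem_powerset.1 hS
    exact Finset.erase_insert fun h => (Finset.notMem_erase X P) (h1 h)
  · intro S _
    rfl

open Classical in
theorem ta_sum_comps1_le (w wJ : Finset g.I → ℝ) (hw : ∀ X, 0 ≤ w X) (hwJ : ∀ X, 0 ≤ wJ X) :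
    ∑ Y : Finset g.I, ∑ X ∈ g.comps R Y, wJ X * ∏ X' ∈ (g.comps R Y).erase X, w X'
      ≤ (∑ X ∈ Finset.univ.filter (fun X => g.Conn R X), wJ X) * Real.exp (∑ X ∈ Finset.univ.filter (fun X => g.Conn R X), w X) := by
  have h := ta_sum_comps_transfer g R (fun _ => True) (fun S => ∑ X ∈ S, wJ X * ∏ X' ∈ S.erase X, w X')
    (fun S => Finset.sum_nonneg fun X _ => mul_nonneg (hwJ X) (Finset.prod_nonneg fun X _ => hw X))
  simp only [Finset.filter_true] at h
  refine h.trans ?_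
  rw [ta_powerset_marked, Finset.sum_mul]
  refine Finset.sum_le_sum fun X hX => mul_le_mul_of_nonneg_left ?_ (hwJ X)
  refine (ta_prod_one_add_le _ w hw).trans (Real.exp_le_exp.2 ?_)
  exact Finset.sum_le_sum_of_subset_of_nonneg (Finset.erase_subset _ _) fun X _ _ => hw X

open Classical in
theorem ta_comps_card_le_one (Y : Finset g.I) : (g.comps R Y).card < 2 ↔ Y = ∅ ∨ g.Conn R Y := by
  constructor
  · intro h
    rcases Nat.lt_succ_iff_lt_or_eq.1 h with h0 | h1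
    · left
      have : g.comps R Y = ∅ := Finset.card_eq_zero.1 (by omega)
      rw [← Alg.comps_biUnion (R := R) Y, this]
      rfl
    · right
      obtain ⟨X, hX⟩ := Finset.card_eq_one.1 h1
      have hY : Y = X := by
        rw [← Alg.comps_biUnion (R := R) Y, hX]
        simp
      rw [hY]
      exact Alg.comps_conn (V := Y) (by rw [hX]; exact Finset.mem_singleton_self X)
  · rintro (rfl | h)
    · rw [Alg.comps_empty]; simp
    · rw [Alg.comps_self h]; simp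

end combinatorics

/-! ## 8. LEAF `L-OBS-TA7`: rooted sums -/

/-- a tail of the geometric series -/
theorem ta_geom_tail (y : ℝ) (hy : 0 ≤ y) (hy2 : 2 * y ≤ 1) (k N : ℕ) : ∑ n ∈ Finset.Ico k N, y ^ n ≤ 2 * y ^ k := by
  rcases le_or_gt N k with h | h
  · rw [Finset.Ico_eq_empty_of_le h, Finset.sum_empty]
    positivity
  · rw [Finset.sum_Ico_eq_sum_range]
    have e : ∀ i, y ^ (k + i) = y ^ k * y ^ i := fun i => pow_add y k i
    simp only [e]
    rw [← Finset.mul_sum, mul_comm 2]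
    refine mul_le_mul_of_nonneg_left ?_ (pow_nonneg hy k)
    have h1 := mul_neg_geom_sum y (N - k)
    have h2 : 0 ≤ y ^ (N - k) := pow_nonneg hy _
    have h3 : 0 ≤ ∑ i ∈ Finset.range (N - k), y ^ i := Finset.sum_nonneg fun i _ => pow_nonneg hy i
    nlinarith

open Classical in
/-- rooted polymers with at least `k` blocks -/
theorem ta_rooted_tail (R : ℕ) : ∃ Can : ℕ, 1 ≤ Can ∧ ∀ (G : Geom) (g : Grid G), g.Ok → ∀ (x : ℝ), 0 ≤ x → 2 * Can * x ≤ 1 →
    ∀ (b : g.I) (k : ℕ),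
    ∑ X ∈ Finset.univ.filter (fun X : Finset g.I => g.Conn R X ∧ b ∈ X ∧ k ≤ X.card), x ^ X.card ≤ 2 * (Can * x) ^ k := by
  obtain ⟨C, hC⟩ := B4.geometry_animals R
  refine ⟨max C 1, le_max_right _ _, fun G g hg x hx hx2 b k => ?_⟩
  set F := Finset.univ.filter (fun X : Finset g.I => g.Conn R X ∧ b ∈ X ∧ k ≤ X.card) with hF
  set N := Fintype.card g.I + 1 with hN
  have hmaps : ∀ X ∈ F, X.card ∈ Finset.Ico k N := by
    intro X hX
    have h := (Finset.mem_filter.1 hX).2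
    exact Finset.mem_Ico.2 ⟨h.2.2, Nat.lt_succ_of_le (Finset.card_le_univ X)⟩
  rw [← Finset.sum_fiberwise_of_maps_to hmaps]
  have hy : (0 : ℝ) ≤ ((max C 1 : ℕ) : ℝ) * x := mul_nonneg (Nat.cast_nonneg _) hx
  refine le_trans (Finset.sum_le_sum fun n _ => ?_) (ta_geom_tail _ hy (by linarith) k N)
  have e : ∑ X ∈ F.filter (fun X => X.card = n), x ^ X.card = ((F.filter (fun X => X.card = n)).card : ℝ) * x ^ n := by
    rw [Finset.sum_congr rfl (fun X hX => by rw [(Finset.mem_filter.1 hX).2]), Finset.sum_const, nsmul_eq_mul]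
  rw [e, mul_pow]
  refine mul_le_mul_of_nonneg_right ?_ (pow_nonneg hx n)
  have h1 : (F.filter (fun X => X.card = n)).card ≤ C ^ n := by
    refine le_trans (Finset.card_le_card ?_) (hC G g hg b n)
    intro X hX
    obtain ⟨h1, h2⟩ := Finset.mem_filter.1 hX
    have h3 := (Finset.mem_filter.1 h1).2
    exact Finset.mem_filter.2 ⟨Finset.mem_univ _, h3.1, h3.2.1, h2⟩
  have h2 : C ^ n ≤ (max C 1) ^ n := Nat.pow_le_pow_left (le_max_left _ _) n
  exact_mod_cast h1.trans h2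

open Classical in
theorem ta_rooted_le (R : ℕ) : ∃ Can : ℕ, 1 ≤ Can ∧ ∀ (G : Geom) (g : Grid G), g.Ok → ∀ (x : ℝ), 0 ≤ x → 2 * Can * x ≤ 1 → ∀ b : g.I,
    ∑ X ∈ Finset.univ.filter (fun X : Finset g.I => g.Conn R X ∧ b ∈ X), x ^ X.card ≤ 2 * Can * x := by
  obtain ⟨Can, h1, H⟩ := ta_rooted_tail R
  refine ⟨Can, h1, fun G g hg x hx hx2 b => ?_⟩
  have h := H G g hg x hx hx2 b 1
  rw [pow_one, ← mul_assoc] at h
  refine le_trans (le_of_eq ?_) h
  refine Finset.sum_congr ?_ fun _ _ => rfl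
  ext X
  simp only [Finset.mem_filter, Finset.mem_univ, true_and]
  constructor
  · rintro ⟨h1, h2⟩
    exact ⟨h1, h2, Finset.card_pos.2 ⟨b, h2⟩⟩
  · rintro ⟨h1, h2, _⟩
    exact ⟨h1, h2⟩

open Classical in
theorem ta_class_sum_le (R : ℕ) : ∃ Can : ℕ, 1 ≤ Can ∧ ∀ (G : Geom) (g : Grid G), g.Ok → ∀ (x : ℝ), 0 ≤ x → 2 * Can * x ≤ 1 →
    ∀ (S : Finset g.I) (k0 : ℕ) (𝒳 : Finset (Finset g.I)), (∀ X ∈ 𝒳, g.Conn R X ∧ (∃ b ∈ X, b ∈ S) ∧ k0 ≤ X.card) →
    ∑ X ∈ 𝒳, x ^ X.card ≤ S.card * (2 * Can * x) ^ (max k0 1) := by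
  obtain ⟨Can, h1, H⟩ := ta_rooted_tail R
  refine ⟨Can, h1, fun G g hg x hx hx2 S k0 𝒳 h𝒳 => ?_⟩
  have hy : (0 : ℝ) ≤ (Can : ℝ) * x := mul_nonneg (Nat.cast_nonneg _) hx
  have step1 : ∑ X ∈ 𝒳, x ^ X.card
      ≤ ∑ b ∈ S, ∑ X ∈ Finset.univ.filter (fun X : Finset g.I => g.Conn R X ∧ b ∈ X ∧ max k0 1 ≤ X.card), x ^ X.card := by
    have e : ∀ b ∈ S, ∑ X ∈ 𝒳, (if b ∈ X then x ^ X.card else 0)
        ≤ ∑ X ∈ Finset.univ.filter (fun X : Finset g.I => g.Conn R X ∧ b ∈ X ∧ max k0 1 ≤ X.card), x ^ X.card := by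
      intro b _
      rw [← Finset.sum_filter]
      refine Finset.sum_le_sum_of_subset_of_nonneg ?_ fun X _ _ => pow_nonneg hx _
      intro X hX
      obtain ⟨h1, h2⟩ := Finset.mem_filter.1 hX
      obtain ⟨c1, _, c3⟩ := h𝒳 X h1
      exact Finset.mem_filter.2 ⟨Finset.mem_univ _, c1, h2, max_le c3 (Finset.card_pos.2 ⟨b, h2⟩)⟩
    refine le_trans ?_ (Finset.sum_le_sum e)
    rw [Finset.sum_comm]
    refine Finset.sum_le_sum fun X hX => ?_
    obtain ⟨_, ⟨b, hb, hbS⟩, _⟩ := h𝒳 X hX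
    have := Finset.single_le_sum (f := fun b => if b ∈ X then x ^ X.card else 0)
      (fun b _ => by split_ifs <;> [exact pow_nonneg hx _; exact le_rfl]) hbS
    simpa [hb] using this
  refine step1.trans ?_
  have step2 : ∀ b ∈ S, ∑ X ∈ Finset.univ.filter (fun X : Finset g.I => g.Conn R X ∧ b ∈ X ∧ max k0 1 ≤ X.card), x ^ X.card
      ≤ (2 * Can * x) ^ (max k0 1) := by
    intro b _
    refine (H G g hg x hx hx2 b (max k0 1)).trans ?_
    rw [mul_assoc 2, mul_pow 2]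
    refine mul_le_mul_of_nonneg_right ?_ (pow_nonneg hy _)
    calc (2 : ℝ) = 2 ^ 1 := (pow_one 2).symm
      _ ≤ 2 ^ (max k0 1) := pow_le_pow_right₀ (by norm_num) (le_max_right _ _)
  refine (Finset.sum_le_sum step2).trans ?_
  rw [Finset.sum_const, nsmul_eq_mul]

/-! ## 9. LEAF `L-OBS-TA8`: the terminal expansion -/

theorem ta_fnSize_le (p : Par) (g : Grid G) (V : Extra g) (hA : 0 < p.A) (K : Act g) (ν : ℝ)
    (h : actNorm p g V K ≤ ENNReal.ofReal ν) (X : Finset g.I) :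
    fnSize p g V X (K X) ≤ ENNReal.ofReal (ν * (p.A ^ X.card)⁻¹) := by
  have hp : 0 < p.A ^ X.card := pow_pos hA _
  have h1 : ENNReal.ofReal (p.A ^ X.card) * fnSize p g V X (K X) ≤ ENNReal.ofReal ν :=
    (le_iSup (fun X : Finset g.I => ENNReal.ofReal (p.A ^ X.card) * fnSize p g V X (K X)) X).trans h
  rw [← div_eq_mul_inv, ENNReal.ofReal_div_of_pos hp,
    ENNReal.le_div_iff_mul_le (Or.inl (by simpa using hp)) (Or.inl ENNReal.ofReal_ne_top), mul_comm]
  exact h1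

theorem ta_card_comps (g : Grid G) (R : ℕ) (Y : Finset g.I) : ∑ X ∈ g.comps R Y, X.card = Y.card := by
  classical
  conv_rhs => rw [← Alg.comps_biUnion (R := R) Y]
  rw [Finset.card_biUnion]
  · rfl
  · intro X hX X' hX' hne
    exact Alg.comps_disjoint hX hX' hne

/-- one marked factor -/
theorem ta_prod_marked {ι α : Type} [DecidableEq ι] [CommMonoid α] (S : Finset ι) (X : ι) (hX : X ∈ S) (a b : ι → α) :
    ∏ X' ∈ S, (if X' = X then a X' else b X') = a X * ∏ X' ∈ S.erase X, b X' := by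
  rw [← Finset.mul_prod_erase S _ hX, if_pos rfl]
  congr 1
  exact Finset.prod_congr rfl fun X' h => if_neg (Finset.ne_of_mem_erase h)

theorem ta_term_fam_le (p : Par) (hh : 0 < p.h0) (g : Grid G) (hg : g.Ok) (V : Extra g)
    (hadd : ∀ (X X' : Finset g.I) (φ : G.V → ℝ), g.Sep (2 * pp + 8) X X' → V.V X φ + V.V X' φ ≤ V.V (X ∪ X') φ)
    (hVc : ∀ X : Finset g.I, Continuous fun φ : G.V → ℝ => V.V X φ) (Γ : Matrix G.V G.V ℝ) (hω : 0 < p.ω) (cT : ℝ≥0)
    (hreg : ∀ X : Finset g.I, ∫⁻ ζ, ENNReal.ofReal (Wt g p.δ p.κ V X ζ) ∂(gauss G Γ) ≤ (cT : ℝ≥0∞) ^ X.card)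
    (Y : Finset g.I) (Kx : Finset g.I → Fn G) (s : Finset g.I → ℝ) (hs : ∀ X, 0 ≤ s X)
    (hle : ∀ X ∈ g.comps RR Y, fnSize p g V X (Kx X) ≤ ENNReal.ofReal (s X)) :
    ‖term p.ω Γ (∏ X ∈ g.comps RR Y, Kx X)‖ ≤ ∏ X ∈ g.comps RR Y, (s X * (cT : ℝ) ^ X.card) := by
  have hnn : ∀ X ∈ g.comps RR Y, 0 ≤ s X * (cT : ℝ) ^ X.card := fun X _ => mul_nonneg (hs X) (pow_nonneg cT.coe_nonneg _)
  have h := ta_term_prod_le p hh g hg V hadd hVc Γ hω Y Kx
  have h2 : ‖term p.ω Γ (∏ X ∈ g.comps RR Y, Kx X)‖ₑ ≤ ENNReal.ofReal (∏ X ∈ g.comps RR Y, (s X * (cT : ℝ) ^ X.card)) := by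
    refine h.trans ?_
    rw [ENNReal.ofReal_prod_of_nonneg hnn]
    calc (∏ X ∈ g.comps RR Y, fnSize p g V X (Kx X)) * ∫⁻ ζ, ENNReal.ofReal (Wt g p.δ p.κ V Y ζ) ∂(gauss G Γ)
        ≤ (∏ X ∈ g.comps RR Y, ENNReal.ofReal (s X)) * (cT : ℝ≥0∞) ^ Y.card :=
          mul_le_mul' (Finset.prod_le_prod' hle) (hreg Y)
      _ = ∏ X ∈ g.comps RR Y, (ENNReal.ofReal (s X) * (cT : ℝ≥0∞) ^ X.card) := by
          rw [Finset.prod_mul_distrib, Finset.prod_pow_eq_pow_sum, ta_card_comps]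
      _ = ∏ X ∈ g.comps RR Y, ENNReal.ofReal (s X * (cT : ℝ) ^ X.card) := by
          refine Finset.prod_congr rfl fun X _ => ?_
          rw [ENNReal.ofReal_mul (hs X), ENNReal.ofReal_pow cT.coe_nonneg, ENNReal.ofReal_coe_nnreal]
      _ ≤ _ := le_rfl
  rw [← ofReal_norm] at h2
  exact (ENNReal.ofReal_le_ofReal_iff (Finset.prod_nonneg hnn)).1 h2

open Classical in
/-- **Lemma 6.4, expansion, abstract form**: everything that is used about the regulator is `hreg` (L6.3 with the constant `cT`), additivity and `A ≥ 4 C_an c_T`.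
PLAN.  `w X := ν (cT / A)^{|X|}` for polymers.  `fnSize (K X) ≤ ν A^{-|X|}` from `actNorm` (`le_iSup`, `A > 0`).  `ZA = ∑_Y ∏`: `term_sum` + `ta_tame_prod`.  `Y = ∅`: `term_one`.  `Y` connected: `Alg.comps_self`.
Non-polymers: `K X = 0`.  Other `Y`: `ta_term_prod_le`, `cT^{|Y|} = ∏_X cT^{|X|}` (`Alg.comps_biUnion`, `Alg.comps_disjoint`), `ta_sum_comps2_le`.  `b = ∑_X w X ≤ |I| ν` by `ta_class_sum_le` (`S = univ`, `k0 = 0`), `2 C_an cT / A ≤ 1/2`.
`ZA1`: `ta_sum_comps1_le`, `e^b ≤ e`.  The constant is `C = 3`. -/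
theorem terminal_expansion_abs : ∃ Can : ℕ, 1 ≤ Can ∧ ∀ (p : Par) (cT : ℝ≥0), 0 < p.h0 → 0 < p.ω → 1 ≤ cT → 4 * Can * cT ≤ p.A →
    ∀ (G : Geom) (g : Grid G), g.Ok → ∀ (V : Extra g) (Γ : Matrix G.V G.V ℝ),
    (∀ (X X' : Finset g.I) (φ : G.V → ℝ), g.Sep (2 * pp + 8) X X' → V.V X φ + V.V X' φ ≤ V.V (X ∪ X') φ) →
    (∀ X : Finset g.I, Continuous fun φ : G.V → ℝ => V.V X φ) →
    (∀ X : Finset g.I, ∫⁻ ζ, ENNReal.ofReal (Wt g p.δ p.κ V X ζ) ∂(gauss G Γ) ≤ (cT : ℝ≥0∞) ^ X.card) →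
    ∀ (col : ℕ) (K J : Act g), Act.Ok p col RR K → Act.Ok p col RR J →
    ∀ ν v : ℝ, 0 ≤ ν → 0 ≤ v → actNorm p g V K ≤ ENNReal.ofReal ν → actNorm p g V J ≤ ENNReal.ofReal v →
      (Fintype.card g.I : ℝ) * ν ≤ 1 →
      ‖∑ X : Finset g.I, term p.ω Γ (K X)‖ ≤ (Fintype.card g.I : ℝ) * ν ∧
      ‖term p.ω Γ (ZA g RR K) - 1 - ∑ X : Finset g.I, term p.ω Γ (K X)‖ ≤ ((Fintype.card g.I : ℝ) * ν) ^ 2 ∧
      ‖term p.ω Γ (ZA1 g RR K J)‖ ≤ 3 * (Fintype.card g.I : ℝ) * v := by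
  obtain ⟨Can, hCan, HC⟩ := ta_class_sum_le RR
  refine ⟨Can, hCan, ?_⟩
  intro p cT hh hω hcT hA G g hg V Γ hadd hVc hreg col K J hK hJ ν v hν hv hKb hJb hsm
  have hCan' : (1 : ℝ) ≤ Can := by exact_mod_cast hCan
  have hcT' : (1 : ℝ) ≤ cT := by exact_mod_cast hcT
  have hApos : 0 < p.A := by nlinarith
  set x : ℝ := cT / p.A with hx
  have hx0 : 0 ≤ x := div_nonneg cT.coe_nonneg hApos.le
  have hx2 : 2 * Can * x ≤ 1 / 2 := by
    rw [hx, ← mul_div_assoc, div_le_iff₀ hApos]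
    linarith
  have hxk : ∀ (c : ℝ) (k : ℕ), c * (p.A ^ k)⁻¹ * (cT : ℝ) ^ k = c * x ^ k := by
    intro c k
    rw [hx, div_pow]
    field_simp
  set P := Finset.univ.filter (fun X : Finset g.I => g.Conn RR X) with hP
  have hcard : (0 : ℝ) ≤ (Fintype.card g.I : ℝ) := Nat.cast_nonneg _
  -- the rooted sum
  have hsumx : ∑ X ∈ P, x ^ X.card ≤ (Fintype.card g.I : ℝ) * (1 / 2) := by
    have h := HC G g hg x hx0 (by linarith) Finset.univ 0 P (fun X hX => by
      have hc := (Finset.mem_filter.1 hX).2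
      obtain ⟨b, hb⟩ := hc.1
      exact ⟨hc, ⟨b, hb, Finset.mem_univ b⟩, Nat.zero_le _⟩)
    rw [Nat.zero_max, pow_one, Finset.card_univ] at h
    exact h.trans (mul_le_mul_of_nonneg_left hx2 hcard)
  set w : Finset g.I → ℝ := fun X => ν * x ^ X.card with hw
  set wJ : Finset g.I → ℝ := fun X => v * x ^ X.card with hwJ
  have hw0 : ∀ X, 0 ≤ w X := fun X => mul_nonneg hν (pow_nonneg hx0 _)
  have hwJ0 : ∀ X, 0 ≤ wJ X := fun X => mul_nonneg hv (pow_nonneg hx0 _)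
  have hb : ∑ X ∈ P, w X ≤ (Fintype.card g.I : ℝ) * ν := by
    rw [← Finset.mul_sum]
    nlinarith [mul_le_mul_of_nonneg_left hsumx hν, mul_nonneg hcard hν]
  have hbJ : ∑ X ∈ P, wJ X ≤ (Fintype.card g.I : ℝ) * v := by
    rw [← Finset.mul_sum]
    nlinarith [mul_le_mul_of_nonneg_left hsumx hv, mul_nonneg hcard hv]
  have hb0 : 0 ≤ ∑ X ∈ P, w X := Finset.sum_nonneg fun X _ => hw0 X
  -- sizes
  have hsK : ∀ X, fnSize p g V X (K X) ≤ ENNReal.ofReal (ν * (p.A ^ X.card)⁻¹) := ta_fnSize_le p g V hApos K ν hKb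
  have hsJ : ∀ X, fnSize p g V X (J X) ≤ ENNReal.ofReal (v * (p.A ^ X.card)⁻¹) := ta_fnSize_le p g V hApos J v hJb
  have hint : ∀ Y : Finset g.I, ∫⁻ ζ, ENNReal.ofReal (Wt g p.δ p.κ V Y ζ) ∂(gauss G Γ) ≠ ⊤ := fun Y =>
    ne_top_of_le_ne_top (ENNReal.pow_ne_top ENNReal.coe_ne_top) (hreg Y)
  -- products of `K`
  have hprodK : ∀ Y : Finset g.I, ‖term p.ω Γ (∏ X ∈ g.comps RR Y, K X)‖ ≤ ∏ X ∈ g.comps RR Y, w X := by
    intro Y
    have h := ta_term_fam_le p hh g hg V hadd hVc Γ hω cT hreg Y K (fun X => ν * (p.A ^ X.card)⁻¹)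
      (fun X => mul_nonneg hν (inv_nonneg.2 (pow_nonneg hApos.le _))) (fun X _ => hsK X)
    simpa only [hxk] using h
  have htameK : ∀ Y : Finset g.I, Tame Γ (∏ X ∈ g.comps RR Y, K X) := fun Y =>
    ta_tame_prod p hh g hg V hadd hVc Γ Y K (fun X _ => (hK.fn X).hol)
      (fun X _ => ne_top_of_le_ne_top ENNReal.ofReal_ne_top (hsK X)) (hint Y)
  -- single activities
  have hK1 : ∀ X ∈ P, ‖term p.ω Γ (K X)‖ ≤ w X := by
    intro X hX
    have h := hprodK X
    rwa [Alg.comps_self (Finset.mem_filter.1 hX).2, Finset.prod_singleton, Finset.prod_singleton] at h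
  have hK0 : ∀ X, X ∉ P → term p.ω Γ (K X) = 0 := by
    intro X hX
    rw [hK.poly X (fun h => hX (Finset.mem_filter.2 ⟨Finset.mem_univ _, h⟩)), term_zero]
  have hsumK : ∑ X : Finset g.I, term p.ω Γ (K X) = ∑ X ∈ P, term p.ω Γ (K X) :=
    (Finset.sum_subset (Finset.subset_univ P) fun X _ hX => hK0 X hX).symm
  refine ⟨?_, ?_, ?_⟩
  · rw [hsumK]
    exact (norm_sum_le _ _).trans ((Finset.sum_le_sum hK1).trans hb)
  · have e1 : term p.ω Γ (ZA g RR K) = ∑ Y : Finset g.I, term p.ω Γ (∏ X ∈ g.comps RR Y, K X) := by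
      unfold ZA
      exact term_sum p.ω Γ Finset.univ _ fun Y _ => htameK Y
    have e2 := Finset.sum_filter_add_sum_filter_not Finset.univ (fun Y : Finset g.I => 2 ≤ (g.comps RR Y).card)
      (fun Y => term p.ω Γ (∏ X ∈ g.comps RR Y, K X))
    have e3 : ∑ Y ∈ Finset.univ.filter (fun Y : Finset g.I => ¬ 2 ≤ (g.comps RR Y).card), term p.ω Γ (∏ X ∈ g.comps RR Y, K X)
        = 1 + ∑ X ∈ P, term p.ω Γ (K X) := by
      have e4 : Finset.univ.filter (fun Y : Finset g.I => ¬ 2 ≤ (g.comps RR Y).card) = insert ∅ P := by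
        ext Y
        simp only [Finset.mem_filter, Finset.mem_univ, true_and, not_le, Finset.mem_insert, hP]
        exact ta_comps_card_le_one g RR Y
      have hnot : (∅ : Finset g.I) ∉ P := fun h => by
        have := (Finset.mem_filter.1 h).2.1
        simp at this
      rw [e4, Finset.sum_insert hnot, Alg.comps_empty, Finset.prod_empty, term_one p.ω Γ hω]
      congr 1
      refine Finset.sum_congr rfl fun X hX => ?_
      rw [Alg.comps_self (Finset.mem_filter.1 hX).2, Finset.prod_singleton]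
    have e5 : term p.ω Γ (ZA g RR K) - 1 - ∑ X : Finset g.I, term p.ω Γ (K X)
        = ∑ Y ∈ Finset.univ.filter (fun Y : Finset g.I => 2 ≤ (g.comps RR Y).card), term p.ω Γ (∏ X ∈ g.comps RR Y, K X) := by
      rw [e1, ← e2, e3, hsumK]
      ring
    rw [e5]
    refine (norm_sum_le _ _).trans ((Finset.sum_le_sum fun Y _ => hprodK Y).trans ?_)
    refine (ta_sum_comps2_le g RR w hw0 (hb.trans hsm)).trans ?_
    exact pow_le_pow_left₀ hb0 hb 2
  · -- one labelled component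
    have hmark : ∀ (Y X : Finset g.I), X ∈ g.comps RR Y →
        J X * ∏ X' ∈ (g.comps RR Y).erase X, K X' = ∏ X' ∈ g.comps RR Y, (if X' = X then J X' else K X') :=
      fun Y X hX => (ta_prod_marked (g.comps RR Y) X hX J K).symm
    have hsz : ∀ (X X' : Finset g.I), fnSize p g V X' (if X' = X then J X' else K X')
        ≤ ENNReal.ofReal (if X' = X then v * (p.A ^ X'.card)⁻¹ else ν * (p.A ^ X'.card)⁻¹) := by
      intro X X'
      split_ifs
      · exact hsJ X'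
      · exact hsK X'
    have htameJ : ∀ (Y X : Finset g.I), X ∈ g.comps RR Y → Tame Γ (J X * ∏ X' ∈ (g.comps RR Y).erase X, K X') := by
      intro Y X hX
      rw [hmark Y X hX]
      refine ta_tame_prod p hh g hg V hadd hVc Γ Y (fun X' => if X' = X then J X' else K X') (fun X' _ => ?_)
        (fun X' _ => ne_top_of_le_ne_top ENNReal.ofReal_ne_top (hsz X X')) (hint Y)
      show Hol p.h0 g X' (if X' = X then J X' else K X')
      split_ifs
      · exact (hJ.fn X').hol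
      · exact (hK.fn X').hol
    have hprodJ : ∀ (Y X : Finset g.I), X ∈ g.comps RR Y →
        ‖term p.ω Γ (J X * ∏ X' ∈ (g.comps RR Y).erase X, K X')‖ ≤ wJ X * ∏ X' ∈ (g.comps RR Y).erase X, w X' := by
      intro Y X hX
      rw [hmark Y X hX]
      have h := ta_term_fam_le p hh g hg V hadd hVc Γ hω cT hreg Y (fun X' => if X' = X then J X' else K X')
        (fun X' => if X' = X then v * (p.A ^ X'.card)⁻¹ else ν * (p.A ^ X'.card)⁻¹)
        (fun X' => by
          show 0 ≤ (if X' = X then v * (p.A ^ X'.card)⁻¹ else ν * (p.A ^ X'.card)⁻¹)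
          split_ifs
          · exact mul_nonneg hv (inv_nonneg.2 (pow_nonneg hApos.le _))
          · exact mul_nonneg hν (inv_nonneg.2 (pow_nonneg hApos.le _))) (fun X' _ => hsz X X')
      refine h.trans (le_of_eq ?_)
      rw [← ta_prod_marked (g.comps RR Y) X hX wJ w]
      refine Finset.prod_congr rfl fun X' _ => ?_
      split_ifs
      · exact hxk v _
      · exact hxk ν _
    have e1 : term p.ω Γ (ZA1 g RR K J)
        = ∑ Y : Finset g.I, ∑ X ∈ g.comps RR Y, term p.ω Γ (J X * ∏ X' ∈ (g.comps RR Y).erase X, K X') := by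
      unfold ZA1
      rw [term_sum p.ω Γ Finset.univ _ fun Y _ => tame_sum Γ _ _ fun X hX => htameJ Y X hX]
      exact Finset.sum_congr rfl fun Y _ => term_sum p.ω Γ _ _ fun X hX => htameJ Y X hX
    rw [e1]
    refine (norm_sum_le _ _).trans ((Finset.sum_le_sum fun Y _ => (norm_sum_le _ _).trans
      (Finset.sum_le_sum fun X hX => hprodJ Y X hX)).trans ?_)
    refine (ta_sum_comps1_le g RR w wJ hw0 hwJ0).trans ?_
    have hexp : Real.exp (∑ X ∈ P, w X) ≤ 3 :=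
      (Real.exp_le_exp.2 (hb.trans hsm)).trans (by have := Real.exp_one_lt_d9; linarith)
    calc (∑ X ∈ P, wJ X) * Real.exp (∑ X ∈ P, w X) ≤ ((Fintype.card g.I : ℝ) * v) * 3 :=
          mul_le_mul hbJ hexp (Real.exp_pos _).le (mul_nonneg hcard hv)
      _ = 3 * (Fintype.card g.I : ℝ) * v := by ring

/-- **Lemma 6.4**, (obs:terminal-expansion), (obs:terminal-derivative) = `F6.terminal_expansion` -/
theorem terminal_expansion (o : ObsPar) : ∃ δ0 > (0 : ℝ), ∀ δ ∈ Set.Ioc 0 δ0, ∃ κ0 > (0 : ℝ), ∀ κ ∈ Set.Ioc 0 κ0, ∃ (A0 C : ℝ),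
    ∀ (h0 : ℝ≥0) (A ω : ℝ), 0 < h0 → A0 ≤ A → 0 < ω →
    ∀ (G : Geom) (c g : Grid G), Whole c → g.Ok → Nonempty (Nest c g) → 2 * g.m ≤ G.M →
    ∀ Γ : Matrix G.V G.V ℝ, IsTerminal G Fam.entry g.m Γ → ∀ V : Extra g, IsObs o c g V →
    ∀ (col : ℕ) (K J : Act g), Act.Ok ⟨δ, κ, h0, A, ω⟩ col RR K → Act.Ok ⟨δ, κ, h0, A, ω⟩ col RR J →
    ∀ ν v : ℝ, 0 ≤ ν → 0 ≤ v → actNorm ⟨δ, κ, h0, A, ω⟩ g V K ≤ ENNReal.ofReal ν → actNorm ⟨δ, κ, h0, A, ω⟩ g V J ≤ ENNReal.ofReal v →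
      C * (Fintype.card g.I : ℝ) * ν ≤ 1 →
      ‖∑ X : Finset g.I, term ω Γ (K X)‖ ≤ C * (Fintype.card g.I : ℝ) * ν ∧
      ‖term ω Γ (ZA g RR K) - 1 - ∑ X : Finset g.I, term ω Γ (K X)‖ ≤ (C * (Fintype.card g.I : ℝ) * ν) ^ 2 ∧
      ‖term ω Γ (ZA1 g RR K J)‖ ≤ C * (Fintype.card g.I : ℝ) * v := by
  obtain ⟨δ0, hδ0, H⟩ := terminal_regulator o
  obtain ⟨Can, hCan, E⟩ := terminal_expansion_abs
  refine ⟨δ0, hδ0, fun δ hδ => ?_⟩
  obtain ⟨κ0, hκ0, C, H⟩ := H δ hδ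
  refine ⟨κ0, hκ0, fun κ hκ => ⟨4 * Can * (max C 1 : ℝ≥0), 3, ?_⟩⟩
  intro h0 A ω hh hA hω G c g hc hg hN hM Γ hΓ V hV col K J hK hJ ν v hν hv hKb hJb hsm
  obtain ⟨N⟩ := hN
  have hcard : (0 : ℝ) ≤ (Fintype.card g.I : ℝ) := Nat.cast_nonneg _
  have hx : (0 : ℝ) ≤ (Fintype.card g.I : ℝ) * ν := mul_nonneg hcard hν
  have hsm' : (Fintype.card g.I : ℝ) * ν ≤ 1 := by nlinarith
  obtain ⟨e1, e2, e3⟩ := E ⟨δ, κ, h0, A, ω⟩ (max C 1) hh hω (le_max_right _ _) hA G g hg V Γ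
    (fun X X' φ h => ta_obs_add o c g hc hg N V hV X X' φ h) (ta_obs_continuous o c g hg V hV)
    (fun X => (H κ hκ G c g hc hg ⟨N⟩ hM Γ hΓ V hV X).trans
      (pow_le_pow_left₀ zero_le (ENNReal.coe_le_coe.2 (le_max_left _ _)) _))
    col K J hK hJ ν v hν hv hKb hJb hsm'
  refine ⟨e1.trans (by nlinarith), e2.trans ?_, by simpa [mul_assoc] using e3⟩
  have : (Fintype.card g.I : ℝ) * ν ≤ 3 * (Fintype.card g.I : ℝ) * ν := by nlinarith
  exact pow_le_pow_left₀ hx this 2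

end

end Claimed.Agent.R285.Obs
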