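import Claimed.Agent.R285.Obs.PairAlg
import Claimed.Agent.R285.Sp.ConvCopy
import Claimed.Agent.R285.Hol.Tn

/-!
# ROW 285, unit OBS, BP-OBS-L62, package PAIR-COPY, part 1: THE ONE-STEP COPY THEOREM      (architect helper79)   -- KEEP

`pr_copy_step` (PROVED from `pr_Kprime_transport` + `pr_conv_transport`): two volumes, an embedding `E : PEmb P₀ P₁` of a retained pair, a real translation `μ`.  If on a coarse support `Y`
 * the fine activities are copies (`CopyX`) on all `X` with `\bar X ⊆ Y`,   * the designated pieces at the blocks of `Y` are copies (`CopyFn`), the scalars agree,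
 * the covariances agree on the dependence set of `Y`,   * the unit neighbourhood of `E Y` is in the range of `E`,
then `Kprime (..) Y` is a copy.   No estimate, no integrability, no measurability.   Five uses in [F] L6.2 (`Obs/PairPlan.lean` s5); `B8.weak_copy` is a sixth.
-/

set_option autoImplicit false

namespace Claimed.Agent.R285.F6.Pr

open scoped BigOperators ENNReal NNReal
open MeasureTheory ProbabilityTheory
open Claimed.Agent.R285 Claimed.Agent.R285.RG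

noncomputable section

/-- marginals of `gauss` along an arbitrary family of sites -/
theorem prc_gauss_marginal {G : Geom} (Γ : Matrix G.V G.V ℝ) (hΓ : Γ.PosSemidef) {κ : Type} [Fintype κ] [DecidableEq κ] (e : κ → G.V) :
    (gauss G Γ).map (fun (ζ : G.V → ℝ) (x : κ) => ζ (e x))
      = (multivariateGaussian 0 (Γ.submatrix e e)).map (MeasurableEquiv.toLp 2 (κ → ℝ)).symm := by
  rw [← sp_mvg_map e Γ hΓ]
  unfold gauss
  rw [Measure.map_map (by fun_prop) (by fun_prop), Measure.map_map (by fun_prop) (by fun_prop)]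
  rfl

/-- **a Gaussian expectation only sees the covariance on the dependence set**: two volumes, arbitrary injective families of sites, arbitrary complex base points -/
theorem pr_conv_transport {G₀ G₁ : Geom} (Γ₀ : Matrix G₀.V G₀.V ℝ) (Γ₁ : Matrix G₁.V G₁.V ℝ) (hΓ₀ : Γ₀.PosSemidef) (hΓ₁ : Γ₁.PosSemidef)
    {κ : Type} [Fintype κ] [DecidableEq κ] (e₀ : κ → G₀.V) (e₁ : κ → G₁.V) (hi₀ : Function.Injective e₀) (hi₁ : Function.Injective e₁)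
    (hcov : ∀ x y, Γ₀ (e₀ x) (e₀ y) = Γ₁ (e₁ x) (e₁ y)) (F₀ : Fn G₀) (F₁ : Fn G₁) (z₀ : G₀.V → ℂ) (z₁ : G₁.V → ℂ)
    (hF : ∀ (ζ₀ : G₀.V → ℝ) (ζ₁ : G₁.V → ℝ), (∀ x, ζ₀ (e₀ x) = ζ₁ (e₁ x)) → F₀ (z₀ + toC ζ₀) = F₁ (z₁ + toC ζ₁)) :
    conv Γ₀ F₀ z₀ = conv Γ₁ F₁ z₁ := by
  classical
  set R : (G₀.V → ℝ) → (κ → ℝ) := fun ζ x => ζ (e₀ x) with hR
  set R' : (G₁.V → ℝ) → (κ → ℝ) := fun ζ x => ζ (e₁ x) with hR'
  have hRm : Measurable R := by fun_prop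
  have hRm' : Measurable R' := by fun_prop
  let ext : (κ → ℝ) → (G₀.V → ℝ) := fun w v => if h : ∃ x : κ, e₀ x = v then w h.choose else 0
  let ext' : (κ → ℝ) → (G₁.V → ℝ) := fun w v => if h : ∃ x : κ, e₁ x = v then w h.choose else 0
  have hext : ∀ w, R (ext w) = w := by
    intro w; funext x
    have h : ∃ y : κ, e₀ y = e₀ x := ⟨x, rfl⟩
    show (if h : ∃ y : κ, e₀ y = e₀ x then w h.choose else 0) = w x
    rw [dif_pos h]
    congr 1
    exact hi₀ h.choose_spec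
  have hext' : ∀ w, R' (ext' w) = w := by
    intro w; funext x
    have h : ∃ y : κ, e₁ y = e₁ x := ⟨x, rfl⟩
    show (if h : ∃ y : κ, e₁ y = e₁ x then w h.choose else 0) = w x
    rw [dif_pos h]
    congr 1
    exact hi₁ h.choose_spec
  set H : (κ → ℝ) → ℂ := fun w => F₀ (z₀ + toC (ext w)) with hH
  have hFH' : ∀ φ', F₁ (z₁ + toC φ') = H (R' φ') := by
    intro φ'
    exact (hF (ext (R' φ')) φ' (fun x => congrFun (hext (R' φ')) x)).symm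
  have hFH : ∀ φ, F₀ (z₀ + toC φ) = H (R φ) := by
    intro φ
    have h1 := hF φ (ext' (R φ)) (fun x => (congrFun (hext' (R φ)) x).symm)
    rw [h1, hFH', hext']
  have hν : (gauss G₀ Γ₀).map R = (gauss G₁ Γ₁).map R' := by
    rw [hR, hR', prc_gauss_marginal Γ₀ hΓ₀ e₀, prc_gauss_marginal Γ₁ hΓ₁ e₁]
    congr 2
    ext x y
    exact hcov x y
  unfold conv
  simp only [hFH, hFH']
  by_cases hm : AEStronglyMeasurable H ((gauss G₀ Γ₀).map R)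
  · rw [← integral_map hRm.aemeasurable hm, hν, integral_map hRm'.aemeasurable (hν ▸ hm)]
  · rw [integral_non_aestronglyMeasurable, integral_non_aestronglyMeasurable]
    · intro h
      exact hm (hν ▸ sp_aesm_of_comp _ R' hRm' H h)
    · intro h
      exact hm (sp_aesm_of_comp _ R hRm H h)

variable {G₀ G₁ : Geom} {D0 D0' ℓ : ℕ} {P₀ : Pair G₀ D0 ℓ} {P₁ : Pair G₁ D0' ℓ}

theorem prc_blk_surj {G : Geom} {g : Grid G} (hg : g.Ok) (a : g.I) : ∃ v, g.blk v = a := by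
  obtain ⟨i, hi⟩ := hg.surj a.1
  obtain ⟨j, hj⟩ := hg.surj a.2
  exact ⟨(i, j), Prod.ext hi hj⟩

theorem PEmb.Ok.up {E : PEmb P₀ P₁} (hE : E.Ok) (a : P₀.g.I) : P₁.N.up (E.f a) = E.c (P₀.N.up a) := by
  obtain ⟨v, rfl⟩ := prc_blk_surj P₀.ok a
  have h1 : P₁.g.blk (E.s v) = E.f (P₀.g.blk v) := hE.fine.blk v
  have h2 : P₁.g'.blk (E.s v) = E.c (P₀.g'.blk v) := hE.coarse.blk v
  rw [← h1, ← Hol.blk_up, h2, Hol.blk_up]

theorem PEmb.Ok.fib {E : PEmb P₀ P₁} (hE : E.Ok) (a' : P₁.g.I) (b : P₀.g'.I) (h : P₁.N.up a' = E.c b) : a' ∈ Set.range E.f := by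
  obtain ⟨v', rfl⟩ := prc_blk_surj P₁.ok a'
  rw [← Hol.blk_up] at h
  obtain ⟨v, rfl⟩ := hE.coarse.full v' b h
  exact ⟨P₀.g.blk v, (hE.fine.blk v).symm⟩

theorem PEmb.Ok.cl_map {E : PEmb P₀ P₁} (hE : E.Ok) (X : Finset P₀.g.I) : P₁.N.cl (X.map E.f) = (P₀.N.cl X).map E.c := by
  classical
  ext b
  simp only [Nest.cl, Finset.mem_image, Finset.mem_map]
  constructor
  · rintro ⟨_, ⟨a, ha, rfl⟩, rfl⟩
    exact ⟨P₀.N.up a, ⟨a, ha, rfl⟩, (hE.up a).symm⟩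
  · rintro ⟨_, ⟨a, ha, rfl⟩, rfl⟩
    exact ⟨E.f a, ⟨a, ha, rfl⟩, hE.up a⟩

theorem prc_dep_mono {G : Geom} (g : Grid G) (col : ℕ) {X Y : Finset g.I} (h : X ⊆ Y) : dep g col X ⊆ dep g col Y := by
  rintro v ⟨w, hw, hd⟩
  exact ⟨w, Hol.sites_mono g h hw, hd⟩

theorem prc_dep_coarse {G : Geom} {D0 ℓ : ℕ} (P : Pair G D0 ℓ) (col : ℕ) {X : Finset P.g.I} {Y : Finset P.g'.I} (h : P.N.cl X ⊆ Y) :
    dep P.g col X ⊆ dep P.g' col Y := by
  classical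
  rintro v ⟨w, hw, hd⟩
  refine ⟨w, ?_, hd⟩
  simp only [Grid.sites, Finset.mem_filter, Finset.mem_univ, true_and] at hw ⊢
  rw [Hol.blk_up]
  exact h (Finset.mem_image_of_mem _ hw)

theorem prc_strip_mono {G : Geom} {g : Grid G} {h0 : ℝ≥0} {X Y : Finset g.I} (h : X ⊆ Y) {z : G.V → ℂ} (hz : z ∈ strip h0 g Y) :
    z ∈ strip h0 g X := (Hol.tnorm_mono g X Y h _).trans_lt hz

theorem prc_strip_coarse {G : Geom} {D0 ℓ : ℕ} (P : Pair G D0 ℓ) {h0 : ℝ≥0} {X : Finset P.g.I} {Y : Finset P.g'.I} (h : P.N.cl X ⊆ Y)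
    {z : G.V → ℂ} (hz : z ∈ strip h0 P.g' Y) : z ∈ strip h0 P.g X := (Hol.tnorm_coarse P X Y h _).trans_lt hz

/-- **THE ONE-STEP COPY THEOREM** -/
theorem pr_copy_step (E : PEmb P₀ P₁) (hE : E.Ok) (h0 : ℝ≥0) (col r R : ℕ)
    (Γ₀ : Matrix G₀.V G₀.V ℝ) (Γ₁ : Matrix G₁.V G₁.V ℝ) (hΓ₀ : Γ₀.PosSemidef) (hΓ₁ : Γ₁.PosSemidef) (μ : G₀.V → ℝ)
    (K₀ : Act P₀.g) (K₁ : Act P₁.g) (d₀ : Desig P₀.g' (Fn G₀)) (d₁ : Desig P₁.g' (Fn G₁))
    (hd₀ : d₀.Small r P₀.g') (hd₁ : d₁.Small r P₁.g') (Y : Finset P₀.g'.I)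
    (hnb : ∀ b ∈ Y, ∀ b' : P₁.g'.I, P₁.g'.idist (E.c b) b' ≤ 1 → b' ∈ Set.range E.c)
    (hcov : ∀ v ∈ dep P₀.g' col Y, ∀ w ∈ dep P₀.g' col Y, Γ₀ v w = Γ₁ (E.s v) (E.s w))
    (hK : ∀ X : Finset P₀.g.I, P₀.N.cl X ⊆ Y → CopyX E.fine h0 col μ K₀ K₁ X)
    (hF : ∀ b ∈ Y, ∀ Y', CopyFn E.coarse h0 col μ {b} (d₀.F Y' b) (d₁.F (Y'.map E.c) (E.c b)))
    (ha : ∀ b ∈ Y, d₀.a b = d₁.a (E.c b)) :
    CopyX E.coarse h0 col μ (Kprime P₀ r R (conv Γ₀) K₀ d₀) (Kprime P₁ r R (conv Γ₁) K₁ d₁) Y := by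
  classical
  intro z₀ hz₀ z₁ hz₁ hag
  have key := pr_Kprime_transport (Pi.evalRingHom (fun _ : G₀.V → ℂ => ℂ) z₀) (Pi.evalRingHom (fun _ : G₁.V → ℂ => ℂ) z₁)
    E.f E.c hE.fine.dist hE.coarse.dist hE.up hE.fib r R (conv Γ₀) (conv Γ₁) K₀ K₁ d₀ d₁ hd₀ hd₁ Y hnb ?_ ?_ ?_
  · exact key
  · intro V hV
    simp only [Pi.evalRingHom_apply]
    refine pr_conv_transport Γ₀ Γ₁ hΓ₀ hΓ₁ (κ := {v // v ∈ dep P₀.g' col Y}) (fun x => x.1) (fun x => E.s x.1)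
      Subtype.val_injective (fun x y h => Subtype.ext (E.s.injective h)) (fun x y => hcov x.1 x.2 y.1 y.2) _ _ z₀ z₁ ?_
    intro ζ₀ ζ₁ hζ
    rw [Finset.prod_apply, Finset.prod_apply]
    refine Finset.prod_congr rfl fun X hX => ?_
    have hXY : P₀.N.cl X ⊆ Y := (Finset.image_subset_image (Alg.comps_subset hX)).trans hV
    refine hK X hXY _ (Hol.strip_add_toC (prc_strip_coarse P₀ hXY hz₀) ζ₀) _ (Hol.strip_add_toC (prc_strip_coarse P₁ ?_ hz₁) ζ₁) ?_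
    · show P₁.N.cl (X.map E.f) ⊆ Y.map E.c
      rw [hE.cl_map]
      exact Finset.map_subset_map.2 hXY
    · intro v hv
      have hv' := prc_dep_coarse P₀ col hXY hv
      have h1 := hag v hv'
      have h2 := hζ ⟨v, hv'⟩
      show z₁ (E.s v) + toC ζ₁ (E.s v) = z₀ v + toC ζ₀ v + (μ v : ℂ)
      have h1' : z₁ (E.s v) = z₀ v + (μ v : ℂ) := h1
      have h2' : ζ₀ v = ζ₁ (E.s v) := h2
      simp only [toC]
      rw [h1', h2']
      ring
  · intro b hb Y'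
    simp only [Pi.evalRingHom_apply]
    have hbY : ({b} : Finset P₀.g'.I) ⊆ Y := Finset.singleton_subset_iff.2 hb
    refine hF b hb Y' z₀ (prc_strip_mono hbY hz₀) z₁ (prc_strip_mono (Finset.map_subset_map.2 hbY) hz₁) ?_
    intro v hv
    exact hag v (prc_dep_mono _ col hbY hv)
  · intro b hb
    rw [ha b hb]
    simp

end

end Claimed.Agent.R285.F6.Pr
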