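import Claimed.Agent.R285.Obs.PairGeo
import Claimed.Agent.R285.Obs.PairCopy
import Claimed.Agent.R285.F4a.Map
import Claimed.Agent.R285.Ent.Vol

/-!
# ROW 285, unit OBS, BP-OBS-L62: THE SHARED CONTEXT of the blocks of `pair_stop`      (architect helper79).  DEFINITIONS ONLY, no contract, no sorry.   -- KEEP

All blocks (KER, REG, EST-W/D, EST-J/S, COPY, STOP, REC, PLANE, TOP) state their exits against THIS vocabulary + `Obs/PairDefs.lean`.
1. `Nm` = the two norms: centred sector `p0 = (δ, κ, h₀, A, ω)`, unit sector `pT = (δ, κT, h₀, AT, ω)` (weaker: `κ < κT`, `AT e^{Ctr} ≤ A`, regulators `VT ≥ V0`);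
2. `KC`, `Ctx` = one retained step `j → j + 1` of ONE centred free square: `F4a.StepHyp` + `F4a.StepGain` (helper241) in both norms, radii and threshold of the PLANE geometry `pm.c`;
3. the four sizes `nP` (plane part), `nW` (wall), `nD` (defect), `nJ` (label) of a state;
4. the invariants `Inv` (one square), `InvSq` (two squares), `InvTor` (square - torus);
5. the entry state `ent`, the regulators `Tw.IsObs`, the branch `IsBranch`.
-/

set_option autoImplicit false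

namespace Claimed.Agent.R285.F6.Pr

open scoped BigOperators ENNReal NNReal
open MeasureTheory
open Claimed.Agent.R285 Claimed.Agent.R285.RG Claimed.Agent.R285.B4 Claimed.Agent.R285.F4a

noncomputable section

/-! ## 1. The two norms -/

/-- the parameters of the two norms (the period is `pm.ω`) -/
structure Nm where
  δ : ℝ
  κ : ℝ
  κT : ℝ
  h0 : ℝ≥0
  A : ℝ
  AT : ℝ

/-- the norm of the centred sector (= the norm of the plane map) -/
def Nm.p0 (nm : Nm) (ω : ℝ) : Par := ⟨nm.δ, nm.κ, nm.h0, nm.A, ω⟩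

/-- the weaker norm of the unit sector (= the terminal norm `fx.p` of `F6.Stop`) -/
def Nm.pT (nm : Nm) (ω : ℝ) : Par := ⟨nm.δ, nm.κT, nm.h0, nm.AT, ω⟩

/-- elementary conditions -/
structure Nm.Ok (nm : Nm) : Prop where
  δ_pos : 0 < nm.δ
  κ_pos : 0 < nm.κ
  κ_le : nm.κ ≤ nm.κT
  h0_pos : 0 < nm.h0
  AT_ge : 1 ≤ nm.AT
  A_ge : nm.AT ≤ nm.A

/-- admissibility does not see `δ, κ, A` -/
theorem Nm.ok_T {nm : Nm} {ω : ℝ} {col R : ℕ} {G : Geom} {g : Grid G} {K : Act g} (h : Act.Ok (nm.p0 ω) col R K) : Act.Ok (nm.pT ω) col R K :=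
  ⟨fun X => ⟨(h.fn X).hol, (h.fn X).loc, (h.fn X).per⟩, h.poly⟩

theorem Nm.ok_0 {nm : Nm} {ω : ℝ} {col R : ℕ} {G : Geom} {g : Grid G} {K : Act g} (h : Act.Ok (nm.pT ω) col R K) : Act.Ok (nm.p0 ω) col R K :=
  ⟨fun X => ⟨(h.fn X).hol, (h.fn X).loc, (h.fn X).per⟩, h.poly⟩

/-! ## 2. One retained step of one square -/

/-- the named constants of `F4a.StepGain` -/
structure KC where
  Cg : ℝ≥0
  Cd : ℝ≥0
  Cnl : ℝ≥0
  ε0 : ℝ≥0
  η : ℝ≥0
  β : ℝ

/-- the covariance of the step `j → j + 1` -/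
def Gm (G : Geom) (ℓ j : ℕ) : Matrix G.V G.V ℝ := shell G Fam.entry (side G ℓ j) (side G ℓ (j + 1))

/-- the step `j → j + 1` with the regulators of the unit norm -/
def Tw.stepT {G : Geom} {ℓ : ℕ} (T : Tw G ℓ) {D0 j : ℕ} (h : Ret G ℓ D0 j) : B8.Step G D0 ℓ :=
  ⟨pair h, shell G Fam.entry (side G ℓ j) (side G ℓ (j + 1)), T.VT j, T.VT (j + 1)⟩

/-- **the context of one step** `j → j + 1` in one centred free square.  `cT` = per-block cost of the unit norm; `k0`, `kT` = constants of `StepGain` in the two norms -/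
structure Ctx (pm : Prm) (nm : Nm) (cT : ℝ≥0) (k0 kT : KC) {G : Geom} {ℓ : ℕ} (T : Tw G ℓ) {j : ℕ} (h : Ret G ℓ pm.D0 j) : Prop where
  free : G.bc = BC.free
  /-- the centre is a junction of coarse blocks -/
  cen : 2 * (2 ^ ℓ) ^ (j + 1) ∣ G.M
  geo : pm.c.Ok
  nmOk : nm.Ok
  ω_pos : 0 < pm.ω
  hyp0 : StepHyp (nm.p0 pm.ω) pm.c.ρ pm.c.r pm.c.R pm.c.n0 pm.c.Ck pm.c.ck pm.c.cst (pair h) (Gm G ℓ j) (T.V0 j) (T.V0 (j + 1))
  gain0 : StepGain (nm.p0 pm.ω) pm.c.r pm.c.R pm.c.n0 k0.Cg k0.Cd k0.Cnl k0.ε0 k0.η k0.β (pair h) (Gm G ℓ j) (T.V0 j) (T.V0 (j + 1))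
  hypT : StepHyp (nm.pT pm.ω) pm.c.ρ pm.c.r pm.c.R pm.c.n0 pm.c.Ck pm.c.ck cT (pair h) (Gm G ℓ j) (T.VT j) (T.VT (j + 1))
  gainT : StepGain (nm.pT pm.ω) pm.c.r pm.c.R pm.c.n0 kT.Cg kT.Cd kT.Cnl kT.ε0 kT.η kT.β (pair h) (Gm G ℓ j) (T.VT j) (T.VT (j + 1))
  adm0 : (nm.p0 pm.ω).Adm (lev G ℓ j)
  admT : (nm.pT pm.ω).Adm (lev G ℓ j)
  sep0 : (T.V0 j).sep ≤ pm.c.sepV ∧ (T.V0 (j + 1)).sep ≤ pm.c.sepV
  sepT : (T.VT j).sep ≤ pm.c.sepV ∧ (T.VT (j + 1)).sep ≤ pm.c.sepV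
  /-- the microscopic collar -/
  col : 4 * pm.c.col ≤ side G ℓ j
  /-- `L` against the zone constants: small defects sit over the four central coarse blocks -/
  hL : pm.zn.H0 + pm.zn.H1 + pm.c.R * pm.c.n0 + pm.c.ρ + 4 ≤ 2 ^ ℓ
  hH0 : pp + 2 ≤ pm.zn.H0
  hH1 : 3 ≤ pm.zn.H1
  /-- the walls are far from the unit, in coarse blocks -/
  hD : 2 * (pm.zn.H0 + pm.zn.H1 + pm.c.R * pm.c.n0 + 4) ≤ pm.D0

theorem Ctx.cenP {pm : Prm} {nm : Nm} {cT : ℝ≥0} {k0 kT : KC} {G : Geom} {ℓ : ℕ} {T : Tw G ℓ} {j : ℕ} {h : Ret G ℓ pm.D0 j}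
    (H : Ctx pm nm cT k0 kT T h) : Cen (pair h) := prg_pair_cen H.free h H.cen

/-! ## 3. The sizes of a state -/

section sizes

variable {G : Geom} {g : Grid G}

/-- the plane part: scalars + remainder on the wall-free supports -/
def nP (p : Par) (V : Extra g) (H0 : ℕ) (α : ℝ) (t z : ℂ) (x : St g) : ℝ≥0∞ :=
  (‖t‖₊ : ℝ≥0∞) + (‖z‖₊ : ℝ≥0∞) + actNorm p g V (cutA (WallFree g H0) (x.K0 - singleWF g H0 α t z))

/-- `w`: the centred activity on the supports which are not wall-free -/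
def nW (p : Par) (V : Extra g) (H0 : ℕ) (x : St g) : ℝ≥0∞ := actNorm p g V (cutA (fun X => ¬ WallFree g H0 X) x.K0)

/-- `d`: the unit activity, as a function of the fluctuation field `ψ = Ψ - μ`, on the defects -/
def nD (p : Par) (V : Extra g) (H1 : ℕ) (μ : G.V → ℝ) (x : St g) : ℝ≥0∞ := actNorm p g V (cutA (fun X => ¬ ShiftGood g H1 X) (shA x.KT μ))

/-- `vJ`: the labelled activity, as a function of the fluctuation field -/
def nJ (p : Par) (V : Extra g) (μ : G.V → ℝ) (x : St g) : ℝ≥0∞ := actNorm p g V (shA x.JT μ)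

end sizes

/-! ## 4. Invariants -/

/-- the structural invariants of the state of ONE square at one level (no estimate) -/
structure Inv (pm : Prm) (h0 : ℝ≥0) {G : Geom} {g : Grid G} (x : St g) : Prop where
  ok0 : Act.Ok ⟨0, 0, h0, 0, pm.ω⟩ pm.c.col pm.c.R x.K0
  okT : Act.Ok ⟨0, 0, h0, 0, pm.ω⟩ pm.c.col pm.c.R x.KT
  okJ : Act.Ok ⟨0, 0, h0, 0, pm.ω⟩ pm.c.col pm.c.R x.JT
  real0 : Act.Real x.K0
  realT : Act.Real x.KT
  realJ : Act.Real x.JT
  even0 : Act.Even h0 x.K0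
  /-- (ii): on a shift-good support the unit activity is the centred one in any integral gauge of the rectangle spanned by `D_m (X)` -/
  gauge : ∀ X : Finset g.I, ShiftGood g pm.zn.H1 X → ∀ κ : G.V → ℤ, IsGauge g X κ → ∀ z ∈ strip h0 g X, x.KT X z = x.K0 X (z + toC (gF pm.ω κ))
  /-- (iii): the label sits at the unit -/
  label : ∀ X : Finset g.I, ¬ NearUnit g 1 X → ∀ z ∈ strip h0 g X, x.JT X z = 0

/-- admissibility does not see `δ, κ, A` -/
theorem ok_par {h0 : ℝ≥0} {ω : ℝ} {col R : ℕ} {G : Geom} {g : Grid G} {K : Act g} (h : Act.Ok ⟨0, 0, h0, 0, ω⟩ col R K) (δ κ A : ℝ) :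
    Act.Ok ⟨δ, κ, h0, A, ω⟩ col R K :=
  ⟨fun X => ⟨(h.fn X).hol, (h.fn X).loc, (h.fn X).per⟩, h.poly⟩

theorem ok_par' {p : Par} {col R : ℕ} {G : Geom} {g : Grid G} {K : Act g} (h : Act.Ok p col R K) : Act.Ok ⟨0, 0, p.h0, 0, p.ω⟩ col R K :=
  ⟨fun X => ⟨(h.fn X).hol, (h.fn X).loc, (h.fn X).per⟩, h.poly⟩

/-- (i), (ii), (iii) between two centred squares: exact copies, in the TOTAL field, on the supports which are wall-free in the smaller square -/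
structure InvSq (pm : Prm) (h0 : ℝ≥0) {G₀ G₁ : Geom} {g₀ : Grid G₀} {g₁ : Grid G₁} (E : GEmb g₀ g₁) (x₀ : St g₀) (x₁ : St g₁) : Prop where
  c0 : ∀ X, WallFree g₀ pm.zn.H0 X → CopyX E h0 pm.c.col 0 x₀.K0 x₁.K0 X
  cT : ∀ X, WallFree g₀ pm.zn.H0 X → CopyX E h0 pm.c.col 0 x₀.KT x₁.KT X
  cJ : ∀ X, WallFree g₀ pm.zn.H0 X → CopyX E h0 pm.c.col 0 x₀.JT x₁.JT X

/-- (i): on wall-free supports the centred activity is the plane state `(t, z, Rt)`, `Rt` = the plane remainder on a big torus -/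
def InvTor (pm : Prm) (h0 : ℝ≥0) {G₀ G₁ : Geom} {g₀ : Grid G₀} {g₁ : Grid G₁} (E : GEmb g₀ g₁) (t z : ℂ) (x₀ : St g₀) (Rt : Act g₁) : Prop :=
  ∀ X, WallFree g₀ pm.zn.H0 X → CopyX E h0 pm.c.col 0 (x₀.K0 - singleWF g₀ pm.zn.H0 pm.α t z) Rt X

/-! ## 5. Entry, regulators, branch -/

/-- the volume of ENTRY: the square `G`, cells of side `s`, blocks of the level `j0`.  `(volE ..).g` IS `lev G ℓ j0`. -/
def volE (G : Geom) (ℓ j0 s : ℕ) (hs : s ∣ side G ℓ j0) : F4b.Vol := ⟨G, s, side G ℓ j0, hs, side_dvd G ℓ j0⟩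

/-- the entry state -/
def ent (D : F4b.EntryData) (b0 : ℝ) (G : Geom) (ℓ j0 s : ℕ) (hs : s ∣ side G ℓ j0) : St (lev G ℓ j0) :=
  ⟨D.K0 (volE G ℓ j0 s hs) b0, D.KT (volE G ℓ j0 s hs), D.JT (volE G ℓ j0 s hs)⟩

/-- the regulators are the observation regulators `o` (centred norm), `oT` (unit norm) with the cells `c`, from the level `j0` on -/
structure Tw.IsObs {G : Geom} {ℓ : ℕ} (T : Tw G ℓ) (o oT : ObsPar) (c : Grid G) (j0 : ℕ) : Prop where
  V0 : ∀ j, j0 ≤ j → F4a.IsObs o c (lev G ℓ j) (T.V0 j)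
  VT : ∀ j, j0 ≤ j → F4a.IsObs oT c (lev G ℓ j) (T.VT j)
  sep0 : ∀ j, j0 ≤ j → (T.V0 j).sep ≤ 2 * pp + 8
  sepT : ∀ j, j0 ≤ j → (T.VT j).sep ≤ 2 * pp + 8

/-- `η = ∇ v + 2π τ` is co-closed, including at the free boundary (`= F6.SqData.Ok.coclosed`) -/
def IsBranch (G : Geom) (v : G.V → ℝ) : Prop :=
  ∀ f : G.V → ℝ, ∑ e : G.V × Bool, etaE (G.M / 2) v e * (f (stp e.1 e.2) - f e.1) = 0

/-- the background of the fluctuation field: `μ = v / α` -/
def bg (pm : Prm) {G : Geom} (v : G.V → ℝ) : G.V → ℝ := fun x => v x / pm.α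

/-- the local lift `λ_X = v / α + ω κ_X` of a shift-good support -/
def lamX (pm : Prm) {G : Geom} (g : Grid G) (v : G.V → ℝ) (X : Finset g.I) : G.V → ℝ := bg pm v + gF pm.ω (gaugeOf g pm.zn.H1 X)

end

end Claimed.Agent.R285.F6.Pr
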