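import Claimed.Agent.R285.Obs.PairJ
import Claimed.Agent.R285.Obs.PairCtx
import Claimed.Agent.R285.Ker.Img

/-!
# ROW 285, unit OBS, BP-OBS-L62, block EST-J: the exit of `Obs/PairJ.lean` in the vocabulary of `Obs/PairCtx.lean` (`Ctx`, `Inv`, `nJ`)      (helper8)   -- KEEP
No sorry in this file.
* `prj_shF_local`, `prj_shA_ok`, `prj_shA_ok_iff`, `prj_shA_shA`, `prj_shA_neg`: real translations preserve admissibility;
* `cT_geo pm cT` = the geometry `pm.c` with the per-block cost `cT` of the unit norm (`next`, `dT`, `dJ`, `small` do not see `cst`: `rfl`);  `prj_jctx : Ctx → JCtx (cT_geo pm cT) pT (T.stepT h)`;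
* **`prj_label_ctx`** : `Ctx` + `Inv` + (K1) `JChg` + (R4) `href` + DESIG-T (`(shD dT μ).Ok`, size `≤ Cd ε`, `‖shA KT μ‖ ≤ ε < ε₀`)  ⟹  `okJ` of the next state and
  `nJ' ≤ (Cp gJ + η + Cnl ε (1 + 2 Cp cstN)) nJ`;
* `prj_label_inv` : `Inv.label` of the next state;
* `prj_diag_K1`, `prj_chg_K1`, `prj_chg_tower`: (K1) `Ker.ker_free_diag` ⟹ `L² e^{-k₀ Γ(v,v)/2} ≤ Cγ` ⟹ `JChg` (order: `Cγ`; `h₀, αmax`; `ℓ ≥ ℓ0`).
-/

set_option autoImplicit false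

namespace Claimed.Agent.R285.F6.Pr

open scoped BigOperators ENNReal NNReal
open MeasureTheory
open Claimed.Agent.R285 Claimed.Agent.R285.RG Claimed.Agent.R285.B4 Claimed.Agent.R285.F4a

noncomputable section

variable {G : Geom}

/-! ## 1. Real translations preserve admissibility -/

theorem prj_shF_local {p : Par} {col : ℕ} {g : Grid G} {X : Finset g.I} {F : Fn G} (h : LocalFn p col g X F) (lam : G.V → ℝ) :
    LocalFn p col g X (shF F lam) where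
  hol := by
    have h1 : DifferentiableOn ℂ (fun z : G.V → ℂ => z + toC lam) (strip p.h0 g X) := by fun_prop
    exact h.hol.comp h1 fun z hz => Hol.strip_add_toC hz lam
  loc := fun z hz z' hz' hzz => h.loc _ (Hol.strip_add_toC hz lam) _ (Hol.strip_add_toC hz' lam) fun v hv => by
    simp only [Pi.add_apply, hzz v hv]
  per := fun z hz => by
    have e : (fun v => z v + (p.ω : ℂ)) + toC lam = fun v => (z + toC lam) v + (p.ω : ℂ) := by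
      funext v
      simp only [Pi.add_apply]
      ring
    show F ((fun v => z v + (p.ω : ℂ)) + toC lam) = F (z + toC lam)
    rw [e]
    exact h.per _ (Hol.strip_add_toC hz lam)

theorem prj_shA_ok {p : Par} {col R : ℕ} {g : Grid G} {K : Act g} (h : Act.Ok p col R K) (lam : G.V → ℝ) : Act.Ok p col R (shA K lam) where
  fn := fun X => prj_shF_local (h.fn X) lam
  poly := fun X hX => by
    show shF (K X) lam = 0
    rw [h.poly X hX]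
    rfl

theorem prj_shA_shA {g : Grid G} (K : Act g) (lam lam' : G.V → ℝ) : shA (shA K lam) lam' = shA K (lam' + lam) := by
  funext X z
  show K X (z + toC lam' + toC lam) = K X (z + toC (lam' + lam))
  rw [Hol.toC_add, add_assoc]

theorem prj_shA_neg {g : Grid G} (K : Act g) (lam : G.V → ℝ) : shA (shA K lam) (-lam) = K := by
  rw [prj_shA_shA]
  funext X z
  show K X (z + toC (-lam + lam)) = K X z
  rw [neg_add_cancel, Hol.toC_zero, add_zero]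

theorem prj_shA_ok_iff {p : Par} {col R : ℕ} {g : Grid G} {K : Act g} (lam : G.V → ℝ) : Act.Ok p col R (shA K lam) ↔ Act.Ok p col R K :=
  ⟨fun h => by have := prj_shA_ok h (-lam); rwa [prj_shA_neg] at this, fun h => prj_shA_ok h lam⟩

/-! ## 2. The context -/

/-- the plane geometry with the per-block cost of the unit norm -/
def cT_geo (pm : Prm) (cT : ℝ≥0) : B8.Geo := { pm.c with cst := cT }

theorem cT_geo_cite : True := by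
  have := @cT_geo.eq_1
  trivial

variable {pm : Prm} {nm : Nm} {cT : ℝ≥0} {k0 kT : KC} {ℓ : ℕ} {T : Tw G ℓ} {j : ℕ} {h : Ret G ℓ pm.D0 j}

/-- the paired step sees neither the regulators nor `cst` -/
theorem prj_next_T (t z : ℂ) (Ψ : G.V → ℝ) (x : St (lev G ℓ j)) :
    next (T.step h) pm.c pm.ω pm.zn t z Ψ x = next (T.stepT h) (cT_geo pm cT) pm.ω pm.zn t z Ψ x := rfl

theorem prj_dT_T (t z : ℂ) (Ψ : G.V → ℝ) (K0 KT : Act (lev G ℓ j)) :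
    dT (T.step h) pm.c pm.ω pm.zn t z Ψ K0 KT = dT (T.stepT h) (cT_geo pm cT) pm.ω pm.zn t z Ψ K0 KT := rfl

theorem prj_jctx (H : Ctx pm nm cT k0 kT T h) : JCtx (cT_geo pm cT) (nm.pT pm.ω) (T.stepT h) where
  hyp := H.hypT
  hω := H.ω_pos
  hh := H.nmOk.h0_pos
  hA := H.nmOk.AT_ge
  hR := by
    have h1 := H.geo.hs
    have h2 := H.geo.hrR
    have h3 : (T.VT j).sep ≤ pm.c.sepV := H.sepT.1
    show max 5 (T.VT j).sep ≤ pm.c.R
    omega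

/-! ## 3. EXIT -/

/-- **EST-J in the vocabulary of `PairCtx`.** -/
theorem prj_label_ctx (H : Ctx pm nm cT k0 kT T h) {Cγ αmax : ℝ} (hc : JChg (nm.pT pm.ω) (T.stepT h) kT.β Cγ αmax) (t z : ℂ) (μ : G.V → ℝ)
    (x : St (lev G ℓ j)) (hx : Inv pm nm.h0 x) {ηr : ℝ≥0} (hη0 : 0 < ηr) (hη : ηr < nm.h0)
    (href : ∀ X ∈ (T.step h).small pm.c, NearUnit (lev G ℓ j) 1 X → ∃ a : ℝ, tnorm (lev G ℓ j) X (fun v => (pm.ref G v - μ v) - a) ≤ ηr)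
    (hfin : nJ (nm.pT pm.ω) (T.VT j) μ x ≠ ⊤) {Cp : ℕ} (hCp : JCount pm.c (T.step h) Cp) (hCd : 0 < kT.Cd) {ε : ℝ≥0} (hε : ε < kT.ε0)
    (hKε : actNorm (nm.pT pm.ω) (lev G ℓ j) (T.VT j) (shA x.KT μ) ≤ ε)
    (hd : (shD (dT (T.step h) pm.c pm.ω pm.zn t z (pm.ref G) x.K0 x.KT) μ).Ok (nm.pT pm.ω) pm.c.col pm.c.r)
    (hdε : (shD (dT (T.step h) pm.c pm.ω pm.zn t z (pm.ref G) x.K0 x.KT) μ).size (nm.pT pm.ω) (T.VT (j + 1)) ≤ kT.Cd * ε) :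
    Act.Ok ⟨0, 0, nm.h0, 0, pm.ω⟩ pm.c.col pm.c.R (next (T.step h) pm.c pm.ω pm.zn t z (pm.ref G) x).JT ∧
    nJ (nm.pT pm.ω) (T.VT (j + 1)) μ (next (T.step h) pm.c pm.ω pm.zn t z (pm.ref G) x)
      ≤ (Cp * gJ (cT_geo pm cT) (nm.pT pm.ω) ℓ kT.Cg Cγ αmax ηr + kT.η + kT.Cnl * ε * (1 + 2 * Cp * cstN (cT_geo pm cT)))
          * nJ (nm.pT pm.ω) (T.VT j) μ x := by
  have hJ : JIn (cT_geo pm cT) (nm.pT pm.ω) (T.stepT h) (shA x.JT μ) (pm.ref G - μ) ηr :=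
    { ok := prj_shA_ok (ok_par hx.okJ _ _ _) μ
      fin := hfin
      loc := fun X hX w hw => hx.label X hX _ (Hol.strip_add_toC hw μ)
      ref := href
      η_pos := hη0
      η_lt := hη }
  obtain ⟨h1, h2⟩ := prj_label_step (prj_jctx H) H.gainT hc pm.zn t z (pm.ref G) μ x hJ hCp hCd hε
    (prj_shA_ok (ok_par hx.okT _ _ _) μ) hKε hd hdε
  exact ⟨ok_par' ((prj_shA_ok_iff μ).1 h1), h2⟩

/-- `Inv.label` is propagated -/
theorem prj_label_inv (H : Ctx pm nm cT k0 kT T h) (t z : ℂ) (Ψ : G.V → ℝ) (x : St (lev G ℓ j)) (hx : Inv pm nm.h0 x)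
    (hsm : (dT (T.step h) pm.c pm.ω pm.zn t z Ψ x.K0 x.KT).Small pm.c.r (lev G ℓ (j + 1))) :
    ∀ Y : Finset (lev G ℓ (j + 1)).I, ¬ NearUnit (lev G ℓ (j + 1)) 1 Y → ∀ w ∈ strip nm.h0 (lev G ℓ (j + 1)) Y,
      (next (T.step h) pm.c pm.ω pm.zn t z Ψ x).JT Y w = 0 :=
  prj_label_loc (S := T.step h) (c := pm.c) H.cenP (by have := H.hL; omega) nm.h0 H.nmOk.h0_pos pm.ω pm.zn t z Ψ x hsm
    (prj_dJ_small (prj_jctx H) pm.ω Ψ x.JT) hx.label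

/-! ## 4. (K1) ⟹ `JChg` -/

/-- **(K1) in the form used by the charge sums**: `L² e^{-k₀ Γ (v, v) / 2} ≤ Cγ`, every boundary convention, `Cγ` independent of `L`, of the side, of the volume and of the point (PROVED from `Ker.ker_free_diag`) -/
theorem prj_diag_K1 : ∃ Cγ : ℝ, 0 < Cγ ∧ ∀ (ℓ : ℕ) (G : Geom) (u : ℕ), 1 ≤ u → 64 * (2 ^ ℓ * u) < G.M → ∀ v : G.V,
    ((2 : ℝ) ^ ℓ) ^ 2 * Real.exp (-B8.k0 * shell G Fam.entry u (2 ^ ℓ * u) v v / 2) ≤ Cγ := by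
  obtain ⟨C, hC⟩ := Ker.ker_free_diag
  refine ⟨Real.exp (4 * Real.pi * C), Real.exp_pos _, fun ℓ G u hu hM v => ?_⟩
  have h1 := hC ℓ G u hu hM v
  set γ := shell G Fam.entry u (2 ^ ℓ * u) v v with hγ
  have hpi := Real.pi_pos
  have e1 : ((2 : ℝ) ^ ℓ) ^ 2 = Real.exp (2 * (ℓ * Real.log 2)) := by
    rw [← pow_mul, mul_comm ℓ 2, ← mul_assoc, mul_comm (2 : ℝ) (ℓ : ℝ), ← Nat.cast_ofNat (R := ℝ), ← Nat.cast_mul, mul_comm ℓ 2, Real.exp_nat_mul,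
      Real.exp_log (by norm_num)]
  rw [e1, ← Real.exp_add]
  apply Real.exp_le_exp.2
  unfold B8.k0
  have h2 : 4 * Real.pi * (ℓ * Real.log 2 / (2 * Real.pi) - C) ≤ 4 * Real.pi * γ := mul_le_mul_of_nonneg_left h1 (by positivity)
  have e2 : 4 * Real.pi * (ℓ * Real.log 2 / (2 * Real.pi) - C) = 2 * (ℓ * Real.log 2) - 4 * Real.pi * C := by
    field_simp
    ring
  rw [e2] at h2
  linarith

/-- **`JChg` from (K1)**: `Cγ` first; then `h₀`, `αmax`; then `L ≥ L₀` -/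
theorem prj_chg_K1 : ∃ Cγ : ℝ, 0 < Cγ ∧ ∀ (h0 : ℝ≥0) (αmax : ℝ), ∃ ℓ0 : ℕ, ∀ ℓ ≥ ℓ0, ∀ (p : Par) (β : ℝ), p.h0 = h0 → 0 < β → β ^ 2 = B8.k0 →
    β ≤ 2 * Real.pi / p.ω → 2 * Real.pi / p.ω ≤ αmax → ∀ (G : Geom) (D0 : ℕ) (S : B8.Step G D0 ℓ) (u : ℕ), 1 ≤ u →
      S.Γ = shell G Fam.entry u (2 ^ ℓ * u) → 64 * (2 ^ ℓ * u) < G.M → JChg p S β Cγ αmax := by
  obtain ⟨Cγ, hCγ, H⟩ := prj_diag_K1
  refine ⟨Cγ, hCγ, fun h0 αmax => ?_⟩
  obtain ⟨ℓ0, hℓ0⟩ := B8.wg_pow (2 * Cγ ^ 2 * Real.exp (h0 * αmax) + 1)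
  refine ⟨ℓ0, fun ℓ hℓ p β hp hβ hβ2 hβα hα G D0 S u hu hS hM => ⟨hβ, hβα, hα, fun v => ?_, ?_⟩⟩
  · rw [hβ2, hS]
    exact H ℓ G u hu hM v
  · rw [hp]
    have hL := hℓ0 ℓ hℓ
    set L : ℝ := (2 : ℝ) ^ ℓ with hLdef
    set E : ℝ := Real.exp (h0 * αmax) with hE
    have hE0 : 0 < E := Real.exp_pos _
    have hL1 : 1 ≤ L := by nlinarith [sq_nonneg Cγ]
    have hL4 : L ≤ (L ^ 2) ^ 2 := by
      have h2 : L ≤ L ^ 2 := by nlinarith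
      have h3 : L ^ 2 ≤ (L ^ 2) ^ 2 := by nlinarith
      linarith
    rw [div_pow, div_mul_eq_mul_div, div_le_iff₀ (by positivity)]
    nlinarith

/-- `JChg` for the step `j → j + 1` of a tower -/
theorem prj_chg_tower : ∃ Cγ : ℝ, 0 < Cγ ∧ ∀ (h0 : ℝ≥0) (αmax : ℝ), ∃ ℓ0 : ℕ, ∀ ℓ ≥ ℓ0, ∀ (p : Par) (β : ℝ), p.h0 = h0 → 0 < β → β ^ 2 = B8.k0 →
    β ≤ 2 * Real.pi / p.ω → 2 * Real.pi / p.ω ≤ αmax → ∀ (G : Geom) (D0 j : ℕ) (T : Tw G ℓ) (h : Ret G ℓ D0 j), 64 ≤ D0 →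
      JChg p (T.stepT h) β Cγ αmax := by
  obtain ⟨Cγ, hCγ, H⟩ := prj_chg_K1
  refine ⟨Cγ, hCγ, fun h0 αmax => ?_⟩
  obtain ⟨ℓ0, H⟩ := H h0 αmax
  refine ⟨ℓ0, fun ℓ hℓ p β hp hβ hβ2 hβα hα G D0 j T h hD => ?_⟩
  have hs : side G ℓ (j + 1) = 2 ^ ℓ * side G ℓ j := (pair h).hS
  refine H ℓ hℓ p β hp hβ hβ2 hβα hα G D0 (T.stepT h) (side G ℓ j) (side_pos G ℓ j) ?_ ?_
  · show shell G Fam.entry (side G ℓ j) (side G ℓ (j + 1)) = _
    rw [hs]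
  · rw [← hs]
    have h1 : D0 * side G ℓ (j + 1) < G.M := (pair h).clear
    calc 64 * side G ℓ (j + 1) ≤ D0 * side G ℓ (j + 1) := Nat.mul_le_mul_right _ hD
      _ < G.M := h1

end

end Claimed.Agent.R285.F6.Pr
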