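import Claimed.Agent.R285.Obs.PairStep
import Claimed.Agent.R285.Map.WDes

/-!
# ROW 285, unit OBS, BP-OBS-L62, block COPY, item C6: THE PAIRED STEP PRESERVES REALITY AND EVENNESS      (helper241 for helper79)   -- KEEP

NO `sorry` IN THIS FILE.  No estimate, no integrability.  Prefix `prp_`.
`Act.Real K` = "real at REAL fields" (no statement at complex fields), so everything is done at real fields:
* a Gaussian convolution / a charge projection at a real field only sees real fields (`prp_conv_real`, `prp_Hq_conj`);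
* `DX` of a function which is holomorphic near `0` and real at real fields is real (`prp_DX_real`: `B8.wcm_d2_line` + "the derivative at a real point of a function which is real on the real axis is real", `prp_deriv_real`, true without differentiability);
* `Kprime` at a real field: `pr_Kprime_transport` with the ring homs `ev_φ`, `conj ∘ ev_φ` (`prp_Kprime_real`);
* the label: `s ↦ famT s Y φ` is real for real `s`, `prp_deriv_real` again.
Evenness: `pr_Kprime_transport` with `ev_{-w}`, `ev_w`; the pieces of the centred sector are even at ALL fields; `K0` is used in the strips only.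
EXITS (vocabulary of `Obs/PairCtx.lean`): `pr_real_step`, `pr_even_step`.   General step: `prp_next_real`, `prp_next_even`.
-/

set_option autoImplicit false

namespace Claimed.Agent.R285.F6.Pr

open scoped BigOperators ENNReal NNReal
open MeasureTheory
open Claimed.Agent.R285 Claimed.Agent.R285.RG Claimed.Agent.R285.B4 Claimed.Agent.R285.F4a

noncomputable section

/-! ## 1. Mathlib level -/

/-- the derivative at a real point of a function which is real on the real axis is real (no differentiability needed) -/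
theorem prp_deriv_real {f : ℂ → ℂ} (h : ∀ s : ℝ, (f s).im = 0) (x : ℝ) : (deriv f x).im = 0 := by
  by_cases hd : DifferentiableAt ℂ f x
  · have h1 : HasDerivAt (fun y : ℝ => f y) (deriv f x) x := hd.hasDerivAt.comp_ofReal
    have h2 : HasDerivAt (fun y : ℝ => (f y).im) (deriv f x).im x :=
      Complex.imCLM.hasFDerivAt.comp_hasDerivAt x h1
    have h3 : (fun y : ℝ => (f y).im) = fun _ => 0 := funext h
    rw [h3] at h2
    exact h2.unique (hasDerivAt_const x (0 : ℝ))
  · rw [deriv_zero_of_not_differentiableAt hd]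
    rfl

theorem prp_deriv_real0 {f : ℂ → ℂ} (h : ∀ s : ℝ, (f s).im = 0) : (deriv f 0).im = 0 := by
  simpa using prp_deriv_real h 0

theorem prp_integral_real {α : Type} [MeasurableSpace α] (μ : Measure α) {f : α → ℂ} (h : ∀ a, (f a).im = 0) : (∫ a, f a ∂μ).im = 0 := by
  rw [← Complex.conj_eq_iff_im, ← integral_conj]
  exact integral_congr_ae (Filter.Eventually.of_forall fun a => Complex.conj_eq_iff_im.2 (h a))

variable {G : Geom}

/-! ## 2. Functions which are real at real fields -/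

/-- real at real fields -/
def RealFn (F : Fn G) : Prop := ∀ φ : G.V → ℝ, (F (toC φ)).im = 0

theorem prp_toC_add (φ ζ : G.V → ℝ) : toC φ + toC ζ = toC (φ + ζ) := by
  funext v
  simp [toC]

theorem prp_toC_zero : (toC (0 : G.V → ℝ)) = 0 := by
  funext v
  simp [toC]

theorem prp_toC_conj (φ : G.V → ℝ) : (fun v => starRingEnd ℂ (toC φ v)) = toC φ := by
  funext v
  simp [toC]

theorem RealFn.conj {F : Fn G} (h : RealFn F) (φ : G.V → ℝ) : starRingEnd ℂ (F (toC φ)) = F (toC φ) := Complex.conj_eq_iff_im.2 (h φ)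

theorem prp_real_of_conj {F : Fn G} (h : ∀ φ : G.V → ℝ, starRingEnd ℂ (F (toC φ)) = F (toC φ)) : RealFn F :=
  fun φ => Complex.conj_eq_iff_im.1 (h φ)

theorem RealFn.zero_im {F : Fn G} (h : RealFn F) : (F 0).im = 0 := by
  have := h 0
  rwa [prp_toC_zero] at this

theorem RealFn.add {F F' : Fn G} (h : RealFn F) (h' : RealFn F') : RealFn (F + F') := fun φ => by
  rw [Pi.add_apply, Complex.add_im, h φ, h' φ, add_zero]

theorem RealFn.sub {F F' : Fn G} (h : RealFn F) (h' : RealFn F') : RealFn (F - F') := fun φ => by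
  rw [Pi.sub_apply, Complex.sub_im, h φ, h' φ, sub_zero]

theorem RealFn.smul {F : Fn G} (h : RealFn F) {a : ℂ} (ha : a.im = 0) : RealFn (a • F) := fun φ => by
  rw [Pi.smul_apply, smul_eq_mul, Complex.mul_im, h φ, ha]
  ring

theorem prp_real_zero : RealFn (0 : Fn G) := fun _ => rfl

theorem prp_real_const {a : ℂ} (ha : a.im = 0) : RealFn (fun _ : G.V → ℂ => a) := fun _ => ha

theorem prp_real_sum {ι : Type} (s : Finset ι) {F : ι → Fn G} (h : ∀ i ∈ s, RealFn (F i)) : RealFn (∑ i ∈ s, F i) := fun φ => by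
  rw [Finset.sum_apply, Complex.im_sum]
  exact Finset.sum_eq_zero fun i hi => h i hi φ

theorem prp_real_prod {ι : Type} (s : Finset ι) {F : ι → Fn G} (h : ∀ i ∈ s, RealFn (F i)) : RealFn (∏ i ∈ s, F i) :=
  prp_real_of_conj fun φ => by
    rw [Finset.prod_apply, map_prod]
    exact Finset.prod_congr rfl fun i hi => (h i hi).conj φ

theorem prp_im_sum {ι : Type} (s : Finset ι) {a : ι → ℂ} (h : ∀ i ∈ s, (a i).im = 0) : (∑ i ∈ s, a i).im = 0 := by
  rw [Complex.im_sum]
  exact Finset.sum_eq_zero h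

theorem prp_im_mul {a b : ℂ} (ha : a.im = 0) (hb : b.im = 0) : (a * b).im = 0 := by
  rw [Complex.mul_im, ha, hb]
  ring

theorem prp_im_card (n : ℕ) : (1 / (n : ℂ)).im = 0 := by
  rw [← Complex.conj_eq_iff_im]
  simp

theorem prp_im_half {t : ℂ} (ht : t.im = 0) : (t / 2).im = 0 := by
  rw [← Complex.conj_eq_iff_im] at ht ⊢
  rw [map_div₀, ht, Complex.conj_ofNat]

theorem prp_real_shF {F : Fn G} (h : RealFn F) (lam : G.V → ℝ) : RealFn (shF F lam) := fun φ => by
  unfold shF
  rw [prp_toC_add]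
  exact h _

theorem prp_conv_real (Γ : Matrix G.V G.V ℝ) {F : Fn G} (h : RealFn F) : RealFn (conv Γ F) := fun φ => by
  unfold conv
  refine prp_integral_real _ fun ζ => ?_
  rw [prp_toC_add]
  exact h _

theorem prp_eBC_real (g : Grid G) (B : g.I) : RealFn (eBC g B) :=
  prp_real_of_conj fun φ => by rw [← B8.w_eBC_conj, prp_toC_conj]

theorem prp_cBC_real (g : Grid G) (α : ℝ) (B : g.I) : RealFn (cBC g α B) :=
  prp_real_of_conj fun φ => by rw [← B8.w_cBC_conj, prp_toC_conj]

/-- the second derivative in real directions -/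
theorem prp_DX_real (g : Grid G) (v0 : G.V) {H : Fn G} {U : Set (G.V → ℂ)} (hU : IsOpen U) (h0 : (0 : G.V → ℂ) ∈ U) (hH : DifferentiableOn ℂ H U)
    (hR : RealFn H) (i j : Fin 2) : (DX g v0 H i j).im = 0 := by
  unfold DX
  rw [B8.wcm_d2_line hU h0 hH]
  refine prp_deriv_real0 fun s => prp_deriv_real0 fun t => ?_
  have e : ((s : ℂ) • toC (ell g v0 i) + (t : ℂ) • toC (ell g v0 j)) = toC (s • ell g v0 i + t • ell g v0 j) := by
    funext v
    simp [toC]
  rw [e]
  exact hR _

theorem prp_Loc_real (g : Grid G) (X : Finset g.I) (v0 : G.V) {H : Fn G} (h0 : (H 0).im = 0) (hD : ∀ i j, (DX g v0 H i j).im = 0) (B : g.I) :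
    RealFn (Loc g X v0 H B) :=
  prp_real_of_conj fun φ => by
    rw [← B8.w_des4_Loc_conj g X v0 H H B (toC φ) (Complex.conj_eq_iff_im.2 h0).symm (fun i j => (Complex.conj_eq_iff_im.2 (hD i j)).symm),
      prp_toC_conj]

/-! ## 3. The neutral and charged parts -/

section step

variable {D0 ℓ : ℕ} (S : B8.Step G D0 ℓ) (c : B8.Geo) (ω : ℝ)

/-- at a real field `H_q` only sees the activity at real fields -/
theorem prp_Hq_congr (q : ℤ) {K K' : Act S.P.g} (X : Finset S.P.g.I) (h : ∀ ψ : G.V → ℝ, K X (toC ψ) = K' X (toC ψ)) (φ : G.V → ℝ) :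
    S.Hq ω q K X (toC φ) = S.Hq ω q K' X (toC φ) := by
  unfold B8.Step.Hq conv
  refine integral_congr_ae (Filter.Eventually.of_forall fun ζ => ?_)
  show chargeProj ω q (K X) (toC φ + toC ζ) = chargeProj ω q (K' X) (toC φ + toC ζ)
  unfold chargeProj
  congr 1
  refine intervalIntegral.integral_congr fun t _ => ?_
  show _ * K X _ = _ * K' X _
  congr 1
  have e : (fun v => (toC φ + toC ζ) v + (t : ℂ)) = toC (fun v => φ v + ζ v + t) := by
    funext v
    simp [toC]
  rw [e]
  exact h _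

/-- complex conjugation exchanges the charges `± q` -/
theorem prp_Hq_conj (q : ℤ) {K : Act S.P.g} (hK : Act.Real K) (X : Finset S.P.g.I) (φ : G.V → ℝ) :
    starRingEnd ℂ (S.Hq ω q K X (toC φ)) = S.Hq ω (-q) K X (toC φ) := by
  have h1 := B8.w_Hq_conj S ω (-q) K X (toC φ)
  rw [neg_neg, prp_toC_conj] at h1
  rw [← h1]
  refine prp_Hq_congr S ω (-q) X (fun ψ => ?_) φ
  show starRingEnd ℂ (K X fun v => starRingEnd ℂ (toC ψ v)) = K X (toC ψ)
  rw [prp_toC_conj]
  exact Complex.conj_eq_iff_im.2 (hK X ψ)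

theorem prp_Hq0_real {K : Act S.P.g} (hK : Act.Real K) (X : Finset S.P.g.I) : RealFn (S.Hq ω 0 K X) :=
  prp_real_of_conj fun φ => by rw [prp_Hq_conj S ω 0 hK X φ, neg_zero]

theorem prp_Hq1_real {K : Act S.P.g} (hK : Act.Real K) (X : Finset S.P.g.I) : (S.Hq ω 1 K X 0 + S.Hq ω (-1) K X 0).im = 0 := by
  rw [← Complex.conj_eq_iff_im, map_add, ← prp_toC_zero, prp_Hq_conj S ω 1 hK X 0, prp_Hq_conj S ω (-1) hK X 0, neg_neg, add_comm]

/-- the plane piece is real -/
theorem prp_piece_real {Rm : Act S.P.g} (hR : Act.Real Rm) (X : Finset S.P.g.I) (B : S.P.g.I) {U : Set (G.V → ℂ)} (hU : IsOpen U) (h0 : (0 : G.V → ℂ) ∈ U)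
    (hH : DifferentiableOn ℂ (S.Hq ω 0 Rm X) U) : RealFn (S.piece ω true Rm X B) := by
  unfold B8.Step.piece
  refine (prp_Loc_real _ _ _ (prp_Hq0_real S ω hR X).zero_im (prp_DX_real _ _ hU h0 hH (prp_Hq0_real S ω hR X)) B).add ?_
  rw [if_pos rfl]
  exact (prp_cBC_real _ _ _).smul (prp_im_mul (prp_im_card _) (prp_Hq1_real S ω hR X))

end step

/-! ## 4. `Kprime` at real fields -/

section kprime

variable {D0 ℓ : ℕ}

/-- **`Kprime` of real data is real** -/
theorem prp_Kprime_real (P : Pair G D0 ℓ) (r R : ℕ) (Γ : Matrix G.V G.V ℝ) {K : Act P.g} {d : Desig P.g' (Fn G)} (hd : d.Small r P.g')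
    (hK : Act.Real K) (hF : ∀ Y b, RealFn (d.F Y b)) (ha : ∀ b, (d.a b).im = 0) : Act.Real (Kprime P r R (conv Γ) K d) := by
  classical
  intro Y φ
  rw [← Complex.conj_eq_iff_im]
  have key := pr_Kprime_transport ((starRingEnd ℂ).comp (Pi.evalRingHom (fun _ : G.V → ℂ => ℂ) (toC φ))) (Pi.evalRingHom (fun _ : G.V → ℂ => ℂ) (toC φ))
    (Function.Embedding.refl P.g.I) (Function.Embedding.refl P.g'.I) (fun _ _ => rfl) (fun _ _ => rfl) (fun _ => rfl) (fun a' _ _ => ⟨a', rfl⟩) r R
    (conv Γ) (conv Γ) K K d d hd hd Y (fun _ _ b' _ => ⟨b', rfl⟩) ?_ ?_ ?_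
  · rw [Finset.map_refl] at key
    exact key
  · intro V _
    simp only [RingHom.comp_apply, Pi.evalRingHom_apply, Finset.map_refl]
    exact (prp_conv_real Γ (prp_real_prod _ fun X _ => hK X)).conj φ
  · intro b _ Y'
    simp only [RingHom.comp_apply, Pi.evalRingHom_apply, Finset.map_refl, Function.Embedding.refl_apply]
    exact (hF Y' b).conj φ
  · intro b _
    simp only [RingHom.comp_apply, Pi.evalRingHom_apply, Function.Embedding.refl_apply, Pi.smul_apply, Pi.one_apply, smul_eq_mul, mul_one,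
      map_sub, map_inv₀, map_add, map_one, Complex.conj_eq_iff_im.2 (ha b)]

end kprime

/-! ## 5. The pieces of the three sectors are real -/

section sectors

variable {D0 ℓ : ℕ} (S : B8.Step G D0 ℓ) (c : B8.Geo) (ω : ℝ) (zn : Zn) (t z : ℂ) (Ψ : G.V → ℝ)

theorem prp_single_real (g : Grid G) (α : ℝ) {t z : ℂ} (ht : t.im = 0) (hz : z.im = 0) (B : g.I) : RealFn ((t / 2) • eBC g B + z • cBC g α B) :=
  ((prp_eBC_real g B).smul (prp_im_half ht)).add ((prp_cBC_real g α B).smul hz)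

theorem prp_singleWF_real (g : Grid G) (H0 : ℕ) (α : ℝ) {t z : ℂ} (ht : t.im = 0) (hz : z.im = 0) : Act.Real (singleWF g H0 α t z) := by
  classical
  intro X
  unfold singleWF
  refine prp_real_sum _ fun B _ => ?_
  split_ifs
  · exact prp_single_real g α ht hz B
  · exact prp_real_zero

theorem prp_R0_real {K0 : Act S.P.g} (hK : Act.Real K0) (ht : t.im = 0) (hz : z.im = 0) : Act.Real (R0 S ω zn t z K0) := fun X =>
  RealFn.sub (hK X) (prp_singleWF_real S.P.g zn.H0 _ ht hz X)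

/-- holomorphy of the neutral parts of the wall-free small inputs near `0` (producer: `pr_HqReg_sq`) -/
def HolNear (h0 : ℝ≥0) (K0 : Act S.P.g) : Prop :=
  ∀ X, WallFree S.P.g zn.H0 X → DifferentiableOn ℂ (S.Hq ω 0 (R0 S ω zn t z K0) X) (strip h0 S.P.g X)

variable {h0 : ℝ≥0} (hh : 0 < h0)

include hh in
theorem prp_pc0_real {K0 : Act S.P.g} (hK : Act.Real K0) (ht : t.im = 0) (hz : z.im = 0) (hol : HolNear S ω zn t z h0 K0) (X : Finset S.P.g.I) (B : S.P.g.I) :
    RealFn (pc0 S ω zn t z K0 X B) := by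
  classical
  unfold pc0
  split_ifs with h1 h2
  · exact (prp_piece_real S ω (prp_R0_real S ω zn t z hK ht hz) X B (Hol.strip_isOpen h0 S.P.g X) (B8.w_des4_zero_mem hh _ _) (hol X h1)).add
      (prp_conv_real _ (prp_single_real _ _ ht hz B))
  · exact (prp_piece_real S ω (prp_R0_real S ω zn t z hK ht hz) X B (Hol.strip_isOpen h0 S.P.g X) (B8.w_des4_zero_mem hh _ _) (hol X h1)).add
      prp_real_zero
  · exact prp_real_const (prp_im_mul (prp_im_card _) (prp_Hq0_real S ω hK X).zero_im)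

theorem prp_cn0_real {K0 : Act S.P.g} (hK : Act.Real K0) (ht : t.im = 0) (hz : z.im = 0) (X : Finset S.P.g.I) (B : S.P.g.I) :
    (cn0 S ω zn t z K0 X B).im = 0 := by
  classical
  unfold cn0
  have h1 := prp_im_mul (prp_im_card X.card) (prp_Hq0_real S ω (prp_R0_real S ω zn t z hK ht hz) X).zero_im
  split_ifs
  · rw [Complex.add_im, h1, prp_im_mul (prp_im_half ht) (prp_conv_real S.Γ (prp_eBC_real S.P.g B)).zero_im, add_zero]
  · rw [Complex.add_im, h1, Complex.zero_im, add_zero]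
  · exact prp_im_mul (prp_im_card _) (prp_Hq0_real S ω hK X).zero_im

include hh in
theorem prp_pcT_real {K0 KT : Act S.P.g} (hK : Act.Real K0) (hKT : Act.Real KT) (ht : t.im = 0) (hz : z.im = 0) (hol : HolNear S ω zn t z h0 K0)
    (X : Finset S.P.g.I) (B : S.P.g.I) : RealFn (pcT S ω zn t z Ψ K0 KT X B) := by
  classical
  unfold pcT
  split_ifs
  · exact prp_real_shF (prp_pc0_real S ω zn t z hh hK ht hz hol X B) _
  · exact prp_real_const (prp_im_mul (prp_im_card _) (prp_Hq0_real S ω hKT X Ψ))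

theorem prp_cnT_real {K0 KT : Act S.P.g} (hK : Act.Real K0) (hKT : Act.Real KT) (ht : t.im = 0) (hz : z.im = 0) (X : Finset S.P.g.I) (B : S.P.g.I) :
    (cnT S ω zn t z Ψ K0 KT X B).im = 0 := by
  classical
  unfold cnT
  split_ifs
  · exact prp_cn0_real S ω zn t z hK ht hz X B
  · exact prp_im_mul (prp_im_card _) (prp_Hq0_real S ω hKT X Ψ)

theorem prp_cnJ_real {JT : Act S.P.g} (hJ : Act.Real JT) (X : Finset S.P.g.I) (B : S.P.g.I) : (cnJ S ω Ψ JT X B).im = 0 :=
  prp_im_mul (prp_im_card _) (prp_Hq0_real S ω hJ X Ψ)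

/-- designations by real pieces are real -/
theorem prp_ofPieces_real {pc : Finset S.P.g.I → S.P.g.I → Fn G} {cn : Finset S.P.g.I → S.P.g.I → ℂ} (hpc : ∀ X B, RealFn (pc X B)) (hcn : ∀ X B, (cn X B).im = 0) :
    (∀ Y b, RealFn ((ofPieces S c pc cn).F Y b)) ∧ ∀ b, ((ofPieces S c pc cn).a b).im = 0 :=
  ⟨fun _ _ => prp_real_sum _ fun X _ => prp_real_sum _ fun B _ => hpc X B, fun _ => prp_im_sum _ fun X _ => prp_im_sum _ fun B _ => hcn X B⟩

/-! ## 6. The paired step, general form -/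

include hh in
/-- **the paired step preserves reality** (`t`, `z` real) -/
theorem prp_next_real (hg : SmallGeo S c) (ht : t.im = 0) (hz : z.im = 0) (x : St S.P.g) (h0' : Act.Real x.K0) (hT : Act.Real x.KT) (hJ : Act.Real x.JT)
    (hol : HolNear S ω zn t z h0 x.K0) :
    Act.Real (next S c ω zn t z Ψ x).K0 ∧ Act.Real (next S c ω zn t z Ψ x).KT ∧ Act.Real (next S c ω zn t z Ψ x).JT := by
  have r0 := prp_ofPieces_real S c (prp_pc0_real S ω zn t z hh h0' ht hz hol) (prp_cn0_real S ω zn t z h0' ht hz)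
  have rT := prp_ofPieces_real S c (prp_pcT_real S ω zn t z Ψ hh h0' hT ht hz hol) (prp_cnT_real S ω zn t z Ψ h0' hT ht hz)
  have rJ := prp_ofPieces_real S c (pc := fun X B _ => cnJ S ω Ψ x.JT X B) (fun X B => prp_real_const (prp_cnJ_real S ω Ψ hJ X B))
    (prp_cnJ_real S ω Ψ hJ)
  refine ⟨prp_Kprime_real S.P c.r c.R S.Γ (pr_ofPieces_small S c hg _ _) h0' r0.1 r0.2,
    prp_Kprime_real S.P c.r c.R S.Γ (pr_ofPieces_small S c hg _ _) hT rT.1 rT.2, fun Y φ => ?_⟩
  show (deriv (fun s : ℂ => famT S c ω zn t z Ψ x s Y (toC φ)) 0).im = 0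
  refine prp_deriv_real0 fun s => ?_
  have hs : ((s : ℝ) : ℂ).im = 0 := Complex.ofReal_im s
  unfold famT
  refine prp_Kprime_real S.P c.r c.R S.Γ (pr_dLin_small (pr_ofPieces_small S c hg _ _) (pr_ofPieces_small S c hg _ _) _)
    (fun X => RealFn.add (hT X) (RealFn.smul (hJ X) hs)) (fun Y' b => (rT.1 Y' b).add ((rJ.1 Y' b).smul hs)) (fun b => ?_) Y φ
  show ((dT S c ω zn t z Ψ x.K0 x.KT).a b + (s : ℂ) • (dJ S c ω Ψ x.JT).a b).im = 0
  have h1 : ((s : ℂ) * (dJ S c ω Ψ x.JT).a b).im = 0 := prp_im_mul hs (rJ.2 b)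
  rw [Complex.add_im, smul_eq_mul, h1, add_zero]
  exact rT.2 b

end sectors

/-! ## 7. Evenness -/

section even

variable {D0 ℓ : ℕ} (S : B8.Step G D0 ℓ) (c : B8.Geo) (ω : ℝ) (zn : Zn) (t z : ℂ)

theorem prp_conv_neg (Γ : Matrix G.V G.V ℝ) (hΓ : Γ.PosSemidef) (F : Fn G) (w : G.V → ℂ) (h : ∀ ζ : G.V → ℝ, F (-(w + toC ζ)) = F (w + toC ζ)) :
    conv Γ F (-w) = conv Γ F w := by
  unfold conv
  rw [← B8.w_gauss_neg Γ hΓ fun ζ => F (-w + toC ζ)]
  refine integral_congr_ae (Filter.Eventually.of_forall fun ζ => ?_)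
  simp only
  rw [← h ζ]
  congr 1
  funext v
  simp only [toC, Pi.neg_apply, Pi.add_apply, Complex.ofReal_neg]
  ring

/-- the pieces of the centred sector are even at ALL fields -/
theorem prp_pc0_even (hΓ : S.Γ.PosSemidef) (K0 : Act S.P.g) (X : Finset S.P.g.I) (B : S.P.g.I) (w : G.V → ℂ) :
    pc0 S ω zn t z K0 X B (-w) = pc0 S ω zn t z K0 X B w := by
  classical
  have hp : ∀ Rm : Act S.P.g, S.piece ω true Rm X B (-w) = S.piece ω true Rm X B w := by
    intro Rm
    unfold B8.Step.piece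
    rw [Pi.add_apply, Pi.add_apply, B8.w_des4_Loc_congr S.P.g X _ _ _ B w (-w) (-1) (by norm_num) rfl (fun _ _ => rfl)
      (B8.w_des4_pvec_neg S.P.g w), if_pos rfl, Pi.smul_apply, Pi.smul_apply, B8.w_cBC_neg]
  unfold pc0
  split_ifs
  · rw [Pi.add_apply, Pi.add_apply, hp, B8.w_des4_conv_neg S.Γ hΓ _ (fun u => by
      simp only [Pi.add_apply, Pi.smul_apply, B8.w_eBC_neg, B8.w_cBC_neg]) w]
  · rw [Pi.add_apply, Pi.add_apply, hp]
    rfl
  · rfl

/-- **the centred step preserves evenness** -/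
theorem prp_next_even (hΓ : S.Γ.PosSemidef) (hg : SmallGeo S c) (h0 : ℝ≥0) {K0 : Act S.P.g} (hK : Act.Even h0 K0) :
    Act.Even h0 (Kprime S.P c.r c.R (conv S.Γ) K0 (d0 S c ω zn t z K0)) := by
  classical
  intro Y w hw
  have hd := pr_ofPieces_small S c hg (pc0 S ω zn t z K0) (cn0 S ω zn t z K0)
  have key := pr_Kprime_transport (Pi.evalRingHom (fun _ : G.V → ℂ => ℂ) (-w)) (Pi.evalRingHom (fun _ : G.V → ℂ => ℂ) w)
    (Function.Embedding.refl S.P.g.I) (Function.Embedding.refl S.P.g'.I) (fun _ _ => rfl) (fun _ _ => rfl) (fun _ => rfl) (fun a' _ _ => ⟨a', rfl⟩) c.r c.R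
    (conv S.Γ) (conv S.Γ) K0 K0 (d0 S c ω zn t z K0) (d0 S c ω zn t z K0) hd hd Y (fun _ _ b' _ => ⟨b', rfl⟩) ?_ ?_ ?_
  · rw [Finset.map_refl] at key
    exact key
  · intro V hV
    simp only [Pi.evalRingHom_apply, Finset.map_refl]
    refine prp_conv_neg S.Γ hΓ _ w fun ζ => ?_
    rw [Finset.prod_apply, Finset.prod_apply]
    refine Finset.prod_congr rfl fun X hX => ?_
    have hXY : S.P.N.cl X ⊆ Y := (Finset.image_subset_image (Alg.comps_subset hX)).trans hV
    exact hK X _ (Hol.strip_add_toC (prc_strip_coarse S.P hXY hw) ζ)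
  · intro b _ Y'
    simp only [Pi.evalRingHom_apply, Finset.map_refl, Function.Embedding.refl_apply]
    show (ofPieces S c (pc0 S ω zn t z K0) (cn0 S ω zn t z K0)).F Y' b (-w) = (ofPieces S c (pc0 S ω zn t z K0) (cn0 S ω zn t z K0)).F Y' b w
    unfold ofPieces
    simp only [Finset.sum_apply, prp_pc0_even S ω zn t z hΓ]
  · intro b _
    simp only [Pi.evalRingHom_apply, Function.Embedding.refl_apply, Pi.smul_apply, Pi.one_apply]

end even

/-! ## 8. EXITS in the vocabulary of `Obs/PairCtx.lean` -/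

section exits

variable {pm : Prm} {nm : Nm} {cT : ℝ≥0} {k0 kT : KC} {ℓ : ℕ} {T : Tw G ℓ} {j : ℕ} {h : Ret G ℓ pm.D0 j}

/-- **EXIT: reality of the three activities is preserved by the paired step** (`t`, `z` real) -/
theorem pr_real_step (H : Ctx pm nm cT k0 kT T h) (t z : ℂ) (ht : t.im = 0) (hz : z.im = 0) (x : St (lev G ℓ j)) (hx : Inv pm nm.h0 x)
    (hfin : nP (nm.p0 pm.ω) (T.V0 j) pm.zn.H0 pm.α t z x ≠ ⊤) :
    Act.Real (next (T.step h) pm.c pm.ω pm.zn t z (pm.ref G) x).K0 ∧ Act.Real (next (T.step h) pm.c pm.ω pm.zn t z (pm.ref G) x).KT ∧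
      Act.Real (next (T.step h) pm.c pm.ω pm.zn t z (pm.ref G) x).JT :=
  prp_next_real (T.step h) pm.c pm.ω pm.zn t z (pm.ref G) H.nmOk.h0_pos H.smallGeo ht hz x hx.real0 hx.realT hx.realJ
    fun X hX => (pr_HqReg_sq H t z x hx hfin X hX).1.hol

/-- **EXIT: evenness of the centred activity is preserved by the paired step** -/
theorem pr_even_step (H : Ctx pm nm cT k0 kT T h) (t z : ℂ) (x : St (lev G ℓ j)) (hx : Inv pm nm.h0 x) :
    Act.Even nm.h0 (next (T.step h) pm.c pm.ω pm.zn t z (pm.ref G) x).K0 :=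
  prp_next_even (T.step h) pm.c pm.ω pm.zn t z H.hyp0.shell.psd H.smallGeo nm.h0 hx.even0

end exits

end

end Claimed.Agent.R285.F6.Pr
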