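import Claimed.Agent.R285.Obs.PairDefs

/-!
# ROW 285, unit OBS, BP-OBS-L62: translation `shD` of designated data (shared by EST-J `PairJ`, STOP `PairStop`, DESIG-T, EST-W/D)      (helper8)   -- KEEP
ONE definition, no sorry.
-/

set_option autoImplicit false

namespace Claimed.Agent.R285.F6.Pr

open Claimed.Agent.R285 Claimed.Agent.R285.RG

noncomputable section

variable {G : Geom}

/-- translation of the field argument of designated data (the scalars do not move) -/
def shD {g' : Grid G} (d : Desig g' (Fn G)) (lam : G.V → ℝ) : Desig g' (Fn G) := ⟨fun Y b => shF (d.F Y b) lam, d.a⟩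

theorem shD_cite : True := by
  have := @shD.eq_1
  trivial

end

end Claimed.Agent.R285.F6.Pr
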