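import Claimed.Agent.R285.Obs.PairCopy
import Claimed.Agent.R285.Obs.PairShD
import Claimed.Agent.R285.F4a.Label
import Claimed.Agent.R285.Rdo.Stop

/-!
# ROW 285, unit OBS, BP-OBS-L62, block STOP: THE STOPPED IDENTITY (obs:extraction-identity)      (architect + prover helper70)   -- KEEP

PAPER-FREE.  Helper lemmas: prefix `prs_`.
1. SHIFT: translation of the whole field argument commutes with `conv`, `ZA`, `ZA1`, `Kprime`, `labJ`: the paired step in the TOTAL field is the same step for the translated activities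
   `K^τ = shA KT λ`, `J = shA JT λ`, `λ = v_n / α` (`prs_next_KT`, `prs_next_JT`).
2. TERM: calculus of `F6.term` (terminal covariance + uniform phase): congruence on real fields, linearity, ONE SHELL on ANY volume (`prs_term_shell`, from `Rdo.rdo_eter_shell_gen` + `Ker.ker_terminal_split`).
3. REG: `ZA`, `ZA1` of admissible activities of finite norm are dominated by ONE regulator; the regulators are integrable at every level behind the stop.
4. CHAIN: one step of the three terminal quantities, induction.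
5. EXIT: off-`Aff` cancellation, reality, positivity.
-/

set_option autoImplicit false

namespace Claimed.Agent.R285.F6.Pr

open scoped BigOperators ENNReal NNReal
open MeasureTheory ProbabilityTheory Polynomial
open Claimed.Agent.R285 Claimed.Agent.R285.RG Claimed.Agent.R285.F4a Claimed.Agent.R285.B4

noncomputable section

variable {G : Geom}

/-! ## 1. SHIFT -/

/-! `shD` (translation of the designated data) lives in `Obs/PairShD.lean`. -/

/-- translation of the field argument as a ring homomorphism -/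
def shHom (lam : G.V → ℝ) : Fn G →+* Fn G where
  toFun := fun F => shF F lam
  map_one' := rfl
  map_mul' := fun _ _ => rfl
  map_zero' := rfl
  map_add' := fun _ _ => rfl

theorem prs_conv_sh (Γ : Matrix G.V G.V ℝ) (F : Fn G) (lam : G.V → ℝ) : conv Γ (shF F lam) = shF (conv Γ F) lam := by
  funext z
  unfold conv shF
  refine integral_congr_ae (Filter.Eventually.of_forall fun ζ => ?_)
  show F (z + toC ζ + toC lam) = F (z + toC lam + toC ζ)
  rw [add_right_comm]

theorem prs_ZA_sh (g : Grid G) (R : ℕ) (K : Act g) (lam : G.V → ℝ) : ZA g R (shA K lam) = shF (ZA g R K) lam := by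
  funext z
  simp only [ZA, shF, shA, Finset.sum_apply, Finset.prod_apply]

theorem prs_ZA1_sh (g : Grid G) (R : ℕ) (K J : Act g) (lam : G.V → ℝ) : ZA1 g R (shA K lam) (shA J lam) = shF (ZA1 g R K J) lam := by
  funext z
  simp only [ZA1, shF, shA, Finset.sum_apply, Finset.prod_apply, Pi.mul_apply]

theorem prs_shD_small {g' : Grid G} {d : Desig g' (Fn G)} {r : ℕ} (hd : d.Small r g') (lam : G.V → ℝ) : (shD d lam).Small r g' := by
  intro Y b h
  show shF (d.F Y b) lam = 0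
  rw [hd Y b h]
  rfl

/-- **the RG map commutes with translations of the whole field argument** -/
theorem prs_Kprime_sh {D0 ℓ : ℕ} (P : Pair G D0 ℓ) (r R : ℕ) (Γ : Matrix G.V G.V ℝ) (K : Act P.g) (d : Desig P.g' (Fn G))
    (hd : d.Small r P.g') (lam : G.V → ℝ) :
    Kprime P r R (conv Γ) (shA K lam) (shD d lam) = shA (Kprime P r R (conv Γ) K d) lam := by
  funext Y
  have key := pr_Kprime_transport (RingHom.id (Fn G)) (shHom lam) (Function.Embedding.refl _) (Function.Embedding.refl _)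
    (fun _ _ => rfl) (fun _ _ => rfl) (fun _ => rfl) (fun a' _ _ => ⟨a', rfl⟩) r R (conv Γ) (conv Γ) (shA K lam) K (shD d lam) d
    (prs_shD_small hd lam) hd Y (fun _ _ b' _ => ⟨b', rfl⟩) ?_ ?_ ?_
  · simp only [Finset.map_refl, RingHom.id_apply] at key
    exact key
  · intro V _
    simp only [Finset.map_refl, RingHom.id_apply]
    show conv Γ (∏ X ∈ P.g.comps R V, shHom lam (K X)) = shF (conv Γ (∏ X ∈ P.g.comps R V, K X)) lam
    rw [← map_prod, ← prs_conv_sh]
    rfl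
  · intro b _ Y'
    simp only [Finset.map_refl, RingHom.id_apply]
    rfl
  · intro b _
    rfl

theorem prs_dLin_small {g' : Grid G} {d dd : Desig g' (Fn G)} {r : ℕ} (hd : d.Small r g') (hdd : dd.Small r g') (s : ℂ) :
    (dLin d dd s).Small r g' := by
  intro Y b h
  show d.F Y b + s • dd.F Y b = 0
  rw [hd Y b h, hdd Y b h, smul_zero, add_zero]

theorem prs_shA_add {g : Grid G} (K J : Act g) (s : ℂ) (lam : G.V → ℝ) : shA (K + s • J) lam = shA K lam + s • shA J lam := rfl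

theorem prs_shD_dLin {g' : Grid G} (d dd : Desig g' (Fn G)) (s : ℂ) (lam : G.V → ℝ) :
    shD (dLin d dd s) lam = labD (shD d lam) (shD dd lam) s := rfl

section step

variable {D0 ℓ : ℕ} (S : B8.Step G D0 ℓ) (c : B8.Geo) (ω : ℝ) (zn : Zn) (t z : ℂ) (Ψ : G.V → ℝ)

/-- the unit activity after one paired step, in the variable `ψ = Ψ - λ` -/
theorem prs_next_KT (x : St S.P.g) (hd : (dT S c ω zn t z Ψ x.K0 x.KT).Small c.r S.P.g') (lam : G.V → ℝ) :
    shA (next S c ω zn t z Ψ x).KT lam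
      = Kprime S.P c.r c.R (conv S.Γ) (shA x.KT lam) (shD (dT S c ω zn t z Ψ x.K0 x.KT) lam) :=
  (prs_Kprime_sh S.P c.r c.R S.Γ x.KT _ hd lam).symm

/-- the labelled activity after one paired step, in the variable `ψ = Ψ - λ` -/
theorem prs_next_JT (x : St S.P.g) (hd : (dT S c ω zn t z Ψ x.K0 x.KT).Small c.r S.P.g') (hdd : (dJ S c ω Ψ x.JT).Small c.r S.P.g')
    (lam : G.V → ℝ) :
    shA (next S c ω zn t z Ψ x).JT lam
      = labJ S.P S.Γ c.r c.R (shA x.KT lam) (shA x.JT lam) (shD (dT S c ω zn t z Ψ x.K0 x.KT) lam) (shD (dJ S c ω Ψ x.JT) lam) := by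
  funext Y w
  have e : ∀ s : ℂ, labFam S.P S.Γ c.r c.R (shA x.KT lam) (shA x.JT lam) (shD (dT S c ω zn t z Ψ x.K0 x.KT) lam) (shD (dJ S c ω Ψ x.JT) lam) s Y w
      = famT S c ω zn t z Ψ x s Y (w + toC lam) := by
    intro s
    unfold labFam famT
    rw [← prs_shA_add, ← prs_shD_dLin, prs_Kprime_sh S.P c.r c.R S.Γ _ _ (prs_dLin_small hd hdd s) lam]
    rfl
  unfold labJ
  simp only [e]
  rfl

end step

/-! ## 2. TERM -/

/-- what the terminal integration needs to know about a function of real fields: continuity, period, a dominating function which is blind to constants (NOT necessarily measurable) with finite upper integral -/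
structure TInt (Γ : Matrix G.V G.V ℝ) (ω : ℝ) (Z : Fn G) : Prop where
  cont : Continuous fun φ : G.V → ℝ => Z (toC φ)
  per : ∀ φ : G.V → ℝ, Z (toC fun v => φ v + ω) = Z (toC φ)
  dom : ∃ D : (G.V → ℝ) → ℝ, (∀ (φ : G.V → ℝ) (c : ℝ), D (fun v => φ v + c) = D φ) ∧ (∀ φ : G.V → ℝ, ‖Z (toC φ)‖ ≤ D φ) ∧
    ∫⁻ ψ, ENNReal.ofReal (D ψ) ∂(gauss G Γ) ≠ ⊤

theorem prs_term_eq (ω : ℝ) (Γ : Matrix G.V G.V ℝ) (Z : Fn G) :
    term ω Γ Z = ((1 / ω : ℝ) : ℂ) * ∫ t in (0 : ℝ)..ω, ∫ ζ, Z (toC fun v => ζ v + t) ∂(gauss G Γ) := rfl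

/-- `term` only looks at real fields -/
theorem prs_term_congr (ω : ℝ) (Γ : Matrix G.V G.V ℝ) {Z Z' : Fn G} (h : ∀ φ : G.V → ℝ, Z (toC φ) = Z' (toC φ)) :
    term ω Γ Z = term ω Γ Z' := by
  rw [prs_term_eq, prs_term_eq]
  simp only [h]

theorem prs_term_smul (ω : ℝ) (Γ : Matrix G.V G.V ℝ) (c : ℂ) (Z : Fn G) : term ω Γ (c • Z) = c * term ω Γ Z := by
  rw [prs_term_eq, prs_term_eq]
  simp only [Pi.smul_apply, smul_eq_mul]
  simp only [integral_const_mul, intervalIntegral.integral_const_mul]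
  ring

namespace TInt

variable {Γ : Matrix G.V G.V ℝ} {ω : ℝ} {Z Z' : Fn G}

theorem env_le (h : TInt Γ ω Z) : ∃ D : (G.V → ℝ) → ℝ, (∀ φ, Rdo.rdo_env Z φ ≤ ENNReal.ofReal (D φ)) ∧
    ∫⁻ ψ, ENNReal.ofReal (D ψ) ∂(gauss G Γ) ≠ ⊤ := by
  obtain ⟨D, hDc, hZD, hfin⟩ := h.dom
  refine ⟨D, fun φ => iSup_le fun θ => ?_, hfin⟩
  rw [← ofReal_norm]
  refine ENNReal.ofReal_le_ofReal ?_
  rw [← hDc φ θ]
  exact hZD _

theorem env_fin (h : TInt Γ ω Z) : ∫⁻ ψ, Rdo.rdo_env Z ψ ∂(gauss G Γ) ≠ ⊤ := by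
  obtain ⟨D, h1, h2⟩ := h.env_le
  exact ((lintegral_mono h1).trans_lt h2.lt_top).ne

theorem env_ne_top (h : TInt Γ ω Z) (φ : G.V → ℝ) : Rdo.rdo_env Z φ ≠ ⊤ := by
  obtain ⟨D, h1, _⟩ := h.env_le
  exact ((h1 φ).trans_lt ENNReal.ofReal_lt_top).ne

theorem cont_shift (h : TInt Γ ω Z) (t : ℝ) : Continuous fun ζ : G.V → ℝ => Z (toC fun v => ζ v + t) := by
  have h1 : Continuous fun ζ : G.V → ℝ => (fun v => ζ v + t) := by fun_prop
  exact h.cont.comp h1

theorem integrable (h : TInt Γ ω Z) (t : ℝ) : Integrable (fun ζ : G.V → ℝ => Z (toC fun v => ζ v + t)) (gauss G Γ) :=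
  ⟨(h.cont_shift t).aestronglyMeasurable, (lintegral_mono fun ζ => Rdo.rdo_le_env Z ζ t).trans_lt h.env_fin.lt_top⟩

theorem inner_cont (h : TInt Γ ω Z) : Continuous fun t : ℝ => ∫ ζ, Z (toC fun v => ζ v + t) ∂(gauss G Γ) := by
  refine continuous_of_dominated (bound := fun ζ => (Rdo.rdo_env Z ζ).toReal) (fun t => (h.cont_shift t).aestronglyMeasurable) ?_
    (integrable_toReal_of_lintegral_ne_top (Rdo.rdo_env_meas Z h.cont).aemeasurable h.env_fin) ?_
  · intro t
    refine ae_of_all _ fun ζ => ?_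
    have := Rdo.rdo_le_env Z ζ t
    rw [← ofReal_norm] at this
    exact (ENNReal.ofReal_le_iff_le_toReal (h.env_ne_top _)).1 this
  · refine ae_of_all _ fun ζ => ?_
    have h1 : Continuous fun t : ℝ => (fun v => ζ v + t) := by fun_prop
    exact h.cont.comp h1

end TInt

theorem prs_term_add {ω : ℝ} {Γ : Matrix G.V G.V ℝ} {Z Z' : Fn G} (h : TInt Γ ω Z) (h' : TInt Γ ω Z') :
    term ω Γ (Z + Z') = term ω Γ Z + term ω Γ Z' := by
  rw [prs_term_eq, prs_term_eq, prs_term_eq, ← mul_add,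
    ← intervalIntegral.integral_add (h.inner_cont.intervalIntegrable _ _) (h'.inner_cont.intervalIntegrable _ _)]
  congr 1
  refine intervalIntegral.integral_congr fun t _ => ?_
  exact integral_add (h.integrable t) (h'.integrable t)

/-- `term` is `Eter` at the charge `0` and the background `0` -/
theorem prs_term_eter (ω : ℝ) (Γ : Matrix G.V G.V ℝ) (Z : Fn G) : term ω Γ Z = B8.Eter G Γ ω 0 Z (toC 0) := by
  rw [prs_term_eq]
  unfold B8.Eter conv
  congr 1
  refine intervalIntegral.integral_congr fun t _ => ?_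
  have e : ∀ ζ : G.V → ℝ, (fun v => toC (0 : G.V → ℝ) v + (t : ℂ)) + toC ζ = toC fun v => ζ v + t := by
    intro ζ
    funext v
    simp only [toC, Pi.add_apply, Pi.zero_apply]
    push_cast
    ring
  simp only [e]
  simp

/-- the split of the terminal covariances, ANY boundary convention -/
theorem prs_ker_split (u u' : ℕ) (hu : 1 ≤ u) (hu' : 1 ≤ u') (Γ Γ' : Matrix G.V G.V ℝ) (hΓ : IsTerminal G Fam.entry u Γ)
    (hΓ' : IsTerminal G Fam.entry u' Γ') :
    Γ' + shell G Fam.entry u u' = Γ + ((Rdo.low0 Fam.entry u' - Rdo.low0 Fam.entry u) / (G.M : ℝ) ^ 2) • Rdo.Jm G := by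
  have hc : Rdo.low0 Fam.entry u' - Rdo.low0 Fam.entry u = (Fam.entry.shellP u u').eval 0 := by
    unfold Rdo.low0
    rw [← Ker.ker_lowP_add_shellP Fam.entry u u', eval_add]
    ring
  rw [Rdo.rdo_cmat_eq, hc, Ker.ker_terminal_split Ker.ker_entry_adm u u' hu hu' hΓ hΓ', add_comm]

/-- the constant mode of a shell is non-negative, ANY boundary convention -/
theorem prs_low0_le (u u' : ℕ) (Γ Γ' : Matrix G.V G.V ℝ) (hΓ : Γ.mulVec (fun _ => 1) = 0) (hΓ' : Γ'.mulVec (fun _ => 1) = 0)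
    (h : Γ' + shell G Fam.entry u u' = Γ + ((Rdo.low0 Fam.entry u' - Rdo.low0 Fam.entry u) / (G.M : ℝ) ^ 2) • Rdo.Jm G)
    (hS : (shell G Fam.entry u u').PosSemidef) : Rdo.low0 Fam.entry u ≤ Rdo.low0 Fam.entry u' := by
  have hJ : (Rdo.Jm G).mulVec (fun _ => (1 : ℝ)) = fun _ => (Fintype.card G.V : ℝ) := by
    funext v
    simp [Rdo.Jm, Matrix.mulVec, dotProduct]
  have h1 := congrArg (fun A : Matrix G.V G.V ℝ => (fun _ => (1 : ℝ)) ⬝ᵥ A.mulVec (fun _ => (1 : ℝ))) h
  simp only [Matrix.add_mulVec, hΓ, hΓ', zero_add, Matrix.smul_mulVec, hJ] at h1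
  have h2 := hS.dotProduct_mulVec_nonneg (fun _ => (1 : ℝ))
  have h3 : star (fun _ : G.V => (1 : ℝ)) = fun _ => (1 : ℝ) := by
    funext v; simp
  rw [h3, h1] at h2
  have h4 : ((fun _ => (1 : ℝ)) ⬝ᵥ (((Rdo.low0 Fam.entry u' - Rdo.low0 Fam.entry u) / (G.M : ℝ) ^ 2) • fun _ : G.V => (Fintype.card G.V : ℝ)))
      = (Rdo.low0 Fam.entry u' - Rdo.low0 Fam.entry u) * ((Fintype.card G.V : ℝ) ^ 2 / (G.M : ℝ) ^ 2) := by
    simp [dotProduct]
    ring
  rw [h4] at h2
  have hc : 0 < (Fintype.card G.V : ℝ) := by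
    have : Nonempty G.V := ⟨B8.org G⟩
    exact_mod_cast Fintype.card_pos
  have hM : 0 < (G.M : ℝ) := by exact_mod_cast G.hM
  have h5 : 0 < (Fintype.card G.V : ℝ) ^ 2 / (G.M : ℝ) ^ 2 := by positivity
  have := nonneg_of_mul_nonneg_left h2 h5
  linarith

/-- **ONE SHELL inside `term`**, any volume (= K5) -/
theorem prs_term_shell (u u' : ℕ) (hu : 1 ≤ u) (hu' : 1 ≤ u') (Γ Γ' : Matrix G.V G.V ℝ) (hΓ : IsTerminal G Fam.entry u Γ)
    (hΓ' : IsTerminal G Fam.entry u' Γ') (hS : (shell G Fam.entry u u').PosSemidef) (ω : ℝ) (hω : 0 < ω) (Z : Fn G)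
    (hc : Continuous fun φ : G.V → ℝ => Z (toC φ)) (hper : ∀ φ : G.V → ℝ, Z (toC fun v => φ v + ω) = Z (toC φ))
    (D : (G.V → ℝ) → ℝ) (hDc : ∀ (φ : G.V → ℝ) (c : ℝ), D (fun v => φ v + c) = D φ) (hZD : ∀ φ : G.V → ℝ, ‖Z (toC φ)‖ ≤ D φ)
    (hint : ∫⁻ ψ, ∫⁻ ζ, ENNReal.ofReal (D (ψ + ζ)) ∂(gauss G (shell G Fam.entry u u')) ∂(gauss G Γ') ≠ ⊤) :
    term ω Γ' (conv (shell G Fam.entry u u') Z) = term ω Γ Z := by
  have hks := prs_ker_split u u' hu hu' Γ Γ' hΓ hΓ'
  have h := Rdo.rdo_eter_shell_gen Fam.entry u u' Γ Γ' hΓ.psd hΓ'.psd hks hS (prs_low0_le u u' Γ Γ' hΓ.const hΓ'.const hks hS) ω hω 0 Z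
    hc hper D hDc hZD 0 (by simpa only [zero_add] using hint)
  rw [prs_term_eter, prs_term_eter, h]
  simp

end

end Claimed.Agent.R285.F6.Pr
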