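import Claimed.Agent.R285.Obs.PairRowC
import Claimed.Agent.R285.Obs.PairPar
import Claimed.Agent.R285.Obs.PairJX
import Claimed.Agent.R285.Obs.PairStop
import Claimed.Agent.R285.Obs.TermA
import Claimed.Agent.R285.Map.TorSym

/-!
# ROW 285, unit OBS, BP-OBS-L62, block M1: FROM THE CONSTANTS OF `PairConstStmt` TO `CtxAll`, `TermInt`, `StepOut.inv`      (helper241 for helper271 / helper79 / helper254)   -- KEEP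

NO `sorry` IN THIS FILE.  Prefix `pcs_`.
* `pcs_ctx_of` : NON-CHAIN.  `Ctx` of one retained step from `GeoFit`, `SqHyp` x2, `GainTail` x2 (= the tails of `F4a.local_map_core`), `MonoOK δ` (= the tail of `B4.regulator_mono`), `ZoneOK`.
* `pcs_all_of` : NON-CHAIN.  The same hypotheses give `CtxAll (pmOf ..) (nmOf ..) k0 kT o oT ℓ`.
* `pcs_ctxStmt` : `CtxStmt` = PIECE 1 of `pair_row` (`Obs/PairRowC.lean`, helper79).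
* `pcs_chain`  : THE CHAIN, in the order of `PairConstStmt`: `δ0`; `δ ≤ δ0`, `κ`; `c` (`GeoFit`); `Csh`; `(h₀, β)` with `Csh β ≤ h₀`; `Cg, CgT, ℓ0, D1`; `ℓ ≥ ℓ0`; `η > 0`; `A0 ≥ 1`; `qA ≥ 1`, `A ≥ A0 qA`; `Cd, CdT` (FREE); `Cnl, CnlT, ε0, εT > 0`;
  then `(o, oT, D1R)` with `SqHyp` in both norms, `(H0, H1, Dsq, vinf)` with `D1, D1R ≤ Dsq`, `ZoneOK`.   CONCLUSION: `CtxAll (pmOf c H0 H1 Dsq vinf) (nmOf δ κ h₀ A qA) ⟨Cg, Cd, Cnl, ε0, η, β⟩ ⟨CgT, CdT, CnlT, εT, η, β⟩ o oT ℓ`.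
* `pcs_tw`, `pcs_tw_sd` : the regulators exist (`B4.obs_extra`);   `pcs_nest`, `pcs_whole` : cells of side `sd ∣ L^{j0}`.
* `pcs_termInt` : `TermInt (nmOf ..) o oT` (`Obs.terminal_regulator` x2; `δ0`, then `κ0`).
* `pcs_inv` : `StepOut.inv`.
-/

set_option autoImplicit false

namespace Claimed.Agent.R285.F6.Pr

open scoped BigOperators ENNReal NNReal
open MeasureTheory
open Claimed.Agent.R285 Claimed.Agent.R285.RG Claimed.Agent.R285.B4 Claimed.Agent.R285.F4a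

noncomputable section

/-! ## 1. The context, non-chain -/

/-- the inequalities between `L`, the clearance and the zone constants (fields `hL`, `hH0`, `hH1`, `hD` of `Ctx`) -/
structure ZoneOK (pm : Prm) (ℓ : ℕ) : Prop where
  hL : pm.zn.H0 + pm.zn.H1 + pm.c.R * pm.c.n0 + pm.c.ρ + 4 ≤ 2 ^ ℓ
  hH0 : pp + 2 ≤ pm.zn.H0
  hH1 : 3 ≤ pm.zn.H1
  hD : 2 * (pm.zn.H0 + pm.zn.H1 + pm.c.R * pm.c.n0 + 4) ≤ pm.D0

/-- the tail of `F4a.local_map_core` for the constants of `c`, the norm `(δ, κ, h₀, A)` and the named constants `k` -/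
def GainTail (c : B8.Geo) (δ κ : ℝ) (h0 : ℝ≥0) (A : ℝ) (k : KC) (ℓ D1 : ℕ) : Prop :=
  ∀ ω : ℝ, 0 < ω → ∀ D0 ≥ D1, ∀ (G : Geom) (P : Pair G D0 ℓ) (Γ : Matrix G.V G.V ℝ) (Vf : Extra P.g) (Vc : Extra P.g'),
    StepHyp ⟨δ, κ, h0, A, ω⟩ (pp + 1) r0 RR c.n0 c.Ck c.ck c.cst P Γ Vf Vc → Vf.sep ≤ 2 * pp + 8 → Vc.sep ≤ 2 * pp + 8 →
    StepGain ⟨δ, κ, h0, A, ω⟩ r0 RR c.n0 k.Cg k.Cd k.Cnl k.ε0 k.η k.β P Γ Vf Vc

/-- the tail of `B4.regulator_mono` -/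
def MonoOK (δ : ℝ) : Prop :=
  ∀ (G : Geom) (g : Grid G), g.Ok → ∀ X X' : Finset g.I, X ⊆ X' → ∀ φ, U g δ X φ ≤ U g δ X' φ

/-- **the context of one retained step, NON-CHAIN** -/
theorem pcs_ctx_of {c : B8.Geo} (hc : Obs.GeoFit c) {δ κ : ℝ} {h0 : ℝ≥0} {A qA : ℝ} (hδ : 0 < δ) (hκ : 0 < κ) (hh : 0 < h0) (hq : 1 ≤ qA) (hA : qA ≤ A)
    (hmono : MonoOK δ) {k0 kT : KC} {ℓ D1 D1R : ℕ} (hg : GainTail c δ κ h0 A k0 ℓ D1) (hgT : GainTail c δ (2 * κ) h0 (A / qA) kT ℓ D1)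
    {o oT : ObsPar} (hS : Obs.SqHyp c δ κ o ℓ D1R) (hST : Obs.SqHyp c δ (2 * κ) oT ℓ D1R)
    {pm : Prm} (hpc : pm.c = c) (hω : 0 < pm.ω) (hD1 : D1 ≤ pm.D0) (hD1R : D1R ≤ pm.D0) (hz : ZoneOK pm ℓ)
    {G : Geom} {T : Tw G ℓ} {cl : Grid G} {j0 : ℕ} (hfree : G.bc = BC.free) (hcl : Whole cl) (hT : T.IsObs o oT cl j0)
    {j : ℕ} (h : Ret G ℓ pm.D0 j) (hj : j0 ≤ j) (hN : Nonempty (Nest cl (lev G ℓ j))) (hcen : 2 * (2 ^ ℓ) ^ (j + 1) ∣ G.M) (hside : 4 ≤ side G ℓ j) :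
    Ctx pm (nmOf δ κ h0 A qA) pm.c.cst k0 kT T h := by
  subst hpc
  have hκ2 : 0 < 2 * κ := by linarith
  have hq0 : 0 < qA := by linarith
  have hAT1 : 1 ≤ A / qA := by rwa [le_div_iff₀ hq0, one_mul]
  have hAle : A / qA ≤ A := div_le_self (by linarith) hq
  have hj1 : j0 ≤ j + 1 := hj.trans (Nat.le_succ j)
  have hy0 : StepHyp ⟨δ, κ, h0, A, pm.ω⟩ (pp + 1) r0 RR pm.c.n0 pm.c.Ck pm.c.ck pm.c.cst (pair h) (Gm G ℓ j) (T.V0 j) (T.V0 (j + 1)) :=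
    hS h0 A pm.ω pm.D0 hD1R G (pair h) cl hcl hN (T.V0 j) (T.V0 (j + 1)) (hT.V0 j hj) (hT.V0 (j + 1) hj1)
  have hyT : StepHyp ⟨δ, 2 * κ, h0, A / qA, pm.ω⟩ (pp + 1) r0 RR pm.c.n0 pm.c.Ck pm.c.ck pm.c.cst (pair h) (Gm G ℓ j) (T.VT j) (T.VT (j + 1)) :=
    hST h0 (A / qA) pm.ω pm.D0 hD1R G (pair h) cl hcl hN (T.VT j) (T.VT (j + 1)) (hT.VT j hj) (hT.VT (j + 1) hj1)
  have hg0 := hg pm.ω hω pm.D0 hD1 G (pair h) (Gm G ℓ j) (T.V0 j) (T.V0 (j + 1)) hy0 (hT.sep0 j hj) (hT.sep0 (j + 1) hj1)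
  have hgT' := hgT pm.ω hω pm.D0 hD1 G (pair h) (Gm G ℓ j) (T.VT j) (T.VT (j + 1)) hyT (hT.sepT j hj) (hT.sepT (j + 1) hj1)
  have hm : ∀ X X' : Finset (lev G ℓ j).I, X ⊆ X' → ∀ φ, U (lev G ℓ j) δ X φ ≤ U (lev G ℓ j) δ X' φ := hmono G (lev G ℓ j) (pair h).ok
  exact
    { free := hfree
      cen := hcen
      geo := hc.ok
      nmOk := ⟨hδ, hκ, by show κ ≤ 2 * κ; linarith, hh, hAT1, hAle⟩
      ω_pos := hω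
      hyp0 := by rw [hc.ρ, hc.r, hc.R]; exact hy0
      gain0 := by rw [hc.r, hc.R]; exact hg0
      hypT := by rw [hc.ρ, hc.r, hc.R]; exact hyT
      gainT := by rw [hc.r, hc.R]; exact hgT'
      adm0 := ⟨hδ, hκ, hm⟩
      admT := ⟨hδ, hκ2, hm⟩
      sep0 := by rw [hc.sepV]; exact ⟨hT.sep0 j hj, hT.sep0 (j + 1) hj1⟩
      sepT := by rw [hc.sepV]; exact ⟨hT.sepT j hj, hT.sepT (j + 1) hj1⟩
      col := by rw [hc.col]; exact hside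
      hL := hz.hL
      hH0 := hz.hH0
      hH1 := hz.hH1
      hD := hz.hD }

/-! ## 2. The cells and the regulators -/

theorem pcs_lev_ok (G : Geom) (ℓ j : ℕ) : (lev G ℓ j).Ok := B8.torusGrid_ok _ _ _ (side_pos G ℓ j)

theorem pcs_side_dvd (G : Geom) (ℓ : ℕ) {j0 j : ℕ} (h : j0 ≤ j) : side G ℓ j0 ∣ side G ℓ j :=
  Nat.gcd_dvd_gcd_of_dvd_left _ (pow_dvd_pow _ h)

/-- cells of side `sd ∣ L^{j0}` are nested in all levels `j ≥ j0` -/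
theorem pcs_nest (G : Geom) (ℓ : ℕ) {sd j0 j : ℕ} (hd : sd ∣ G.M) (hs : sd ∣ (2 ^ ℓ) ^ j0) (h : j0 ≤ j) : Nonempty (Nest (torusGrid G sd hd) (lev G ℓ j)) :=
  ⟨Tow.tgNest G sd (side G ℓ j) hd (side_dvd G ℓ j) ((Nat.dvd_gcd hs hd).trans (pcs_side_dvd G ℓ h))⟩

theorem pcs_whole (G : Geom) {sd : ℕ} (hd : sd ∣ G.M) (hs : 0 < sd) (h2 : 2 * sd ≤ G.M) : Whole (torusGrid G sd hd) where
  pos := hs
  mono := (B8.torusGrid_ok G sd hd hs).mono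
  size := B8.torusGrid_card G sd hd hs
  two := (Nat.le_div_iff_mul_le hs).2 h2

/-- two cells per side, from a centred level -/
theorem pcs_two_sd {G : Geom} {ℓ sd j0 j : ℕ} (hs : sd ∣ (2 ^ ℓ) ^ j0) (h : j0 ≤ j) (hcen : 2 * (2 ^ ℓ) ^ j ∣ G.M) : 2 * sd ≤ G.M := by
  have h1 : sd ≤ (2 ^ ℓ) ^ j := Nat.le_of_dvd (by positivity) (hs.trans (pow_dvd_pow _ h))
  have h2 := Nat.le_of_dvd G.hM hcen
  omega

open Classical in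
/-- **the observation regulators of the two norms exist at all levels `j ≥ j0`** -/
theorem pcs_tw (G : Geom) (ℓ : ℕ) (o oT : ObsPar) (cl : Grid G) (hcl : Whole cl) (j0 : ℕ) (hN : ∀ j, j0 ≤ j → Nonempty (Nest cl (lev G ℓ j))) :
    ∃ T : Tw G ℓ, T.IsObs o oT cl j0 := by
  have ex : ∀ (o' : ObsPar) (j : ℕ), ∃ V : Extra (lev G ℓ j), j0 ≤ j → V.sep ≤ 2 * pp + 8 ∧ F4a.IsObs o' cl (lev G ℓ j) V := by
    intro o' j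
    by_cases hj : j0 ≤ j
    · obtain ⟨N⟩ := hN j hj
      obtain ⟨V, h1, h2, -⟩ := B4.obs_extra o' cl (lev G ℓ j) (whole_ok hcl) (pcs_lev_ok G ℓ j) N
      exact ⟨V, fun _ => ⟨h1, h2⟩⟩
    · exact ⟨Extra.zero _, fun h => absurd h hj⟩
  choose V hV using ex
  exact ⟨⟨V o, V oT⟩, fun j hj => (hV o j hj).2, fun j hj => (hV oT j hj).2, fun j hj => (hV o j hj).1, fun j hj => (hV oT j hj).1⟩

/-- the same for the cells of side `sd ∣ L^{j0}` -/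
theorem pcs_tw_sd (G : Geom) (ℓ : ℕ) (o oT : ObsPar) {sd j0 : ℕ} (hd : sd ∣ G.M) (hs0 : 0 < sd) (hs : sd ∣ (2 ^ ℓ) ^ j0) (h2 : 2 * sd ≤ G.M) :
    ∃ T : Tw G ℓ, T.IsObs o oT (torusGrid G sd hd) j0 :=
  pcs_tw G ℓ o oT _ (pcs_whole G hd hs0 h2) j0 fun _ hj => pcs_nest G ℓ hd hs hj

/-! ## 3. `CtxAll` -/

theorem pcs_omega8_pos : 0 < B8.ω8 := by
  unfold B8.ω8 B8.k0
  have := Real.pi_pos
  positivity

/-- **`CtxAll`, NON-CHAIN** -/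
theorem pcs_all_of {c : B8.Geo} (hc : Obs.GeoFit c) {δ κ : ℝ} {h0 : ℝ≥0} {A qA : ℝ} (hδ : 0 < δ) (hκ : 0 < κ) (hh : 0 < h0) (hq : 1 ≤ qA) (hA : qA ≤ A)
    (hmono : MonoOK δ) {k0 kT : KC} {ℓ D1 D1R : ℕ} (hg : GainTail c δ κ h0 A k0 ℓ D1) (hgT : GainTail c δ (2 * κ) h0 (A / qA) kT ℓ D1)
    {o oT : ObsPar} (hS : Obs.SqHyp c δ κ o ℓ D1R) (hST : Obs.SqHyp c δ (2 * κ) oT ℓ D1R)
    {H0 H1 Dsq : ℕ} (vinf : ℤ × ℤ → ℝ) (hD1 : D1 ≤ Dsq) (hD1R : D1R ≤ Dsq) (hz : ZoneOK (pmOf c H0 H1 Dsq vinf) ℓ) :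
    CtxAll (pmOf c H0 H1 Dsq vinf) (nmOf δ κ h0 A qA) k0 kT o oT ℓ := by
  intro G T cl sd j0 j h hfree hcen hsd hdv hcl hT hj0 hj
  obtain ⟨hd, rfl⟩ := hcl
  have hL4 : 4 ≤ 2 ^ ℓ := le_trans (Nat.le_add_left _ _) hz.hL
  have hside : 4 ≤ side G ℓ j := by
    rw [side_eq h.dvd']
    calc 4 ≤ (2 ^ ℓ) ^ 1 := by rwa [pow_one]
      _ ≤ (2 ^ ℓ) ^ j := Nat.pow_le_pow_right (by positivity) (hj0.trans hj)
  exact pcs_ctx_of hc hδ hκ hh hq hA hmono hg hgT hS hST rfl pcs_omega8_pos hD1 hD1R hz hfree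
    (pcs_whole G hd hsd (pcs_two_sd hdv (hj.trans (Nat.le_succ j)) hcen)) hT h hj (pcs_nest G ℓ hd hdv hj) hcen hside

/-- `CoreTail` (`Obs/PairRowC.lean`) is `GainTail` -/
theorem pcs_tail {c : B8.Geo} (hc : Obs.GeoFit c) {δ κ : ℝ} {h0 : ℝ≥0} {A : ℝ} {ℓ D1 : ℕ} {k : KC} (H : CoreTail c δ κ h0 A ℓ D1 k) :
    GainTail c δ κ h0 A k ℓ D1 := by
  intro ω hω D0 hD0 G P Γ Vf Vc hy h1 h2
  have := H ω hω D0 hD0 G P Γ Vf Vc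
  rw [hc.ρ, hc.r, hc.R, hc.sepV] at this
  exact this hy h1 h2

/-- **PIECE 1 of `pair_row`** -/
theorem pcs_ctxStmt : CtxStmt := by
  obtain ⟨δm, hδm, hmono⟩ := B4.regulator_mono
  refine ⟨δm, hδm, ?_⟩
  intro o oT c hc δ κ h0 A qA H0 H1 ℓ D1R D1 Dsq vinf k0 kT hδ hκ hh hq hA _ hS hST hg hgT hD1R hD1 hH0 hH1 hL hD
  exact pcs_all_of hc hδ.1 hκ hh hq hA (fun G g hg => hmono δ hδ G g hg) (pcs_tail hc hg) (pcs_tail hc hgT) hS hST vinf hD1 hD1R ⟨hL, hH0, hH1, hD⟩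

/-- **THE CHAIN OF CONSTANTS OF `CtxAll`**, in the order of `PairConstStmt` -/
theorem pcs_chain : ∃ δ0 > (0 : ℝ), ∀ δ ∈ Set.Ioc 0 δ0, ∀ κ > (0 : ℝ), ∀ c : B8.Geo, Obs.GeoFit c → ∃ Csh : ℝ, ∀ (h0 : ℝ≥0) (β : ℝ), 0 < h0 → 0 < β →
    Csh * β ≤ h0 → ∃ (Cg CgT : ℝ≥0) (ℓ0 D1 : ℕ), ∀ ℓ ≥ ℓ0, ∀ η > (0 : ℝ≥0), ∃ A0 : ℝ, 1 ≤ A0 ∧ ∀ qA A : ℝ, 1 ≤ qA → A0 * qA ≤ A → ∀ Cd CdT : ℝ≥0,
    ∃ (Cnl CnlT ε0 εT : ℝ≥0), 0 < ε0 ∧ 0 < εT ∧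
    ∀ (o oT : ObsPar) (D1R : ℕ), Obs.SqHyp c δ κ o ℓ D1R → Obs.SqHyp c δ (2 * κ) oT ℓ D1R →
    ∀ (H0 H1 Dsq : ℕ) (vinf : ℤ × ℤ → ℝ), D1 ≤ Dsq → D1R ≤ Dsq → ZoneOK (pmOf c H0 H1 Dsq vinf) ℓ →
      CtxAll (pmOf c H0 H1 Dsq vinf) (nmOf δ κ h0 A qA) ⟨Cg, Cd, Cnl, ε0, η, β⟩ ⟨CgT, CdT, CnlT, εT, η, β⟩ o oT ℓ := by
  obtain ⟨δm, hδm, hmono⟩ := B4.regulator_mono
  refine ⟨δm, hδm, fun δ hδ κ hκ c hc => ?_⟩
  obtain ⟨Csh, Hc⟩ := local_map_core c.Ck c.ck (pp + 1) r0 RR c.n0 (2 * pp + 8) (by norm_num [r0, pp]) (by norm_num [r0, pp])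
    (by norm_num [r0, RR, pp]) c.cst
  refine ⟨Csh, fun h0 β hh hβ hC => ?_⟩
  have hκ2 : 0 < 2 * κ := by linarith
  obtain ⟨Cg, ℓa, Da, Ha⟩ := Hc δ κ h0 β hδ.1 hκ hh hβ hC
  obtain ⟨CgT, ℓb, Db, Hb⟩ := Hc δ (2 * κ) h0 β hδ.1 hκ2 hh hβ hC
  refine ⟨Cg, CgT, max ℓa ℓb, max Da Db, fun ℓ hℓ η hη => ?_⟩
  obtain ⟨Aa, Ha⟩ := Ha ℓ ((le_max_left _ _).trans hℓ) η hη
  obtain ⟨Ab, Hb⟩ := Hb ℓ ((le_max_right _ _).trans hℓ) η hη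
  refine ⟨max (max Aa Ab) 1, le_max_right _ _, fun qA A hq hA Cd CdT => ?_⟩
  have hq0 : 0 < qA := by linarith
  have hA1 : max (max Aa Ab) 1 ≤ A / qA := by rwa [le_div_iff₀ hq0]
  have hAT1 : 1 ≤ A / qA := (le_max_right _ _).trans hA1
  have hqA : qA ≤ A := by rwa [le_div_iff₀ hq0, one_mul] at hAT1
  have hAle : A / qA ≤ A := div_le_self (by linarith) hq
  obtain ⟨Cnl, ε0, hε0, Ha⟩ := Ha A ((((le_max_left _ _).trans (le_max_left _ _)).trans hA1).trans hAle) Cd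
  obtain ⟨CnlT, εT, hεT, Hb⟩ := Hb (A / qA) (((le_max_right _ _).trans (le_max_left _ _)).trans hA1) CdT
  refine ⟨Cnl, CnlT, ε0, εT, hε0, hεT, ?_⟩
  intro o oT D1R hS hST H0 H1 Dsq vinf hD1 hD1R hz
  exact pcs_all_of (D1 := max Da Db) hc hδ.1 hκ hh hq hqA (fun G g hg => hmono δ hδ G g hg)
    (fun ω hω D0 hD0 => Ha ω hω D0 ((le_max_left _ _).trans hD0)) (fun ω hω D0 hD0 => Hb ω hω D0 ((le_max_right _ _).trans hD0))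
    hS hST vinf hD1 hD1R hz

/-! ## 4. `TermInt` -/

/-- **`TermInt`**: `δ0`, then `κ0` (`2 κ0 ≤` the threshold of the unit norm) -/
theorem pcs_termInt (o oT : ObsPar) : ∃ δ0 > (0 : ℝ), ∀ δ ∈ Set.Ioc 0 δ0, ∃ κ0 > (0 : ℝ), ∀ κ ∈ Set.Ioc 0 κ0, ∀ (h0 : ℝ≥0) (A qA : ℝ),
    TermInt (nmOf δ κ h0 A qA) o oT := by
  obtain ⟨δa, hδa, Ha⟩ := Obs.terminal_regulator o
  obtain ⟨δb, hδb, Hb⟩ := Obs.terminal_regulator oT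
  refine ⟨min δa δb, lt_min hδa hδb, fun δ hδ => ?_⟩
  obtain ⟨κa, hκa, Ca, Ha⟩ := Ha δ ⟨hδ.1, hδ.2.trans (min_le_left _ _)⟩
  obtain ⟨κb, hκb, Cb, Hb⟩ := Hb δ ⟨hδ.1, hδ.2.trans (min_le_right _ _)⟩
  refine ⟨min κa (κb / 2), lt_min hκa (by linarith), fun κ hκ h0 A qA => ?_⟩
  have h1 : κ ≤ κa := hκ.2.trans (min_le_left _ _)
  have h2 : κ ≤ κb / 2 := hκ.2.trans (min_le_right _ _)
  intro G cl g hcl hg hN hM Γ hΓ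
  refine ⟨fun V hV => ?_, fun V hV => ?_⟩
  · exact ne_top_of_le_ne_top (ENNReal.pow_ne_top ENNReal.coe_ne_top) (Ha κ ⟨hκ.1, h1⟩ G cl g hcl hg hN hM Γ hΓ V hV Finset.univ)
  · exact ne_top_of_le_ne_top (ENNReal.pow_ne_top ENNReal.coe_ne_top)
      (Hb (2 * κ) ⟨by linarith [hκ.1], by linarith⟩ G cl g hcl hg hN hM Γ hΓ V hV Finset.univ)

/-! ## 5. `StepOut.inv` -/

section inv

variable {pm : Prm} {nm : Nm} {cT : ℝ≥0} {k0 kT : KC} {G : Geom} {ℓ : ℕ} {T : Tw G ℓ} {j : ℕ} {h : Ret G ℓ pm.D0 j}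

/-- **`StepOut.inv`**: the structural invariants after one paired step.  `hJ` = the first conjunct of `prj_label_ctx`; `hd0`, `hdT`, `hsm` = the fields `d0_ok`, `dT_ok`, `dT_small` of `StepOut`; the three finiteness hypotheses follow from the ball and `TotBd`. -/
theorem pcs_inv (H : Ctx pm nm cT k0 kT T h) (t z : ℂ) (ht : t.im = 0) (hz : z.im = 0) (x : St (lev G ℓ j)) (hx : Inv pm nm.h0 x) (μ : G.V → ℝ)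
    (hP : nP (nm.p0 pm.ω) (T.V0 j) pm.zn.H0 pm.α t z x ≠ ⊤)
    (hK0 : actNorm (nm.p0 pm.ω) (lev G ℓ j) (T.V0 j) x.K0 ≠ ⊤)
    (hKT : actNorm (nm.pT pm.ω) (lev G ℓ j) (T.VT j) (shA x.KT μ) ≠ ⊤)
    (hd0 : (d0 (T.step h) pm.c pm.ω pm.zn t z x.K0).Ok (nm.p0 pm.ω) pm.c.col pm.c.r)
    (hdT : (shD (dT (T.step h) pm.c pm.ω pm.zn t z (pm.ref G) x.K0 x.KT) μ).Ok (nm.pT pm.ω) pm.c.col pm.c.r)
    (hsm : (dT (T.step h) pm.c pm.ω pm.zn t z (pm.ref G) x.K0 x.KT).Small pm.c.r (lev G ℓ (j + 1)))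
    (hJ : Act.Ok ⟨0, 0, nm.h0, 0, pm.ω⟩ pm.c.col pm.c.R (next (T.step h) pm.c pm.ω pm.zn t z (pm.ref G) x).JT) :
    Inv pm nm.h0 (next (T.step h) pm.c pm.ω pm.zn t z (pm.ref G) x) := by
  obtain ⟨r0, rT, rJ⟩ := pr_real_step H t z ht hz x hx hP
  refine ⟨?_, ?_, hJ, r0, rT, rJ, pr_even_step H t z x hx, fun Y hY κ hκ w hw => pr_gauge_step H t z x hx Y hY κ hκ w hw,
    fun Y hY w hw => pr_label_step H t z x hx Y hY w hw⟩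
  · exact ok_par' (p := nm.p0 pm.ω) (H.gain0.ok pm.c.col x.K0 (ok_par hx.ok0 _ _ _) hK0 _ hd0)
  · have h1 := H.gainT.ok pm.c.col (shA x.KT μ) (prj_shA_ok (ok_par hx.okT _ _ _) μ) hKT _ hdT
    have e := prs_next_KT (T.step h) pm.c pm.ω pm.zn t z (pm.ref G) x hsm μ
    have h2 : Act.Ok (nm.pT pm.ω) pm.c.col pm.c.R (shA (next (T.step h) pm.c pm.ω pm.zn t z (pm.ref G) x).KT μ) := by
      rw [e]
      exact h1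
    exact ok_par' (p := nm.pT pm.ω) ((prj_shA_ok_iff μ).1 h2)

end inv

end

end Claimed.Agent.R285.F6.Pr
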