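import Claimed.Agent.R285.Obs.PairKit
import Claimed.Agent.R285.Map.WGain

/-!
# ROW 285, unit OBS, [F] L6.2, block EST, kit K6: THE GAIN OF ONE SMALL INPUT IN A FREE SQUARE      (helper22)   -- KEEP.

For ANY boundary condition (context `Ctx0` of `Obs/PairKit.lean`), ANY small connected support `X` and ANY local function `F` on `X` of size `≤ u` (`LocalInput`); `L = 2^ℓ`,
`H_q = E F_q = conv Γ (chargeProj ω q F)` (`= S.Hq ω q K X` for `F = K X`, by `rfl`).  Prefix `pgn_`.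

* `pgn_at_le`        : the value of a function at a REAL field inside the polydisc around `0` is bounded by its size (`Wt (Y, 0) = 1`);
* `pgn_neutral`      : `‖H_0 - H_0 (0)‖' ≤ C_n u L⁻¹`, even `F`: `≤ C_n u L⁻²`                                    (`B4.neutral_localization`, no bulk hypothesis);
* `pgn_charges`      : `∑_{q ≠ 0} ‖H_q‖' ≤ C_c u L⁻²` from ONE diagonal bound `L² e^{-k₀ Γ(v₀,v₀)/2} ≤ C_y`, `v₀ ∈ X`      (`B4.charged_gain`, amplitude `√k₀`, `wg_geom`);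
* `pgn_gain`         : ONE theorem with all the conclusions, bundled in the structure `InGain p S X F u Cg`:
    `tot`  : `‖E F - H_0 (0)‖' ≤ C_g u L⁻¹`,   `even` : even `F`: `≤ C_g u L⁻²`                                 (walls: [F] l.445-480);
    `refv` : `|H_0 (η) - H_0 (0)| ≤ C_g u L⁻¹` for a real reference field `η` with `‖η - a‖'_{\bar X} < h₀` for some real constant `a`;
    `ref`  : `‖E F - H_0 (η)‖' ≤ C_g u L⁻¹`                                                                    (defects and labels: [F] l.505-535; NO largeness of `N` is needed);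
    `chg`  : the charged part alone, `L⁻²`;
* `pgn_ref_le`, `pgn_H0_const`, `pgn_decomp` : the tools;
* `pgn_shF_conv`, `pgn_shF_charge`, `pgn_shA_Hq` : translations of the field argument commute with `E` and the charge projections.
-/

set_option autoImplicit false

namespace Claimed.Agent.R285.F6.Pr

open scoped BigOperators ENNReal NNReal
open MeasureTheory
open Claimed.Agent.R285 Claimed.Agent.R285.RG Claimed.Agent.R285.Hol Claimed.Agent.R285.B8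

noncomputable section

variable {G : Geom}

/-! ## 0. values at real fields; constants -/

/-- the value at a real field of the polydisc around `0` -/
theorem pgn_at_le (p : Par) (g : Grid G) (V : Extra g) (X : Finset g.I) (F : Fn G) (η : G.V → ℝ) (hη : tnorm g X η < p.h0) :
    (‖F (toC η)‖₊ : ℝ≥0∞) ≤ fnSize p g V X F := by
  have h1 := Hol.nnnorm_le_fnSize_mul p g V X F 0 (toC η) (by rw [Hol.tnorm_toC]; exact hη)
  rw [Loc.loc_Wt_zero, ENNReal.ofReal_one, mul_one] at h1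
  have e : toC (0 : G.V → ℝ) + toC η = toC η := by funext v; simp [toC]
  rwa [e] at h1

/-- the size of a constant -/
theorem pgn_const_le (p : Par) (hδ : 0 ≤ p.δ) (hκ : 0 ≤ p.κ) (g : Grid G) (V : Extra g) (X : Finset g.I) (a : ℂ) :
    fnSize p g V X (fun _ => a) ≤ ‖a‖₊ :=
  w_fnSize_le_of_bound p hδ hκ g V X _ _ fun _ _ => le_rfl

/-! ## 1. translations -/

theorem pgn_shF_conv (Γ : Matrix G.V G.V ℝ) (F : Fn G) (lam : G.V → ℝ) (z : G.V → ℂ) :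
    conv Γ (shF F lam) z = conv Γ F (z + toC lam) := by
  unfold conv shF
  refine integral_congr_ae (Filter.Eventually.of_forall fun ζ => ?_)
  simp only
  congr 1
  funext v
  simp only [Pi.add_apply]
  ring

theorem pgn_shF_charge (ω : ℝ) (q : ℤ) (F : Fn G) (lam : G.V → ℝ) (z : G.V → ℂ) :
    chargeProj ω q (shF F lam) z = chargeProj ω q F (z + toC lam) := by
  unfold chargeProj shF
  congr 1
  refine intervalIntegral.integral_congr fun t _ => ?_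
  show _ * F _ = _ * F _
  congr 2
  funext v
  simp only [Pi.add_apply]
  ring

theorem pgn_shF_charge' (ω : ℝ) (q : ℤ) (F : Fn G) (lam : G.V → ℝ) :
    chargeProj ω q (shF F lam) = shF (chargeProj ω q F) lam := funext fun z => pgn_shF_charge ω q F lam z

theorem pgn_shA_Hq {D0 ℓ : ℕ} (S : Step G D0 ℓ) (ω : ℝ) (q : ℤ) (K : Act S.P.g) (lam : G.V → ℝ) (X : Finset S.P.g.I) (z : G.V → ℂ) :
    S.Hq ω q (shA K lam) X z = S.Hq ω q K X (z + toC lam) := by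
  unfold Step.Hq shA
  rw [pgn_shF_charge', pgn_shF_conv]

/-! ## 2. the neutral component -/

/-- **the neutral component minus its constant**: gain `L⁻¹`, even inputs `L⁻²`; any boundary condition, also at the walls -/
theorem pgn_neutral (c : Geo) (δ κ : ℝ) (h0 : ℝ≥0) (hδ : 0 < δ) (hκ : 0 < κ) (hh : 0 < h0) : ∃ (Cn : ℝ≥0) (ℓ0 D1 : ℕ), ∀ ℓ ≥ ℓ0, ∀ D0 ≥ D1,
    ∀ (A ω : ℝ) (G : Geom) (S : Step G D0 ℓ), Ctx0 c ⟨δ, κ, h0, A, ω⟩ S →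
      ∀ (X : Finset S.P.g.I) (F : Fn G) (u : ℝ≥0∞), LocalInput ⟨δ, κ, h0, A, ω⟩ c.col c.R c.n0 S.P.g S.Vf X F u →
        fnSize ⟨δ, κ, h0, A, ω⟩ S.P.g' S.Vc (S.P.N.cl X) (fun ψ => conv S.Γ (chargeProj ω 0 F) ψ - conv S.Γ (chargeProj ω 0 F) 0)
          ≤ Cn * u * (2 ^ ℓ : ℝ≥0∞)⁻¹ ∧
        ((∀ ψ ∈ strip h0 S.P.g X, F (-ψ) = F ψ) →
          fnSize ⟨δ, κ, h0, A, ω⟩ S.P.g' S.Vc (S.P.N.cl X) (fun ψ => conv S.Γ (chargeProj ω 0 F) ψ - conv S.Γ (chargeProj ω 0 F) 0)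
            ≤ Cn * u * (2 ^ ℓ : ℝ≥0∞)⁻¹ ^ 2) := by
  obtain ⟨C, ℓ0, D1, H⟩ := B4.neutral_localization c.R c.n0 c.cst δ κ h0 hδ hκ hh
  refine ⟨C, ℓ0, D1, fun ℓ hℓ D0 hD A ω G S h X F u hF => ?_⟩
  have h1 := H ⟨δ, κ, h0, A, ω⟩ c.col rfl rfl rfl h.hω D0 hD G ℓ hℓ S.P S.Γ S.Vf S.Vc h.psd h.reg X F u hF _ rfl
  exact ⟨h1.1, fun he => (h1.2 he).1⟩

/-! ## 3. the charged components -/

/-- **one charged component**, amplitude `a` fixed before `L`, local anchor `v₀ ∈ X` -/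
theorem pgn_charge (c : Geo) : ∃ C1 : ℝ, ∀ (δ κ : ℝ) (h0 : ℝ≥0), 0 < δ → 0 < κ → ∀ a : ℝ, 0 < a → C1 * a ≤ h0 → ∃ (Cc : ℝ≥0) (ℓ0 D1 : ℕ), ∀ ℓ ≥ ℓ0, ∀ D0 ≥ D1,
    ∀ (A ω : ℝ) (G : Geom) (S : Step G D0 ℓ), Ctx0 c ⟨δ, κ, h0, A, ω⟩ S →
      ∀ (X : Finset S.P.g.I) (F : Fn G) (u : ℝ≥0∞), LocalInput ⟨δ, κ, h0, A, ω⟩ c.col c.R c.n0 S.P.g S.Vf X F u →
      ∀ v0 ∈ S.P.g.sites X, ∀ q : ℤ, q ≠ 0 →
        fnSize ⟨δ, κ, h0, A, ω⟩ S.P.g' S.Vc (S.P.N.cl X) (conv S.Γ (chargeProj ω q F))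
          ≤ Cc * u * ENNReal.ofReal (Real.exp (-(a * |(q : ℝ)| * Step.alpha ω - a ^ 2 / 2) * S.Γ v0 v0 + h0 * |(q : ℝ)| * Step.alpha ω)) := by
  obtain ⟨C1, H⟩ := B4.charged_gain c.Ck c.ck c.ρ c.R c.n0 c.cst
  refine ⟨C1, fun δ κ h0 hδ hκ a ha hC => ?_⟩
  obtain ⟨C, ℓ0, D1, H⟩ := H δ κ h0 hδ hκ a ha hC
  refine ⟨C, ℓ0, D1, fun ℓ hℓ D0 hD A ω G S h X F u hF v0 hv0 q hq => ?_⟩
  have h1 := H ⟨δ, κ, h0, A, ω⟩ c.col rfl rfl rfl h.hω D0 hD G ℓ hℓ S.P S.Γ S.Vf S.Vc h.shell h.reg X F u hF v0 hv0 q hq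
  exact (w_fnSize_kappa_mono δ κ (κ / 2) h0 A A ω ω hδ.le (by linarith) S.P.g' S.Vc _ _).trans h1

/-- **all the charges `q ≠ 0` together**: gain `L⁻²` in the window `k₀ ≤ α² ≤ 4 k₀`, from the diagonal bound at ONE site of `X` -/
theorem pgn_charges (c : Geo) : ∃ C1 : ℝ≥0, 0 < C1 ∧ ∀ (δ κ : ℝ) (h0 : ℝ≥0), 0 < δ → 0 < κ → C1 ≤ h0 → ∀ Cy : ℝ, ∃ (Cc : ℝ≥0) (ℓ0 D1 : ℕ), ∀ ℓ ≥ ℓ0, ∀ D0 ≥ D1,
    ∀ (A ω : ℝ) (G : Geom) (S : Step G D0 ℓ), k0 ≤ Step.alpha ω ^ 2 → Step.alpha ω ^ 2 ≤ 4 * k0 → Ctx0 c ⟨δ, κ, h0, A, ω⟩ S →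
      ∀ (X : Finset S.P.g.I) (F : Fn G) (u : ℝ≥0∞), LocalInput ⟨δ, κ, h0, A, ω⟩ c.col c.R c.n0 S.P.g S.Vf X F u →
      ∀ v0 ∈ S.P.g.sites X, ((2 : ℝ) ^ ℓ) ^ 2 * Real.exp (-k0 * S.Γ v0 v0 / 2) ≤ Cy →
        ∑' q : ℤ, (if q = 0 then 0 else fnSize ⟨δ, κ, h0, A, ω⟩ S.P.g' S.Vc (S.P.N.cl X) (conv S.Γ (chargeProj ω q F)))
          ≤ Cc * u * (2 ^ ℓ : ℝ≥0∞)⁻¹ ^ 2 := by
  obtain ⟨Cch, Hc⟩ := pgn_charge c
  have hk0 : 0 < k0 := by unfold k0; positivity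
  obtain ⟨a, ha⟩ : ∃ a : ℝ, a = Real.sqrt k0 := ⟨_, rfl⟩
  have ha0 : 0 < a := by rw [ha]; exact Real.sqrt_pos.2 hk0
  have ha2 : a ^ 2 = k0 := by rw [ha]; exact Real.sq_sqrt hk0.le
  refine ⟨(max (Cch * a) 1).toNNReal, by simp, fun δ κ h0 hδ hκ hC Cy => ?_⟩
  have hC' : max (Cch * a) 1 ≤ (h0 : ℝ) := by
    have := NNReal.coe_le_coe.2 hC
    rwa [Real.coe_toNNReal _ (le_max_of_le_right zero_le_one)] at this
  obtain ⟨Cc, ℓc, Dc, Hc⟩ := Hc δ κ h0 hδ hκ a ha0 ((le_max_left _ _).trans hC')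
  obtain ⟨E, hE⟩ : ∃ E : ℝ, E = Real.exp (h0 * (2 * a)) := ⟨_, rfl⟩
  have hE0 : 0 < E := by rw [hE]; exact Real.exp_pos _
  obtain ⟨ℓ1, H1⟩ := wg_pow (2 * Cy ^ 2 * E)
  refine ⟨Cc * (4 * Cy * E).toNNReal, max ℓc ℓ1, Dc, fun ℓ hℓ D0 hD A ω G S hα1 hα2 h X F u hF v0 hv0 hdiag => ?_⟩
  have hℓc : ℓc ≤ ℓ := (le_max_left _ _).trans hℓ
  have hℓ1 : ℓ1 ≤ ℓ := (le_max_right _ _).trans hℓ
  obtain ⟨α, hα⟩ : ∃ α : ℝ, α = Step.alpha ω := ⟨_, rfl⟩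
  rw [← hα] at hα1 hα2
  have hα0 : 0 < α := by rw [hα]; unfold Step.alpha; have := h.hω; have := Real.pi_pos; positivity
  obtain ⟨γ, hγ⟩ : ∃ γ : ℝ, γ = S.Γ v0 v0 := ⟨_, rfl⟩
  have hγ0 : 0 ≤ γ := by rw [hγ]; exact h.psd.diag_nonneg
  have haα : a ≤ α := by
    rw [ha]; exact Real.sqrt_le_iff.2 ⟨hα0.le, hα1⟩
  have hαm : α ≤ 2 * a := by
    have : α ^ 2 ≤ (2 * a) ^ 2 := by rw [mul_pow, ha2]; linarith
    exact (abs_le_of_sq_le_sq' this (by positivity)).2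
  obtain ⟨y, hy⟩ : ∃ y : ℝ, y = Real.exp (-k0 * γ / 2) := ⟨_, rfl⟩
  have hy0 : 0 < y := by rw [hy]; exact Real.exp_pos _
  obtain ⟨t, ht⟩ : ∃ t : ℝ, t = ((2 : ℝ) ^ ℓ)⁻¹ := ⟨_, rfl⟩
  have hL0 : (0 : ℝ) < 2 ^ ℓ := by positivity
  have ht0 : 0 < t := by rw [ht]; exact inv_pos.2 hL0
  have ht1 : t ≤ 1 := by rw [ht]; exact inv_le_one_of_one_le₀ (one_le_pow₀ one_le_two)
  rw [← hγ, ← hy] at hdiag
  have hCy0 : 0 ≤ Cy := le_trans (by positivity) hdiag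
  have hyt : y ≤ Cy * t ^ 2 := by
    have : y = (((2 : ℝ) ^ ℓ) ^ 2 * y) * t ^ 2 := by rw [ht]; field_simp
    rw [this]
    exact mul_le_mul_of_nonneg_right hdiag (by positivity)
  have hEt : 2 * Cy ^ 2 * E * t ≤ 1 := by
    have h2 := H1 ℓ hℓ1
    rw [ht, ← div_eq_mul_inv, div_le_iff₀ hL0]
    linarith
  have hgeo : y ^ 2 * E ≤ 1 / 2 := by
    have h1 : y ^ 2 ≤ (Cy * t ^ 2) ^ 2 := pow_le_pow_left₀ hy0.le hyt 2
    have h4 : t ^ 4 ≤ t := by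
      calc t ^ 4 = t * t ^ 3 := by ring
        _ ≤ t * 1 := mul_le_mul_of_nonneg_left (pow_le_one₀ ht0.le ht1) ht0.le
        _ = t := mul_one t
    have h2 : (Cy * t ^ 2) ^ 2 ≤ Cy ^ 2 * t := by
      have : (Cy * t ^ 2) ^ 2 = Cy ^ 2 * t ^ 4 := by ring
      rw [this]
      exact mul_le_mul_of_nonneg_left h4 (by positivity)
    calc y ^ 2 * E ≤ (Cy ^ 2 * t) * E := mul_le_mul_of_nonneg_right (h1.trans h2) hE0.le
      _ = (2 * Cy ^ 2 * E * t) / 2 := by ring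
      _ ≤ 1 / 2 := by linarith
  have hterm : ∀ q : ℤ, (if q = 0 then 0 else fnSize ⟨δ, κ, h0, A, ω⟩ S.P.g' S.Vc (S.P.N.cl X) (conv S.Γ (chargeProj ω q F)))
      ≤ Cc * u * (if 1 ≤ q.natAbs then ENNReal.ofReal (y ^ (2 * q.natAbs - 1) * E ^ q.natAbs) else 0) := by
    intro q
    by_cases hq : q = 0
    · rw [if_pos hq]; exact zero_le
    · have hq1 : 1 ≤ q.natAbs := by omega
      rw [if_neg hq, if_pos hq1]
      refine (Hc ℓ hℓc D0 hD A ω G S h X F u hF v0 hv0 q hq).trans (mul_le_mul' le_rfl (ENNReal.ofReal_le_ofReal ?_))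
      have eq : |(q : ℝ)| = (q.natAbs : ℝ) := by rw [Nat.cast_natAbs, Int.cast_abs]
      rw [eq, ← hα, ← hγ, hy, hE]
      exact wg_exp_le k0 a α (2 * a) γ h0 q.natAbs hq1 ha2 ha0.le haα hαm hγ0 (NNReal.coe_nonneg h0)
  refine (ENNReal.tsum_le_tsum hterm).trans ?_
  rw [ENNReal.tsum_mul_left]
  have h4 := wg_geom 1 le_rfl y E hy0.le hE0.le hgeo
  refine (mul_le_mul' le_rfl h4).trans ?_
  rw [wg_inv_pow, ← ht, ENNReal.coe_mul]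
  have e1 : ((4 * Cy * E).toNNReal : ℝ≥0∞) = ENNReal.ofReal (4 * Cy * E) := rfl
  rw [e1]
  have e2 : (Cc : ℝ≥0∞) * ENNReal.ofReal (4 * Cy * E) * u * ENNReal.ofReal (t ^ 2) = Cc * u * ENNReal.ofReal (4 * Cy * E * t ^ 2) := by
    rw [ENNReal.ofReal_mul (p := 4 * Cy * E) (by positivity)]; ring
  rw [e2]
  refine mul_le_mul' le_rfl (ENNReal.ofReal_le_ofReal ?_)
  have : 4 * y ^ (2 * 1 - 1) * E ^ 1 = 4 * y * E := by norm_num
  rw [this]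
  have := mul_le_mul_of_nonneg_right hyt hE0.le
  nlinarith

/-! ## 4. the whole expectation minus the neutral constant at `0` -/

theorem pgn_inv_le_one (ℓ : ℕ) : (2 ^ ℓ : ℝ≥0∞)⁻¹ ≤ 1 := by
  rw [ENNReal.inv_le_one]
  exact one_le_pow₀ (by norm_num)

theorem pgn_inv_ne_zero (ℓ : ℕ) : (2 ^ ℓ : ℝ≥0∞)⁻¹ ≠ 0 := by
  rw [Ne, ENNReal.inv_eq_zero]
  exact ENNReal.pow_ne_top (by norm_num)

/-- the decomposition into charges of `E F - H_0 (0)` -/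
theorem pgn_decomp {D0 ℓ : ℕ} {c : Geo} {p : Par} {S : Step G D0 ℓ} (h : Ctx0 c p S) {X : Finset S.P.g.I} {F : Fn G} (hF : LocalFn p c.col S.P.g X F)
    (hfin : fnSize p S.P.g S.Vf X F ≠ ⊤) :
    fnSize p S.P.g' S.Vc (S.P.N.cl X) (fun z => conv S.Γ F z - conv S.Γ (chargeProj p.ω 0 F) 0)
      ≤ fnSize p S.P.g' S.Vc (S.P.N.cl X) (fun ψ => conv S.Γ (chargeProj p.ω 0 F) ψ - conv S.Γ (chargeProj p.ω 0 F) 0)
        + ∑' q : ℤ, (if q = 0 then 0 else fnSize p S.P.g' S.Vc (S.P.N.cl X) (conv S.Γ (chargeProj p.ω q F))) := by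
  obtain ⟨T, hT⟩ : ∃ T : ℤ → Fn G, T = fun q => if q = 0 then (fun ψ => conv S.Γ (chargeProj p.ω 0 F) ψ - conv S.Γ (chargeProj p.ω 0 F) 0)
      else conv S.Γ (chargeProj p.ω q F) := ⟨_, rfl⟩
  have hs : ∀ z ∈ strip p.h0 S.P.g' (S.P.N.cl X), HasSum (fun q => T q z) (conv S.Γ F z - conv S.Γ (chargeProj p.ω 0 F) 0) := by
    intro z hz
    have h1 := pk_conv_hasSum h hF hfin (w_strip_coarse S.P p.h0 (Finset.Subset.refl _) hz)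
    have h2 : HasSum (fun q : ℤ => if q = 0 then conv S.Γ (chargeProj p.ω 0 F) 0 else 0) (conv S.Γ (chargeProj p.ω 0 F) 0) := hasSum_ite_eq 0 _
    have h3 := h1.sub h2
    have e : (fun q : ℤ => conv S.Γ (chargeProj p.ω q F) z - if q = 0 then conv S.Γ (chargeProj p.ω 0 F) 0 else 0) = fun q => T q z := by
      funext q
      rw [hT]
      by_cases hq : q = 0
      · subst hq; simp
      · simp [hq]
    rwa [e] at h3
  refine (w_fnSize_tsum_le p S.P.g' S.Vc (S.P.N.cl X) T _ hs).trans ?_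
  rw [ENNReal.tsum_eq_add_tsum_ite (0 : ℤ)]
  refine add_le_add (by rw [hT]; simp) (ENNReal.tsum_le_tsum fun q => ?_)
  by_cases hq : q = 0
  · simp [hq]
  · rw [hT]; simp [hq]

/-- neutrality: `H_0` does not see (complex) constants -/
theorem pgn_H0_const {D0 ℓ : ℕ} {c : Geo} {p : Par} {S : Step G D0 ℓ} (h : Ctx0 c p S) {X : Finset S.P.g.I} {F : Fn G} (hF : LocalFn p c.col S.P.g X F)
    {z : G.V → ℂ} (a : ℂ) (hz : z ∈ strip p.h0 S.P.g X) (hz' : (fun v => z v + a) ∈ strip p.h0 S.P.g X) :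
    conv S.Γ (chargeProj p.ω 0 F) (fun v => z v + a) = conv S.Γ (chargeProj p.ω 0 F) z := by
  unfold conv
  refine integral_congr_ae (Filter.Eventually.of_forall fun ζ => ?_)
  simp only
  have e : (fun v => z v + a) + toC ζ = fun v => (z + toC ζ) v + a := by
    funext v
    simp only [Pi.add_apply]
    ring
  have h1 := (B4.charge_proj p h.hω c.col S.P.g S.Vf X F hF 0).2.2 (z + toC ζ) a (Hol.strip_add_toC hz ζ) (by
    have := Hol.strip_add_toC hz' ζ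
    rwa [e] at this)
  rw [e, h1]
  simp

theorem pgn_toC_mem_strip {h0 : ℝ≥0} (hh : 0 < h0) (g : Grid G) (X : Finset g.I) (η : G.V → ℝ) : toC η ∈ strip h0 g X := by
  show tnorm g X (fun v => (toC η v).im) < h0
  have : (fun v => (toC η v).im) = (0 : G.V → ℝ) := by ext v; simp [toC]
  rw [this, Hol.tnorm_zero]; exact hh

/-- **the reference point**: the neutral constant at a real field which is small (coarse norm on `\bar X`, up to a constant) differs from the one at `0` by the size of `H_0 - H_0 (0)` -/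
theorem pgn_ref_le {D0 ℓ : ℕ} {c : Geo} {p : Par} {S : Step G D0 ℓ} (h : Ctx0 c p S) {X : Finset S.P.g.I} {F : Fn G} (hF : LocalFn p c.col S.P.g X F)
    (η : G.V → ℝ) (a : ℝ) (hη : tnorm S.P.g' (S.P.N.cl X) (fun v => η v - a) < p.h0) :
    (‖conv S.Γ (chargeProj p.ω 0 F) (toC η) - conv S.Γ (chargeProj p.ω 0 F) 0‖₊ : ℝ≥0∞)
      ≤ fnSize p S.P.g' S.Vc (S.P.N.cl X) (fun ψ => conv S.Γ (chargeProj p.ω 0 F) ψ - conv S.Γ (chargeProj p.ω 0 F) 0) := by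
  have e : toC η = fun v => toC (fun v => η v - a) v + (a : ℂ) := by
    funext v
    simp [toC]
  have h1 := pgn_H0_const h hF (z := toC (fun v => η v - a)) (a : ℂ) (pgn_toC_mem_strip h.hh _ _ _) (by rw [← e]; exact pgn_toC_mem_strip h.hh _ _ _)
  rw [e, h1]
  exact pgn_at_le p S.P.g' S.Vc (S.P.N.cl X) (fun ψ => conv S.Γ (chargeProj p.ω 0 F) ψ - conv S.Γ (chargeProj p.ω 0 F) 0) _ hη

/-- **the gains of one small input** (constant `Cg`, `L = 2^ℓ`) -/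
structure InGain {D0 ℓ : ℕ} (p : Par) (S : Step G D0 ℓ) (X : Finset S.P.g.I) (F : Fn G) (u : ℝ≥0∞) (Cg : ℝ≥0) : Prop where
  /-- the neutral constant at `0` is removed -/
  tot : fnSize p S.P.g' S.Vc (S.P.N.cl X) (fun z => conv S.Γ F z - conv S.Γ (chargeProj p.ω 0 F) 0) ≤ Cg * u * (2 ^ ℓ : ℝ≥0∞)⁻¹
  /-- even inputs -/
  even : (∀ ψ ∈ strip p.h0 S.P.g X, F (-ψ) = F ψ) →
    fnSize p S.P.g' S.Vc (S.P.N.cl X) (fun z => conv S.Γ F z - conv S.Γ (chargeProj p.ω 0 F) 0) ≤ Cg * u * (2 ^ ℓ : ℝ≥0∞)⁻¹ ^ 2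
  /-- the two neutral constants -/
  refv : ∀ (η : G.V → ℝ) (a : ℝ), tnorm S.P.g' (S.P.N.cl X) (fun v => η v - a) < p.h0 →
    (‖conv S.Γ (chargeProj p.ω 0 F) (toC η) - conv S.Γ (chargeProj p.ω 0 F) 0‖₊ : ℝ≥0∞) ≤ Cg * u * (2 ^ ℓ : ℝ≥0∞)⁻¹
  /-- the neutral constant at a reference field is removed -/
  ref : ∀ (η : G.V → ℝ) (a : ℝ), tnorm S.P.g' (S.P.N.cl X) (fun v => η v - a) < p.h0 →
    fnSize p S.P.g' S.Vc (S.P.N.cl X) (fun z => conv S.Γ F z - conv S.Γ (chargeProj p.ω 0 F) (toC η)) ≤ Cg * u * (2 ^ ℓ : ℝ≥0∞)⁻¹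
  /-- the charged part alone -/
  chg : ∑' q : ℤ, (if q = 0 then 0 else fnSize p S.P.g' S.Vc (S.P.N.cl X) (conv S.Γ (chargeProj p.ω q F))) ≤ Cg * u * (2 ^ ℓ : ℝ≥0∞)⁻¹ ^ 2

/-- **K6: THE GAIN OF ONE SMALL INPUT**, any boundary condition.  Order of the choices: `c`; `C1`; `δ, κ, h₀ ≥ C1`; `Cy` (the constant of the diagonal bound, KER K1); `Cg, ℓ0, D1`. -/
theorem pgn_gain (c : Geo) : ∃ C1 : ℝ≥0, 0 < C1 ∧ ∀ (δ κ : ℝ) (h0 : ℝ≥0), 0 < δ → 0 < κ → C1 ≤ h0 → ∀ Cy : ℝ, ∃ (Cg : ℝ≥0) (ℓ0 D1 : ℕ), ∀ ℓ ≥ ℓ0, ∀ D0 ≥ D1,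
    ∀ (A ω : ℝ) (G : Geom) (S : Step G D0 ℓ), k0 ≤ Step.alpha ω ^ 2 → Step.alpha ω ^ 2 ≤ 4 * k0 → Ctx0 c ⟨δ, κ, h0, A, ω⟩ S →
      ∀ (X : Finset S.P.g.I) (F : Fn G) (u : ℝ≥0∞), LocalInput ⟨δ, κ, h0, A, ω⟩ c.col c.R c.n0 S.P.g S.Vf X F u →
      ∀ v0 ∈ S.P.g.sites X, ((2 : ℝ) ^ ℓ) ^ 2 * Real.exp (-k0 * S.Γ v0 v0 / 2) ≤ Cy → InGain ⟨δ, κ, h0, A, ω⟩ S X F u Cg := by
  obtain ⟨C1, hC1, Hc⟩ := pgn_charges c
  refine ⟨C1, hC1, fun δ κ h0 hδ hκ hC Cy => ?_⟩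
  have hh : 0 < h0 := lt_of_lt_of_le hC1 hC
  obtain ⟨Cn, ℓn, Dn, Hn⟩ := pgn_neutral c δ κ h0 hδ hκ hh
  obtain ⟨Cc, ℓc, Dc, Hc⟩ := Hc δ κ h0 hδ hκ hC Cy
  refine ⟨2 * Cn + Cc + 1, max ℓn ℓc, max Dn Dc, fun ℓ hℓ D0 hD A ω G S hα1 hα2 h X F u hF v0 hv0 hdiag => ?_⟩
  have hn := Hn ℓ ((le_max_left _ _).trans hℓ) D0 ((le_max_left _ _).trans hD) A ω G S h X F u hF
  have hc := Hc ℓ ((le_max_right _ _).trans hℓ) D0 ((le_max_right _ _).trans hD) A ω G S hα1 hα2 h X F u hF v0 hv0 hdiag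
  obtain ⟨t, ht⟩ : ∃ t : ℝ≥0∞, t = (2 ^ ℓ : ℝ≥0∞)⁻¹ := ⟨_, rfl⟩
  have ht1 : t ≤ 1 := by rw [ht]; exact pgn_inv_le_one ℓ
  have ht0 : t ≠ 0 := by rw [ht]; exact pgn_inv_ne_zero ℓ
  have ht2 : t ^ 2 ≤ t := by
    calc t ^ 2 = t * t := sq t
      _ ≤ t * 1 := mul_le_mul' le_rfl ht1
      _ = t := mul_one t
  rw [← ht] at hn hc
  have hcoe : ((2 * Cn + Cc + 1 : ℝ≥0) : ℝ≥0∞) = 2 * (Cn : ℝ≥0∞) + Cc + 1 := by push_cast; rfl
  -- the case of an infinite bound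
  rcases eq_or_ne u ⊤ with hu | hu
  · have htop1 : ((2 * Cn + Cc + 1 : ℝ≥0) : ℝ≥0∞) * u * t = ⊤ := by
      rw [hu, ENNReal.mul_top (by rw [hcoe]; simp), ENNReal.top_mul ht0]
    have htop2 : ((2 * Cn + Cc + 1 : ℝ≥0) : ℝ≥0∞) * u * t ^ 2 = ⊤ := by
      rw [hu, ENNReal.mul_top (by rw [hcoe]; simp), ENNReal.top_mul (pow_ne_zero 2 ht0)]
    refine ⟨?_, fun _ => ?_, fun _ _ _ => ?_, fun _ _ _ => ?_, ?_⟩ <;> rw [← ht] <;> first | (rw [htop1]; exact le_top) | (rw [htop2]; exact le_top)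
  have hfin : fnSize ⟨δ, κ, h0, A, ω⟩ S.P.g S.Vf X F ≠ ⊤ := ne_top_of_le_ne_top hu hF.bd
  have hdec := pgn_decomp h hF.fn hfin
  have htot : fnSize ⟨δ, κ, h0, A, ω⟩ S.P.g' S.Vc (S.P.N.cl X) (fun z => conv S.Γ F z - conv S.Γ (chargeProj ω 0 F) 0) ≤ (Cn + Cc) * u * t := by
    refine hdec.trans ((add_le_add hn.1 hc).trans ?_)
    calc (Cn : ℝ≥0∞) * u * t + Cc * u * t ^ 2 ≤ Cn * u * t + Cc * u * t := add_le_add le_rfl (mul_le_mul' le_rfl ht2)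
      _ = _ := by ring
  have hrefv : ∀ (η : G.V → ℝ) (a : ℝ), tnorm S.P.g' (S.P.N.cl X) (fun v => η v - a) < h0 →
      (‖conv S.Γ (chargeProj ω 0 F) (toC η) - conv S.Γ (chargeProj ω 0 F) 0‖₊ : ℝ≥0∞) ≤ Cn * u * t :=
    fun η a hη => (pgn_ref_le h hF.fn η a hη).trans hn.1
  have hmono : ∀ (C : ℝ≥0∞) (s : ℝ≥0∞), C ≤ 2 * (Cn : ℝ≥0∞) + Cc + 1 → C * u * s ≤ ((2 * Cn + Cc + 1 : ℝ≥0) : ℝ≥0∞) * u * s := by
    intro C s hCs
    rw [hcoe]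
    exact mul_le_mul' (mul_le_mul' hCs le_rfl) le_rfl
  refine ⟨?_, fun he => ?_, fun η a hη => ?_, fun η a hη => ?_, ?_⟩ <;> rw [← ht]
  · refine htot.trans (hmono _ _ ?_)
    calc (Cn : ℝ≥0∞) + Cc ≤ (Cn + Cn) + Cc + 1 := by
          refine le_add_right (add_le_add le_self_add le_rfl)
      _ = _ := by ring
  · refine (hdec.trans (add_le_add (hn.2 he) hc)).trans ?_
    have : (Cn : ℝ≥0∞) * u * t ^ 2 + Cc * u * t ^ 2 = (Cn + Cc) * u * t ^ 2 := by ring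
    rw [this]
    refine hmono _ _ ?_
    calc (Cn : ℝ≥0∞) + Cc ≤ (Cn + Cn) + Cc + 1 := by
          refine le_add_right (add_le_add le_self_add le_rfl)
      _ = _ := by ring
  · refine (hrefv η a hη).trans (hmono _ _ ?_)
    calc (Cn : ℝ≥0∞) ≤ (Cn + Cn) + Cc + 1 := le_add_right (le_add_right le_self_add)
      _ = _ := by ring
  · have e : (fun z => conv S.Γ F z - conv S.Γ (chargeProj ω 0 F) (toC η))
        = (fun z => conv S.Γ F z - conv S.Γ (chargeProj ω 0 F) 0) - (fun _ => conv S.Γ (chargeProj ω 0 F) (toC η) - conv S.Γ (chargeProj ω 0 F) 0) := by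
      funext z
      simp only [Pi.sub_apply]
      ring
    show fnSize ⟨δ, κ, h0, A, ω⟩ S.P.g' S.Vc (S.P.N.cl X) (fun z => conv S.Γ F z - conv S.Γ (chargeProj ω 0 F) (toC η)) ≤ _
    rw [e]
    refine (w_fnSize_sub_le _ _ _ _ _ _).trans ((add_le_add htot ((pgn_const_le ⟨δ, κ, h0, A, ω⟩ hδ.le hκ.le _ _ _ _).trans (hrefv η a hη))).trans ?_)
    have : ((Cn : ℝ≥0∞) + Cc) * u * t + Cn * u * t = (2 * Cn + Cc) * u * t := by ring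
    rw [this]
    exact hmono _ _ le_self_add
  · refine hc.trans (hmono _ _ ?_)
    calc (Cc : ℝ≥0∞) ≤ 2 * (Cn : ℝ≥0∞) + Cc := le_add_self
      _ ≤ _ := le_self_add

end

end Claimed.Agent.R285.F6.Pr
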