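import Claimed.Agent.R285.Obs.PairCtx
import Claimed.Agent.R285.Ker.Img
import Claimed.Agent.R285.Ker.Copy
import Claimed.Agent.R285.Rdo.Eig

/-!
# ROW 285, unit OBS, `Obs.pair_stop`, block KER: THE KERNEL INPUTS OF [F] L6.2 IN FREE SQUARES      (helper165, chief helper79)   -- KEEP

EXITS (all for ANY boundary convention; NO sorry):
K1. FREE DIAGONAL (`Ker.ker_free_diag`, helper198, `Ker/Img.lean`).  Here: `pkr_free_gain` (`L² e^{-k₀ Γ(v,v)/2} ≤ C` at EVERY site: the shape of the hypothesis of `B8.weak_step`),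
   `pkr_Gm_diag`, `pkr_Gm_gain` (the same for `Gm G ℓ j`, `Ret G ℓ D0 j`, `64 ≤ D0`).
K2/K3. COPIES.  `pkr_cov_transl` (polynomial kernels of two volumes agree along a translation at a site whose ball of radius `deg P` is in the box of the first volume),
   `pkr_dep_box` (the dependence set of a wall-free support stays `H - 1` blocks away from the walls), `pkr_shell_copy`, `pkr_hcov` (general pair),
   **`pkr_Gm_copy`** (master: `Gm G₀ ℓ j v w = shell G₁ .. (s v) (s w)`), **`pkr_hcov_sq`** (K2: centred squares, `= hcov` of `pr_copy_step` for `prg_emb_sq`), **`pkr_hcov_tor`** (K3: corner chart of a torus of `B8.Sc`, for `prg_emb_tor`);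
   all for `Y` `WallFree H`, `H ≥ pp + 1 = 33`, `col ≤` the coarse side; ONLY the first site has to be in the dependence set.
K5. SPLITTING.  `pkr_ker_split`, `pkr_ker_split_low` (= `Rdo.rdo_ker_split`, `rdo_ker_split_low` without the hypothesis `G.bc = BC.per`), `pkr_Gm_split` (consecutive levels).
-/

set_option autoImplicit false

namespace Claimed.Agent.R285.F6.Pr

open scoped BigOperators ENNReal NNReal
open Polynomial
open Claimed.Agent.R285 Claimed.Agent.R285.RG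

noncomputable section

/-! ## 1. The free diagonal -/

/-- the charged gain `L² e^{-k₀ Γ (v,v)/2} ≤ C` at every site -/
theorem pkr_free_gain : ∃ C : ℝ, 0 < C ∧ ∀ (ℓ : ℕ) (G : Geom) (u : ℕ), 1 ≤ u → 64 * (2 ^ ℓ * u) < G.M → ∀ v : G.V,
    ((2 : ℝ) ^ ℓ) ^ 2 * Real.exp (-B8.k0 * shell G Fam.entry u (2 ^ ℓ * u) v v / 2) ≤ C := by
  obtain ⟨C, h⟩ := Ker.ker_free_diag
  refine ⟨Real.exp (4 * Real.pi * C), Real.exp_pos _, ?_⟩
  intro ℓ G u hu hM v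
  have h1 := h ℓ G u hu hM v
  have e1 : ((2 : ℝ) ^ ℓ) ^ 2 = Real.exp (2 * (ℓ * Real.log 2)) := by
    rw [two_mul, Real.exp_add, ← Real.rpow_natCast 2 ℓ, Real.rpow_def_of_pos (by norm_num : (0 : ℝ) < 2), mul_comm (Real.log 2), sq]
  rw [e1, ← Real.exp_add, Real.exp_le_exp]
  have hpi := Real.pi_pos
  have e2 : 4 * Real.pi * (ℓ * Real.log 2 / (2 * Real.pi) - C) = 2 * (ℓ * Real.log 2) - 4 * Real.pi * C := by
    field_simp
    ring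
  have h2 : 4 * Real.pi * (ℓ * Real.log 2 / (2 * Real.pi) - C) ≤ 4 * Real.pi * shell G Fam.entry u (2 ^ ℓ * u) v v :=
    mul_le_mul_of_nonneg_left h1 (by positivity)
  unfold B8.k0
  linarith

/-- the covariance of the step `j → j + 1` -/
theorem pkr_Gm_eq {G : Geom} {ℓ j : ℕ} (h : (2 ^ ℓ) ^ (j + 1) ∣ G.M) :
    Gm G ℓ j = shell G Fam.entry ((2 ^ ℓ) ^ j) (2 ^ ℓ * (2 ^ ℓ) ^ j) := by
  unfold Gm
  rw [side_eq h, side_eq (dvd_trans (pow_dvd_pow _ (Nat.le_succ j)) h), pow_succ, mul_comm]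

theorem pkr_ret_clear {G : Geom} {ℓ D0 j : ℕ} (h : Ret G ℓ D0 j) (hD : 64 ≤ D0) : 64 * (2 ^ ℓ * (2 ^ ℓ) ^ j) < G.M := by
  have h1 := h.clear
  rw [pow_succ, mul_comm ((2 ^ ℓ) ^ j)] at h1
  exact lt_of_le_of_lt (Nat.mul_le_mul_right _ hD) h1

/-- **K1 for the steps of a tower** -/
theorem pkr_Gm_diag : ∃ C : ℝ, ∀ (ℓ : ℕ) (G : Geom) (D0 j : ℕ), Ret G ℓ D0 j → 64 ≤ D0 → ∀ v : G.V,
    ℓ * Real.log 2 / (2 * Real.pi) - C ≤ Gm G ℓ j v v := by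
  obtain ⟨C, H⟩ := Ker.ker_free_diag
  refine ⟨C, ?_⟩
  intro ℓ G D0 j h hD v
  rw [pkr_Gm_eq h.dvd]
  exact H ℓ G _ (Nat.pos_of_ne_zero (by positivity)) (pkr_ret_clear h hD) v

/-- the charged gain for the steps of a tower -/
theorem pkr_Gm_gain : ∃ C : ℝ, 0 < C ∧ ∀ (ℓ : ℕ) (G : Geom) (D0 j : ℕ), Ret G ℓ D0 j → 64 ≤ D0 → ∀ v : G.V,
    ((2 : ℝ) ^ ℓ) ^ 2 * Real.exp (-B8.k0 * Gm G ℓ j v v / 2) ≤ C := by
  obtain ⟨C, hC, H⟩ := pkr_free_gain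
  refine ⟨C, hC, ?_⟩
  intro ℓ G D0 j h hD v
  rw [pkr_Gm_eq h.dvd]
  exact H ℓ G _ (Nat.pos_of_ne_zero (by positivity)) (pkr_ret_clear h hD) v

/-! ## 2. Copies -/

/-- the ball of radius `d` around `v` lies in the box of canonical lifts -/
def InCore (G : Geom) (d : ℕ) (v : G.V) : Prop :=
  d ≤ (v.1 : ℕ) ∧ (v.1 : ℕ) + d < G.M ∧ d ≤ (v.2 : ℕ) ∧ (v.2 : ℕ) + d < G.M

theorem InCore.mono {G : Geom} {d d' : ℕ} {v : G.V} (h : InCore G d v) (hd : d' ≤ d) : InCore G d' v := by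
  obtain ⟨a1, a2, a3, a4⟩ := h
  exact ⟨by omega, by omega, by omega, by omega⟩

/-- **polynomial kernels are copied by translations away from the walls of the first volume** (any boundary conventions) -/
theorem pkr_cov_transl {G₀ G₁ : Geom} (P : ℝ[X]) (s : G₀.V → G₁.V) (τ : ℤ × ℤ) (hs : ∀ v, G₁.ι (s v) = G₀.ι v + τ) (v w : G₀.V)
    (hv : InCore G₀ P.natDegree v) : cov G₀ P v w = cov G₁ P (s v) (s w) := by
  obtain ⟨a1, a2, a3, a4⟩ := hv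
  have c1 : ∀ x : G₀.V, (((s x).1 : ℕ) : ℤ) = ((x.1 : ℕ) : ℤ) + τ.1 := fun x => congrArg Prod.fst (hs x)
  have c2 : ∀ x : G₀.V, (((s x).2 : ℕ) : ℤ) = ((x.2 : ℕ) : ℤ) + τ.2 := fun x => congrArg Prod.snd (hs x)
  have lo := c1 (⟨(v.1 : ℕ) - P.natDegree, by omega⟩, ⟨(v.2 : ℕ) - P.natDegree, by omega⟩)
  have lo' := c2 (⟨(v.1 : ℕ) - P.natDegree, by omega⟩, ⟨(v.2 : ℕ) - P.natDegree, by omega⟩)
  have hi := c1 (⟨(v.1 : ℕ) + P.natDegree, a2⟩, ⟨(v.2 : ℕ) + P.natDegree, a4⟩)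
  have hi' := c2 (⟨(v.1 : ℕ) + P.natDegree, a2⟩, ⟨(v.2 : ℕ) + P.natDegree, a4⟩)
  have b1 := (s (⟨(v.1 : ℕ) + P.natDegree, a2⟩, ⟨(v.2 : ℕ) + P.natDegree, a4⟩)).1.2
  have b2 := (s (⟨(v.1 : ℕ) + P.natDegree, a2⟩, ⟨(v.2 : ℕ) + P.natDegree, a4⟩)).2.2
  have k1 := c1 v
  have k2 := c2 v
  simp only at lo lo' hi hi'
  rw [Ker.ker_cov_plane_box G₀ P v w ⟨a1, a2, a3, a4⟩,
    Ker.ker_cov_plane_box G₁ P (s v) (s w) ⟨by omega, by omega, by omega, by omega⟩]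
  rw [hs v, hs w, ← Ker.ker_aeval_shift]
  have hf : (fun z : ℤ × ℤ => (Pi.single (G₀.ι w + τ) (1 : ℝ) : ℤ × ℤ → ℝ) (z + τ)) = Pi.single (G₀.ι w) 1 := by
    funext z
    by_cases hz : z = G₀.ι w
    · subst hz; simp
    · have : z + τ ≠ G₀.ι w + τ := fun h => hz (add_right_cancel h)
      simp [hz, this]
  rw [hf]

/-- a centred embedding is a translation -/
theorem pkr_centred_transl {G₀ G₁ : Geom} {s : G₀.V ↪ G₁.V} (h : Centred s) :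
    ∀ v, G₁.ι (s v) = G₀.ι v + ((((G₁.M / 2 : ℕ) : ℤ) - ((G₀.M / 2 : ℕ) : ℤ)), (((G₁.M / 2 : ℕ) : ℤ) - ((G₀.M / 2 : ℕ) : ℤ))) := h

/-- the shells of the entry family are copied -/
theorem pkr_shell_copy {G₀ G₁ : Geom} (s : G₀.V → G₁.V) (τ : ℤ × ℤ) (hs : ∀ v, G₁.ι (s v) = G₀.ι v + τ) (m S : ℕ) (hm : m ≤ S) (v w : G₀.V)
    (hv : InCore G₀ (pp * S) v) : shell G₀ Fam.entry m S v w = shell G₁ Fam.entry m S (s v) (s w) :=
  pkr_cov_transl _ s τ hs v w (hv.mono (by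
    have := Ker.ker_shellP_natDegree Fam.entry 0 Ker.ker_entry_adm.deg m S hm
    simpa using this))

/-- the dependence set of a wall-free support stays `H - 1` blocks away from the walls -/
theorem pkr_dep_box {G : Geom} (g : Grid G) (hg : Std g) (col : ℕ) (hcol : col ≤ g.m) (H : ℕ) (hH : 1 ≤ H) (Y : Finset g.I) (hY : WallFree g H Y)
    (v : G.V) (hv : v ∈ dep g col Y) : InCore G ((H - 1) * g.m) v := by
  classical
  obtain ⟨w, hw, hd⟩ := hv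
  have hwY : g.blk w ∈ Y := by
    simpa [Grid.sites] using hw
  obtain ⟨y, hy, hsd⟩ := Ker.ker_dist_attained G (G.ι w) v
  rw [Ker.ker_pi_iota] at hsd
  obtain ⟨b1, b2, b3, b4⟩ := hY _ hwY
  have e1 : ((g.blk w).1 : ℕ) = (w.1 : ℕ) / g.m := hg.blk w.1
  have e2 : ((g.blk w).2 : ℕ) = (w.2 : ℕ) / g.m := hg.blk w.2
  rw [e1] at b1 b2
  rw [e2] at b3 b4
  have hM := hg.card
  have hsub : (H - 1) * g.m = H * g.m - g.m := by rw [Nat.sub_mul, one_mul]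
  have hHm : g.m ≤ H * g.m := Nat.le_mul_of_pos_left _ hH
  have s1 : (y.1 - (G.ι w).1).natAbs ≤ col := le_trans (le_max_left _ _) (hsd.le.trans hd)
  have s2 : (y.2 - (G.ι w).2).natAbs ≤ col := le_trans (le_max_right _ _) (hsd.le.trans hd)
  have i1 : (G.ι w).1 = ((w.1 : ℕ) : ℤ) := rfl
  have i2 : (G.ι w).2 = ((w.2 : ℕ) : ℤ) := rfl
  rw [i1] at s1
  rw [i2] at s2
  have key : ∀ a : ℕ, H ≤ a / g.m → a / g.m + H < g.n → H * g.m ≤ a ∧ a + H * g.m < G.M := by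
    intro a h1 h2
    have q1 : a / g.m * g.m ≤ a := Nat.div_mul_le_self _ _
    have q2 : a < (a / g.m + 1) * g.m := by
      have := Nat.lt_mul_div_succ a hg.pos
      rwa [mul_comm] at this
    have q3 : H * g.m ≤ a / g.m * g.m := Nat.mul_le_mul_right _ h1
    have q4 : (a / g.m + 1 + H) * g.m ≤ g.n * g.m := Nat.mul_le_mul_right _ (by omega)
    have q5 : (a / g.m + 1 + H) * g.m = (a / g.m + 1) * g.m + H * g.m := by ring
    rw [hM]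
    omega
  obtain ⟨k1, k2⟩ := key _ b1 b2
  obtain ⟨k3, k4⟩ := key _ b3 b4
  have f1 : ((G.fold y.1 : ℕ) : ℤ) = y.1 := Ker.ker_fold_of_mem G y.1 (by omega) (by omega)
  have f2 : ((G.fold y.2 : ℕ) : ℤ) = y.2 := Ker.ker_fold_of_mem G y.2 (by omega) (by omega)
  have v1 : (v.1 : ℕ) = (G.fold y.1 : ℕ) := by rw [← hy]; rfl
  have v2 : (v.2 : ℕ) = (G.fold y.2 : ℕ) := by rw [← hy]; rfl
  refine ⟨?_, ?_, ?_, ?_⟩ <;> omega

/-- **the hypothesis `hcov` of `pr_copy_step`** for the shell `m → m'`, `m' =` the coarse side, on wall-free coarse supports, `H ≥ pp + 1 = 33` -/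
theorem pkr_hcov {G₀ G₁ : Geom} {D0 D0' ℓ : ℕ} {P₀ : Pair G₀ D0 ℓ} {P₁ : Pair G₁ D0' ℓ} (E : PEmb P₀ P₁) (τ : ℤ × ℤ)
    (hτ : ∀ v, G₁.ι (E.s v) = G₀.ι v + τ) (hstd : Std P₀.g') (col : ℕ) (hcol : col ≤ P₀.g'.m) (H : ℕ) (hH : pp + 1 ≤ H)
    (Y : Finset P₀.g'.I) (hY : WallFree P₀.g' H Y) (m : ℕ) (hm : m ≤ P₀.g'.m) :
    ∀ v ∈ dep P₀.g' col Y, ∀ w, shell G₀ Fam.entry m P₀.g'.m v w = shell G₁ Fam.entry m P₀.g'.m (E.s v) (E.s w) := by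
  intro v hv w
  refine pkr_shell_copy E.s τ hτ m _ hm v w ((pkr_dep_box P₀.g' hstd col hcol H (by omega) Y hY v hv).mono ?_)
  exact Nat.mul_le_mul_right _ (by omega)

/-- **master copy of the covariance of a step**: `G₁` arbitrary, `s` a translation -/
theorem pkr_Gm_copy {G₀ G₁ : Geom} {ℓ j : ℕ} (hd : (2 ^ ℓ) ^ (j + 1) ∣ G₀.M) (s : G₀.V → G₁.V) (τ : ℤ × ℤ) (hs : ∀ v, G₁.ι (s v) = G₀.ι v + τ)
    (col : ℕ) (hcol : col ≤ (2 ^ ℓ) ^ (j + 1)) (H : ℕ) (hH : pp + 1 ≤ H) (Y : Finset (lev G₀ ℓ (j + 1)).I) (hY : WallFree (lev G₀ ℓ (j + 1)) H Y) :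
    ∀ v ∈ dep (lev G₀ ℓ (j + 1)) col Y, ∀ w, Gm G₀ ℓ j v w = shell G₁ Fam.entry ((2 ^ ℓ) ^ j) (2 ^ ℓ * (2 ^ ℓ) ^ j) (s v) (s w) := by
  intro v hv w
  have e : (lev G₀ ℓ (j + 1)).m = 2 ^ ℓ * (2 ^ ℓ) ^ j := by
    show side G₀ ℓ (j + 1) = _
    rw [side_eq hd, pow_succ, mul_comm]
  have e' : (2 ^ ℓ) ^ (j + 1) = 2 ^ ℓ * (2 ^ ℓ) ^ j := by rw [pow_succ, mul_comm]
  have hb := pkr_dep_box (lev G₀ ℓ (j + 1)) (prg_lev_std G₀ ℓ (j + 1)) col (by rw [e, ← e']; exact hcol) H (by omega) Y hY v hv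
  rw [e] at hb
  rw [pkr_Gm_eq hd]
  exact pkr_shell_copy s τ hs _ _ (Nat.le_mul_of_pos_left _ (by positivity)) v w (hb.mono (Nat.mul_le_mul_right _ (by omega)))

/-- **K2**: two centred squares (`prg_emb_sq`) -/
theorem pkr_hcov_sq {G₀ G₁ : Geom} {ℓ j : ℕ} (hd₀ : (2 ^ ℓ) ^ (j + 1) ∣ G₀.M) (hd₁ : (2 ^ ℓ) ^ (j + 1) ∣ G₁.M) (s : G₀.V ↪ G₁.V) (hs : Centred s)
    (col : ℕ) (hcol : col ≤ (2 ^ ℓ) ^ (j + 1)) (H : ℕ) (hH : pp + 1 ≤ H) (Y : Finset (lev G₀ ℓ (j + 1)).I) (hY : WallFree (lev G₀ ℓ (j + 1)) H Y) :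
    ∀ v ∈ dep (lev G₀ ℓ (j + 1)) col Y, ∀ w, Gm G₀ ℓ j v w = Gm G₁ ℓ j (s v) (s w) := by
  intro v hv w
  rw [pkr_Gm_eq hd₁]
  exact pkr_Gm_copy hd₀ s _ hs col hcol H hH Y hY v hv w

/-- **K3**: a square in the corner chart of a torus of the tower `sc` (`prg_emb_tor`) -/
theorem pkr_hcov_tor {G₀ : Geom} (sc : B8.Sc) (h : ℕ) {j : ℕ} (hd₀ : (2 ^ sc.ℓ) ^ (j + 1) ∣ G₀.M) (s : G₀.V ↪ (sc.T h).V) (hs : ∀ v, (sc.T h).ι (s v) = G₀.ι v)
    (col : ℕ) (hcol : col ≤ (2 ^ sc.ℓ) ^ (j + 1)) (H : ℕ) (hH : pp + 1 ≤ H) (Y : Finset (lev G₀ sc.ℓ (j + 1)).I) (hY : WallFree (lev G₀ sc.ℓ (j + 1)) H Y) :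
    ∀ v ∈ dep (lev G₀ sc.ℓ (j + 1)) col Y, ∀ w, Gm G₀ sc.ℓ j v w = shell (sc.T h) Fam.entry (sc.L ^ j) (sc.L ^ (j + 1)) (s v) (s w) := by
  intro v hv w
  have e' : sc.L ^ (j + 1) = 2 ^ sc.ℓ * (2 ^ sc.ℓ) ^ j := by
    show (2 ^ sc.ℓ) ^ (j + 1) = _
    rw [pow_succ, mul_comm]
  rw [e']
  exact pkr_Gm_copy hd₀ s 0 (fun v => by rw [hs v, add_zero]) col hcol H hH Y hY v hv w

/-! ## 3. Splitting of the covariances, any boundary convention -/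

/-- `Rdo.rdo_ker_split` without the hypothesis `G.bc = BC.per` -/
theorem pkr_ker_split {G : Geom} (F : Fam) (u u' : ℕ) (hu : 1 ≤ u) (hu' : 1 ≤ u') (Γ Γ' : Matrix G.V G.V ℝ) (hΓ : IsTerminal G F u Γ) (hΓ' : IsTerminal G F u' Γ') :
    Γ' + shell G F u u' = Γ + ((Rdo.low0 F u' - Rdo.low0 F u) / (G.M : ℝ) ^ 2) • Rdo.Jm G := by
  rw [Rdo.rdo_cmat_eq]
  have hc : Rdo.low0 F u' - Rdo.low0 F u = (F.shellP u u').eval 0 := by
    unfold Rdo.low0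
    rw [← Ker.ker_lowP_add_shellP F u u', eval_add]
    ring
  rw [hc, ← sub_eq_zero]
  have hcs : (Ker.cmat G ((F.shellP u u').eval 0)).transpose = Ker.cmat G ((F.shellP u u').eval 0) := by
    ext v w
    simp [Ker.cmat]
  refine Rdo.rdo_sym_zero _ ?_ ?_ ?_
  · rw [Matrix.transpose_sub, Matrix.transpose_add, Matrix.transpose_add, Rdo.rdo_term_symm hΓ, Rdo.rdo_term_symm hΓ', hcs]
    unfold shell
    rw [Rdo.rdo_cov_symm]
  · rw [Matrix.sub_mulVec, Matrix.add_mulVec, Matrix.add_mulVec, hΓ.const, hΓ'.const, Ker.ker_cmat_mulVec]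
    unfold shell
    rw [Rdo.rdo_cov_one, Rdo.rdo_card]
    funext v
    have := (Rdo.rdo_M_sq_pos G).ne'
    simp only [Pi.sub_apply, Pi.zero_apply, zero_add]
    rw [div_mul_cancel₀ _ this, sub_self]
  · intro f hf
    rw [Matrix.sub_mulVec, Matrix.add_mulVec, Matrix.add_mulVec, Ker.ker_cmat_mulVec, hf, Matrix.mulVec_sub, Matrix.mulVec_add,
      Matrix.mulVec_add, Matrix.mulVec_mulVec, Matrix.mulVec_mulVec, Matrix.mulVec_mulVec, hΓ.eqn f hf, hΓ'.eqn f hf]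
    unfold shell
    rw [Rdo.rdo_lap_cov, Rdo.rdo_X_shellP F u u' hu hu']
    have e1 : cov G (F.termP u - F.termP u') = cov G (F.termP u) - cov G (F.termP u') := by simp [cov]
    have e2 : (lap G).mulVec (fun _ => (F.shellP u u').eval 0 / (G.M : ℝ) ^ 2 * 0) = 0 := by
      simp only [mul_zero]
      exact Matrix.mulVec_zero _
    rw [e1, e2, Matrix.sub_mulVec]
    abel

/-- `Rdo.rdo_ker_split_low` without the hypothesis `G.bc = BC.per` -/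
theorem pkr_ker_split_low {G : Geom} (u : ℕ) (hu : 1 ≤ u) (Γ₁ Γ : Matrix G.V G.V ℝ) (h₁ : IsTerminal G Fam.entry 1 Γ₁) (hΓ : IsTerminal G Fam.entry u Γ) :
    Γ + low G Fam.entry u = Γ₁ + (Rdo.low0 Fam.entry u / (G.M : ℝ) ^ 2) • Rdo.Jm G := by
  have h := pkr_ker_split Fam.entry 1 u le_rfl hu Γ₁ Γ h₁ hΓ
  have e1 : shell G Fam.entry 1 u = low G Fam.entry u := by
    have h2 := Ker.ker_low_add_shell G Fam.entry 1 u
    have h3 : low G Fam.entry 1 = 0 := by simp [low, cov, Rdo.rdo_lowP_one]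
    rw [h3, zero_add] at h2
    exact h2
  have e2 : Rdo.low0 Fam.entry 1 = 0 := by simp [Rdo.low0, Rdo.rdo_lowP_one]
  rwa [e1, e2, sub_zero] at h

/-- consecutive levels: `C_{≥ L^{j+1}} + Γ_j = C_{≥ L^j} +` a multiple of the projection on the constants -/
theorem pkr_Gm_split {G : Geom} {ℓ j : ℕ} (Γ Γ' : Matrix G.V G.V ℝ) (hΓ : IsTerminal G Fam.entry (side G ℓ j) Γ) (hΓ' : IsTerminal G Fam.entry (side G ℓ (j + 1)) Γ') :
    Γ' + Gm G ℓ j = Γ + ((Rdo.low0 Fam.entry (side G ℓ (j + 1)) - Rdo.low0 Fam.entry (side G ℓ j)) / (G.M : ℝ) ^ 2) • Rdo.Jm G :=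
  pkr_ker_split Fam.entry _ _ (side_pos G ℓ j) (side_pos G ℓ (j + 1)) Γ Γ' hΓ hΓ'

end

end Claimed.Agent.R285.F6.Pr
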