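import Claimed.Agent.R285.Obs.PairKit
import Claimed.Agent.R285.Obs.PairCtx

/-!
# ROW 285, unit OBS, [F] L6.2: THE BC-FREE GENERIC STEP KIT, part 3: one-output forms, bridges to `Pr.Ctx`                  (owner helper202).  NO SORRY.

* `pk_small_one` : ONE output `Y`, an arbitrary finite family `s` of inputs with closure `Y`, arbitrary functions `T X`, arbitrary sizes `u X` (possibly measured in ANOTHER norm) with `A^{|X|} u X ≤ M`, `|s| ≤ N`:
  `A^{|Y|} fnSize' Y (∑_{X ∈ s} T X) ≤ N η M`.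
* `pk_rel_one` : the relocated part at ONE coarse block `b`, per-piece bound `M`.
* `Ctx.to0`, `Ctx.toT` : `Pr.Ctx` (helper79) gives `Ctx0` at `(nm.p0, T.step h)` and at `(nm.pT, T.stepT h)` (per-block cost `cT`: geometry `pm.c` with `cst := cT`).
-/

set_option autoImplicit false

namespace Claimed.Agent.R285.F6.Pr

open scoped BigOperators ENNReal NNReal
open MeasureTheory
open Claimed.Agent.R285 Claimed.Agent.R285.RG Claimed.Agent.R285.Hol

noncomputable section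

variable {G : Geom} {D0 ℓ : ℕ}

/-- **one output**, arbitrary inputs, arbitrary sizes -/
theorem pk_small_one (P : Pair G D0 ℓ) (p : Par) (Vc : Extra P.g') (hA : 1 ≤ p.A) (Y : Finset P.g'.I) (s : Finset (Finset P.g.I)) (hs : ∀ X ∈ s, P.N.cl X = Y)
    (T : Finset P.g.I → Fn G) (u : Finset P.g.I → ℝ≥0∞) (η M : ℝ≥0∞) (N : ℕ) (hg : ∀ X ∈ s, fnSize p P.g' Vc Y (T X) ≤ η * u X)
    (hu : ∀ X ∈ s, ENNReal.ofReal (p.A ^ X.card) * u X ≤ M) (hN : s.card ≤ N) :
    ENNReal.ofReal (p.A ^ Y.card) * fnSize p P.g' Vc Y (∑ X ∈ s, T X) ≤ (N : ℝ≥0∞) * η * M := by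
  calc ENNReal.ofReal (p.A ^ Y.card) * fnSize p P.g' Vc Y (∑ X ∈ s, T X)
      ≤ ENNReal.ofReal (p.A ^ Y.card) * ∑ X ∈ s, fnSize p P.g' Vc Y (T X) := mul_le_mul' le_rfl (B8.w_fnSize_sum_le p P.g' Vc Y s _)
    _ = ∑ X ∈ s, ENNReal.ofReal (p.A ^ Y.card) * fnSize p P.g' Vc Y (T X) := Finset.mul_sum _ _ _
    _ ≤ ∑ _X ∈ s, η * M := by
        refine Finset.sum_le_sum fun X hX => ?_
        have h2 : Y.card ≤ X.card := by
          rw [← hs X hX]
          exact Finset.card_image_le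
        have h3 : ENNReal.ofReal (p.A ^ Y.card) ≤ ENNReal.ofReal (p.A ^ X.card) :=
          ENNReal.ofReal_le_ofReal (pow_le_pow_right₀ hA h2)
        calc ENNReal.ofReal (p.A ^ Y.card) * fnSize p P.g' Vc Y (T X)
            ≤ ENNReal.ofReal (p.A ^ X.card) * (η * u X) := mul_le_mul' h3 (hg X hX)
          _ = η * (ENNReal.ofReal (p.A ^ X.card) * u X) := by ring
          _ ≤ _ := mul_le_mul' le_rfl (hu X hX)
    _ = (s.card : ℝ≥0∞) * (η * M) := by rw [Finset.sum_const, nsmul_eq_mul]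
    _ ≤ (N : ℝ≥0∞) * (η * M) := mul_le_mul' (by exact_mod_cast hN) le_rfl
    _ = _ := by ring

/-- **the relocated part at one coarse block**: at most `Cn` small polymers through a fine block, at most `(2 L)²` fine blocks below `b` -/
theorem pk_rel_one (S : B8.Step G D0 ℓ) (c : B8.Geo) (p : Par) (Vc : Extra S.P.g') (Cn : ℕ)
    (hCn : ∀ B : S.P.g.I, (open Classical in (S.small c).filter fun X => B ∈ X).card ≤ Cn) (b : S.P.g'.I)
    (f : Finset S.P.g.I → S.P.g.I → Fn G) (M : ℝ≥0∞) (hf : ∀ X ∈ S.small c, ∀ B ∈ X, S.P.N.up B = b → fnSize p S.P.g' Vc {b} (f X B) ≤ M) :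
    ENNReal.ofReal (p.A ^ ({b} : Finset S.P.g'.I).card) * fnSize p S.P.g' Vc {b} (open Classical in ∑ X ∈ S.small c, ∑ B ∈ X.filter (fun B => S.P.N.up B = b), f X B)
      ≤ ENNReal.ofReal p.A * ((((2 * 2 ^ ℓ) ^ 2 * Cn : ℕ) : ℝ≥0∞) * M) := by
  classical
  rw [Finset.card_singleton, pow_one]
  refine mul_le_mul' le_rfl ?_
  calc fnSize p S.P.g' Vc {b} (∑ X ∈ S.small c, ∑ B ∈ X.filter (fun B => S.P.N.up B = b), f X B)
      ≤ ∑ X ∈ S.small c, fnSize p S.P.g' Vc {b} (∑ B ∈ X.filter (fun B => S.P.N.up B = b), f X B) := B8.w_fnSize_sum_le _ _ _ _ _ _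
    _ ≤ ∑ X ∈ S.small c, ∑ B ∈ X.filter (fun B => S.P.N.up B = b), fnSize p S.P.g' Vc {b} (f X B) :=
        Finset.sum_le_sum fun X _ => B8.w_fnSize_sum_le _ _ _ _ _ _
    _ = ∑ X ∈ S.small c, ∑ B ∈ X.filter (fun B => S.P.N.up B = b), (if B ∈ X then fnSize p S.P.g' Vc {b} (f X B) else 0) :=
        Finset.sum_congr rfl fun X _ => Finset.sum_congr rfl fun B hB => (if_pos (Finset.mem_filter.1 hB).1).symm
    _ ≤ ((Finset.univ.filter fun B => S.P.N.up B = b).card : ℝ≥0∞) * ((Cn : ℝ≥0∞) * M) := by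
        refine B8.w_ds_double (S.small c) (fun B => S.P.N.up B = b) Cn (fun B => ?_) _ M fun X hX B hB => ?_
        · convert hCn B
        · split_ifs with hBX
          · exact hf X hX B hBX hB
          · exact zero_le
    _ ≤ (((2 * 2 ^ ℓ) ^ 2 : ℕ) : ℝ≥0∞) * ((Cn : ℝ≥0∞) * M) := by
        refine mul_le_mul' ?_ le_rfl
        have := B8.w_count_fib S.P b
        exact_mod_cast (le_of_eq_of_le (by congr) this)
    _ = _ := by push_cast; ring

/-! ## bridges -/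

/-- the geometry with another per-block cost -/
def geoT (c : B8.Geo) (cT : ℝ≥0) : B8.Geo := { c with cst := cT }

theorem geoT_ok {c : B8.Geo} (h : c.Ok) (cT : ℝ≥0) : (geoT c cT).Ok := ⟨h.ck_pos, h.col_pos, h.hρ, h.hs, h.hrR⟩

theorem geoT_small (S : B8.Step G D0 ℓ) (c : B8.Geo) (cT : ℝ≥0) : S.small (geoT c cT) = S.small c := rfl

variable {pm : Prm} {nm : Nm} {cT : ℝ≥0} {k0 kT : KC} {T : Tw G ℓ} {j : ℕ} {h : Ret G ℓ pm.D0 j}

theorem Ctx.col' (H : Ctx pm nm cT k0 kT T h) : 2 * pm.c.col < side G ℓ j := by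
  have h1 := H.col
  have h2 := side_pos G ℓ j
  omega

/-- `Pr.Ctx` gives the generic context in the centred norm -/
theorem Ctx.to0 (H : Ctx pm nm cT k0 kT T h) (hR : pm.c.R ≤ 2 ^ ℓ) : Ctx0 pm.c (nm.p0 pm.ω) (T.step h) where
  geo := H.geo
  shell := H.hyp0.shell
  reg := H.hyp0.reg
  adm := H.hyp0.adm
  admf := H.adm0
  sep := H.sep0.2
  sepf := H.sep0.1
  col := H.col'
  half := fun X hX hn => (H.hyp0.geo X hX).2.2 hn
  diam := fun X hX hn => ⟨(H.hyp0.geo X hX).2.1 hn, (H.hyp0.geo X hX).1⟩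
  hω := H.ω_pos
  hh := H.nmOk.h0_pos
  hA := H.nmOk.AT_ge.trans H.nmOk.A_ge
  hL := hR

/-- `Pr.Ctx` gives the generic context in the unit norm -/
theorem Ctx.toT (H : Ctx pm nm cT k0 kT T h) (hR : pm.c.R ≤ 2 ^ ℓ) : Ctx0 (geoT pm.c cT) (nm.pT pm.ω) (T.stepT h) where
  geo := geoT_ok H.geo cT
  shell := H.hypT.shell
  reg := H.hypT.reg
  adm := H.hypT.adm
  admf := H.admT
  sep := H.sepT.2
  sepf := H.sepT.1
  col := H.col'
  half := fun X hX hn => (H.hypT.geo X hX).2.2 hn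
  diam := fun X hX hn => ⟨(H.hypT.geo X hX).2.1 hn, (H.hypT.geo X hX).1⟩
  hω := H.ω_pos
  hh := H.nmOk.h0_pos
  hA := H.nmOk.AT_ge
  hL := hR

end

end Claimed.Agent.R285.F6.Pr
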