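import Claimed.Agent.R285.Obs.PairWall
import Claimed.Agent.R285.Obs.PairGain
import Claimed.Agent.R285.Obs.PairKit2
import Claimed.Agent.R285.Obs.PairJX
import Claimed.Agent.R285.Obs.PairKer

/-!
# ROW 285, unit OBS, BP-OBS-L62, block EST-W/D: THE EXITS of `Obs/PairWall.lean` in the vocabulary of `Obs/PairCtx.lean`, with the order of the constants      (architect helper254)   -- KEEP

1. `prx_gains` : `GainE`, `GainN`, `RefAt` from helper22's `pgn_gain` (K6) and a diagonal bound (K1);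
2. `prx_count_wall`, `prx_count_defect`, `prx_count_all` : the counts of `Obs/PairGeo.lean` in the form used by `prw_row`, `prd_row`;
3. `prx_theta` : `O (L) · L⁻²` and `O (1) · L⁻¹` are small;
4. `Des0` (= what DESIG-0 has to deliver), `prx_row_W` (explicit numbers), **`pr_wall`** = EXIT (W): `nW' ≤ w / 2 + C U + C (U + w)²`;
5. `DesT` (= what DESIG-T has to deliver), `prx_row_D` (explicit numbers), **`pr_defect`** = EXIT (D): `nD' ≤ d / 2 + C V + C (V + d)²`, `V = U + w`.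
Everything in THIS file is proved; it rests on the leaves of `Obs/PairWall.lean` only.  (K1) is discharged by `pkr_Gm_gain` (`64 ≤ pm.D0`), (K6) by `pgn_gain`.  Prefix `prx_`.
-/

set_option autoImplicit false

namespace Claimed.Agent.R285.F6.Pr

open scoped BigOperators ENNReal NNReal
open MeasureTheory
open Claimed.Agent.R285 Claimed.Agent.R285.RG Claimed.Agent.R285.B4 Claimed.Agent.R285.F4a

noncomputable section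

/-! ## 1. The gains -/

/-- **the three analytic inputs of the rows**, any boundary condition.  Order: `c`; `C1`; `δ, κ, h₀ ≥ C1`; `Cy`; `Cg, ℓ0, D1`. -/
theorem prx_gains (c : B8.Geo) : ∃ C1 : ℝ≥0, 0 < C1 ∧ ∀ (δ κ : ℝ) (h0 : ℝ≥0), 0 < δ → 0 < κ → C1 ≤ h0 → ∀ Cy : ℝ, ∃ (Cg : ℝ≥0) (ℓ0 D1 : ℕ), ∀ ℓ ≥ ℓ0, ∀ D0 ≥ D1,
    ∀ (A ω : ℝ) (G : Geom) (S : B8.Step G D0 ℓ), B8.k0 ≤ B8.Step.alpha ω ^ 2 → B8.Step.alpha ω ^ 2 ≤ 4 * B8.k0 → Ctx0 c ⟨δ, κ, h0, A, ω⟩ S →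
      (∀ v, ((2 : ℝ) ^ ℓ) ^ 2 * Real.exp (-B8.k0 * S.Γ v v / 2) ≤ Cy) →
      GainE c ⟨δ, κ, h0, A, ω⟩ S (Cg * (2 ^ ℓ : ℝ≥0∞)⁻¹ ^ 2) ∧ GainN c ⟨δ, κ, h0, A, ω⟩ S (Cg * (2 ^ ℓ : ℝ≥0∞)⁻¹) ∧
      ∀ (𝒞 : Finset S.P.g.I → Prop) (η : G.V → ℝ),
        (∀ X ∈ S.small c, 𝒞 X → ∃ a : ℝ, tnorm S.P.g' (S.P.N.cl X) (fun v => η v - a) < h0) →
        RefAt c ⟨δ, κ, h0, A, ω⟩ S 𝒞 η (Cg * (2 ^ ℓ : ℝ≥0∞)⁻¹) := by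
  obtain ⟨C1, hC1, H⟩ := pgn_gain c
  refine ⟨C1, hC1, fun δ κ h0 hδ hκ hh Cy => ?_⟩
  obtain ⟨Cg, ℓ0, D1, H⟩ := H δ κ h0 hδ hκ hh Cy
  refine ⟨Cg, ℓ0, D1, fun ℓ hℓ D0 hD A ω G S hα1 hα2 hctx hdiag => ?_⟩
  have key : ∀ X ∈ S.small c, ∀ F : Fn G, LocalFn ⟨δ, κ, h0, A, ω⟩ c.col S.P.g X F →
      InGain ⟨δ, κ, h0, A, ω⟩ S X F (fnSize ⟨δ, κ, h0, A, ω⟩ S.P.g S.Vf X F) Cg := fun X hX F hF =>
    H ℓ hℓ D0 hD A ω G S hα1 hα2 hctx X F _ ⟨(B8.w_mem_small.1 hX).1, (B8.w_mem_small.1 hX).2, hF, le_rfl⟩ _ (pk_anchor_mem hX) (hdiag _)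
  refine ⟨fun X hX F hF _ he => ?_, fun X hX F hF _ => ?_, fun 𝒞 η hη X hX hc F hF _ => ?_⟩
  · refine ((key X hX F hF).even he).trans (le_of_eq ?_)
    ring
  · refine ((key X hX F hF).tot).trans (le_of_eq ?_)
    ring
  · obtain ⟨a, ha⟩ := hη X hX hc
    refine ((key X hX F hF).refv η a ha).trans (le_of_eq ?_)
    ring

/-! ## 2. The counts -/

open Classical in
theorem prx_count_wall (R n0 H : ℕ) : ∃ C : ℕ, ∀ (G : Geom) (D0 ℓ : ℕ) (S : B8.Step G D0 ℓ) (c : B8.Geo), c.R = R → c.n0 = n0 → Cen S.P →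
    ∀ Y, ((S.small c).filter fun X => S.P.N.cl X = Y ∧ ¬ WallFree S.P.g H X).card ≤ C * 2 ^ ℓ * n0 := by
  obtain ⟨C, hC⟩ := prg_count_wall R n0 H
  refine ⟨C, fun G D0 ℓ S c hR hn hcen Y => ?_⟩
  subst hR hn
  by_cases hY : Y.card ≤ c.n0
  · refine le_trans (le_of_eq_of_le ?_ (hC G D0 ℓ S.P hcen Y)) (Nat.mul_le_mul_left _ hY)
    congr 1
    ext X
    simp only [Finset.mem_filter, Finset.mem_univ, true_and, B8.w_mem_small]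
    tauto
  · rw [Finset.card_eq_zero.2]
    · exact Nat.zero_le _
    · refine Finset.filter_eq_empty_iff.2 fun X hX hh => hY ?_
      rw [← hh.1]
      exact Finset.card_image_le.trans (B8.w_mem_small.1 hX).2

open Classical in
theorem prx_count_defect (R n0 H : ℕ) : ∃ C : ℕ, ∀ (G : Geom) (D0 ℓ : ℕ) (S : B8.Step G D0 ℓ) (c : B8.Geo), c.R = R → c.n0 = n0 → G.bc = BC.free →
    ∀ Y, ((S.small c).filter fun X => S.P.N.cl X = Y ∧ ¬ ShiftGood S.P.g H X).card ≤ C := by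
  obtain ⟨C, hC⟩ := prg_count_defect R n0 H
  refine ⟨C, fun G D0 ℓ S c hR hn hG Y => ?_⟩
  subst hR hn
  refine le_trans (Finset.card_le_card ?_) (hC G S.P.g hG S.P.ok)
  intro X hX
  simp only [Finset.mem_filter, Finset.mem_univ, true_and, B8.w_mem_small] at hX ⊢
  tauto

open Classical in
theorem prx_count_all (R n0 : ℕ) : ∃ C : ℕ, ∀ (G : Geom) (D0 ℓ : ℕ) (S : B8.Step G D0 ℓ) (c : B8.Geo), c.R = R → c.n0 = n0 →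
    ∀ b : S.P.g'.I, ((S.small c).filter fun X => ∃ B ∈ X, S.P.N.up B = b).card ≤ C * (2 ^ ℓ) ^ 2 := by
  obtain ⟨C, hC⟩ := prg_count_all R n0
  refine ⟨C, fun G D0 ℓ S c hR hn b => ?_⟩
  subst hR hn
  refine le_of_eq_of_le ?_ (hC G D0 ℓ S.P b)
  congr 1
  ext X
  simp only [Finset.mem_filter, Finset.mem_univ, true_and, B8.w_mem_small]
  tauto

/-! ## 3. `L` large -/

/-- `a / L ≤ ε` for `L = 2^ℓ` large -/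
theorem prx_theta (a ε : ℝ≥0) (hε : 0 < ε) : ∃ ℓ0 : ℕ, ∀ ℓ ≥ ℓ0, a * ((2 : ℝ≥0) ^ ℓ)⁻¹ ≤ ε := by
  obtain ⟨n, hn⟩ := exists_nat_gt (a / ε)
  refine ⟨n, fun ℓ hℓ => ?_⟩
  have h1 : (n : ℝ≥0) ≤ (2 : ℝ≥0) ^ ℓ := by
    have : n ≤ 2 ^ ℓ := (Nat.lt_two_pow_self).le.trans (Nat.pow_le_pow_right (by norm_num) hℓ)
    exact_mod_cast this
  have h2 : (0 : ℝ≥0) < (2 : ℝ≥0) ^ ℓ := by positivity
  rw [← div_eq_mul_inv, div_le_iff₀ h2]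
  have h3 : a ≤ ε * n := by
    rw [div_lt_iff₀ hε] at hn
    rw [mul_comm]; exact hn.le
  exact h3.trans (mul_le_mul' le_rfl h1)

/-! ## 4. (W) -/

/-- **what DESIG-0 delivers for one step** (`U` = plane size, `w` = wall size) -/
structure Des0 (pm : Prm) (nm : Nm) {G : Geom} {ℓ : ℕ} (T : Tw G ℓ) {j : ℕ} (h : Ret G ℓ pm.D0 j) (t z : ℂ) (x : St (lev G ℓ j))
    (C1 Cp Cd U w : ℝ≥0) : Prop where
  /-- the centred activity on the wall-free supports, singletons included -/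
  tot : actNorm (nm.p0 pm.ω) (lev G ℓ j) (T.V0 j) (cutA (WallFree (lev G ℓ j) pm.zn.H0) x.K0) ≤ C1 * U
  /-- the pieces of the wall-free small inputs and their constants -/
  pc : ∀ X ∈ (T.step h).small pm.c, WallFree (lev G ℓ j) pm.zn.H0 X → ∀ B ∈ X,
    fnSize (nm.p0 pm.ω) (lev G ℓ (j + 1)) (T.V0 (j + 1)) {(nest G ℓ j).up B} (pc0 (T.step h) pm.ω pm.zn t z x.K0 X B) ≤ Cp * U ∧
      (‖cn0 (T.step h) pm.ω pm.zn t z x.K0 X B‖₊ : ℝ≥0∞) ≤ Cp * U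
  ok : (d0 (T.step h) pm.c pm.ω pm.zn t z x.K0).Ok (nm.p0 pm.ω) pm.c.col pm.c.r
  size : (d0 (T.step h) pm.c pm.ω pm.zn t z x.K0).size (nm.p0 pm.ω) (T.V0 (j + 1)) ≤ Cd * ((C1 * U + w : ℝ≥0) : ℝ≥0∞)

/-- (W) for one step of `Ctx`, explicit numbers -/
theorem prx_row_W {pm : Prm} {nm : Nm} {cT : ℝ≥0} {k0 kT : KC} {G : Geom} {ℓ : ℕ} {T : Tw G ℓ} {j : ℕ} {h : Ret G ℓ pm.D0 j}
    (H : Ctx pm nm cT k0 kT T h) (t z : ℂ) (x : St (lev G ℓ j)) (hx : Inv pm nm.h0 x) (γ C1 Cp U w : ℝ≥0) (N M : ℕ)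
    (hγ : GainE pm.c (nm.p0 pm.ω) (T.step h) γ)
    (hN : ∀ Y, (open Classical in ((T.step h).small pm.c).filter fun X => (T.step h).P.N.cl X = Y ∧ ¬ WallFree (T.step h).P.g pm.zn.H0 X).card ≤ N)
    (hM : ∀ b : (T.step h).P.g'.I, (open Classical in ((T.step h).small pm.c).filter fun X => ∃ B ∈ X, (T.step h).P.N.up B = b).card ≤ M)
    (hw : nW (nm.p0 pm.ω) (T.V0 j) pm.zn.H0 x ≤ w) (hD : Des0 pm nm T h t z x C1 Cp k0.Cd U w) (hε : C1 * U + w ≤ k0.ε0) :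
    nW (nm.p0 pm.ω) (T.V0 (j + 1)) pm.zn.H0 (next (T.step h) pm.c pm.ω pm.zn t z (pm.ref G) x)
      ≤ ((N * γ + k0.η : ℝ≥0) : ℝ≥0∞) * w
        + (k0.η * C1 + ENNReal.ofReal (nm.A ^ pm.c.n0) * ((M * (1 + pm.c.n0) : ℕ) * ((max 1 pm.c.cst ^ pm.c.n0 * C1 + (pm.c.n0 + 2) * Cp : ℝ≥0) : ℝ≥0∞))) * U
        + k0.Cnl * ((C1 * U + w : ℝ≥0) : ℝ≥0∞) ^ 2 :=
  (prw_cut_le _ _ _ _).trans
    (prw_row (T.step h) pm.c (nm.p0 pm.ω) pm.zn t z x.K0 k0.Cg k0.Cd k0.Cnl k0.ε0 k0.η k0.β H.hyp0 H.gain0 (H.nmOk.AT_ge.trans H.nmOk.A_ge)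
      (ok_par hx.ok0 _ _ _) hx.even0 γ Cp C1 U w N M hγ hN hM hD.tot hw hD.pc hD.ok hD.size hε)

/-- the arithmetic behind the two exits -/
theorem prx_arith (θ1 η C1 K1 Cnl CnlB U w : ℝ≥0) (hθ : θ1 ≤ 1 / 4) (hη : η ≤ 1 / 4) (hC : Cnl ≤ CnlB) :
    (θ1 + η) * w + (η * C1 + K1) * U + Cnl * (C1 * U + w) ^ 2
      ≤ (1 / 2) * w + (C1 + K1 + CnlB * (C1 + 1) ^ 2) * U + (C1 + K1 + CnlB * (C1 + 1) ^ 2) * (U + w) ^ 2 := by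
  have h1 : (θ1 + η) * w ≤ (1 / 2) * w := by
    refine mul_le_mul' ?_ le_rfl
    calc θ1 + η ≤ 1 / 4 + 1 / 4 := add_le_add hθ hη
      _ = 1 / 2 := by
        rw [← NNReal.coe_inj]; push_cast; norm_num
  have h2 : (η * C1 + K1) * U ≤ (C1 + K1 + CnlB * (C1 + 1) ^ 2) * U := by
    refine mul_le_mul' ?_ le_rfl
    have : η * C1 ≤ C1 := by
      calc η * C1 ≤ 1 * C1 := mul_le_mul' (hη.trans (by rw [← NNReal.coe_le_coe]; push_cast; norm_num)) le_rfl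
        _ = C1 := one_mul _
    calc η * C1 + K1 ≤ C1 + K1 := add_le_add this le_rfl
      _ ≤ _ := le_self_add
  have h3 : Cnl * (C1 * U + w) ^ 2 ≤ (C1 + K1 + CnlB * (C1 + 1) ^ 2) * (U + w) ^ 2 := by
    have e : C1 * U + w ≤ (C1 + 1) * (U + w) := by
      calc C1 * U + w ≤ C1 * U + w + (C1 * w + U) := le_self_add
        _ = (C1 + 1) * (U + w) := by ring
    calc Cnl * (C1 * U + w) ^ 2 ≤ CnlB * ((C1 + 1) * (U + w)) ^ 2 := mul_le_mul' hC (pow_le_pow_left' e 2)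
      _ = CnlB * (C1 + 1) ^ 2 * (U + w) ^ 2 := by ring
      _ ≤ _ := mul_le_mul' le_add_self le_rfl
  exact add_le_add (add_le_add h1 h2) h3

/-- **EXIT (W) = (obs:wall-recurrence)**, `θ = 1/2`.   Order of the constants: `c`, `H0`; threshold `C1h` for `h₀`; `δ, κ, h₀`; `ℓ0`, `D1`; `ℓ`; `A`, the constants `C1, Cp` of DESIG-0, a bound `Cnl` of the nonlinear constant; `C`.
The gain of the large inputs has to be `k0.η ≤ 1/4`. -/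
theorem pr_wall (c : B8.Geo) (H0 : ℕ) : ∃ C1h : ℝ≥0, 0 < C1h ∧ ∀ (δ κ : ℝ) (h0 : ℝ≥0), 0 < δ → 0 < κ → C1h ≤ h0 → ∃ (ℓ0 D1 : ℕ), ∀ ℓ ≥ ℓ0,
    ∀ (A : ℝ) (C1 Cp Cnl : ℝ≥0), ∃ C : ℝ≥0, ∀ (pm : Prm) (nm : Nm) (cT : ℝ≥0) (k0 kT : KC) (G : Geom) (T : Tw G ℓ) (j : ℕ) (h : Ret G ℓ pm.D0 j),
      pm.c = c → pm.zn.H0 = H0 → nm.δ = δ → nm.κ = κ → nm.h0 = h0 → nm.A = A → D1 ≤ pm.D0 → B8.k0 ≤ pm.α ^ 2 → pm.α ^ 2 ≤ 4 * B8.k0 →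
      k0.η ≤ 1 / 4 → k0.Cnl ≤ Cnl → Ctx pm nm cT k0 kT T h → ∀ (t z : ℂ) (x : St (lev G ℓ j)), Inv pm nm.h0 x → ∀ U w : ℝ≥0,
      nW (nm.p0 pm.ω) (T.V0 j) pm.zn.H0 x ≤ w → Des0 pm nm T h t z x C1 Cp k0.Cd U w → C1 * U + w ≤ k0.ε0 →
      nW (nm.p0 pm.ω) (T.V0 (j + 1)) pm.zn.H0 (next (T.step h) pm.c pm.ω pm.zn t z (pm.ref G) x)
        ≤ (((1 / 2 : ℝ≥0) * w + C * U + C * (U + w) ^ 2 : ℝ≥0) : ℝ≥0∞) := by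
  obtain ⟨C1h, hC1h, Hg⟩ := prx_gains c
  obtain ⟨Cy, -, hCy⟩ := pkr_Gm_gain
  obtain ⟨Cw, hCw⟩ := prx_count_wall c.R c.n0 H0
  obtain ⟨Ca, hCa⟩ := prx_count_all c.R c.n0
  refine ⟨C1h, hC1h, fun δ κ h0 hδ hκ hh => ?_⟩
  obtain ⟨Cg, ℓg, Dg, Hg⟩ := Hg δ κ h0 hδ hκ hh Cy
  obtain ⟨ℓt, hℓt⟩ := prx_theta ((Cw * c.n0 : ℕ) * Cg) (1 / 4) (by positivity)
  refine ⟨max (max ℓg ℓt) c.R, max Dg 64, fun ℓ hℓ A C1 Cp Cnl => ?_⟩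
  have hℓg : ℓg ≤ ℓ := ((le_max_left _ _).trans (le_max_left _ _)).trans hℓ
  have hℓt' : ℓt ≤ ℓ := ((le_max_right _ _).trans (le_max_left _ _)).trans hℓ
  have hR : c.R ≤ 2 ^ ℓ := ((le_max_right _ _).trans hℓ).trans Nat.lt_two_pow_self.le
  refine ⟨C1 + (A ^ c.n0).toNNReal * ((Ca * (2 ^ ℓ) ^ 2 * (1 + c.n0) : ℕ) * (max 1 c.cst ^ c.n0 * C1 + (c.n0 + 2) * Cp)) + Cnl * (C1 + 1) ^ 2, ?_⟩
  intro pm nm cT k0 kT G T j h hc hH0 hδe hκe hhe hAe hD hα1 hα2 hη hCnl H t z x hx U w hw hDes hε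
  subst hc hH0 hδe hκe hhe hAe
  have hctx : Ctx0 pm.c (nm.p0 pm.ω) (T.step h) := H.to0 hR
  obtain ⟨hE, -, -⟩ := Hg ℓ hℓg pm.D0 ((le_max_left _ _).trans hD) nm.A pm.ω G (T.step h) hα1 hα2 hctx
    (fun v => hCy ℓ G pm.D0 j h ((le_max_right _ _).trans hD) v)
  have hγ : GainE pm.c (nm.p0 pm.ω) (T.step h) ((Cg * ((2 : ℝ≥0) ^ ℓ)⁻¹ ^ 2 : ℝ≥0) : ℝ≥0∞) := by
    have e : ((Cg * ((2 : ℝ≥0) ^ ℓ)⁻¹ ^ 2 : ℝ≥0) : ℝ≥0∞) = Cg * (2 ^ ℓ : ℝ≥0∞)⁻¹ ^ 2 := by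
      rw [ENNReal.coe_mul, ENNReal.coe_pow, ENNReal.coe_inv (by positivity), ENNReal.coe_pow]
      rfl
    rw [e]
    exact hE
  have hrow := prx_row_W H t z x hx (Cg * ((2 : ℝ≥0) ^ ℓ)⁻¹ ^ 2) C1 Cp U w (Cw * 2 ^ ℓ * pm.c.n0) (Ca * (2 ^ ℓ) ^ 2) hγ
    (hCw G pm.D0 ℓ (T.step h) pm.c rfl rfl H.cenP) (hCa G pm.D0 ℓ (T.step h) pm.c rfl rfl) hw hDes hε
  refine hrow.trans ?_
  have hθ : ((Cw * 2 ^ ℓ * pm.c.n0 : ℕ) : ℝ≥0) * (Cg * ((2 : ℝ≥0) ^ ℓ)⁻¹ ^ 2) ≤ 1 / 4 := by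
    refine le_of_eq_of_le ?_ (hℓt ℓ hℓt')
    have h2 : ((2 : ℝ≥0) ^ ℓ) ≠ 0 := by positivity
    push_cast
    field_simp
  have key := prx_arith _ k0.η C1
    ((nm.A ^ pm.c.n0).toNNReal * ((Ca * (2 ^ ℓ) ^ 2 * (1 + pm.c.n0) : ℕ) * (max 1 pm.c.cst ^ pm.c.n0 * C1 + (pm.c.n0 + 2) * Cp))) k0.Cnl Cnl U w hθ hη hCnl
  refine le_of_eq_of_le ?_ (ENNReal.coe_le_coe.2 key)
  simp only [ENNReal.ofReal]
  push_cast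
  ring

/-! ## 5. (D) -/

/-- the designations see neither the regulators nor `cst` -/
theorem prx_pcT_T {D0 : ℕ} {G : Geom} {ℓ : ℕ} (T : Tw G ℓ) {j : ℕ} (h : Ret G ℓ D0 j) (ω : ℝ) (zn : Zn) (t z : ℂ) (Ψ : G.V → ℝ) (K0 KT : Act (lev G ℓ j)) :
    pcT (T.step h) ω zn t z Ψ K0 KT = pcT (T.stepT h) ω zn t z Ψ K0 KT := rfl

theorem prx_cnT_T {D0 : ℕ} {G : Geom} {ℓ : ℕ} (T : Tw G ℓ) {j : ℕ} (h : Ret G ℓ D0 j) (ω : ℝ) (zn : Zn) (t z : ℂ) (Ψ : G.V → ℝ) (K0 KT : Act (lev G ℓ j)) :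
    cnT (T.step h) ω zn t z Ψ K0 KT = cnT (T.stepT h) ω zn t z Ψ K0 KT := rfl

theorem prx_dT_T {D0 : ℕ} {G : Geom} {ℓ : ℕ} (T : Tw G ℓ) {j : ℕ} (h : Ret G ℓ D0 j) (c : B8.Geo) (ω : ℝ) (zn : Zn) (t z : ℂ) (Ψ : G.V → ℝ)
    (K0 KT : Act (lev G ℓ j)) : dT (T.step h) c ω zn t z Ψ K0 KT = dT (T.stepT h) c ω zn t z Ψ K0 KT := rfl

/-- **what DESIG-T delivers for one step** (`μ` = background `v_n / α`; `V = U + w` = size of the centred sector, `d` = defect size) -/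
structure DesT (pm : Prm) (nm : Nm) {G : Geom} {ℓ : ℕ} (T : Tw G ℓ) {j : ℕ} (h : Ret G ℓ pm.D0 j) (t z : ℂ) (μ : G.V → ℝ) (x : St (lev G ℓ j))
    (Cs Cp Cd V d : ℝ≥0) : Prop where
  /-- the translated unit activity on the shift-good supports ((R2) + the gauge identity) -/
  sg : actNorm (nm.pT pm.ω) (lev G ℓ j) (T.VT j) (cutA (ShiftGood (lev G ℓ j) pm.zn.H1) (shA x.KT μ)) ≤ Cs * V
  /-- the translated pieces of the shift-good small inputs and their constants -/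
  pc : ∀ X ∈ (T.step h).small pm.c, ShiftGood (lev G ℓ j) pm.zn.H1 X → ∀ B ∈ X,
    fnSize (nm.pT pm.ω) (lev G ℓ (j + 1)) (T.VT (j + 1)) {(nest G ℓ j).up B} (shF (pcT (T.step h) pm.ω pm.zn t z (pm.ref G) x.K0 x.KT X B) μ) ≤ Cp * V ∧
      (‖cnT (T.step h) pm.ω pm.zn t z (pm.ref G) x.K0 x.KT X B‖₊ : ℝ≥0∞) ≤ Cp * V
  ok : (shD (dT (T.step h) pm.c pm.ω pm.zn t z (pm.ref G) x.K0 x.KT) μ).Ok (nm.pT pm.ω) pm.c.col pm.c.r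
  size : (shD (dT (T.step h) pm.c pm.ω pm.zn t z (pm.ref G) x.K0 x.KT) μ).size (nm.pT pm.ω) (T.VT (j + 1)) ≤ Cd * ((Cs * V + d : ℝ≥0) : ℝ≥0∞)

/-- (D) for one step of `Ctx`, explicit numbers -/
theorem prx_row_D {pm : Prm} {nm : Nm} {cT : ℝ≥0} {k0 kT : KC} {G : Geom} {ℓ : ℕ} {T : Tw G ℓ} {j : ℕ} {h : Ret G ℓ pm.D0 j}
    (H : Ctx pm nm cT k0 kT T h) (t z : ℂ) (μ : G.V → ℝ) (x : St (lev G ℓ j)) (hx : Inv pm nm.h0 x) (γ γr Cs Cp V d : ℝ≥0) (N M : ℕ)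
    (hγ : GainN pm.c (nm.pT pm.ω) (T.stepT h) γ)
    (hr : RefAt pm.c (nm.pT pm.ω) (T.stepT h) (fun X => ¬ ShiftGood (T.stepT h).P.g pm.zn.H1 X) (pm.ref G - μ) γr)
    (hN : ∀ Y, (open Classical in ((T.stepT h).small pm.c).filter fun X => (T.stepT h).P.N.cl X = Y ∧ ¬ ShiftGood (T.stepT h).P.g pm.zn.H1 X).card ≤ N)
    (hM : ∀ b : (T.stepT h).P.g'.I, (open Classical in ((T.stepT h).small pm.c).filter fun X => ∃ B ∈ X, (T.stepT h).P.N.up B = b).card ≤ M)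
    (hd : nD (nm.pT pm.ω) (T.VT j) pm.zn.H1 μ x ≤ d) (hD : DesT pm nm T h t z μ x Cs Cp kT.Cd V d) (hε : Cs * V + d ≤ kT.ε0) :
    nD (nm.pT pm.ω) (T.VT (j + 1)) pm.zn.H1 μ (next (T.step h) pm.c pm.ω pm.zn t z (pm.ref G) x)
      ≤ ((N * (γ + γr) + kT.η : ℝ≥0) : ℝ≥0∞) * d + kT.η * ((Cs * V : ℝ≥0) : ℝ≥0∞)
        + ENNReal.ofReal (nm.AT ^ pm.c.n0) * ((M * (1 + pm.c.n0) : ℕ) * ((max 1 cT ^ pm.c.n0 * (Cs * V) + (pm.c.n0 + 2) * (Cp * V) : ℝ≥0) : ℝ≥0∞))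
        + kT.Cnl * ((Cs * V + d : ℝ≥0) : ℝ≥0∞) ^ 2 := by
  have hpc : ∀ X ∈ (T.stepT h).small pm.c, ShiftGood (T.stepT h).P.g pm.zn.H1 X → ∀ B ∈ X,
      fnSize (nm.pT pm.ω) (T.stepT h).P.g' (T.stepT h).Vc {(T.stepT h).P.N.up B}
          (shF (pcT (T.stepT h) (nm.pT pm.ω).ω pm.zn t z (pm.ref G) x.K0 x.KT X B) μ) ≤ ((Cp * V : ℝ≥0) : ℝ≥0∞) ∧
        (‖cnT (T.stepT h) (nm.pT pm.ω).ω pm.zn t z (pm.ref G) x.K0 x.KT X B‖₊ : ℝ≥0∞) ≤ ((Cp * V : ℝ≥0) : ℝ≥0∞) := by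
    intro X hX hg B hB
    have h1 := hD.pc X hX hg B hB
    rw [prx_pcT_T, prx_cnT_T] at h1
    rw [ENNReal.coe_mul]
    exact h1
  have hok := hD.ok
  have hsz := hD.size
  rw [prx_dT_T] at hok hsz
  have hsg : actNorm (nm.pT pm.ω) (T.stepT h).P.g (T.stepT h).Vf (cutA (ShiftGood (T.stepT h).P.g pm.zn.H1) (shA x.KT μ)) ≤ ((Cs * V : ℝ≥0) : ℝ≥0∞) := by
    rw [ENNReal.coe_mul]; exact hD.sg
  have hrow := prd_row (T.stepT h) pm.c cT (nm.pT pm.ω) pm.zn t z (pm.ref G) μ x.K0 x.KT kT.Cg kT.Cd kT.Cnl kT.ε0 kT.η kT.β H.hypT H.gainT H.nmOk.AT_ge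
      (prj_shA_ok (ok_par hx.okT _ _ _) μ) γ γr (Cp * V) (Cs * V) d N M hγ hr hN hM hsg hd hpc hok hsz hε
  refine (prw_cut_le _ _ _ _).trans (le_of_eq_of_le ?_ hrow)
  have e : shA (next (T.step h) pm.c pm.ω pm.zn t z (pm.ref G) x).KT μ
      = Kprime (T.stepT h).P pm.c.r pm.c.R (conv (T.stepT h).Γ) (shA x.KT μ) (prdSh (dT (T.stepT h) pm.c (nm.pT pm.ω).ω pm.zn t z (pm.ref G) x.K0 x.KT) μ) :=
    (prj_Kprime_shift (T.stepT h).P pm.c.r pm.c.R (T.stepT h).Γ x.KT (dT (T.stepT h) pm.c pm.ω pm.zn t z (pm.ref G) x.K0 x.KT) μ).symm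
  exact congrArg (actNorm (nm.pT pm.ω) (lev G ℓ (j + 1)) (T.VT (j + 1))) e

/-- **EXIT (D) = (obs:defect-recurrence)**, `θ = 1/2`; `V = U + w`.   Order of the constants: `c`, `cT`, `H1`; threshold `C1h` for `h₀`; `δ, κT, h₀`; `ℓ0`, `D1`; `ℓ`; `AT`, the constants `Cs, Cp` of DESIG-T, a bound `Cnl`; `C`.
`href` = (R4): on the closure of a small defect the reference field is `h₀`-close (coarse norm, up to a constant) to the background.  The gain of the large inputs has to be `kT.η ≤ 1/4`. -/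
theorem pr_defect (c : B8.Geo) (cT : ℝ≥0) (H1 : ℕ) : ∃ C1h : ℝ≥0, 0 < C1h ∧ ∀ (δ κT : ℝ) (h0 : ℝ≥0), 0 < δ → 0 < κT → C1h ≤ h0 → ∃ (ℓ0 D1 : ℕ), ∀ ℓ ≥ ℓ0,
    ∀ (AT : ℝ) (Cs Cp Cnl : ℝ≥0), ∃ C : ℝ≥0, ∀ (pm : Prm) (nm : Nm) (k0 kT : KC) (G : Geom) (T : Tw G ℓ) (j : ℕ) (h : Ret G ℓ pm.D0 j),
      pm.c = c → pm.zn.H1 = H1 → nm.δ = δ → nm.κT = κT → nm.h0 = h0 → nm.AT = AT → D1 ≤ pm.D0 → B8.k0 ≤ pm.α ^ 2 → pm.α ^ 2 ≤ 4 * B8.k0 →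
      kT.η ≤ 1 / 4 → kT.Cnl ≤ Cnl → Ctx pm nm cT k0 kT T h → ∀ (t z : ℂ) (μ : G.V → ℝ) (x : St (lev G ℓ j)), Inv pm nm.h0 x →
      (∀ X ∈ (T.step h).small pm.c, ¬ ShiftGood (lev G ℓ j) pm.zn.H1 X →
        ∃ a : ℝ, tnorm (lev G ℓ (j + 1)) ((nest G ℓ j).cl X) (fun v => (pm.ref G v - μ v) - a) < nm.h0) →
      ∀ V d : ℝ≥0, nD (nm.pT pm.ω) (T.VT j) pm.zn.H1 μ x ≤ d → DesT pm nm T h t z μ x Cs Cp kT.Cd V d → Cs * V + d ≤ kT.ε0 →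
      nD (nm.pT pm.ω) (T.VT (j + 1)) pm.zn.H1 μ (next (T.step h) pm.c pm.ω pm.zn t z (pm.ref G) x)
        ≤ (((1 / 2 : ℝ≥0) * d + C * V + C * (V + d) ^ 2 : ℝ≥0) : ℝ≥0∞) := by
  obtain ⟨C1h, hC1h, Hg⟩ := prx_gains (geoT c cT)
  obtain ⟨Cy, -, hCy⟩ := pkr_Gm_gain
  obtain ⟨Cw, hCw⟩ := prx_count_defect c.R c.n0 H1
  obtain ⟨Ca, hCa⟩ := prx_count_all c.R c.n0
  refine ⟨C1h, hC1h, fun δ κT h0 hδ hκ hh => ?_⟩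
  obtain ⟨Cg, ℓg, Dg, Hg⟩ := Hg δ κT h0 hδ hκ hh Cy
  obtain ⟨ℓt, hℓt⟩ := prx_theta ((Cw : ℕ) * (2 * Cg)) (1 / 4) (by positivity)
  refine ⟨max (max ℓg ℓt) c.R, max Dg 64, fun ℓ hℓ AT Cs Cp Cnl => ?_⟩
  have hℓg : ℓg ≤ ℓ := ((le_max_left _ _).trans (le_max_left _ _)).trans hℓ
  have hℓt' : ℓt ≤ ℓ := ((le_max_right _ _).trans (le_max_left _ _)).trans hℓ
  have hR : c.R ≤ 2 ^ ℓ := ((le_max_right _ _).trans hℓ).trans Nat.lt_two_pow_self.le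
  refine ⟨Cs + (AT ^ c.n0).toNNReal * ((Ca * (2 ^ ℓ) ^ 2 * (1 + c.n0) : ℕ) * (max 1 cT ^ c.n0 * Cs + (c.n0 + 2) * Cp)) + Cnl * (Cs + 1) ^ 2, ?_⟩
  intro pm nm k0 kT G T j h hc hH1 hδe hκe hhe hAe hD hα1 hα2 hη hCnl H t z μ x hx href V d hd hDes hε
  subst hc hH1 hδe hκe hhe hAe
  have hctx : Ctx0 (geoT pm.c cT) (nm.pT pm.ω) (T.stepT h) := H.toT hR
  obtain ⟨-, hN, hRf⟩ := Hg ℓ hℓg pm.D0 ((le_max_left _ _).trans hD) nm.AT pm.ω G (T.stepT h) hα1 hα2 hctx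
    (fun v => hCy ℓ G pm.D0 j h ((le_max_right _ _).trans hD) v)
  have e : ((Cg * ((2 : ℝ≥0) ^ ℓ)⁻¹ : ℝ≥0) : ℝ≥0∞) = Cg * (2 ^ ℓ : ℝ≥0∞)⁻¹ := by
    rw [ENNReal.coe_mul, ENNReal.coe_inv (by positivity), ENNReal.coe_pow]
    rfl
  have hγ : GainN pm.c (nm.pT pm.ω) (T.stepT h) ((Cg * ((2 : ℝ≥0) ^ ℓ)⁻¹ : ℝ≥0) : ℝ≥0∞) := by
    rw [e]
    exact hN
  have hr : RefAt pm.c (nm.pT pm.ω) (T.stepT h) (fun X => ¬ ShiftGood (T.stepT h).P.g pm.zn.H1 X) (pm.ref G - μ) ((Cg * ((2 : ℝ≥0) ^ ℓ)⁻¹ : ℝ≥0) : ℝ≥0∞) := by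
    rw [e]
    exact hRf _ _ href
  have hrow := prx_row_D H t z μ x hx (Cg * ((2 : ℝ≥0) ^ ℓ)⁻¹) (Cg * ((2 : ℝ≥0) ^ ℓ)⁻¹) Cs Cp V d Cw (Ca * (2 ^ ℓ) ^ 2) hγ hr
    (hCw G pm.D0 ℓ (T.stepT h) pm.c rfl rfl H.free) (hCa G pm.D0 ℓ (T.stepT h) pm.c rfl rfl) hd hDes hε
  refine hrow.trans ?_
  have hθ : ((Cw : ℕ) : ℝ≥0) * (Cg * ((2 : ℝ≥0) ^ ℓ)⁻¹ + Cg * ((2 : ℝ≥0) ^ ℓ)⁻¹) ≤ 1 / 4 := by
    refine le_of_eq_of_le ?_ (hℓt ℓ hℓt')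
    ring
  have key := prx_arith _ kT.η Cs
    ((nm.AT ^ pm.c.n0).toNNReal * ((Ca * (2 ^ ℓ) ^ 2 * (1 + pm.c.n0) : ℕ) * (max 1 cT ^ pm.c.n0 * Cs + (pm.c.n0 + 2) * Cp))) kT.Cnl Cnl V d hθ hη hCnl
  refine le_of_eq_of_le ?_ (ENNReal.coe_le_coe.2 key)
  simp only [ENNReal.ofReal]
  push_cast
  ring

end

end Claimed.Agent.R285.F6.Pr
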