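import Claimed.Agent.R285.Obs.PairDesT
import Claimed.Agent.R285.Obs.PairWallX

/-!
# ROW 285, unit OBS, BP-OBS-L62, block EST: DESIG-0 / DESIG-T IN THE FORM CONSUMED BY (W), (D), (J)      (architect helper223)   -- KEEP

Producers of helper254's structures `Des0`, `DesT` (`Obs/PairWallX.lean`) from the exits of `Obs/PairDesT.lean`, (R2) (`prx_R2`, helper49), the energy of the lifts (`prx_lamX_energy`, helper49).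
* `pdx_des0`, `pdx_desT` : explicit numbers;
* `pdx_des0_ex`, `pdx_desT_ex` : the order of the constants (`Cp` before `L`, `A`; `C1` after `A`; the lower bound for `Cd` after `L`).
Prefix `pdx_`.
-/

set_option autoImplicit false

namespace Claimed.Agent.R285.F6.Pr

open scoped BigOperators ENNReal NNReal
open MeasureTheory
open Claimed.Agent.R285 Claimed.Agent.R285.RG Claimed.Agent.R285.B4 Claimed.Agent.R285.F4a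

noncomputable section

variable {G : Geom} {ℓ : ℕ}

/-! ## 1. The constants are finite and monotone -/

theorem pdx_K_ne_top (c : B8.Geo) : pdtK c ≠ ⊤ := ENNReal.coe_ne_top

theorem pdx_N_ne_top (ℓ Cn : ℕ) : pdtN ℓ Cn ≠ ⊤ := ENNReal.natCast_ne_top _

theorem pdx_Cp_ne_top (c : B8.Geo) (Cg : ℝ≥0) (q : Par) (α Cl : ℝ) : pdtCp c Cg q α Cl ≠ ⊤ := by
  unfold pdtCp
  refine ENNReal.add_ne_top.2 ⟨ENNReal.add_ne_top.2 ⟨ENNReal.mul_ne_top ENNReal.ofReal_ne_top (ENNReal.add_ne_top.2 ⟨ENNReal.coe_ne_top, ENNReal.one_ne_top⟩),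
    ENNReal.mul_ne_top (ENNReal.mul_ne_top (by norm_num) (pdx_K_ne_top c)) ENNReal.ofReal_ne_top⟩, ENNReal.ofReal_ne_top⟩

/-- monotone in `|α|` and in `Cl` -/
theorem pdx_Cp_mono (c : B8.Geo) (Cg : ℝ≥0) (q : Par) {α α' Cl Cl' : ℝ} (hα : |α| ≤ α') (hCl : Cl ≤ Cl') : pdtCp c Cg q α Cl ≤ pdtCp c Cg q α' Cl' := by
  unfold pdtCp pdtC
  have h1 : |α| ≤ |α'| := hα.trans (le_abs_self _)
  refine add_le_add (add_le_add (mul_le_mul' (ENNReal.ofReal_le_ofReal (by linarith)) le_rfl)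
    (mul_le_mul' le_rfl (ENNReal.ofReal_le_ofReal (Real.exp_le_exp.2 (mul_le_mul_of_nonneg_right h1 q.h0.2))))) le_rfl

/-- only `κ`, `h0` of the output norm matter -/
theorem pdx_Cp_congr (c : B8.Geo) (Cg : ℝ≥0) {q q' : Par} (hκ : q.κ = q'.κ) (hh : q.h0 = q'.h0) (α Cl : ℝ) : pdtCp c Cg q α Cl = pdtCp c Cg q' α Cl := by
  unfold pdtCp
  rw [hκ, hh]

/-! ## 2. Explicit numbers -/

section explicit

variable {pm : Prm} {nm : Nm} {cT : ℝ≥0} {k0 kT : KC} {T : Tw G ℓ} {j : ℕ} {h : Ret G ℓ pm.D0 j}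

/-- **DESIG-0 for (W)** -/
theorem pdx_des0 (H : Ctx pm nm cT k0 kT T h) (x : St (lev G ℓ j)) (hx : Inv pm nm.h0 x) (t z : ℂ) (Cs C1 Cp U w : ℝ≥0) (Cn : ℕ)
    (hCn : DCount pm.c (T.step h) Cn)
    (hCs : actNorm (nm.p0 pm.ω) (lev G ℓ j) (T.V0 j) (B8.single (lev G ℓ j) pm.α t z) ≤ Cs * ((‖t‖₊ : ℝ≥0∞) + (‖z‖₊ : ℝ≥0∞)))
    (hC1 : 1 + Cs ≤ C1) (hCp : pdtCp pm.c k0.Cg (nm.p0 pm.ω) pm.α 0 ≤ Cp) (hCd : 2 * pdtN ℓ Cn * Cp ≤ k0.Cd)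
    (hU : nP (nm.p0 pm.ω) (T.V0 j) pm.zn.H0 pm.α t z x ≤ U) (hw : nW (nm.p0 pm.ω) (T.V0 j) pm.zn.H0 x ≤ w) (hsm : k0.Cd * (C1 * U + w) < 1) :
    Des0 pm nm T h t z x C1 Cp k0.Cd U w := by
  have hA : 1 ≤ (nm.p0 pm.ω).A := H.nmOk.AT_ge.trans H.nmOk.A_ge
  have hC1' : (1 : ℝ≥0∞) + Cs ≤ C1 := by exact_mod_cast hC1
  have h1C : (1 : ℝ≥0∞) ≤ C1 := le_self_add.trans hC1'
  have hsize : (d0 (T.step h) pm.c pm.ω pm.zn t z x.K0).size (nm.p0 pm.ω) (T.V0 (j + 1)) ≤ k0.Cd * ((C1 * U + w : ℝ≥0) : ℝ≥0∞) := by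
    refine (pdt_exit0 H x hx t z Cn hCn).1.trans ?_
    calc 2 * pdtN ℓ Cn * (pdtCp pm.c k0.Cg (nm.p0 pm.ω) pm.α 0 * (nP (nm.p0 pm.ω) (T.V0 j) pm.zn.H0 pm.α t z x + nW (nm.p0 pm.ω) (T.V0 j) pm.zn.H0 x))
        ≤ 2 * pdtN ℓ Cn * (Cp * ((U : ℝ≥0∞) + w)) := mul_le_mul' le_rfl (mul_le_mul' hCp (add_le_add hU hw))
      _ = (2 * pdtN ℓ Cn * Cp) * ((U : ℝ≥0∞) + w) := by ring
      _ ≤ k0.Cd * ((C1 : ℝ≥0∞) * U + w) := by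
          refine mul_le_mul' hCd (add_le_add ?_ le_rfl)
          calc (U : ℝ≥0∞) = 1 * U := (one_mul _).symm
            _ ≤ _ := mul_le_mul' h1C le_rfl
      _ = _ := by push_cast; rfl
  refine ⟨?_, ?_, ?_, hsize⟩
  · exact (pdt_K0_norm (p := nm.p0 pm.ω) (T.V0 j) pm.zn.H0 pm.α t z x Cs hCs).1.trans (mul_le_mul' hC1' hU)
  · intro X hX hwf B _
    obtain ⟨h1, h2⟩ := pdt_exit0_pc H x hx t z hX B
    have h3 : pdtCp pm.c k0.Cg (nm.p0 pm.ω) pm.α 0 * pdtS (nm.p0 pm.ω) (T.step h) pm.zn t z x.K0 X ≤ Cp * U :=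
      mul_le_mul' hCp ((pdt_S_wf (p := nm.p0 pm.ω) (S := T.step h) hA pm.zn t z x hwf).trans hU)
    exact ⟨h1.trans h3, h2.trans h3⟩
  · refine (pdt_exit0 H x hx t z Cn hCn).2 (lt_of_le_of_lt hsize ?_)
    exact_mod_cast hsm

/-- **DESIG-T for (D), (J)**, `μ = v / α`, `V = U + w`.   `hR2` = clause (b) of `prx_R2`, `hen` = second clause of `prx_lamX_energy` (helper49), `href` = (R4) in the form of `pr_defect` -/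
theorem pdx_desT (H : Ctx pm nm cT k0 kT T h) (x : St (lev G ℓ j)) (hx : Inv pm nm.h0 x) (t z : ℂ) (v : G.V → ℝ) (Ctr : ℝ) (hCtr : 0 ≤ Ctr)
    (Cs C1 Cp U w d : ℝ≥0) (Cn : ℕ) (hCn : DCount pm.c (T.step h) Cn)
    (hCs : actNorm (nm.p0 pm.ω) (lev G ℓ j) (T.V0 j) (B8.single (lev G ℓ j) pm.α t z) ≤ Cs * ((‖t‖₊ : ℝ≥0∞) + (‖z‖₊ : ℝ≥0∞)))
    (hC1 : 1 + Cs ≤ C1) (hCp : pdtCp pm.c k0.Cg (nm.pT pm.ω) pm.α (Ctr * pm.c.n0) ≤ Cp)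
    (hCd : 2 * pdtN ℓ Cn * (Cp + pdtK (geoT pm.c cT)) ≤ kT.Cd)
    (hR2 : actNorm (nm.pT pm.ω) (lev G ℓ j) (T.VT j) (cutA (ShiftGood (lev G ℓ j) pm.zn.H1) (shA x.KT (bg pm v)))
      ≤ actNorm (nm.p0 pm.ω) (lev G ℓ j) (T.V0 j) x.K0)
    (hen : ∀ X : Finset (lev G ℓ j).I, ShiftGood (lev G ℓ j) pm.zn.H1 X → ∀ B ∈ X, gE G ((lev G ℓ j).sites {B}) (lamX pm (lev G ℓ j) v X) ≤ Ctr * X.card)
    (href : ∀ X ∈ (T.step h).small pm.c, ¬ ShiftGood (lev G ℓ j) pm.zn.H1 X →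
      ∃ a : ℝ, tnorm (lev G ℓ (j + 1)) ((nest G ℓ j).cl X) (fun u => (pm.ref G u - bg pm v u) - a) < nm.h0)
    (hU : nP (nm.p0 pm.ω) (T.V0 j) pm.zn.H0 pm.α t z x ≤ U) (hw : nW (nm.p0 pm.ω) (T.V0 j) pm.zn.H0 x ≤ w)
    (hd : nD (nm.pT pm.ω) (T.VT j) pm.zn.H1 (bg pm v) x ≤ d) (hsm : kT.Cd * (C1 * (U + w) + d) < 1) :
    DesT pm nm T h t z (bg pm v) x C1 Cp kT.Cd (U + w) d := by
  have hC1' : (1 : ℝ≥0∞) + Cs ≤ C1 := by exact_mod_cast hC1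
  have h1C : (1 : ℝ≥0∞) ≤ C1 := le_self_add.trans hC1'
  have hV : nP (nm.p0 pm.ω) (T.V0 j) pm.zn.H0 pm.α t z x + nW (nm.p0 pm.ω) (T.V0 j) pm.zn.H0 x ≤ ((U + w : ℝ≥0) : ℝ≥0∞) := by
    push_cast
    exact add_le_add hU hw
  have href' : ∀ X ∈ (T.step h).small pm.c, ¬ ShiftGood (lev G ℓ j) pm.zn.H1 X →
      ∃ a : ℝ, tnorm (lev G ℓ j) X (fun u => (pm.ref G - bg pm v) u - a) < nm.h0 := by
    intro X hX hg
    obtain ⟨a, ha⟩ := href X hX hg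
    exact ⟨a, lt_of_le_of_lt (Hol.tnorm_coarse (pair h) X _ (Finset.Subset.refl _) _) ha⟩
  have hsize : (shD (dT (T.step h) pm.c pm.ω pm.zn t z (pm.ref G) x.K0 x.KT) (bg pm v)).size (nm.pT pm.ω) (T.VT (j + 1))
      ≤ kT.Cd * ((C1 * (U + w) + d : ℝ≥0) : ℝ≥0∞) := by
    refine (pdt_exitT H x hx t z v Ctr hCtr Cn hCn hen href').1.trans ?_
    calc 2 * pdtN ℓ Cn * (pdtCp pm.c k0.Cg (nm.pT pm.ω) pm.α (Ctr * pm.c.n0)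
            * (nP (nm.p0 pm.ω) (T.V0 j) pm.zn.H0 pm.α t z x + nW (nm.p0 pm.ω) (T.V0 j) pm.zn.H0 x)
          + pdtK (geoT pm.c cT) * nD (nm.pT pm.ω) (T.VT j) pm.zn.H1 (bg pm v) x)
        ≤ 2 * pdtN ℓ Cn * (Cp * ((U + w : ℝ≥0) : ℝ≥0∞) + pdtK (geoT pm.c cT) * d) :=
          mul_le_mul' le_rfl (add_le_add (mul_le_mul' hCp hV) (mul_le_mul' le_rfl hd))
      _ ≤ 2 * pdtN ℓ Cn * ((Cp + pdtK (geoT pm.c cT)) * (((U + w : ℝ≥0) : ℝ≥0∞) + d)) := by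
          refine mul_le_mul' le_rfl ?_
          calc (Cp : ℝ≥0∞) * ((U + w : ℝ≥0) : ℝ≥0∞) + pdtK (geoT pm.c cT) * d
              ≤ (Cp : ℝ≥0∞) * ((U + w : ℝ≥0) : ℝ≥0∞) + pdtK (geoT pm.c cT) * d + ((Cp : ℝ≥0∞) * d + pdtK (geoT pm.c cT) * ((U + w : ℝ≥0) : ℝ≥0∞)) := le_self_add
            _ = _ := by ring
      _ = (2 * pdtN ℓ Cn * (Cp + pdtK (geoT pm.c cT))) * (((U + w : ℝ≥0) : ℝ≥0∞) + d) := by ring
      _ ≤ kT.Cd * ((C1 : ℝ≥0∞) * ((U + w : ℝ≥0) : ℝ≥0∞) + d) := by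
          refine mul_le_mul' hCd (add_le_add ?_ le_rfl)
          calc ((U + w : ℝ≥0) : ℝ≥0∞) = 1 * ((U + w : ℝ≥0) : ℝ≥0∞) := (one_mul _).symm
            _ ≤ _ := mul_le_mul' h1C le_rfl
      _ = _ := by push_cast; rfl
  refine ⟨?_, ?_, ?_, hsize⟩
  · refine hR2.trans ((pdt_K0_norm (p := nm.p0 pm.ω) (T.V0 j) pm.zn.H0 pm.α t z x Cs hCs).2.trans ?_)
    calc (1 + (Cs : ℝ≥0∞)) * nP (nm.p0 pm.ω) (T.V0 j) pm.zn.H0 pm.α t z x + nW (nm.p0 pm.ω) (T.V0 j) pm.zn.H0 x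
        ≤ (C1 : ℝ≥0∞) * U + (C1 : ℝ≥0∞) * w := by
          refine add_le_add (mul_le_mul' hC1' hU) ?_
          calc nW (nm.p0 pm.ω) (T.V0 j) pm.zn.H0 x = 1 * nW (nm.p0 pm.ω) (T.V0 j) pm.zn.H0 x := (one_mul _).symm
            _ ≤ _ := mul_le_mul' h1C hw
      _ = _ := by push_cast; ring
  · intro X hX hg B hB
    obtain ⟨h1, h2⟩ := pdt_exitT_pc H x hx t z v Ctr hCtr hX hg B (hen X hg B hB)
    have h3 := mul_le_mul' hCp hV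
    exact ⟨h1.trans h3, h2.trans h3⟩
  · refine (pdt_exitT H x hx t z v Ctr hCtr Cn hCn hen href').2 (lt_of_le_of_lt hsize ?_)
    exact_mod_cast hsm

end explicit

end

end Claimed.Agent.R285.F6.Pr
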