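import Claimed.Agent.R285.Obs.PairMst
import Claimed.Agent.R285.Obs.PairDesX

/-!
# ROW 285, unit OBS: DESIG-0 / DESIG-T / total norms IN THE VOCABULARY OF THE MASTER `Obs/PairMst.lean`      (architect helper223)   -- KEEP

For the writer of the chain of constants (`Pr.PairConstStmt`).  Prefix `pdm_`.  The inputs which come from `∃`-theorems are NAMED PROPS with their producers, so that every constant is obtained ONCE:
* `R2All pm nm o oT ℓ`  (clauses (b), (c) of `prx_R2`)               producer `pdm_R2All`   (`∃ Ctr`, then `NormLe ε Ctr ..`);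
* `EnAll pm ℓ Cen`      (second clause of `prx_lamX_energy`)          producer `pdm_EnAll`   (`∃ Cen`);
* `SingBd pm nm Cs`     (norm of the two singletons)                  producer `pdm_singBd`  (`∃ Cs0`, `Cs = A Cs0`);
* `R4At pm nm T h v`    ((R4) in the form of `pr_defect`)             producer: helper49, `Obs/PairRegL.lean`.
EXITS
* `pdm_totBd`  : `NormLe` + `R2All` + `SingBd` + `1 + Cs ≤ C`  ⟹  `TotBd pm nm o oT ℓ C`;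
* `pdm_small`  : `Ctx` ⟹ the fields `dT_small`, `dJ_small`, `dJ_fn` of `StepOut`;
* `pdm_des`    : `Ctx` + `Inv` + the named Props + numeric conditions + `zP + zW + zD ≤ ρ`  ⟹  `Des0` and `DesT` at `U = zP`, `w = zW`, `d = zD` (hence the fields `d0_ok`, `dT_ok`, and the hypotheses of `pr_wall`, `pr_defect`, `prj_label_ctx`).
-/

set_option autoImplicit false

namespace Claimed.Agent.R285.F6.Pr

open scoped BigOperators ENNReal NNReal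
open MeasureTheory
open Claimed.Agent.R285 Claimed.Agent.R285.RG Claimed.Agent.R285.B4 Claimed.Agent.R285.F4a

noncomputable section

/-! ## 1. The named inputs -/

/-- (R2) at all levels of all centred free squares: clauses (b), (c) of `prx_R2` -/
def R2All (pm : Prm) (nm : Nm) (o oT : ObsPar) (ℓ : ℕ) : Prop :=
  ∀ (G : Geom) (T : Tw G ℓ) (cl : Grid G) (j0 : ℕ), T.IsObs o oT cl j0 → G.bc = BC.free → ∀ j, j0 ≤ j → 1 ≤ j → 2 * (2 ^ ℓ) ^ j ∣ G.M →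
    ∀ v : G.V → ℝ, IsBranch G v → ∀ x : St (lev G ℓ j), Inv pm nm.h0 x →
      actNorm (nm.pT pm.ω) (lev G ℓ j) (T.VT j) (cutA (ShiftGood (lev G ℓ j) pm.zn.H1) (shA x.KT (bg pm v)))
        ≤ actNorm (nm.p0 pm.ω) (lev G ℓ j) (T.V0 j) x.K0 ∧
      actNorm (nm.pT pm.ω) (lev G ℓ j) (T.VT j) (shA x.KT (bg pm v))
        ≤ max (actNorm (nm.p0 pm.ω) (lev G ℓ j) (T.V0 j) x.K0) (nD (nm.pT pm.ω) (T.VT j) pm.zn.H1 (bg pm v) x)

theorem pdm_R2All (ω : ℝ) (hω : 0 < ω) : ∃ Ctr : ℝ, 0 ≤ Ctr ∧ ∀ (ε : ℝ) (nm : Nm) (o oT : ObsPar), NormLe ε Ctr (nm.p0 ω) (nm.pT ω) o oT →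
    ∀ pm : Prm, pm.ω = ω → 3 ≤ pm.zn.H1 → ∀ ℓ : ℕ, 1 ≤ ℓ → R2All pm nm o oT ℓ := by
  obtain ⟨Ctr, hC, H⟩ := prx_R2 ω hω
  refine ⟨Ctr, hC, fun ε nm o oT hN pm hpm hH ℓ hℓ G T cl j0 hT hG j hj hj1 hc v hv x hx => ?_⟩
  subst hpm
  exact (H ε nm o oT hN pm rfl hH G ℓ T cl j0 hT hG hℓ j hj hj1 hc v hv x hx).2

/-- the gradient energy of the local lifts on one block: second clause of `prx_lamX_energy` -/
def EnAll (pm : Prm) (ℓ : ℕ) (Cen : ℝ) : Prop :=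
  ∀ (G : Geom) (j : ℕ), G.bc = BC.free → 1 ≤ j → 2 * (2 ^ ℓ) ^ j ∣ G.M → ∀ v : G.V → ℝ, IsBranch G v →
    ∀ X : Finset (lev G ℓ j).I, ShiftGood (lev G ℓ j) pm.zn.H1 X → ∀ B ∈ X, gE G ((lev G ℓ j).sites {B}) (lamX pm (lev G ℓ j) v X) ≤ Cen * X.card

theorem pdm_EnAll (ω : ℝ) (hω : 0 < ω) : ∃ Cen : ℝ, 0 ≤ Cen ∧ ∀ pm : Prm, pm.ω = ω → 3 ≤ pm.zn.H1 → ∀ ℓ : ℕ, 1 ≤ ℓ → EnAll pm ℓ Cen := by
  obtain ⟨Ctr, hC, H⟩ := prx_lamX_energy ω hω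
  refine ⟨Ctr, hC, fun pm hpm hH ℓ hℓ G j hG hj hc v hv X hX => ?_⟩
  obtain ⟨hs, he, hg, hm⟩ := prx_lev G ℓ j hℓ hj hc
  exact (H pm hpm hH G _ hG hs he hg hm v hv X hX).2

/-- the norm of the two singletons in the centred norm -/
def SingBd (pm : Prm) (nm : Nm) (Cs : ℝ≥0) : Prop :=
  ∀ (G : Geom) (g : Grid G), g.Ok → ∀ (V : Extra g) (t z : ℂ),
    actNorm (nm.p0 pm.ω) g V (B8.single g pm.α t z) ≤ Cs * ((‖t‖₊ : ℝ≥0∞) + (‖z‖₊ : ℝ≥0∞))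

theorem pdm_singBd (δ κ : ℝ) (h0 : ℝ≥0) (hδ : 0 < δ) (hκ : 0 < κ) (αmax : ℝ) : ∃ Cs0 : ℝ≥0, ∀ (pm : Prm) (nm : Nm), nm.δ = δ → nm.κ = κ → nm.h0 = h0 →
    1 ≤ nm.A → 0 < pm.ω → pm.α ≤ αmax → SingBd pm nm (nm.A.toNNReal * Cs0) := by
  obtain ⟨Cs, hCs⟩ := B8.w_single_norm δ κ h0 hδ hκ αmax
  refine ⟨Cs, fun pm nm h1 h2 h3 hA hω hα G g hg V t z => ?_⟩
  subst h1 h2 h3
  refine (hCs nm.A pm.ω hA hω G g hg V t z (Or.inr hα)).trans (le_of_eq ?_)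
  rw [ENNReal.coe_mul, mul_assoc]
  rfl

/-- (R4) for one step, in the form of `pr_defect` -/
def R4At (pm : Prm) (nm : Nm) {G : Geom} {ℓ : ℕ} (T : Tw G ℓ) {j : ℕ} (h : Ret G ℓ pm.D0 j) (v : G.V → ℝ) : Prop :=
  ∀ X ∈ (T.step h).small pm.c, ¬ ShiftGood (lev G ℓ j) pm.zn.H1 X →
    ∃ a : ℝ, tnorm (lev G ℓ (j + 1)) ((nest G ℓ j).cl X) (fun u => (pm.ref G u - bg pm v u) - a) < nm.h0

theorem pdm_defs_cite : True := by
  have := @R2All.eq_1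
  have := @EnAll.eq_1
  have := @SingBd.eq_1
  have := @R4At.eq_1
  trivial

/-! ## 2. `TotBd` -/

theorem pdm_totBd {pm : Prm} {nm : Nm} {o oT : ObsPar} {ℓ : ℕ} {ε Ctr : ℝ} (hN : NormLe ε Ctr (nm.p0 pm.ω) (nm.pT pm.ω) o oT) (hR2 : R2All pm nm o oT ℓ)
    {Cs C : ℝ≥0} (hCs : SingBd pm nm Cs) (hC : 1 + Cs ≤ C) : TotBd pm nm o oT ℓ C := by
  intro G T cl v j0 j hG hc hT hj0 hj hv t z x hx
  have hC' : (1 : ℝ≥0∞) + Cs ≤ C := by exact_mod_cast hC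
  have h1C : (1 : ℝ≥0∞) ≤ C := le_self_add.trans hC'
  have hg : (lev G ℓ j).Ok := B8.torusGrid_ok _ _ _ (side_pos G ℓ j)
  have h1 : actNorm (nm.p0 pm.ω) (lev G ℓ j) (T.V0 j) x.K0 ≤ C * (zP pm nm T j t z x + zW pm nm T j x) := by
    refine (pdt_K0_norm (p := nm.p0 pm.ω) (T.V0 j) pm.zn.H0 pm.α t z x Cs (hCs G _ hg _ t z)).2.trans ?_
    unfold zP zW
    rw [mul_add]
    refine add_le_add (mul_le_mul' hC' le_rfl) ?_
    calc nW (nm.p0 pm.ω) (T.V0 j) pm.zn.H0 x = 1 * nW (nm.p0 pm.ω) (T.V0 j) pm.zn.H0 x := (one_mul _).symm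
      _ ≤ _ := mul_le_mul' h1C le_rfl
  refine ⟨h1, (prx_R3 hN T cl j0 hT j hj x.K0).trans h1, ?_, ?_⟩
  · refine (hR2 G T cl j0 hT hG j hj (hj0.trans hj) hc v hv x hx).2.trans (max_le ?_ ?_)
    · exact h1.trans (mul_le_mul' le_rfl le_self_add)
    · unfold zD
      calc nD (nm.pT pm.ω) (T.VT j) pm.zn.H1 (bg pm v) x = 1 * nD (nm.pT pm.ω) (T.VT j) pm.zn.H1 (bg pm v) x := (one_mul _).symm
        _ ≤ C * (zP pm nm T j t z x + zW pm nm T j x + nD (nm.pT pm.ω) (T.VT j) pm.zn.H1 (bg pm v) x) := mul_le_mul' h1C le_add_self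
  · intro X hX
    have h2 := B8.w_le_actNorm (nm.pT pm.ω) (lev G ℓ j) (T.VT j) (cutA (WallFree (lev G ℓ j) pm.zn.H0) (x.K0 - singleWF (lev G ℓ j) pm.zn.H0 pm.α t z)) X
    rw [pk_cut_pos _ hX] at h2
    exact h2.trans (prx_R3 hN T cl j0 hT j hj _)

/-! ## 3. The fields of `StepOut` which belong to the designated data -/

section step

variable {pm : Prm} {nm : Nm} {cT : ℝ≥0} {k0 kT : KC} {G : Geom} {ℓ : ℕ} {T : Tw G ℓ} {j : ℕ} {h : Ret G ℓ pm.D0 j}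

/-- the fields `dT_small`, `dJ_small`, `dJ_fn` (no estimate) -/
theorem pdm_small (H : Ctx pm nm cT k0 kT T h) (t z : ℂ) (x : St (lev G ℓ j)) (v : G.V → ℝ) :
    (dT (T.step h) pm.c pm.ω pm.zn t z (pm.ref G) x.K0 x.KT).Small pm.c.r (lev G ℓ (j + 1)) ∧
    (dJ (T.step h) pm.c pm.ω (pm.ref G) x.JT).Small pm.c.r (lev G ℓ (j + 1)) ∧
    ∀ Y b, LocalFn (nm.pT pm.ω) pm.c.col (lev G ℓ (j + 1)) {b} ((shD (dJ (T.step h) pm.c pm.ω (pm.ref G) x.JT) (bg pm v)).F Y b) :=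
  ⟨pk_desig_small (H.to0 (pdt_hR H)) _ _, pk_desig_small (H.to0 (pdt_hR H)) _ _,
    fun Y b => prj_shF_local (prj_dJ_fn (S := T.step h) (c := pm.c) (p := nm.pT pm.ω) pm.c.col pm.ω (pm.ref G) x.JT Y b) _⟩

/-- **`Des0` and `DesT` in the ball** `zP + zW + zD ≤ ρ`, at `U = zP`, `w = zW`, `d = zD` -/
theorem pdm_des (H : Ctx pm nm cT k0 kT T h) {o oT : ObsPar} {cl : Grid G} {j0 : ℕ} (hT : T.IsObs o oT cl j0) (hj0 : 1 ≤ j0) (hj : j0 ≤ j)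
    (x : St (lev G ℓ j)) (hx : Inv pm nm.h0 x) (t z : ℂ) (v : G.V → ℝ) (hv : IsBranch G v)
    (hR2 : R2All pm nm o oT ℓ) {Cen : ℝ} (hCen : 0 ≤ Cen) (hEn : EnAll pm ℓ Cen) {Cs : ℝ≥0} (hCs : SingBd pm nm Cs) (hR4 : R4At pm nm T h v)
    {Cn : ℕ} (hCn : DCount pm.c (T.step h) Cn) {C1 Cp CpT ρ : ℝ≥0} (hC1 : 1 + Cs ≤ C1)
    (hCp : pdtCp pm.c k0.Cg (nm.p0 pm.ω) pm.α 0 ≤ Cp) (hCpT : pdtCp pm.c k0.Cg (nm.pT pm.ω) pm.α (Cen * pm.c.n0) ≤ CpT)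
    (hCd0 : 2 * pdtN ℓ Cn * Cp ≤ k0.Cd) (hCdT : 2 * pdtN ℓ Cn * (CpT + pdtK (geoT pm.c cT)) ≤ kT.Cd)
    (hρ0 : k0.Cd * (C1 * ρ) < 1) (hρT : kT.Cd * (C1 * ρ) < 1)
    (hball : zP pm nm T j t z x + zW pm nm T j x + zD pm nm T v j x ≤ ρ) :
    Des0 pm nm T h t z x C1 Cp k0.Cd (zP pm nm T j t z x).toNNReal (zW pm nm T j x).toNNReal ∧
    DesT pm nm T h t z (bg pm v) x C1 CpT kT.Cd ((zP pm nm T j t z x).toNNReal + (zW pm nm T j x).toNNReal) (zD pm nm T v j x).toNNReal := by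
  have hfin : zP pm nm T j t z x + zW pm nm T j x + zD pm nm T v j x ≠ ⊤ := ne_top_of_le_ne_top ENNReal.coe_ne_top hball
  have hfD : zD pm nm T v j x ≠ ⊤ := (ENNReal.add_ne_top.1 hfin).2
  have hfP : zP pm nm T j t z x ≠ ⊤ := (ENNReal.add_ne_top.1 (ENNReal.add_ne_top.1 hfin).1).1
  have hfW : zW pm nm T j x ≠ ⊤ := (ENNReal.add_ne_top.1 (ENNReal.add_ne_top.1 hfin).1).2
  set U := (zP pm nm T j t z x).toNNReal with hU
  set w := (zW pm nm T j x).toNNReal with hw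
  set d := (zD pm nm T v j x).toNNReal with hd
  have eU : (U : ℝ≥0∞) = zP pm nm T j t z x := ENNReal.coe_toNNReal hfP
  have ew : (w : ℝ≥0∞) = zW pm nm T j x := ENNReal.coe_toNNReal hfW
  have ed : (d : ℝ≥0∞) = zD pm nm T v j x := ENNReal.coe_toNNReal hfD
  have hsum : U + w + d ≤ ρ := by
    rw [← ENNReal.coe_le_coe]
    push_cast
    rw [eU, ew, ed]
    exact hball
  have h1C : 1 ≤ C1 := le_self_add.trans hC1
  have hcen : 2 * (2 ^ ℓ) ^ j ∣ G.M := by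
    refine dvd_trans ?_ H.cen
    exact Nat.mul_dvd_mul_left 2 (pow_dvd_pow _ (Nat.le_succ j))
  have hb0 : C1 * U + w ≤ C1 * ρ := by
    calc C1 * U + w ≤ C1 * U + C1 * w := add_le_add le_rfl (le_mul_of_one_le_left' h1C)
      _ = C1 * (U + w) := by ring
      _ ≤ C1 * ρ := mul_le_mul' le_rfl (le_self_add.trans hsum)
  have hbT : C1 * (U + w) + d ≤ C1 * ρ := by
    calc C1 * (U + w) + d ≤ C1 * (U + w) + C1 * d := add_le_add le_rfl (le_mul_of_one_le_left' h1C)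
      _ = C1 * (U + w + d) := by ring
      _ ≤ C1 * ρ := mul_le_mul' le_rfl hsum
  have hg : (lev G ℓ j).Ok := B8.torusGrid_ok _ _ _ (side_pos G ℓ j)
  refine ⟨pdx_des0 H x hx t z Cs C1 Cp U w Cn hCn (hCs G _ hg _ t z) hC1 hCp hCd0 (le_of_eq eU.symm) (le_of_eq ew.symm)
      (lt_of_le_of_lt (mul_le_mul' le_rfl hb0) hρ0), ?_⟩
  exact pdx_desT H x hx t z v Cen hCen Cs C1 CpT U w d Cn hCn (hCs G _ hg _ t z) hC1 hCpT hCdT
    (hR2 G T cl j0 hT H.free j hj (hj0.trans hj) hcen v hv x hx).1 (hEn G j H.free (hj0.trans hj) hcen v hv) hR4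
    (le_of_eq eU.symm) (le_of_eq ew.symm) (le_of_eq ed.symm) (lt_of_le_of_lt (mul_le_mul' le_rfl hbT) hρT)

end step

end

end Claimed.Agent.R285.F6.Pr
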