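import Claimed.Agent.R285.Obs.PairRegT
import Claimed.Agent.R285.Obs.PairCtx

/-!
# ROW 285, unit OBS, BP-OBS-L62, block REG: (R2), (R3) IN THE VOCABULARY OF `Obs/PairCtx.lean`      (architect helper49)   -- KEEP.   No sorry.

`Nm`, `Tw.IsObs`, `IsBranch`, `bg`, `lamX`, `Inv`, `nD`.  Prefix `prx_`.
* `prx_branch` : `IsBranch = CoClG`;  `prx_lamX` : `lamX = liftOf`;  `prx_lev` : the grid facts of a level (`Std`, even, `Ok`, `2 ≤ m`);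
* `prx_lamX_lift`, `prx_lamX_energy`, `prx_lamX_gE` (gradient energy of `λ_X` on one block of `X`);
* `prx_R3` : `actNorm pT VT K ≤ actNorm p0 V0 K`;   `prx_R3_fn`;
* `prx_R2` : `‖cutA (ShiftGood ∧ 𝒞) (shA KT μ)‖_T ≤ ‖cutA 𝒞 K0‖_0` from `Inv.gauge`;   `prx_total` : `‖shA KT μ‖_T ≤ max ‖K0‖_0 (nD ..)`.
-/

set_option autoImplicit false

namespace Claimed.Agent.R285.F6.Pr

open scoped BigOperators ENNReal NNReal
open MeasureTheory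
open Claimed.Agent.R285 Claimed.Agent.R285.RG Claimed.Agent.R285.B4 Claimed.Agent.R285.F4a Claimed.Agent.R285.Obs Claimed.Agent.R285.Entry

noncomputable section

theorem prx_branch {G : Geom} {v : G.V → ℝ} (h : IsBranch G v) : CoClG G v := h

theorem prx_lamX (pm : Prm) {G : Geom} (g : Grid G) (v : G.V → ℝ) (X : Finset g.I) : lamX pm g v X = liftOf g pm.ω v pm.zn.H1 X := rfl

/-- the grid facts of the level `j ≥ 1` of a centred free square -/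
theorem prx_lev (G : Geom) (ℓ j : ℕ) (hℓ : 1 ≤ ℓ) (hj : 1 ≤ j) (hc : 2 * (2 ^ ℓ) ^ j ∣ G.M) :
    Std (lev G ℓ j) ∧ 2 ∣ (lev G ℓ j).n ∧ (lev G ℓ j).Ok ∧ 2 ≤ (lev G ℓ j).m := by
  have hd : (2 ^ ℓ) ^ j ∣ G.M := dvd_trans (Dvd.intro_left _ rfl) hc
  have hs : side G ℓ j = (2 ^ ℓ) ^ j := side_eq hd
  have hpos : 0 < (2 ^ ℓ) ^ j := by positivity
  refine ⟨prg_lev_std G ℓ j, ?_, B8.torusGrid_ok _ _ _ (side_pos G ℓ j), ?_⟩
  · show 2 ∣ G.M / side G ℓ j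
    rw [hs]
    obtain ⟨k, hk⟩ := hc
    refine ⟨k, ?_⟩
    rw [hk, mul_comm 2, mul_assoc, Nat.mul_div_cancel_left _ hpos]
  · show 2 ≤ side G ℓ j
    rw [hs]
    calc 2 = 2 ^ 1 := rfl
      _ ≤ 2 ^ ℓ := Nat.pow_le_pow_right (by norm_num) hℓ
      _ = (2 ^ ℓ) ^ 1 := (pow_one _).symm
      _ ≤ (2 ^ ℓ) ^ j := Nat.pow_le_pow_right (by positivity) hj

section one

variable {G : Geom} (g : Grid G) (hG : G.bc = BC.free) (hs : Std g) (he : 2 ∣ g.n)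

include hG hs he in
theorem prx_lamX_lift (pm : Prm) (hω : 0 < pm.ω) (v : G.V → ℝ) (X : Finset g.I) (hX : ShiftGood g pm.zn.H1 X) :
    IsLiftR g pm.α v pm.zn.H1 X (lamX pm g v X) := prt_liftOf hG g hs he pm.ω hω v pm.zn.H1 X hX

end one

/-- the energy of `λ_X`; `Ctr` depends on `ω` only (it is the `Ctr` of `prt_lift_energy (alpha ω)`) -/
theorem prx_lamX_energy (ω : ℝ) (hω : 0 < ω) : ∃ Ctr : ℝ, 0 ≤ Ctr ∧ ∀ pm : Prm, pm.ω = ω → 3 ≤ pm.zn.H1 → ∀ (G : Geom) (g : Grid G), G.bc = BC.free →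
    Std g → 2 ∣ g.n → g.Ok → 2 ≤ g.m → ∀ v : G.V → ℝ, IsBranch G v → ∀ X : Finset g.I, ShiftGood g pm.zn.H1 X →
    (∀ δ : ℝ, δ ≤ 1 → U g δ X (lamX pm g v X) + bondE (g.Dm X) (lamX pm g v X) ≤ Ctr * X.card) ∧
    ∀ B ∈ X, gE G (g.sites {B}) (lamX pm g v X) ≤ Ctr * X.card := by
  have hα : 0 < B8.Step.alpha ω := by
    have := Real.pi_pos
    unfold B8.Step.alpha
    positivity
  obtain ⟨Ctr, hC, H⟩ := prt_lift_energy _ hα
  refine ⟨Ctr, hC, fun pm hpm hH G g hG hs he hg hm v hv X hX => ?_⟩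
  subst hpm
  have hl := prx_lamX_lift g hG hs he pm hω v X hX
  have key := H G g hG hs he hg hm v hv pm.zn.H1 hH X hX _ hl
  refine ⟨key, fun B hB => ?_⟩
  have h0 := key 0 (by norm_num)
  have h1 : gE G (g.sites {B}) (lamX pm g v X) ≤ gE G (g.Dm X) (lamX pm g v X) := by
    refine Reg.reg_gE_mono ?_ _
    intro x hx
    unfold Grid.sites at hx
    unfold Grid.Dm Grid.sites Grid.collar
    simp only [Finset.mem_filter, Finset.mem_univ, true_and, Finset.mem_singleton] at hx ⊢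
    exact ⟨B, hB, by rw [hx, Reg.reg_idist_self]; omega⟩
  have h2 := Reg.reg_TE_nonneg g (g.collar X) (lamX pm g v X)
  have h3 := obs_bondE_nonneg (g.Dm X) (lamX pm g v X)
  unfold U at h0
  linarith

section norms

variable {ε Ctr : ℝ} {nm : Nm} {ω : ℝ} {o oT : ObsPar}

/-- **(R3)** at a level of the tower -/
theorem prx_R3 (h : NormLe ε Ctr (nm.p0 ω) (nm.pT ω) o oT) {G : Geom} {ℓ : ℕ} (T : Tw G ℓ) (c : Grid G) (j0 : ℕ) (hT : T.IsObs o oT c j0) (j : ℕ)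
    (hj : j0 ≤ j) (K : Act (lev G ℓ j)) : actNorm (nm.pT ω) (lev G ℓ j) (T.VT j) K ≤ actNorm (nm.p0 ω) (lev G ℓ j) (T.V0 j) K :=
  prt_R3 h c _ (B8.torusGrid_ok _ _ _ (side_pos G ℓ j)) _ _ (hT.V0 j hj) (hT.VT j hj) K

theorem prx_R3_fn (h : NormLe ε Ctr (nm.p0 ω) (nm.pT ω) o oT) {G : Geom} {ℓ : ℕ} (T : Tw G ℓ) (c : Grid G) (j0 : ℕ) (hT : T.IsObs o oT c j0) (j : ℕ)
    (hj : j0 ≤ j) (X : Finset (lev G ℓ j).I) (F : Fn G) :
    fnSize (nm.pT ω) (lev G ℓ j) (T.VT j) X F ≤ fnSize (nm.p0 ω) (lev G ℓ j) (T.V0 j) X F :=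
  prt_R3_fn h c _ (B8.torusGrid_ok _ _ _ (side_pos G ℓ j)) _ _ (hT.V0 j hj) (hT.VT j hj) X F

end norms

/-- **(R2)** at a level of the tower, from the gauge invariant: the shift-good part of the unit activity (fluctuation field, unit norm) is bounded by the centred activity (centred norm), class by class -/
theorem prx_R2 (ω : ℝ) (hω : 0 < ω) : ∃ Ctr : ℝ, 0 ≤ Ctr ∧ ∀ (ε : ℝ) (nm : Nm) (o oT : ObsPar), NormLe ε Ctr (nm.p0 ω) (nm.pT ω) o oT →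
    ∀ pm : Prm, pm.ω = ω → 3 ≤ pm.zn.H1 → ∀ (G : Geom) (ℓ : ℕ) (T : Tw G ℓ) (c : Grid G) (j0 : ℕ), T.IsObs o oT c j0 → G.bc = BC.free → 1 ≤ ℓ →
    ∀ j, j0 ≤ j → 1 ≤ j → 2 * (2 ^ ℓ) ^ j ∣ G.M → ∀ v : G.V → ℝ, IsBranch G v → ∀ x : St (lev G ℓ j), Inv pm nm.h0 x →
    (∀ 𝒞 : Finset (lev G ℓ j).I → Prop,
      actNorm (nm.pT ω) (lev G ℓ j) (T.VT j) (cutA (fun X => ShiftGood (lev G ℓ j) pm.zn.H1 X ∧ 𝒞 X) (shA x.KT (bg pm v)))
        ≤ actNorm (nm.p0 ω) (lev G ℓ j) (T.V0 j) (cutA 𝒞 x.K0)) ∧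
    actNorm (nm.pT ω) (lev G ℓ j) (T.VT j) (cutA (ShiftGood (lev G ℓ j) pm.zn.H1) (shA x.KT (bg pm v)))
        ≤ actNorm (nm.p0 ω) (lev G ℓ j) (T.V0 j) x.K0 ∧
    actNorm (nm.pT ω) (lev G ℓ j) (T.VT j) (shA x.KT (bg pm v))
        ≤ max (actNorm (nm.p0 ω) (lev G ℓ j) (T.V0 j) x.K0) (nD (nm.pT ω) (T.VT j) pm.zn.H1 (bg pm v) x) := by
  classical
  obtain ⟨Ctr, hC, H⟩ := prt_R2_act ω hω
  refine ⟨Ctr, hC, fun ε nm o oT h pm hpm hH G ℓ T c j0 hT hG hℓ j hj hj1 hc v hv x hx => ?_⟩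
  subst hpm
  obtain ⟨hs, he, hg, hm⟩ := prx_lev G ℓ j hℓ hj1 hc
  have key : ∀ 𝒞 : Finset (lev G ℓ j).I → Prop,
      actNorm (nm.pT pm.ω) (lev G ℓ j) (T.VT j) (cutA (fun X => ShiftGood (lev G ℓ j) pm.zn.H1 X ∧ 𝒞 X) (shA x.KT (bg pm v)))
        ≤ actNorm (nm.p0 pm.ω) (lev G ℓ j) (T.V0 j) (cutA 𝒞 x.K0) := fun 𝒞 =>
    H ε _ _ o oT h G c _ hG hs he hg hm _ _ (hT.V0 j hj) (hT.VT j hj) v hv pm.zn.H1 hH 𝒞 x.K0 x.KT
      (fun X hX _ z hz => hx.gauge X hX _ (prg_gaugeR_gauge hG _ hs _ (by omega) X _ (prt_gaugeOf hG _ hs he _ X hX)) z hz)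
  have key1 : actNorm (nm.pT pm.ω) (lev G ℓ j) (T.VT j) (cutA (ShiftGood (lev G ℓ j) pm.zn.H1) (shA x.KT (bg pm v)))
        ≤ actNorm (nm.p0 pm.ω) (lev G ℓ j) (T.V0 j) x.K0 := by
    have h1 := key (fun _ => True)
    have e1 : cutA (fun X => ShiftGood (lev G ℓ j) pm.zn.H1 X ∧ True) (shA x.KT (bg pm v))
        = cutA (ShiftGood (lev G ℓ j) pm.zn.H1) (shA x.KT (bg pm v)) := by
      funext X
      unfold cutA
      simp
    have e2 : cutA (fun _ => True) x.K0 = x.K0 := by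
      funext X
      unfold cutA
      simp
    rwa [e1, e2] at h1
  refine ⟨key, key1, iSup_le fun X => ?_⟩
  by_cases hX : ShiftGood (lev G ℓ j) pm.zn.H1 X
  · refine le_trans ?_ (le_trans key1 (le_max_left _ _))
    refine le_trans (le_of_eq ?_) (le_iSup _ X)
    unfold cutA
    rw [if_pos hX]
  · refine le_trans ?_ (le_max_right _ _)
    unfold nD
    refine le_trans (le_of_eq ?_) (le_iSup _ X)
    unfold cutA
    rw [if_pos hX]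

end

end Claimed.Agent.R285.F6.Pr
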