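import Claimed.Agent.R285.Obs.PairRegL
import Claimed.Agent.R285.Obs.PairRegC

/-!
# ROW 285, unit OBS, BP-OBS-L62, block REG, exit (R4) IN THE VOCABULARY OF `Obs/PairCtx.lean`      (architect helper49)   -- KEEP.   No sorry.

`C, c0, vinf` := those of `prt_eta_ok` (its 6th clause gives `EtaB C c0 vinf G v` from `IsBranch G v` = `CoClG G v`, `prx_branch`);   `pm.vinf = vinf`.
* `prl_R4_ex`  : (R4) with `∃ a`, `tnorm`;
* `prl_R4_lev` : `∀ K η, ∃ D1`, at every level `i ≥ 1` with `D1 (2^ℓ)^i ≤ M` of a centred free square, every set `Y` of blocks within `K` blocks of the unit: `∃ a, ‖(Ψ_ref - μ) - a‖_{i, Y} < η`;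
* `prl_href_defect` : VERBATIM the hypothesis `href` of `pr_defect`, `pdx_desT`, `prsc_sc` (coarse level on `cl X`, small defects);   `prl_href_label` : the same for the small inputs with a central block;
* **`prl_href_all`** : one clearance `D1 ≤ pm.D0` for the four forms (defects / central inputs, coarse on `cl X` / fine on `X`; the last one is `href` of `prj_label_ctx`, `Obs/PairJX.lean`);   `prl_fine`, `prl_etaB` : glue.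
* `prl_wt_le`, `prl_wt_lev`, **`prl_wt_all`** : the coarse regulator of `Ψ_ref - μ` on `cl X` is `≤ prlCΨ C α κ_T o_T n0` (fields `wt`, `wtJ` of `RefOK`, `StepIn`, `Obs/PairRow.lean`).
Prefix `prl_`.
-/

set_option autoImplicit false

namespace Claimed.Agent.R285.F6.Pr

open scoped BigOperators ENNReal NNReal
open MeasureTheory
open Claimed.Agent.R285 Claimed.Agent.R285.RG Claimed.Agent.R285.B4 Claimed.Agent.R285.F4a Claimed.Agent.R285.Obs Claimed.Agent.R285.Entry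

noncomputable section

/-- (R4) with an unspecified constant -/
theorem prl_R4_ex (C c0 α : ℝ) (hα : 0 < α) (hC : 0 ≤ C) (vinf : ℤ × ℤ → ℝ) (G : Geom) (g : Grid G) (hG : G.bc = BC.free) (hs : Std g) (he : 2 ∣ g.n)
    (hg : g.Ok) (hm : 2 ≤ g.m) (v : G.V → ℝ) (hE : EtaB C c0 vinf G v) (K : ℕ) (Y : Finset g.I) (hY : ∀ b ∈ Y, NearB g K b) (hK : K + 4 ≤ g.n / 2)
    (hKc : (K : ℝ) + 3 ≤ c0 * ((g.n / 2 : ℕ) : ℝ)) :
    ∃ a : ℝ, (tnorm g Y (fun x => (psiRef G vinf α x - v x / α) - a) : ℝ) ≤ 2 * (C / α) * (4 * K + 12) / ((g.n / 2 : ℕ) : ℝ) := by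
  by_cases hne : (g.Dm Y).Nonempty
  · obtain ⟨x0, hx0⟩ := hne
    exact ⟨_, prl_R4 C c0 α hα hC vinf G g hG hs he hg hm v hE K Y hY hK hKc x0 hx0⟩
  · rw [Finset.not_nonempty_iff_eq_empty] at hne
    refine ⟨0, ?_⟩
    unfold tnorm
    rw [hne, Finset.sup_empty]
    simp only [NNReal.coe_zero, bot_eq_zero']
    positivity

/-- the clearance which makes (R4) smaller than `η` -/
theorem prl_D1 (C c0 α η : ℝ) (hc0 : 0 < c0) (hη : 0 < η) (K : ℕ) : ∃ D1 : ℕ, ∀ D : ℕ, D1 ≤ 2 * D →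
    K + 4 ≤ D ∧ (K : ℝ) + 3 ≤ c0 * (D : ℝ) ∧ 2 * (C / α) * (4 * K + 12) / (D : ℝ) < η := by
  obtain ⟨n1, hn1⟩ := exists_nat_ge (((K : ℝ) + 3) / c0)
  obtain ⟨n2, hn2⟩ := exists_nat_gt (2 * (C / α) * (4 * K + 12) / η)
  refine ⟨2 * (K + 4 + n1 + n2), fun D hD => ?_⟩
  have h1 : K + 4 + n1 + n2 ≤ D := by omega
  have h1r : (K : ℝ) + 4 + n1 + n2 ≤ (D : ℝ) := by exact_mod_cast h1
  have hK0 : (0 : ℝ) ≤ (K : ℝ) := Nat.cast_nonneg _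
  have hn10 : (0 : ℝ) ≤ (n1 : ℝ) := Nat.cast_nonneg _
  have hn20 : (0 : ℝ) ≤ (n2 : ℝ) := Nat.cast_nonneg _
  have hD0 : (0 : ℝ) < (D : ℝ) := by linarith
  refine ⟨by omega, ?_, ?_⟩
  · rw [div_le_iff₀ hc0] at hn1
    nlinarith
  · rw [div_lt_iff₀ hD0]
    rw [div_lt_iff₀ hη] at hn2
    nlinarith

/-- **(R4) at the levels of a centred free square** -/
theorem prl_R4_lev (C c0 α η : ℝ) (hC : 0 ≤ C) (hc0 : 0 < c0) (hα : 0 < α) (hη : 0 < η) (K : ℕ) : ∃ D1 : ℕ, ∀ pm : Prm, pm.α = α →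
    ∀ (G : Geom) (ℓ i : ℕ), G.bc = BC.free → 1 ≤ ℓ → 1 ≤ i → 2 * (2 ^ ℓ) ^ i ∣ G.M → D1 * (2 ^ ℓ) ^ i ≤ G.M → ∀ v : G.V → ℝ, EtaB C c0 pm.vinf G v →
    ∀ Y : Finset (lev G ℓ i).I, (∀ b ∈ Y, NearB (lev G ℓ i) K b) →
      ∃ a : ℝ, (tnorm (lev G ℓ i) Y (fun u => (pm.ref G u - bg pm v u) - a) : ℝ) < η := by
  obtain ⟨D1, hD1⟩ := prl_D1 C c0 α η hc0 hη K
  refine ⟨D1, fun pm hpm G ℓ i hG hℓ hi hc hcl v hE Y hY => ?_⟩
  obtain ⟨hs, he, hg, hm⟩ := prx_lev G ℓ i hℓ hi hc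
  have hd : (2 ^ ℓ) ^ i ∣ G.M := dvd_trans (Dvd.intro_left _ rfl) hc
  have hsd : side G ℓ i = (2 ^ ℓ) ^ i := side_eq hd
  have hpos : 0 < (2 ^ ℓ) ^ i := by positivity
  have hn : (lev G ℓ i).n = G.M / (2 ^ ℓ) ^ i := by
    show G.M / side G ℓ i = _
    rw [hsd]
  have hDn : D1 ≤ 2 * ((lev G ℓ i).n / 2) := by
    rw [Nat.mul_div_cancel' he, hn]
    exact (Nat.le_div_iff_mul_le hpos).2 hcl
  obtain ⟨k1, k2, k3⟩ := hD1 _ hDn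
  obtain ⟨a, ha⟩ := prl_R4_ex C c0 α hα hC pm.vinf G (lev G ℓ i) hG hs he hg hm v hE K Y hY k1 k2
  refine ⟨a, lt_of_le_of_lt ?_ k3⟩
  unfold Prm.ref bg
  rw [hpm]
  exact ha

section ctx

variable {pm : Prm} {G : Geom} {ℓ j : ℕ}

/-- the closure of a set over the four central coarse blocks -/
theorem prl_cl_near (X : Finset (lev G ℓ j).I) (h : ∀ B ∈ X, NearB (lev G ℓ (j + 1)) 1 ((nest G ℓ j).up B)) :
    ∀ b ∈ (nest G ℓ j).cl X, NearB (lev G ℓ (j + 1)) 1 b := by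
  classical
  intro b hb
  obtain ⟨B, hB, rfl⟩ := Finset.mem_image.1 hb
  exact h B hB

end ctx

/-- **(R4) for the small defects**: verbatim `href` of `pr_defect`, `pdx_desT` -/
theorem prl_href_defect (C c0 α : ℝ) (η : ℝ≥0) (hC : 0 ≤ C) (hc0 : 0 < c0) (hα : 0 < α) (hη : 0 < η) : ∃ D1 : ℕ, ∀ pm : Prm, pm.α = α → D1 ≤ pm.D0 →
    ∀ (G : Geom) (ℓ j : ℕ) (T : Tw G ℓ) (h : Ret G ℓ pm.D0 j), G.bc = BC.free → 1 ≤ ℓ → 2 * (2 ^ ℓ) ^ (j + 1) ∣ G.M →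
    pm.zn.H1 + pm.c.R * pm.c.n0 + 1 ≤ 2 ^ ℓ → ∀ v : G.V → ℝ, EtaB C c0 pm.vinf G v →
    ∀ X ∈ (T.step h).small pm.c, ¬ ShiftGood (lev G ℓ j) pm.zn.H1 X →
      ∃ a : ℝ, tnorm (lev G ℓ (j + 1)) ((nest G ℓ j).cl X) (fun u => (pm.ref G u - bg pm v u) - a) < η := by
  obtain ⟨D1, H⟩ := prl_R4_lev C c0 α η hC hc0 hα (by exact_mod_cast hη) 1
  refine ⟨D1, fun pm hpm hD G ℓ j T h hG hℓ hc hL v hE X hX hd => ?_⟩
  have hX' : (lev G ℓ j).Conn pm.c.R X ∧ X.card ≤ pm.c.n0 := by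
    classical
    unfold B8.Step.small at hX
    exact (Finset.mem_filter.1 hX).2
  obtain ⟨a, ha⟩ := H pm hpm G ℓ (j + 1) hG hℓ (by omega) hc ((Nat.mul_le_mul_right _ hD).trans h.clear.le) v hE _ (prl_cl_near X
    (prg_defect_central (prg_pair_cen hG h hc) pm.c.R pm.c.n0 pm.zn.H1 hL X hX'.1 hX'.2 hd))
  exact ⟨a, by exact_mod_cast ha⟩

/-- **(R4) for the small inputs with a central block** -/
theorem prl_href_label (C c0 α : ℝ) (η : ℝ≥0) (hC : 0 ≤ C) (hc0 : 0 < c0) (hα : 0 < α) (hη : 0 < η) : ∃ D1 : ℕ, ∀ pm : Prm, pm.α = α → D1 ≤ pm.D0 →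
    ∀ (G : Geom) (ℓ j : ℕ) (T : Tw G ℓ) (h : Ret G ℓ pm.D0 j), G.bc = BC.free → 1 ≤ ℓ → 2 * (2 ^ ℓ) ^ (j + 1) ∣ G.M →
    pm.c.R * pm.c.n0 + 1 ≤ 2 ^ ℓ → ∀ v : G.V → ℝ, EtaB C c0 pm.vinf G v →
    ∀ X ∈ (T.step h).small pm.c, NearUnit (lev G ℓ j) 1 X →
      ∃ a : ℝ, tnorm (lev G ℓ (j + 1)) ((nest G ℓ j).cl X) (fun u => (pm.ref G u - bg pm v u) - a) < η := by
  obtain ⟨D1, H⟩ := prl_R4_lev C c0 α η hC hc0 hα (by exact_mod_cast hη) 1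
  refine ⟨D1, fun pm hpm hD G ℓ j T h hG hℓ hc hL v hE X hX hd => ?_⟩
  have hX' : (lev G ℓ j).Conn pm.c.R X ∧ X.card ≤ pm.c.n0 := by
    classical
    unfold B8.Step.small at hX
    exact (Finset.mem_filter.1 hX).2
  obtain ⟨a, ha⟩ := H pm hpm G ℓ (j + 1) hG hℓ (by omega) hc ((Nat.mul_le_mul_right _ hD).trans h.clear.le) v hE _ (prl_cl_near X
    (prg_label_central (prg_pair_cen hG h hc) pm.c.R pm.c.n0 hL X hX'.1 hX'.2 hd))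
  exact ⟨a, by exact_mod_cast ha⟩

/-- from the coarse level on `cl X` to the fine level on `X` -/
theorem prl_fine {D0 : ℕ} {G : Geom} {ℓ j : ℕ} (h : Ret G ℓ D0 j) (X : Finset (lev G ℓ j).I) (f : G.V → ℝ) :
    tnorm (lev G ℓ j) X f ≤ tnorm (lev G ℓ (j + 1)) ((nest G ℓ j).cl X) f :=
  Hol.tnorm_coarse (pair h) X _ (Finset.Subset.refl _) _

/-- **ALL THE FORMS OF (R4) AT ONCE**, for the chain of constants: one clearance `D1` for the radius `η` (`η = h₀`, or `η = η_r < h₀` of `prj_label_ctx`);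
(a) defects, coarse; (b) defects, fine; (c) central inputs, coarse; (d) central inputs, fine (`≤ η` : verbatim `href` of `prj_label_ctx` with `μ = bg pm v`) -/
theorem prl_href_all (C c0 α : ℝ) (η : ℝ≥0) (hC : 0 ≤ C) (hc0 : 0 < c0) (hα : 0 < α) (hη : 0 < η) : ∃ D1 : ℕ, ∀ pm : Prm, pm.α = α → D1 ≤ pm.D0 →
    ∀ (G : Geom) (ℓ j : ℕ) (T : Tw G ℓ) (h : Ret G ℓ pm.D0 j), G.bc = BC.free → 1 ≤ ℓ → 2 * (2 ^ ℓ) ^ (j + 1) ∣ G.M →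
    pm.zn.H1 + pm.c.R * pm.c.n0 + 1 ≤ 2 ^ ℓ → ∀ v : G.V → ℝ, EtaB C c0 pm.vinf G v →
    (∀ X ∈ (T.step h).small pm.c, ¬ ShiftGood (lev G ℓ j) pm.zn.H1 X →
      ∃ a : ℝ, tnorm (lev G ℓ (j + 1)) ((nest G ℓ j).cl X) (fun u => (pm.ref G u - bg pm v u) - a) < η) ∧
    (∀ X ∈ (T.step h).small pm.c, ¬ ShiftGood (lev G ℓ j) pm.zn.H1 X →
      ∃ a : ℝ, tnorm (lev G ℓ j) X (fun u => (pm.ref G u - bg pm v u) - a) < η) ∧
    (∀ X ∈ (T.step h).small pm.c, NearUnit (lev G ℓ j) 1 X →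
      ∃ a : ℝ, tnorm (lev G ℓ (j + 1)) ((nest G ℓ j).cl X) (fun u => (pm.ref G u - bg pm v u) - a) < η) ∧
    (∀ X ∈ (T.step h).small pm.c, NearUnit (lev G ℓ j) 1 X →
      ∃ a : ℝ, tnorm (lev G ℓ j) X (fun u => (pm.ref G u - bg pm v u) - a) ≤ η) := by
  obtain ⟨D1, H1⟩ := prl_href_defect C c0 α η hC hc0 hα hη
  obtain ⟨D2, H2⟩ := prl_href_label C c0 α η hC hc0 hα hη
  refine ⟨max D1 D2, fun pm hpm hD G ℓ j T h hG hℓ hc hL v hE => ?_⟩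
  have k1 := H1 pm hpm ((le_max_left _ _).trans hD) G ℓ j T h hG hℓ hc hL v hE
  have k2 := H2 pm hpm ((le_max_right _ _).trans hD) G ℓ j T h hG hℓ hc (by omega) v hE
  refine ⟨k1, fun X hX hd => ?_, k2, fun X hX hd => ?_⟩
  · obtain ⟨a, ha⟩ := k1 X hX hd
    exact ⟨a, lt_of_le_of_lt (prl_fine h X _) ha⟩
  · obtain ⟨a, ha⟩ := k2 X hX hd
    exact ⟨a, (lt_of_le_of_lt (prl_fine h X _) ha).le⟩

/-- the hypothesis `EtaB` from the branch -/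
theorem prl_etaB {C c0 : ℝ} {vinf : ℤ × ℤ → ℝ} (H : ∀ G : Geom, G.bc = BC.free → 2 ∣ G.M → ∀ v : G.V → ℝ, CoClG G v → EtaB C c0 vinf G v)
    {G : Geom} (hG : G.bc = BC.free) {ℓ i : ℕ} (hc : 2 * (2 ^ ℓ) ^ i ∣ G.M) {v : G.V → ℝ} (hv : IsBranch G v) : EtaB C c0 vinf G v :=
  H G hG (dvd_trans (Dvd.intro _ rfl) hc) v hv

/-! ## The regulator at the relative background -/

/-- the total regulator at a field of bounded energy -/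
theorem prl_wt_le {G : Geom} (o : ObsPar) (c g : Grid G) (hg : g.Ok) (V : Extra g) (hV : IsObs o c g V) (δ κ : ℝ) (hδ : 0 ≤ δ) (hκ : 0 ≤ κ) (E : ℝ)
    (X : Finset g.I) (f : G.V → ℝ) (hf : U g δ X f + bondE (g.Dm X) f ≤ E) :
    Wt g δ κ V X f ≤ Real.exp ((κ + (1 - o.p1 * o.hstar)⁻¹ * o.hstar / 2) * E) := by
  rw [ta_wt_eq o c g V hV]
  refine Real.exp_le_exp.2 ?_
  have h2 := vobsD_le_bondE (ta_opar o) c (low G Fam.entry g.m) (B4.low_psd G _ B4.entry_adm _ hg.pos) (obs_low_cac G _ hg.pos) (g.Dm X) f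
  have hU := Reg.reg_U_nonneg g hδ X f
  have hB := obs_bondE_nonneg (g.Dm X) f
  have hm : 0 < 1 - o.p1 * o.hstar := by linarith [(ta_opar o).margin]
  have hq : 0 ≤ (1 - o.p1 * o.hstar)⁻¹ * o.hstar / 2 := by
    have := o.h_pos
    positivity
  rw [vobs_eq]
  have a1 : κ * U g δ X f ≤ κ * E := mul_le_mul_of_nonneg_left (by linarith) hκ
  have a2 : (1 - o.p1 * o.hstar)⁻¹ * o.hstar / 2 * bondE (g.Dm X) f ≤ (1 - o.p1 * o.hstar)⁻¹ * o.hstar / 2 * E :=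
    mul_le_mul_of_nonneg_left (by linarith) hq
  linarith

/-- the cost `C_Ψ` of the relative background on at most `n0` blocks -/
def prlCΨ (C α κ : ℝ) (o : ObsPar) (n0 : ℕ) : ℝ≥0 :=
  (Real.exp ((κ + (1 - o.p1 * o.hstar)⁻¹ * o.hstar / 2) * (11300 * (C / α) ^ 2 * n0))).toNNReal

theorem prl_CΨ_eqns_cite : True := by
  have := @prlCΨ.eq_1; trivial

/-- the regulator of the relative background at the levels of a centred free square -/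
theorem prl_wt_lev (C c0 α : ℝ) (hC : 0 ≤ C) (hc0 : 0 < c0) (hα : 0 < α) (K : ℕ) : ∃ D1 : ℕ, ∀ pm : Prm, pm.α = α →
    ∀ (G : Geom) (ℓ i : ℕ), G.bc = BC.free → 1 ≤ ℓ → 1 ≤ i → 2 * (2 ^ ℓ) ^ i ∣ G.M → D1 * (2 ^ ℓ) ^ i ≤ G.M → ∀ v : G.V → ℝ, EtaB C c0 pm.vinf G v →
    ∀ (o : ObsPar) (c : Grid G) (V : Extra (lev G ℓ i)), IsObs o c (lev G ℓ i) V → ∀ δ κ : ℝ, 0 ≤ δ → δ ≤ 1 → 0 ≤ κ → ∀ n0 : ℕ,
    ∀ Y : Finset (lev G ℓ i).I, (∀ b ∈ Y, NearB (lev G ℓ i) K b) → Y.card ≤ n0 →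
      ENNReal.ofReal (Wt (lev G ℓ i) δ κ V Y (pm.ref G - bg pm v)) ≤ prlCΨ C α κ o n0 := by
  obtain ⟨D1, hD1⟩ := prl_D1 C c0 α 1 hc0 one_pos K
  refine ⟨D1, fun pm hpm G ℓ i hG hℓ hi hc hcl v hE o c V hV δ κ hδ hδ1 hκ n0 Y hY hn => ?_⟩
  obtain ⟨hs, he, hg, hm⟩ := prx_lev G ℓ i hℓ hi hc
  have hd : (2 ^ ℓ) ^ i ∣ G.M := dvd_trans (Dvd.intro_left _ rfl) hc
  have hsd : side G ℓ i = (2 ^ ℓ) ^ i := side_eq hd
  have hpos : 0 < (2 ^ ℓ) ^ i := by positivity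
  have hnn : (lev G ℓ i).n = G.M / (2 ^ ℓ) ^ i := by
    show G.M / side G ℓ i = _
    rw [hsd]
  have hDn : D1 ≤ 2 * ((lev G ℓ i).n / 2) := by
    rw [Nat.mul_div_cancel' he, hnn]
    exact (Nat.le_div_iff_mul_le hpos).2 hcl
  obtain ⟨k1, k2, -⟩ := hD1 _ hDn
  have hen := prl_R4E C c0 α hα hC pm.vinf G (lev G ℓ i) hG hs he hg hm v hE K Y hY k1 k2 δ hδ1
  have e : (pm.ref G - bg pm v) = fun x => psiRef G pm.vinf α x - v x / α := by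
    funext x
    simp only [Pi.sub_apply]
    unfold Prm.ref bg
    rw [hpm]
  rw [e]
  have hen' : U (lev G ℓ i) δ Y (fun x => psiRef G pm.vinf α x - v x / α) + bondE ((lev G ℓ i).Dm Y) (fun x => psiRef G pm.vinf α x - v x / α)
      ≤ 11300 * (C / α) ^ 2 * n0 := by
    refine hen.trans (mul_le_mul_of_nonneg_left (by exact_mod_cast hn) (by positivity))
  unfold prlCΨ
  exact ENNReal.ofReal_le_ofReal (prl_wt_le o c _ hg V hV δ κ hδ hκ _ Y _ hen')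

/-- **the fields `wt`, `wtJ` of `RefOK`, `StepIn`** (`Obs/PairRow.lean`), `C_Ψ = prlCΨ C α κ_T o_T n0` -/
theorem prl_wt_all (C c0 α : ℝ) (hC : 0 ≤ C) (hc0 : 0 < c0) (hα : 0 < α) : ∃ D1 : ℕ, ∀ pm : Prm, pm.α = α → D1 ≤ pm.D0 →
    ∀ (G : Geom) (ℓ j : ℕ) (T : Tw G ℓ) (h : Ret G ℓ pm.D0 j), G.bc = BC.free → 1 ≤ ℓ → 2 * (2 ^ ℓ) ^ (j + 1) ∣ G.M →
    pm.zn.H1 + pm.c.R * pm.c.n0 + 1 ≤ 2 ^ ℓ → ∀ v : G.V → ℝ, EtaB C c0 pm.vinf G v →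
    ∀ (o oT : ObsPar) (cl : Grid G) (j0 : ℕ), T.IsObs o oT cl j0 → j0 ≤ j + 1 → ∀ nm : Nm, 0 ≤ nm.δ → nm.δ ≤ 1 → 0 ≤ nm.κT →
    (∀ X ∈ (T.step h).small pm.c, ¬ ShiftGood (lev G ℓ j) pm.zn.H1 X →
      ENNReal.ofReal (Wt (lev G ℓ (j + 1)) nm.δ nm.κT (T.VT (j + 1)) ((nest G ℓ j).cl X) (pm.ref G - bg pm v)) ≤ prlCΨ C α nm.κT oT pm.c.n0) ∧
    (∀ X ∈ (T.step h).small pm.c, NearUnit (lev G ℓ j) 1 X →
      ENNReal.ofReal (Wt (lev G ℓ (j + 1)) nm.δ nm.κT (T.VT (j + 1)) ((nest G ℓ j).cl X) (pm.ref G - bg pm v)) ≤ prlCΨ C α nm.κT oT pm.c.n0) := by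
  classical
  obtain ⟨D1, H⟩ := prl_wt_lev C c0 α hC hc0 hα 1
  refine ⟨D1, fun pm hpm hD G ℓ j T h hG hℓ hc hL v hE o oT cl j0 hT hj nm hδ hδ1 hκ => ?_⟩
  have hsm : ∀ X ∈ (T.step h).small pm.c, (lev G ℓ j).Conn pm.c.R X ∧ X.card ≤ pm.c.n0 := by
    intro X hX
    unfold B8.Step.small at hX
    exact (Finset.mem_filter.1 hX).2
  have key : ∀ X ∈ (T.step h).small pm.c, (∀ B ∈ X, NearB (lev G ℓ (j + 1)) 1 ((nest G ℓ j).up B)) →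
      ENNReal.ofReal (Wt (lev G ℓ (j + 1)) nm.δ nm.κT (T.VT (j + 1)) ((nest G ℓ j).cl X) (pm.ref G - bg pm v)) ≤ prlCΨ C α nm.κT oT pm.c.n0 :=
    fun X hX hn => H pm hpm G ℓ (j + 1) hG hℓ (by omega) hc ((Nat.mul_le_mul_right _ hD).trans h.clear.le) v hE oT cl _ (hT.VT _ hj) _ _ hδ hδ1 hκ
      pm.c.n0 _ (prl_cl_near X hn) (Finset.card_image_le.trans (hsm X hX).2)
  exact ⟨fun X hX hd => key X hX (prg_defect_central (prg_pair_cen hG h hc) pm.c.R pm.c.n0 pm.zn.H1 hL X (hsm X hX).1 (hsm X hX).2 hd),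
    fun X hX hd => key X hX (prg_label_central (prg_pair_cen hG h hc) pm.c.R pm.c.n0 (by omega) X (hsm X hX).1 (hsm X hX).2 hd)⟩

end

end Claimed.Agent.R285.F6.Pr
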