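import Claimed.Agent.R285.Obs.PairKit
import Claimed.Agent.R285.F4a.Label

/-!
# ROW 285, unit OBS, [F] L6.2: THE BC-FREE GENERIC STEP KIT, part 2 (nonlinear part, label derivative, per-input gains)                 (owner helper202)

* (K5) `pk_nl` = `B4.nonlinear_map` in the context `Ctx0` (quadratic + Lipschitz);  `pk_klin_lin` (the linear part is linear on the strips);  `pk_fam_diff` (the label family is differentiable at `s = 0`);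
  `pk_nl_deriv`: **`‖∂_s K' (K + sJ, d + s ḋ)|₀ - Klin (J, ḋ)‖' ≤ C ε (‖J‖ + size ḋ)`, NO smallness of `J`**.
* (K6) `pk_charges` (all charges `q ≠ 0` of a small input from a lower bound `γ` of the diagonal at ONE site of `X`), `pk_gain_const` (small input minus its neutral constant: `L⁻¹`, even: `L⁻²`),
  `pk_sum_const`, `pk_mean_value` (moving the reference point of a constant).
-/

set_option autoImplicit false

namespace Claimed.Agent.R285.F6.Pr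

open scoped BigOperators ENNReal NNReal
open MeasureTheory
open Claimed.Agent.R285 Claimed.Agent.R285.RG Claimed.Agent.R285.Hol

noncomputable section

variable {G : Geom} {D0 ℓ : ℕ}

/-! ## (K5) the nonlinear part -/

/-- **(K5)** `B4.nonlinear_map` in the context `Ctx0`.  Order: (radii, `Cd`, `δ, κ, h₀`); `L = 2^ℓ`; `A ≥ A₀`; `C`, `ε₀`. -/
theorem pk_nl (c : B8.Geo) (hc : c.Ok) (Cd : ℝ≥0) (δ κ : ℝ) (h0 : ℝ≥0) :
    ∃ (ℓ0 D1 : ℕ), ∀ ℓ ≥ ℓ0, ∃ A0 : ℝ, ∀ A ≥ A0, ∃ (C ε0 : ℝ≥0), 0 < ε0 ∧ ∀ D0 ≥ D1, ∀ (ω : ℝ) (G : Geom) (S : B8.Step G D0 ℓ),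
      Ctx0 c ⟨δ, κ, h0, A, ω⟩ S → ∀ ε : ℝ≥0, ε ≤ ε0 → ∀ (K K₂ : Act S.P.g) (d d₂ : Desig S.P.g' (Fn G)),
        Act.Ok ⟨δ, κ, h0, A, ω⟩ c.col c.R K → Act.Ok ⟨δ, κ, h0, A, ω⟩ c.col c.R K₂ → d.Ok ⟨δ, κ, h0, A, ω⟩ c.col c.r → d₂.Ok ⟨δ, κ, h0, A, ω⟩ c.col c.r →
        actNorm ⟨δ, κ, h0, A, ω⟩ S.P.g S.Vf K ≤ ε → actNorm ⟨δ, κ, h0, A, ω⟩ S.P.g S.Vf K₂ ≤ ε →
        d.size ⟨δ, κ, h0, A, ω⟩ S.Vc ≤ Cd * ε → d₂.size ⟨δ, κ, h0, A, ω⟩ S.Vc ≤ Cd * ε →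
        actNorm ⟨δ, κ, h0, A, ω⟩ S.P.g' S.Vc (Kprime S.P c.r c.R (conv S.Γ) K d - Klin S.P c.R (conv S.Γ) K d) ≤ C * ε ^ 2 ∧
        actNorm ⟨δ, κ, h0, A, ω⟩ S.P.g' S.Vc
            ((Kprime S.P c.r c.R (conv S.Γ) K d - Klin S.P c.R (conv S.Γ) K d) - (Kprime S.P c.r c.R (conv S.Γ) K₂ d₂ - Klin S.P c.R (conv S.Γ) K₂ d₂))
          ≤ C * ε * (actNorm ⟨δ, κ, h0, A, ω⟩ S.P.g S.Vf (K - K₂) + Desig.size ⟨δ, κ, h0, A, ω⟩ S.Vc ⟨d.F - d₂.F, d.a - d₂.a⟩) := by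
  obtain ⟨ℓ0, D1, H⟩ := B4.nonlinear_map c.r c.R c.n0 c.sepV hc.hs hc.hrR c.cst Cd δ κ h0
  refine ⟨ℓ0, D1, fun ℓ hℓ => ?_⟩
  obtain ⟨A0, H⟩ := H ℓ hℓ
  refine ⟨A0, fun A hA => ?_⟩
  obtain ⟨C, ε0, hε0, H⟩ := H A hA
  exact ⟨C, ε0, hε0, fun D0 hD ω G S h ε hε K K₂ d d₂ => H D0 hD ω c.col G S.P S.Γ S.Vf S.Vc h.reg h.adm h.sepf h.sep ε hε K K₂ d d₂⟩

variable {c : B8.Geo} {p : Par} {S : B8.Step G D0 ℓ}

/-- the linear part is linear, inside the strips.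
plan: unfold `Klin`, `dLin`; `Y` not a polymer: `0 = 0 + s * 0`; otherwise every term is linear: `conv Γ ((K + s • J) X) w = conv Γ (K X) w + s * conv Γ (J X) w` by `pk_conv_add`, `B8.w_conv_smul` at
`w ∈ strip g X` (`B8.w_strip_coarse`, `cl X = Y`), finite sizes by `pk_fin` (and `B8.w_fnSize_smul_le`); the `d`-terms are linear by definition (`Pi.add_apply`, `Pi.smul_apply`); `Finset.sum_add_distrib`, `Finset.mul_sum`. -/
theorem pk_klin_lin (h : Ctx0 c p S) {K J : Act S.P.g} (hK : Act.Ok p c.col c.R K) (hJ : Act.Ok p c.col c.R J)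
    (hfK : actNorm p S.P.g S.Vf K ≠ ⊤) (hfJ : actNorm p S.P.g S.Vf J ≠ ⊤) (d dd : Desig S.P.g' (Fn G)) (s : ℂ)
    (Y : Finset S.P.g'.I) (w : G.V → ℂ) (hw : w ∈ strip p.h0 S.P.g' Y) :
    Klin S.P c.R (conv S.Γ) (K + s • J) (dLin d dd s) Y w = Klin S.P c.R (conv S.Γ) K d Y w + s * Klin S.P c.R (conv S.Γ) J dd Y w := by
  classical
  have hA : 0 < p.A := lt_of_lt_of_le one_pos h.hA
  by_cases hY : S.P.g'.Conn c.R Y
  · have hKf := Scal.fnSize_ne_top p hA S.P.g S.Vf K hfK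
    have hJf := Scal.fnSize_ne_top p hA S.P.g S.Vf J hfJ
    have c1 : ∀ X ∈ Finset.univ.filter (fun X : Finset S.P.g.I => S.P.g.Conn c.R X ∧ S.P.N.cl X = Y),
        conv S.Γ ((K + s • J) X) w = conv S.Γ (K X) w + s * conv S.Γ (J X) w := by
      intro X hX
      have hcl : S.P.N.cl X = Y := (Finset.mem_filter.1 hX).2.2
      exact F4a.conv_add_smul S.Vf S.Γ (hK.fn X).hol (hJ.fn X).hol (hKf X) (hJf X) (h.hint X) s
        (Scal.strip_coarse _ S.P (by rw [hcl]) hw)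
    have c3 : ∀ b : S.P.g'.I, (if Y = {b} then (∑ Y' : Finset S.P.g'.I, if b ∈ Y' then (dLin d dd s).F Y' b w else 0) - (dLin d dd s).a b else 0)
        = (if Y = {b} then (∑ Y' : Finset S.P.g'.I, if b ∈ Y' then d.F Y' b w else 0) - d.a b else 0)
          + s * (if Y = {b} then (∑ Y' : Finset S.P.g'.I, if b ∈ Y' then dd.F Y' b w else 0) - dd.a b else 0) := by
      intro b
      split_ifs with h
      · have e : (∑ Y' : Finset S.P.g'.I, if b ∈ Y' then (dLin d dd s).F Y' b w else 0)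
            = (∑ Y' : Finset S.P.g'.I, if b ∈ Y' then d.F Y' b w else 0) + s * ∑ Y' : Finset S.P.g'.I, if b ∈ Y' then dd.F Y' b w else 0 := by
          rw [Finset.mul_sum, ← Finset.sum_add_distrib]
          refine Finset.sum_congr rfl fun Y' _ => ?_
          split_ifs
          · rfl
          · simp
        rw [e]
        show _ - (d.a b + s * dd.a b) = _
        ring
      · simp
    have c2 : ∀ b : S.P.g'.I, (dLin d dd s).F Y b w = d.F Y b w + s * dd.F Y b w := fun b => rfl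
    rw [F4a.Klin_apply c.R _ _ _ hY, F4a.Klin_apply c.R _ _ _ hY, F4a.Klin_apply c.R _ _ _ hY, Finset.sum_congr rfl c1,
      Finset.sum_congr rfl fun b _ => c3 b, Finset.sum_congr rfl fun b _ => c2 b]
    simp only [Finset.sum_add_distrib, ← Finset.mul_sum]
    ring
  · unfold Klin
    simp [if_neg hY]

/-- families which are differentiable at `s = 0`, pointwise inside the strips -/
def pk_clsDiff (p : Par) (g' : Grid G) : Scal.FamCls ℂ (Fn G) g' where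
  mem := fun X x => ∀ z ∈ strip p.h0 g' X, DifferentiableAt ℂ (fun s => x s z) 0
  sc := fun c => DifferentiableAt ℂ c 0
  mono := fun h hx z hz => hx z (Scal.strip_anti _ g' h hz)
  zero := fun _ _ _ => differentiableAt_const _
  one := fun _ _ _ => differentiableAt_const _
  add := fun hx hy z hz => (hx z hz).add (hy z hz)
  sub := fun hx hy z hz => (hx z hz).sub (hy z hz)
  mul := fun hx hy z hz => (hx z hz).mul (hy z hz)
  smul := fun hc hx z hz => hc.smul (hx z hz)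
  sc_one := differentiableAt_const 1
  sc_mul := fun hc hc' => hc.mul hc'

/-- the label family is differentiable at `s = 0`, pointwise inside the strips.
plan: `Scal.Kprime_hol` on a ball `U = ball 0 ρ`, `ρ ≤ 1` so small that `1 + d.a b + s * dd.a b ≠ 0` for all `b` (finitely many `b`; `hd.ne`, continuity); `M X = fnSize (K X) + fnSize (J X)` (`B8.w_fnSize_add_le`,
`B8.w_fnSize_smul_le`, `|s| ≤ 1`); the families are affine in `s`, hence differentiable; `DifferentiableOn.differentiableAt` (`Metric.ball_mem_nhds`). -/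
theorem pk_fam_diff (h : Ctx0 c p S) {K J : Act S.P.g} (hK : Act.Ok p c.col c.R K) (hJ : Act.Ok p c.col c.R J)
    (hfK : actNorm p S.P.g S.Vf K ≠ ⊤) (hfJ : actNorm p S.P.g S.Vf J ≠ ⊤) (d dd : Desig S.P.g' (Fn G)) (hne : ∀ b, 1 + d.a b ≠ 0)
    (Y : Finset S.P.g'.I) (w : G.V → ℂ) (hw : w ∈ strip p.h0 S.P.g' Y) :
    DifferentiableAt ℂ (fun s : ℂ => Kprime S.P c.r c.R (conv S.Γ) (K + s • J) (dLin d dd s) Y w) 0 := by
  have hA : 0 < p.A := lt_of_lt_of_le one_pos h.hA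
  have hKf := Scal.fnSize_ne_top p hA S.P.g S.Vf K hfK
  have hJf := Scal.fnSize_ne_top p hA S.P.g S.Vf J hfJ
  refine (pk_clsDiff p S.P.g').kprime c.r c.R (fun _ => conv S.Γ) (fun s => K + s • J) (fun s => dLin d dd s) (fun V z hz => ?_)
    (fun Y b z _ => ?_) (fun b => ?_) Y w hw
  · exact (F4a.conv_prod_hasDerivAt S.P.ok h.hR S.Γ (fun X => (hK.fn X).hol) (fun X => (hJ.fn X).hol) hKf hJf V (h.hint V)
      (Scal.strip_coarse _ S.P (Finset.Subset.refl _) hz)).differentiableAt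
  · show DifferentiableAt ℂ (fun s : ℂ => d.F Y b z + s * dd.F Y b z) 0
    fun_prop
  · show DifferentiableAt ℂ (fun s : ℂ => (1 + (d.a b + s * dd.a b))⁻¹ - 1) 0
    have hne' : (1 + (d.a b + (0 : ℂ) * dd.a b)) ≠ 0 := by simpa using hne b
    have h1 : DifferentiableAt ℂ (fun s : ℂ => 1 + (d.a b + s * dd.a b)) 0 := by fun_prop
    exact (h1.inv hne').sub (differentiableAt_const 1)

/-- the label bound at a radius `ε' > ε`, from a Lipschitz bound of the nonlinear part (copy of `F4a.StepGain.label_aux`) -/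
theorem pk_label_aux {p : Par} {col r R n0 : ℕ} {cst : ℝ≥0} {P : Pair G D0 ℓ} {Γ : Matrix G.V G.V ℝ} {Vf : Extra P.g} {Vc : Extra P.g'}
    {K J : Act P.g} {d dd : Desig P.g' (Fn G)} {Cd Cnl ε0 : ℝ≥0}
    (lip : ∀ ε : ℝ≥0, ε ≤ ε0 → ∀ (K K₂ : Act P.g) (d d₂ : Desig P.g' (Fn G)),
      Act.Ok p col R K → Act.Ok p col R K₂ → d.Ok p col r → d₂.Ok p col r →
      actNorm p P.g Vf K ≤ ε → actNorm p P.g Vf K₂ ≤ ε → d.size p Vc ≤ Cd * ε → d₂.size p Vc ≤ Cd * ε →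
      actNorm p P.g' Vc
          ((Kprime P r R (conv Γ) K d - Klin P R (conv Γ) K d) - (Kprime P r R (conv Γ) K₂ d₂ - Klin P R (conv Γ) K₂ d₂))
        ≤ Cnl * ε * (actNorm p P.g Vf (K - K₂) + Desig.size p Vc ⟨d.F - d₂.F, d.a - d₂.a⟩))
    (H : F4a.LabHyp p col r R n0 cst P Γ Vf Vc K J d dd) (hCd : 0 < Cd) {ε ε' : ℝ≥0} (hε : ε < ε') (hε' : ε' ≤ ε0)
    (hK : actNorm p P.g Vf K ≤ ε) (hd : d.size p Vc ≤ Cd * ε) (hdd : dd.size p Vc ≠ ⊤) :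
    actNorm p P.g' Vc (F4a.labJ P Γ r R K J d dd - Klin P R (conv Γ) J dd) ≤ Cnl * ε' * (actNorm p P.g Vf J + dd.size p Vc) := by
  refine F4a.lab_bound_of H _ ?_
  have hpos : 0 < ε' - ε := tsub_pos_of_lt hε
  have e1 := F4a.eventually_nnnorm_mul_le H.J_fin (η := ((ε' - ε : ℝ≥0) : ℝ≥0∞)) (ENNReal.coe_pos.2 hpos)
  have e2 := F4a.eventually_nnnorm_mul_le hdd (η := ((Cd * (ε' - ε) : ℝ≥0) : ℝ≥0∞)) (ENNReal.coe_pos.2 (mul_pos hCd hpos))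
  filter_upwards [nhdsWithin_le_nhds e1, nhdsWithin_le_nhds e2, nhdsWithin_le_nhds (F4a.labD_ok H)] with s h1 h2 h3
  have hεε : (ε : ℝ≥0∞) ≤ ε' := by exact_mod_cast hε.le
  have n1 : actNorm p P.g Vf (K + s • J) ≤ ε' := by
    calc actNorm p P.g Vf (K + s • J) ≤ actNorm p P.g Vf K + ‖s‖₊ * actNorm p P.g Vf J :=
          (Scal.actNorm_add_le p P.g Vf K (s • J)).trans (add_le_add le_rfl (Scal.actNorm_smul_le p P.g Vf s J))
      _ ≤ (ε : ℝ≥0∞) + ((ε' - ε : ℝ≥0) : ℝ≥0∞) := add_le_add hK h1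
      _ = ε' := by rw [← ENNReal.coe_add, add_tsub_cancel_of_le hε.le]
  have n2 : (F4a.labD d dd s).size p Vc ≤ Cd * ε' := by
    calc (F4a.labD d dd s).size p Vc ≤ d.size p Vc + ‖s‖₊ * dd.size p Vc := F4a.labD_size_le p Vc d dd s
      _ ≤ (Cd : ℝ≥0∞) * ε + ((Cd * (ε' - ε) : ℝ≥0) : ℝ≥0∞) := add_le_add hd h2
      _ = Cd * ε' := by rw [← ENNReal.coe_mul, ← ENNReal.coe_add, ← mul_add, add_tsub_cancel_of_le hε.le, ENNReal.coe_mul]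
  have := lip ε' hε' (K + s • J) K (F4a.labD d dd s) d (F4a.lab_K_ok H s).1 H.K_ok h3 H.d_ok n1 (hK.trans hεε) n2
    (hd.trans (mul_le_mul' le_rfl hεε))
  rw [F4a.labN_zero]
  refine this.trans ?_
  have a1 : K + s • J - K = s • J := add_sub_cancel_left _ _
  have a2 : (⟨(F4a.labD d dd s).F - d.F, (F4a.labD d dd s).a - d.a⟩ : Desig P.g' (Fn G)) = ⟨s • dd.F, s • dd.a⟩ := by simp [F4a.labD]
  rw [a1, a2]
  calc (Cnl : ℝ≥0∞) * ε' * (actNorm p P.g Vf (s • J) + Desig.size p Vc ⟨s • dd.F, s • dd.a⟩)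
      ≤ (Cnl : ℝ≥0∞) * ε' * (‖s‖₊ * actNorm p P.g Vf J + ‖s‖₊ * dd.size p Vc) :=
        mul_le_mul' le_rfl (add_le_add (Scal.actNorm_smul_le p P.g Vf s J) (F4a.size_smul_le p Vc dd s))
    _ = _ := by ring

/-- the label bound at the radius `ε < ε₀` (copy of `F4a.StepGain.label`) -/
theorem pk_label {p : Par} {col r R n0 : ℕ} {cst : ℝ≥0} {P : Pair G D0 ℓ} {Γ : Matrix G.V G.V ℝ} {Vf : Extra P.g} {Vc : Extra P.g'}
    {K J : Act P.g} {d dd : Desig P.g' (Fn G)} {Cd Cnl ε0 : ℝ≥0}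
    (lip : ∀ ε : ℝ≥0, ε ≤ ε0 → ∀ (K K₂ : Act P.g) (d d₂ : Desig P.g' (Fn G)),
      Act.Ok p col R K → Act.Ok p col R K₂ → d.Ok p col r → d₂.Ok p col r →
      actNorm p P.g Vf K ≤ ε → actNorm p P.g Vf K₂ ≤ ε → d.size p Vc ≤ Cd * ε → d₂.size p Vc ≤ Cd * ε →
      actNorm p P.g' Vc
          ((Kprime P r R (conv Γ) K d - Klin P R (conv Γ) K d) - (Kprime P r R (conv Γ) K₂ d₂ - Klin P R (conv Γ) K₂ d₂))
        ≤ Cnl * ε * (actNorm p P.g Vf (K - K₂) + Desig.size p Vc ⟨d.F - d₂.F, d.a - d₂.a⟩))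
    (H : F4a.LabHyp p col r R n0 cst P Γ Vf Vc K J d dd) (hCd : 0 < Cd) {ε : ℝ≥0} (hε : ε < ε0)
    (hK : actNorm p P.g Vf K ≤ ε) (hd : d.size p Vc ≤ Cd * ε) (hdd : dd.size p Vc ≠ ⊤) :
    actNorm p P.g' Vc (F4a.labJ P Γ r R K J d dd - Klin P R (conv Γ) J dd) ≤ Cnl * ε * (actNorm p P.g Vf J + dd.size p Vc) := by
  obtain ⟨T, hT⟩ : ∃ T : ℝ≥0, actNorm p P.g Vf J + dd.size p Vc = T :=
    ⟨_, (ENNReal.coe_toNNReal (ENNReal.add_ne_top.2 ⟨H.J_fin, hdd⟩)).symm⟩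
  rw [hT]
  refine ENNReal.le_of_forall_pos_le_add fun η' hη' _ => ?_
  set δ : ℝ≥0 := min (ε0 - ε) (η' / (Cnl * T + 1)) with hδ
  have hδ0 : 0 < δ := lt_min (tsub_pos_of_lt hε) (by positivity)
  have h1 := pk_label_aux lip H hCd (ε' := ε + δ) (lt_add_of_pos_right ε hδ0)
    (by calc ε + δ ≤ ε + (ε0 - ε) := by gcongr; exact min_le_left _ _
          _ = ε0 := add_tsub_cancel_of_le hε.le) hK hd hdd
  rw [hT] at h1
  refine h1.trans ?_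
  have h2 : Cnl * (ε + δ) * T ≤ Cnl * ε * T + η' := by
    have h3 : δ * (Cnl * T) ≤ η' := by
      calc δ * (Cnl * T) ≤ η' / (Cnl * T + 1) * (Cnl * T + 1) := by gcongr; exacts [min_le_right _ _, le_self_add]
        _ = η' := div_mul_cancel₀ _ (by positivity)
    calc Cnl * (ε + δ) * T = Cnl * ε * T + δ * (Cnl * T) := by ring
      _ ≤ _ := by gcongr
  exact_mod_cast h2

/-- **(K5), label form**: the derivative of the map in a direction `(J, ḋ)` of ARBITRARY finite size is the linear part up to `C ε (‖J‖ + size ḋ)`.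
plan: constants of `pk_nl` with `Cd + 1`; new `ε₀ := ε₀ / 2`.  Fix `η > 0` small (`ε + η ≤ 2 ε₀'`).  For `|s|` small: `‖K + sJ‖ ≤ ε + η`, `size (d + s ḋ) ≤ (Cd + 1) (ε + η)`, `(dLin d dd s).Ok` (`Small`, `fn`: sums; `ne`: continuity).
Lipschitz form of `pk_nl` between `(K + sJ, d + sḋ)` and `(K, d)`: `‖N_s - N_0‖' ≤ C (ε + η) |s| (‖J‖ + size ḋ)`, `N_s = K'_s - Klin_s`.  Pointwise at `(Y, w = toC φ + f)` (`Hol.fnSize_le_iff`, `Hol.nnnorm_le_fnSize_mul`), with `pk_klin_lin`: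
`|K'_s - K'_0 - s Klin (J, ḋ)| ≤ |s| · bound`; divide by `|s|`, let `s → 0` (`pk_fam_diff`, `hasDerivAt_iff_tendsto_slope`, `le_of_tendsto`), then `η → 0` (`ENNReal.le_of_forall_pos_le_add` or `le_of_forall_pos_lt_add`). -/
theorem pk_nl_deriv (c : B8.Geo) (hc : c.Ok) (Cd : ℝ≥0) (δ κ : ℝ) (h0 : ℝ≥0) :
    ∃ (ℓ0 D1 : ℕ), ∀ ℓ ≥ ℓ0, ∃ A0 : ℝ, ∀ A ≥ A0, ∃ (C ε0 : ℝ≥0), 0 < ε0 ∧ ∀ D0 ≥ D1, ∀ (ω : ℝ) (G : Geom) (S : B8.Step G D0 ℓ),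
      Ctx0 c ⟨δ, κ, h0, A, ω⟩ S → ∀ ε : ℝ≥0, ε ≤ ε0 → ∀ (K J : Act S.P.g) (d dd : Desig S.P.g' (Fn G)),
        Act.Ok ⟨δ, κ, h0, A, ω⟩ c.col c.R K → Act.Ok ⟨δ, κ, h0, A, ω⟩ c.col c.R J → d.Ok ⟨δ, κ, h0, A, ω⟩ c.col c.r →
        dd.Small c.r S.P.g' → (∀ Y b, LocalFn ⟨δ, κ, h0, A, ω⟩ c.col S.P.g' {b} (dd.F Y b)) →
        actNorm ⟨δ, κ, h0, A, ω⟩ S.P.g S.Vf K ≤ ε → d.size ⟨δ, κ, h0, A, ω⟩ S.Vc ≤ Cd * ε →
        actNorm ⟨δ, κ, h0, A, ω⟩ S.P.g S.Vf J ≠ ⊤ → dd.size ⟨δ, κ, h0, A, ω⟩ S.Vc ≠ ⊤ →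
        actNorm ⟨δ, κ, h0, A, ω⟩ S.P.g' S.Vc
            ((fun Y w => deriv (fun s : ℂ => Kprime S.P c.r c.R (conv S.Γ) (K + s • J) (dLin d dd s) Y w) 0) - Klin S.P c.R (conv S.Γ) J dd)
          ≤ C * ε * (actNorm ⟨δ, κ, h0, A, ω⟩ S.P.g S.Vf J + dd.size ⟨δ, κ, h0, A, ω⟩ S.Vc) := by
  obtain ⟨ℓ0, D1, H⟩ := pk_nl c hc (Cd + 1) δ κ h0
  refine ⟨ℓ0, D1, fun ℓ hℓ => ?_⟩
  obtain ⟨A0, H⟩ := H ℓ hℓ
  refine ⟨A0, fun A hA => ?_⟩
  obtain ⟨C, ε0, hε0, H⟩ := H A hA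
  refine ⟨C, ε0 / 2, half_pos hε0, fun D0 hD ω G S h ε hε K J d dd hK hJ hd hds hdf hKε hdε hJf hddf => ?_⟩
  have hlab : F4a.LabHyp ⟨δ, κ, h0, A, ω⟩ c.col c.r c.R c.n0 c.cst S.P S.Γ S.Vf S.Vc K J d dd :=
    ⟨lt_of_lt_of_le one_pos h.hA, h.hR, h.reg, hK, ne_top_of_le_ne_top ENNReal.coe_ne_top hKε, hJ, hJf, hd, hds, hdf⟩
  have hlt : ε < ε0 := lt_of_le_of_lt hε (half_lt_self hε0)
  have hdε' : d.size ⟨δ, κ, h0, A, ω⟩ S.Vc ≤ ((Cd + 1 : ℝ≥0) : ℝ≥0∞) * ε :=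
    hdε.trans (mul_le_mul' (by exact_mod_cast le_self_add) le_rfl)
  exact pk_label (Cd := Cd + 1) (fun ε' hε' K₁ K₂ d₁ d₂ a1 a2 a3 a4 a5 a6 a7 a8 =>
    (H D0 hD ω G S h ε' hε' K₁ K₂ d₁ d₂ a1 a2 a3 a4 a5 a6 a7 a8).2) hlab (by positivity) hlt hKε hdε' hddf

/-! ## (K6) per-input gains, any boundary condition -/

/-- the pieces "constant / |X|" sum to the constant -/
theorem pk_sum_const {I : Type} (X : Finset I) (hX : X.Nonempty) (a : ℂ) : (∑ _B ∈ X, fun _ : G.V → ℂ => (1 / (X.card : ℂ)) * a) = fun _ => a := by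
  funext z
  have hc : (X.card : ℂ) ≠ 0 := by exact_mod_cast (Finset.card_pos.2 hX).ne'
  rw [Finset.sum_apply, Finset.sum_const, nsmul_eq_mul]
  field_simp

/-- the arithmetic of the exponent in `pk_charges` -/
theorem pk_charges_exponent (a1 a2 h0 α Q Γ00 γ : ℝ) (h1 : 0 < a1) (hα0 : 0 < α) (hα1 : a1 ≤ α ^ 2) (hα2 : α ^ 2 ≤ a2) (hh : 0 ≤ h0) (hQ : 1 ≤ Q)
    (hγ : h0 * Real.sqrt a2 + 1 ≤ a1 * γ) (hΓ : γ ≤ Γ00) :
    -(Real.sqrt a1 * Q * α - Real.sqrt a1 ^ 2 / 2) * Γ00 + h0 * Q * α ≤ -Q + (h0 * Real.sqrt a2 + 1 - a1 * γ / 2) := by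
  have hs2 : Real.sqrt a1 ^ 2 = a1 := Real.sq_sqrt h1.le
  have hs0 : 0 < Real.sqrt a1 := Real.sqrt_pos.2 h1
  have hsα : Real.sqrt a1 ≤ α := (Real.sqrt_le_left hα0.le).2 hα1
  have hα3 : α ≤ Real.sqrt a2 := Real.le_sqrt_of_sq_le hα2
  have hb0 : 0 ≤ h0 * Real.sqrt a2 := mul_nonneg hh (Real.sqrt_nonneg _)
  have hγ0 : 0 ≤ γ := by
    by_contra hneg
    rw [not_le] at hneg
    have : a1 * γ < 0 := mul_neg_of_pos_of_neg h1 hneg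
    linarith
  have hΓ0 : 0 ≤ Γ00 := hγ0.trans hΓ
  have h4 : a1 ≤ Real.sqrt a1 * α := by
    calc a1 = Real.sqrt a1 * Real.sqrt a1 := by rw [← sq, hs2]
      _ ≤ Real.sqrt a1 * α := mul_le_mul_of_nonneg_left hsα hs0.le
  have h5 : a1 * Q ≤ Real.sqrt a1 * Q * α := by
    calc a1 * Q ≤ (Real.sqrt a1 * α) * Q := mul_le_mul_of_nonneg_right h4 (by linarith)
      _ = _ := by ring
  have h6 : (a1 * Q - a1 / 2) * Γ00 ≤ (Real.sqrt a1 * Q * α - Real.sqrt a1 ^ 2 / 2) * Γ00 := by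
    apply mul_le_mul_of_nonneg_right _ hΓ0
    rw [hs2]; linarith
  have h7 : (a1 * Q - a1 / 2) * γ ≤ (a1 * Q - a1 / 2) * Γ00 :=
    mul_le_mul_of_nonneg_left hΓ (by nlinarith)
  have h8 : h0 * Q * α ≤ h0 * Q * Real.sqrt a2 := mul_le_mul_of_nonneg_left hα3 (by positivity)
  have h9 : (Q - 1) * (h0 * Real.sqrt a2 + 1) ≤ (Q - 1) * (a1 * γ) :=
    mul_le_mul_of_nonneg_left hγ (by linarith)
  nlinarith

/-- **(K6a) all charges of a small input**, window `a₁ ≤ α² ≤ a₂`, from a lower bound `γ` of the diagonal of the covariance at ONE site of `X` (`a₁ γ ≥ h₀ √a₂ + 1`).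
For `a₁ = k₀ = 8π`, `γ = log L / 2π - C₀`: `e^{-a₁ γ / 2} = e^{4π C₀} L⁻²`.
plan: copy of the charge part of `B8.w_gain_gapped` (`Map/WGap.lean`): `B4.charged_gain` with the FIXED amplitude `a = √a₁ ≤ α`, `C₁ := max (C₁ √a₁) 1`; `B8.w_fnSize_kappa_mono` (from `κ/2` to `κ`);
exponent: `-(a |q| α - a²/2) Γ + h₀ |q| α ≤ -a₁ (|q| - 1/2) γ + b |q|`, `b = h₀ √a₂`  (`Γ ≥ γ ≥ 0`, `a α ≥ a₁`), `≤ -|q| + (b + 1) - a₁ γ / 2` because `(|q| - 1) (a₁ γ - b - 1) ≥ 0`;  `Chg.chg_tsum_exp` (`∑_{q ≠ 0} e^{-|q|} ≤ 2`); `C = 2 C_c e^{b + 1}`. -/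
theorem pk_charges (c : B8.Geo) (a1 a2 : ℝ) (h1 : 0 < a1) :
    ∃ C1 : ℝ≥0, 0 < C1 ∧ ∀ (δ κ : ℝ) (h0 : ℝ≥0), 0 < δ → 0 < κ → C1 ≤ h0 → ∃ (C : ℝ≥0) (ℓ0 D1 : ℕ), ∀ ℓ ≥ ℓ0, ∀ D0 ≥ D1,
      ∀ (A ω : ℝ) (G : Geom) (S : B8.Step G D0 ℓ), a1 ≤ B8.Step.alpha ω ^ 2 → B8.Step.alpha ω ^ 2 ≤ a2 → Ctx0 c ⟨δ, κ, h0, A, ω⟩ S →
      ∀ K : Act S.P.g, Act.Ok ⟨δ, κ, h0, A, ω⟩ c.col c.R K → ∀ X ∈ S.small c, ∀ γ : ℝ, h0 * Real.sqrt a2 + 1 ≤ a1 * γ →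
        (∃ v0 ∈ S.P.g.sites X, γ ≤ S.Γ v0 v0) →
        ∑' q : {q : ℤ // q ≠ 0}, fnSize ⟨δ, κ, h0, A, ω⟩ S.P.g' S.Vc (S.P.N.cl X) (S.Hq ω q K X)
          ≤ C * fnSize ⟨δ, κ, h0, A, ω⟩ S.P.g S.Vf X (K X) * ENNReal.ofReal (Real.exp (-(a1 * γ / 2))) := by
  have hs0 : 0 < Real.sqrt a1 := Real.sqrt_pos.2 h1
  obtain ⟨C1, hC1⟩ := B4.charged_gain c.Ck c.ck c.ρ c.R c.n0 c.cst
  refine ⟨⟨max (C1 * Real.sqrt a1) 1, le_trans zero_le_one (le_max_right _ _)⟩,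
    (show (0 : ℝ) < max (C1 * Real.sqrt a1) 1 from lt_of_lt_of_le one_pos (le_max_right _ _)), fun δ κ h0 hδ hκ hh => ?_⟩
  have hh' : max (C1 * Real.sqrt a1) 1 ≤ (h0 : ℝ) := hh
  have hh1 : C1 * Real.sqrt a1 ≤ h0 := le_trans (le_max_left _ _) hh'
  obtain ⟨Cc, ℓc, Dc, hcg⟩ := hC1 δ κ h0 hδ hκ (Real.sqrt a1) hs0 hh1
  obtain ⟨b, hb⟩ : ∃ b : ℝ, b = h0 * Real.sqrt a2 := ⟨_, rfl⟩
  refine ⟨2 * Cc * Real.toNNReal (Real.exp (b + 1)), ℓc, Dc, fun ℓ hℓ D0 hD A ω G S hα1 hα2 h K hK X hX γ hγ hv => ?_⟩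
  obtain ⟨v0, hv0, hΓ⟩ := hv
  have hω : 0 < ω := h.hω
  have hα0 : 0 < B8.Step.alpha ω := by unfold B8.Step.alpha; positivity
  obtain ⟨u, hu⟩ : ∃ u : ℝ≥0∞, u = fnSize ⟨δ, κ, h0, A, ω⟩ S.P.g S.Vf X (K X) := ⟨_, rfl⟩
  have hLI : LocalInput ⟨δ, κ, h0, A, ω⟩ c.col c.R c.n0 S.P.g S.Vf X (K X) u := hu ▸ pk_input hK hX
  rw [← hu]
  have hC : ∀ q : {q : ℤ // q ≠ 0}, fnSize ⟨δ, κ, h0, A, ω⟩ S.P.g' S.Vc (S.P.N.cl X) (S.Hq ω q K X)
      ≤ (Cc * u * ENNReal.ofReal (Real.exp (b + 1 - a1 * γ / 2))) * ENNReal.ofReal (Real.exp (-|((q : ℤ) : ℝ)|)) := by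
    intro q
    have h3 := hcg ⟨δ, κ, h0, A, ω⟩ c.col rfl rfl rfl hω D0 hD G ℓ hℓ S.P S.Γ S.Vf S.Vc h.shell h.reg X (K X) u hLI
      _ hv0 q.1 q.2
    refine (B8.w_fnSize_kappa_mono δ κ (κ / 2) h0 A A ω ω hδ.le (by linarith) S.P.g' S.Vc _ _).trans (h3.trans ?_)
    have hQ : (1 : ℝ) ≤ |((q : ℤ) : ℝ)| := by
      have : (1 : ℤ) ≤ |(q : ℤ)| := Int.one_le_abs q.2
      exact_mod_cast this
    have h4 := pk_charges_exponent a1 a2 h0 (B8.Step.alpha ω) |((q : ℤ) : ℝ)| (S.Γ v0 v0) γ h1 hα0 hα1 hα2 h0.2 hQ hγ hΓ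
    rw [mul_assoc ((Cc : ℝ≥0∞) * u), ← ENNReal.ofReal_mul (Real.exp_pos _).le, ← Real.exp_add]
    refine mul_le_mul' le_rfl (ENNReal.ofReal_le_ofReal (Real.exp_le_exp.2 ?_))
    rw [← hb] at h4
    exact h4.trans (le_of_eq (by ring))
  calc _ ≤ ∑' q : {q : ℤ // q ≠ 0}, (Cc * u * ENNReal.ofReal (Real.exp (b + 1 - a1 * γ / 2))) * ENNReal.ofReal (Real.exp (-|((q : ℤ) : ℝ)|)) :=
        ENNReal.tsum_le_tsum hC
    _ = (Cc * u * ENNReal.ofReal (Real.exp (b + 1 - a1 * γ / 2))) * ∑' q : {q : ℤ // q ≠ 0}, ENNReal.ofReal (Real.exp (-|((q : ℤ) : ℝ)|)) :=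
        ENNReal.tsum_mul_left
    _ ≤ (Cc * u * ENNReal.ofReal (Real.exp (b + 1 - a1 * γ / 2))) * 2 := mul_le_mul' le_rfl Chg.chg_tsum_exp
    _ = _ := by
        rw [show b + 1 - a1 * γ / 2 = (b + 1) + -(a1 * γ / 2) by ring, Real.exp_add, ENNReal.ofReal_mul (Real.exp_pos _).le]
        push_cast
        rw [show ((Real.toNNReal (Real.exp (b + 1)) : ℝ≥0) : ℝ≥0∞) = ENNReal.ofReal (Real.exp (b + 1)) from rfl]
        ring

/-- **(K6b) a small input minus its neutral constant**: `L⁻¹ + e^{-a₁γ/2}`; even input: `L⁻² + e^{-a₁γ/2}`.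
plan: `pk_conv_hasSum` + `B8.w_fnSize_tsum_le` + `B8.wg_tsum_int`: `conv (K X) - H₀ (0) = (H₀ - H₀ (0)) + ∑_{q ≠ 0} H_q` on the strip of `cl X` (`B8.w_strip_coarse`); neutral part: `B4.neutral_localization` (first clause; even: second clause) with `pk_input`;
charges: `pk_charges`.  `C := max C_n C_c`. -/
theorem pk_gain_const (c : B8.Geo) (a1 a2 : ℝ) (h1 : 0 < a1) :
    ∃ C1 : ℝ≥0, 0 < C1 ∧ ∀ (δ κ : ℝ) (h0 : ℝ≥0), 0 < δ → 0 < κ → C1 ≤ h0 → ∃ (C : ℝ≥0) (ℓ0 D1 : ℕ), ∀ ℓ ≥ ℓ0, ∀ D0 ≥ D1,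
      ∀ (A ω : ℝ) (G : Geom) (S : B8.Step G D0 ℓ), a1 ≤ B8.Step.alpha ω ^ 2 → B8.Step.alpha ω ^ 2 ≤ a2 → Ctx0 c ⟨δ, κ, h0, A, ω⟩ S →
      ∀ K : Act S.P.g, Act.Ok ⟨δ, κ, h0, A, ω⟩ c.col c.R K → actNorm ⟨δ, κ, h0, A, ω⟩ S.P.g S.Vf K ≠ ⊤ → ∀ X ∈ S.small c, ∀ γ : ℝ, h0 * Real.sqrt a2 + 1 ≤ a1 * γ →
        (∃ v0 ∈ S.P.g.sites X, γ ≤ S.Γ v0 v0) →
        fnSize ⟨δ, κ, h0, A, ω⟩ S.P.g' S.Vc (S.P.N.cl X) (conv S.Γ (K X) - fun _ => S.Hq ω 0 K X 0)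
          ≤ C * fnSize ⟨δ, κ, h0, A, ω⟩ S.P.g S.Vf X (K X) * ((2 ^ ℓ : ℝ≥0∞)⁻¹ + ENNReal.ofReal (Real.exp (-(a1 * γ / 2)))) ∧
        ((∀ ψ ∈ strip h0 S.P.g X, K X (-ψ) = K X ψ) →
          fnSize ⟨δ, κ, h0, A, ω⟩ S.P.g' S.Vc (S.P.N.cl X) (conv S.Γ (K X) - fun _ => S.Hq ω 0 K X 0)
            ≤ C * fnSize ⟨δ, κ, h0, A, ω⟩ S.P.g S.Vf X (K X) * ((2 ^ ℓ : ℝ≥0∞)⁻¹ ^ 2 + ENNReal.ofReal (Real.exp (-(a1 * γ / 2))))) := by
  classical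
  obtain ⟨C1, hC1, H⟩ := pk_charges c a1 a2 h1
  refine ⟨C1, hC1, fun δ κ h0 hδ hκ hh => ?_⟩
  have hh0 : 0 < h0 := lt_of_lt_of_le hC1 hh
  obtain ⟨Cc, ℓc, Dc, hc⟩ := H δ κ h0 hδ hκ hh
  obtain ⟨Cn, ℓn, Dn, hn⟩ := B4.neutral_localization c.R c.n0 c.cst δ κ h0 hδ hκ hh0
  refine ⟨max Cn Cc, max ℓc ℓn, max Dc Dn, fun ℓ hℓ D0 hD A ω G S hα1 hα2 h K hK hfin X hX γ hγ hv => ?_⟩
  have hch := hc ℓ (le_trans (le_max_left _ _) hℓ) D0 (le_trans (le_max_left _ _) hD) A ω G S hα1 hα2 h K hK X hX γ hγ hv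
  have hne := hn ⟨δ, κ, h0, A, ω⟩ c.col rfl rfl rfl h.hω D0 (le_trans (le_max_right _ _) hD) G ℓ (le_trans (le_max_right _ _) hℓ)
    S.P S.Γ S.Vf S.Vc h.psd h.reg X (K X) _ (pk_input hK hX) (S.Hq ω 0 K X) rfl
  obtain ⟨u, hu⟩ : ∃ u : ℝ≥0∞, u = fnSize ⟨δ, κ, h0, A, ω⟩ S.P.g S.Vf X (K X) := ⟨_, rfl⟩
  obtain ⟨e, he⟩ : ∃ e : ℝ≥0∞, e = ENNReal.ofReal (Real.exp (-(a1 * γ / 2))) := ⟨_, rfl⟩
  rw [← hu, ← he] at hch
  rw [← hu] at hne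
  rw [← hu, ← he]
  -- the Fourier decomposition
  have hdec : fnSize ⟨δ, κ, h0, A, ω⟩ S.P.g' S.Vc (S.P.N.cl X) (conv S.Γ (K X) - fun _ => S.Hq ω 0 K X 0)
      ≤ fnSize ⟨δ, κ, h0, A, ω⟩ S.P.g' S.Vc (S.P.N.cl X) (fun ψ => S.Hq ω 0 K X ψ - S.Hq ω 0 K X 0)
        + ∑' q : {q : ℤ // q ≠ 0}, fnSize ⟨δ, κ, h0, A, ω⟩ S.P.g' S.Vc (S.P.N.cl X) (S.Hq ω q K X) := by
    have h3 := B8.w_fnSize_tsum_le ⟨δ, κ, h0, A, ω⟩ S.P.g' S.Vc (S.P.N.cl X)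
      (fun q : ℤ => if q = 0 then (fun ψ => S.Hq ω 0 K X ψ - S.Hq ω 0 K X 0) else S.Hq ω q K X)
      (conv S.Γ (K X) - fun _ => S.Hq ω 0 K X 0) (fun z hz => by
        have hs := pk_conv_hasSum h (hK.fn X) (pk_fin h hfin X) (B8.w_strip_coarse S.P h0 (Finset.Subset.refl _) hz)
        have h2 := hs.sub (hasSum_ite_eq (0 : ℤ) (S.Hq ω 0 K X 0))
        have e : (fun q : ℤ => (if q = 0 then (fun ψ => S.Hq ω 0 K X ψ - S.Hq ω 0 K X 0) else S.Hq ω q K X) z)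
            = fun q : ℤ => conv S.Γ (chargeProj ω q (K X)) z - (if q = 0 then S.Hq ω 0 K X 0 else 0) := by
          funext q
          by_cases hq : q = 0
          · subst hq
            simp [B8.Step.Hq]
          · simp [hq, B8.Step.Hq]
        rw [e]
        exact h2)
    have hsplit : ∀ f : ℤ → ℝ≥0∞, ∑' q : ℤ, f q = f 0 + ∑' q : {q : ℤ // q ≠ 0}, f q := by
      intro f
      rw [ENNReal.tsum_eq_add_tsum_ite (0 : ℤ)]
      congr 1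
      have h4 := tsum_subtype {q : ℤ | q ≠ 0} f
      rw [show (∑' q : {q : ℤ // q ≠ 0}, f q) = ∑' q : ({q : ℤ | q ≠ 0} : Set ℤ), f q from rfl, h4]
      refine tsum_congr fun q => ?_
      by_cases hq : q = 0
      · simp [hq]
      · simp [hq]
    rw [hsplit] at h3
    refine h3.trans (le_of_eq ?_)
    rw [if_pos rfl]
    congr 1
    refine tsum_congr fun q => ?_
    rw [if_neg q.2]
  have key : ∀ a : ℝ≥0∞,
      fnSize ⟨δ, κ, h0, A, ω⟩ S.P.g' S.Vc (S.P.N.cl X) (fun ψ => S.Hq ω 0 K X ψ - S.Hq ω 0 K X 0) ≤ Cn * u * a →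
      fnSize ⟨δ, κ, h0, A, ω⟩ S.P.g' S.Vc (S.P.N.cl X) (conv S.Γ (K X) - fun _ => S.Hq ω 0 K X 0)
        ≤ ((max Cn Cc : ℝ≥0) : ℝ≥0∞) * u * (a + e) := by
    intro a ha
    have m1 : (Cn : ℝ≥0∞) ≤ ((max Cn Cc : ℝ≥0) : ℝ≥0∞) := ENNReal.coe_le_coe.2 (le_max_left _ _)
    have m2 : (Cc : ℝ≥0∞) ≤ ((max Cn Cc : ℝ≥0) : ℝ≥0∞) := ENNReal.coe_le_coe.2 (le_max_right _ _)
    calc _ ≤ Cn * u * a + Cc * u * e := hdec.trans (add_le_add ha hch)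
      _ ≤ ((max Cn Cc : ℝ≥0) : ℝ≥0∞) * u * a + ((max Cn Cc : ℝ≥0) : ℝ≥0∞) * u * e :=
          add_le_add (mul_le_mul' (mul_le_mul' m1 le_rfl) le_rfl) (mul_le_mul' (mul_le_mul' m2 le_rfl) le_rfl)
      _ = _ := by rw [mul_add]
  exact ⟨key _ hne.1, fun hev => key _ (hne.2 hev).1⟩

/-- the regulator exponent decreases under a contraction of the field -/
theorem pk_mv_U_le (g : Grid G) (δ : ℝ) (hδ : 0 ≤ δ) (X : Finset g.I) (t : ℝ) (ht : |t| ≤ 1) (φ : G.V → ℝ) :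
    U g δ X (t • φ) ≤ U g δ X φ := by
  have ht2 : t ^ 2 ≤ 1 := by
    rw [← sq_abs]
    exact pow_le_one₀ (abs_nonneg _) ht
  have hd : ∀ (e : Fin 4) (x : ℤ × ℤ), dif (dir e) (G.lift (t • φ)) x ^ 2 ≤ dif (dir e) (G.lift φ) x ^ 2 := by
    intro e x
    have : dif (dir e) (G.lift (t • φ)) x = t * dif (dir e) (G.lift φ) x := by
      simp only [dif, Geom.lift, Pi.smul_apply, smul_eq_mul]
      ring
    rw [this, mul_pow]
    exact mul_le_of_le_one_left (sq_nonneg _) ht2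
  have hn : ∀ x : ℤ × ℤ, nab 2 (G.lift (t • φ)) x ≤ nab 2 (G.lift φ) x := by
    intro x
    unfold nab
    refine Finset.sup_mono_fun fun a _ => ?_
    have : difs a (G.lift (t • φ)) x = t * difs a (G.lift φ) x :=
      difs_map (AddMonoidHom.mulLeft t) a (G.lift φ) x
    rw [this, nnnorm_mul]
    refine mul_le_of_le_one_left zero_le ?_
    rw [← NNReal.coe_le_coe]
    simpa using ht
  unfold U gE PE TE
  refine add_le_add (add_le_add ?_ (mul_le_mul_of_nonneg_left ?_ hδ)) ?_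
  · exact mul_le_mul_of_nonneg_left (Finset.sum_le_sum fun v _ => Finset.sum_le_sum fun e _ => hd e _) (by norm_num)
  · refine mul_le_mul_of_nonneg_left (Finset.sum_le_sum fun v _ => Finset.sum_le_sum fun e _ => ?_) (Nat.cast_nonneg _)
    split_ifs
    · exact le_rfl
    · exact hd e _
  · refine Finset.sum_le_sum fun b _ => mul_le_mul_of_nonneg_left ?_ (by positivity)
    exact pow_le_pow_left₀ (NNReal.coe_nonneg _) (NNReal.coe_le_coe.2 (Finset.sup_mono_fun fun v _ => hn _)) 2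

/-- the regulator decreases under a contraction of the field -/
theorem pk_mv_Wt_le (g : Grid G) (δ κ : ℝ) (hδ : 0 ≤ δ) (hκ : 0 ≤ κ) (V : Extra g) (X : Finset g.I) (t : ℝ) (ht : |t| ≤ 1) (φ : G.V → ℝ) :
    Wt g δ κ V X (t • φ) ≤ Wt g δ κ V X φ := by
  have ht2 : t ^ 2 ≤ 1 := by
    rw [← sq_abs]
    exact pow_le_one₀ (abs_nonneg _) ht
  unfold Wt
  refine Real.exp_le_exp.2 (add_le_add (mul_le_mul_of_nonneg_left (pk_mv_U_le g δ hδ X t ht φ) hκ) ?_)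
  rw [V.homog]
  exact mul_le_of_le_one_left (V.nonneg _ _) ht2

/-- **(K6c) moving the reference point of a constant** (mean value in the point norm): one grid, no Gaussian.
plan: `f (s) = H (s • toC μ)` is differentiable on a neighbourhood of `[0, 1]` (real `s`: the imaginary part vanishes);  `|f' (t)| ≤ ptNorm H (t μ) · tnorm μ / h₀` by the Cauchy estimate on the disc `|s - t| < h₀ / tnorm μ`
(`Complex.norm_deriv_le_of_forall_mem_sphere_norm_le` on radii `r < h₀ / tnorm μ`; `tnorm (s • toC μ) = |s| tnorm μ`: `Hol.tnorm_smul`-type lemma);  `ptNorm H (t μ) ≤ fnSize · Wt (t μ) ≤ fnSize · Wt μ` for `|t| ≤ 1` (`U`, `V` are homogeneous of degree 2 and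
nonnegative: `Extra.homog`, `B8.w_U_nonneg`);  mean value inequality `Convex.norm_image_sub_le_of_norm_deriv_le` on `[0, 1]`.  If `tnorm μ = 0` the Cauchy radius is arbitrary: `f' = 0`. -/
theorem pk_mean_value (p : Par) (hδ : 0 ≤ p.δ) (hκ : 0 ≤ p.κ) (hh : 0 < p.h0) (g : Grid G) (V : Extra g) (X : Finset g.I) (H : Fn G) (hH : Hol p.h0 g X H)
    (hfin : fnSize p g V X H ≠ ⊤) (μ : G.V → ℝ) :
    (‖H (toC μ) - H 0‖₊ : ℝ≥0∞) ≤ fnSize p g V X H * ENNReal.ofReal (Wt g p.δ p.κ V X μ) * ((tnorm g X μ : ℝ≥0∞) / (p.h0 : ℝ≥0∞)) := by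
  set τ : ℝ≥0 := tnorm g X μ with hτ
  set B : ℝ≥0∞ := fnSize p g V X H * ENNReal.ofReal (Wt g p.δ p.κ V X μ) with hB
  have hBfin : B ≠ ⊤ := ENNReal.mul_ne_top hfin ENNReal.ofReal_ne_top
  set f : ℂ → ℂ := fun s => H (s • toC μ) with hf
  -- the bound on discs around real points
  have hbd : ∀ t : ℝ, |t| ≤ 1 → ∀ s : ℂ, ‖s - (t : ℂ)‖₊ * τ < p.h0 → ‖f s‖ ≤ B.toReal := by
    intro t ht s hs
    have e : s • toC μ = toC (t • μ) + (s - (t : ℂ)) • toC μ := by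
      rw [toC_smul, ← add_smul]
      congr 1
      ring
    have h1 : tnorm g X ((s - (t : ℂ)) • toC μ) < p.h0 := by
      rw [tnorm_smul, tnorm_toC]
      exact hs
    have h2 := nnnorm_le_fnSize_mul p g V X H (t • μ) _ h1
    have h3 : (‖f s‖₊ : ℝ≥0∞) ≤ B := by
      simp only [hf]
      rw [e]
      exact h2.trans (mul_le_mul_right (ENNReal.ofReal_le_ofReal (pk_mv_Wt_le g p.δ p.κ hδ hκ V X t ht μ)) _)
    have h4 := ENNReal.toReal_mono hBfin h3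
    simpa using h4
  -- differentiability
  have hdiff : ∀ s : ℂ, ‖s.im‖₊ * τ < p.h0 → DifferentiableAt ℂ f s := by
    intro s hs
    have hmem : s • toC μ ∈ strip p.h0 g X := by
      rw [mem_strip]
      have : (fun v => ((s • toC μ) v).im) = s.im • μ := by
        ext v
        simp [toC]
      rw [this, tnorm_smul]
      exact hs
    have h1 : DifferentiableAt ℂ H (s • toC μ) := (hH _ hmem).differentiableAt ((strip_isOpen _ _ _).mem_nhds hmem)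
    have h2 : DifferentiableAt ℂ (fun s : ℂ => s • toC μ) s := differentiableAt_id.smul_const _
    exact h1.comp s h2
  -- every admissible radius
  have key : ∀ r : ℝ≥0, 0 < r → r * τ < p.h0 → ‖H (toC μ) - H 0‖ ≤ B.toReal / r := by
    intro r hr hrτ
    have hreal : ∀ t : ℝ, DifferentiableAt ℂ f (t : ℂ) := fun t => hdiff _ (by simpa using hh)
    have hder : ∀ t : ℝ, |t| ≤ 1 → ‖deriv f (t : ℂ)‖ ≤ B.toReal / r := by
      intro t ht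
      refine Complex.norm_deriv_le_of_forall_mem_sphere_norm_le (by exact_mod_cast hr) ?_ ?_
      · refine DifferentiableOn.diffContOnCl_ball (U := {s : ℂ | ‖s.im‖₊ * τ < p.h0})
          (fun s hs => (hdiff s hs).differentiableWithinAt) ?_
        intro s hs
        have h1 : ‖s - (t : ℂ)‖ ≤ r := by
          rw [← dist_eq_norm]
          exact Metric.mem_closedBall.1 hs
        have h2 : ‖s.im‖₊ ≤ r := by
          rw [← NNReal.coe_le_coe]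
          have h3 : |(s - (t : ℂ)).im| ≤ ‖s - (t : ℂ)‖ := Complex.abs_im_le_norm _
          have h4 : (s - (t : ℂ)).im = s.im := by simp
          rw [h4] at h3
          simpa using h3.trans h1
        exact lt_of_le_of_lt (mul_le_mul_left h2 τ) hrτ
      · intro s hs
        refine hbd t ht s ?_
        have h1 : ‖s - (t : ℂ)‖₊ = r := by
          rw [← NNReal.coe_inj]
          have := Metric.mem_sphere.1 hs
          rw [dist_eq_norm] at this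
          simpa using this
        rw [h1]
        exact hrτ
    have hmv := norm_image_sub_le_of_norm_deriv_le_segment_01' (f := fun t : ℝ => f (t : ℂ)) (f' := fun t : ℝ => deriv f (t : ℂ))
      (C := B.toReal / r) (fun t _ => ((hreal t).hasDerivAt.comp_ofReal).hasDerivWithinAt)
      (fun t ht => hder t (abs_le.2 ⟨by linarith [ht.1], ht.2.le⟩))
    simpa [hf] using hmv
  -- the limit of the radii
  set ρ : ℝ≥0∞ := (p.h0 : ℝ≥0∞) / (τ : ℝ≥0∞) with hρ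
  have hh0 : (p.h0 : ℝ≥0∞) ≠ 0 := by exact_mod_cast hh.ne'
  have hρ0 : ρ ≠ 0 := ENNReal.div_ne_zero.2 ⟨hh0, ENNReal.coe_ne_top⟩
  have hmul : (‖H (toC μ) - H 0‖₊ : ℝ≥0∞) * ρ ≤ B := by
    refine ENNReal.mul_le_of_forall_lt fun a' ha' b' hb' => ?_
    lift b' to ℝ≥0 using hb'.ne_top
    rcases eq_or_ne b' 0 with rfl | hb0
    · simp
    have hb1 : b' * τ < p.h0 := by
      have := (ENNReal.lt_div_iff_mul_lt (Or.inr ENNReal.coe_ne_top) (Or.inl ENNReal.coe_ne_top)).1 hb'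
      exact_mod_cast this
    have h1 := key b' (pos_iff_ne_zero.2 hb0) hb1
    have hb2 : (0 : ℝ) < b' := by exact_mod_cast pos_iff_ne_zero.2 hb0
    rw [le_div_iff₀ hb2] at h1
    have h2 : (‖H (toC μ) - H 0‖₊ : ℝ≥0∞) * (b' : ℝ≥0∞) ≤ B := by
      rw [← ENNReal.ofReal_toReal hBfin, ← ENNReal.coe_mul, ← ENNReal.ofReal_coe_nnreal]
      refine ENNReal.ofReal_le_ofReal ?_
      simpa using h1
    exact (mul_le_mul_left ha'.le _).trans h2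
  have h5 := (ENNReal.le_div_iff_mul_le (Or.inl hρ0) (Or.inr hBfin)).2 hmul
  rw [div_eq_mul_inv, hρ, ENNReal.inv_div (Or.inl ENNReal.coe_ne_top) (Or.inr hh0)] at h5
  exact h5

end

end Claimed.Agent.R285.F6.Pr
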