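import Claimed.Agent.R285.Obs.PairKit2
import Claimed.Agent.R285.Map.WSing

/-!
# ROW 285, unit OBS, [F] L6.2 (iv), block EST, package (S): THE EXTRACTED SCALARS      (architect helper205; chiefs helper79, helper271)   -- KEEP

[F] observable.tex l.300-322 (statement), l.345-455 (location, copies), l.560-583 (bounds), (obs:extracted-scalars).
Vocabulary: `Obs/PairDefs.lean`; generic context `Ctx0` + kit `pk_*`: `Obs/PairKit.lean` (helper202); context of one step of a square `Pr.Ctx`, sizes `nP nW nD nJ`, `Inv`: `Obs/PairCtx.lean` (helper79).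
`a⁰ = (d0 ..).a`, `a^τ = (dT ..).a`, `\dot a = (dJ ..).a`.   Prefix `prs_`.
LEAVES `L-PAIR-S*`: every `sorry`; the leaf name is in the docstring; all paper-free.  Edit only your theorems (helpers directly above them), pull before landing, never copy the whole file over a newer one.

## Contents
0. bridges `Pr.Ctx → Ctx0` in both norms: `prs_ctx0`, `prs_ctxT`;
1. identities: (obs:scalar-difference) `prs_diff`; (obs:factor-outside) `prs_outside_T`, `prs_outside_J`; reduction of the products over all blocks to the four central blocks `prs_prod_ratio`, `prs_sum_ratio`;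
2. reality: `prs_a0_real`, `prs_aT_real`, `prs_aJ_real`;
3. bounds for a general step: `prs_a0_le`, `prs_diff_le`, `prs_aJ_le`;
4. products: `prs_log`, `prs_factor`, `prs_Dex_succ`, `prs_Dex_bound`, `prs_cex_real`;
5. copies (obs:factor-copy): `Obs/PairSC.lean`;
6. EXITS in the vocabulary of `Pr.Ctx`: `prs_exit_bd`, `prs_exit_J`, `prs_exit_real`, `prs_exit_out`.
-/

set_option autoImplicit false

namespace Claimed.Agent.R285.F6.Pr

open scoped BigOperators ENNReal NNReal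
open MeasureTheory
open Claimed.Agent.R285 Claimed.Agent.R285.RG Claimed.Agent.R285.B8

noncomputable section

variable {G : Geom} {D0 ℓ : ℕ}

/-! ## 0. Bridges -/

section bridge

variable {pm : Prm} {nm : Nm} {cT : ℝ≥0} {k0 kT : KC} {T : Tw G ℓ} {j : ℕ} {h : Ret G ℓ pm.D0 j}

/-- L-PAIR-S10.  `n0 = 0` is impossible: `hyp0.geo` at a singleton `{B}` (`Conn R {B}`, `card = 1`) would give `2 * (cl {B}).card ≤ 1`, but `cl {B} = {up B}`.  A block exists: `(lev G ℓ j).blk (org G)`. -/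
theorem prs_n0_pos (H : Pr.Ctx pm nm cT k0 kT T h) : 1 ≤ pm.c.n0 := by
  by_contra hn
  have h0 : pm.c.n0 = 0 := by omega
  obtain ⟨B, -⟩ : ∃ B : (pair h).g.I, B = (pair h).g.blk (org G) := ⟨_, rfl⟩
  have hconn : (pair h).g.Conn pm.c.R {B} := by
    refine ⟨Finset.singleton_nonempty B, fun a ha b hb => ?_⟩
    rw [Finset.mem_singleton] at ha hb
    rw [ha, hb]
  have h3 := (H.hyp0.geo {B} hconn).2.2 (by rw [h0, Finset.card_singleton]; exact Nat.one_pos)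
  have h4 : ((pair h).N.cl {B}).card = 1 := by
    simp [Nest.cl]
  rw [h4, Finset.card_singleton] at h3
  omega

theorem prs_R_le (H : Pr.Ctx pm nm cT k0 kT T h) : pm.c.R ≤ 2 ^ ℓ := by
  have h1 := prs_n0_pos H
  have h2 := H.hL
  have h3 : pm.c.R ≤ pm.c.R * pm.c.n0 := Nat.le_mul_of_pos_right _ h1
  omega

/-- `geoT`, `Ctx.to0`, `Ctx.toT`: `Obs/PairKit2.lean` (helper202) -/
theorem prs_ctx0 (H : Pr.Ctx pm nm cT k0 kT T h) : Ctx0 pm.c (nm.p0 pm.ω) (T.step h) := H.to0 (prs_R_le H)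

theorem prs_ctxT (H : Pr.Ctx pm nm cT k0 kT T h) : Ctx0 (geoT pm.c cT) (nm.pT pm.ω) (T.stepT h) := H.toT (prs_R_le H)

end bridge

/-! ## 1. Identities -/

/-- L-PAIR-S1. -/
theorem prs_singleWF_eq (g : Grid G) (H0 : ℕ) (α : ℝ) (t z : ℂ) : singleWF g H0 α t z = cutA (WallFree g H0) (B8.single g α t z) := by
  classical
  funext X
  unfold singleWF cutA B8.single
  by_cases hX : WallFree g H0 X
  · rw [if_pos hX]
    refine Finset.sum_congr rfl fun B _ => ?_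
    by_cases hB : X = {B}
    · rw [if_pos hB, if_pos ⟨hB, hB ▸ hX⟩]
    · rw [if_neg hB, if_neg (fun h => hB h.1)]
  · rw [if_neg hX]
    exact Finset.sum_eq_zero fun B _ => if_neg fun (h : X = {B} ∧ WallFree g H0 {B}) => hX (h.1 ▸ h.2)

theorem prs_singleWF_ok (p : Par) (hω : 0 < p.ω) (col R : ℕ) (hcol : 1 ≤ col) (g : Grid G) (H0 : ℕ) (t z : ℂ) :
    Act.Ok p col R (singleWF g H0 (Step.alpha p.ω) t z) := by
  rw [prs_singleWF_eq]
  exact pk_cut_ok p col R _ (w_single_ok p hω col R hcol g t z)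

section ident

variable (S : Step G D0 ℓ) (c : Geo) (ω : ℝ) (zn : Zn) (t z : ℂ) (Ψ : G.V → ℝ)

open Classical in
theorem prs_ofPieces_a (pc : Finset S.P.g.I → S.P.g.I → Fn G) (cn : Finset S.P.g.I → S.P.g.I → ℂ) (b : S.P.g'.I) :
    (ofPieces S c pc cn).a b = ∑ X ∈ S.small c, ∑ B ∈ X.filter (fun B => S.P.N.up B = b), cn X B := rfl

open Classical in
/-- L-PAIR-S1.  (obs:scalar-difference): `Finset.sum_sub_distrib` twice, `Finset.sum_filter`, `cnT = cn0` on shift-good inputs (`if_pos`). -/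
theorem prs_diff (K0 KT : Act S.P.g) (b : S.P.g'.I) :
    (dT S c ω zn t z Ψ K0 KT).a b - (d0 S c ω zn t z K0).a b
      = ∑ X ∈ (S.small c).filter (fun X => ¬ ShiftGood S.P.g zn.H1 X), ∑ B ∈ X.filter (fun B => S.P.N.up B = b),
          (cnT S ω zn t z Ψ K0 KT X B - cn0 S ω zn t z K0 X B) := by
  unfold dT d0
  rw [prs_ofPieces_a, prs_ofPieces_a, ← Finset.sum_sub_distrib, Finset.sum_filter]
  refine Finset.sum_congr rfl fun X _ => ?_
  rw [← Finset.sum_sub_distrib]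
  by_cases h : ShiftGood S.P.g zn.H1 X
  · rw [if_neg (not_not.2 h)]
    refine Finset.sum_eq_zero fun B _ => ?_
    unfold cnT
    rw [if_pos h, sub_self]
  · rw [if_pos h]

/-- L-PAIR-S1.  (obs:factor-outside), first half: `prs_diff`; all inner sums are empty by `prg_defect_central` (a block of a small defect lies over a central coarse block). -/
theorem prs_outside_T (h : Cen S.P) (hL : zn.H1 + c.R * c.n0 + 1 ≤ 2 ^ ℓ) (K0 KT : Act S.P.g) (b : S.P.g'.I) (hb : b ∉ Aff S.P.g' 1) :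
    (dT S c ω zn t z Ψ K0 KT).a b = (d0 S c ω zn t z K0).a b := by
  classical
  rw [← sub_eq_zero, prs_diff]
  refine Finset.sum_eq_zero fun X hX => Finset.sum_eq_zero fun B hB => ?_
  exfalso
  obtain ⟨hX1, hX2⟩ := Finset.mem_filter.1 hX
  obtain ⟨hc1, hc2⟩ := (Finset.mem_filter.1 hX1).2
  obtain ⟨hB1, hB2⟩ := Finset.mem_filter.1 hB
  refine hb ?_
  unfold Aff
  rw [Finset.mem_filter]
  exact ⟨Finset.mem_univ _, hB2 ▸ prg_defect_central h c.R c.n0 zn.H1 hL X hc1 hc2 hX2 B hB1⟩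

/-- the neutral constant of an input which vanishes in its strip vanishes -/
theorem prs_cnJ_zero (h0 : ℝ≥0) (hh : 0 < h0) (JT : Act S.P.g) (X : Finset S.P.g.I) (B : S.P.g.I)
    (h : ∀ w ∈ strip h0 S.P.g X, JT X w = 0) : cnJ S ω Ψ JT X B = 0 := by
  have h1 : ∀ w ∈ strip h0 S.P.g X, chargeProj ω 0 (JT X) w = (0 : Fn G) w := by
    intro w hw
    have e : ∀ t : ℝ, JT X (fun v => w v + (t : ℂ)) = 0 := fun t => h _ (Hol.strip_add_real hw t)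
    simp [chargeProj, e]
  have h2 : conv S.Γ (0 : Fn G) = 0 := by
    funext w
    simp [conv]
  unfold cnJ B8.Step.Hq
  rw [Scal.conv_congr_strip S.Γ h1 (Scal.toC_mem_strip hh S.P.g X Ψ), h2]
  simp

/-- L-PAIR-S1.  (obs:factor-outside), second half: `prg_label_central`; if `X` is not near the unit, `cnJ = 0`: `chargeProj ω 0 0 = 0`, `conv Γ 0 = 0`.
The hypothesis is on the strip only (`Inv.label`): `chargeProj` and `conv` at a REAL field only see real fields, which lie in every strip with `0 < h0` (`Hol.strip_add_real`, `Hol.strip_add_toC`). -/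
theorem prs_outside_J (h : Cen S.P) (hL : c.R * c.n0 + 1 ≤ 2 ^ ℓ) (h0 : ℝ≥0) (hh : 0 < h0) (JT : Act S.P.g)
    (hJ : ∀ X, ¬ NearUnit S.P.g 1 X → ∀ w ∈ strip h0 S.P.g X, JT X w = 0) (b : S.P.g'.I) (hb : b ∉ Aff S.P.g' 1) : (dJ S c ω Ψ JT).a b = 0 := by
  classical
  unfold dJ
  rw [prs_ofPieces_a]
  refine Finset.sum_eq_zero fun X hX => Finset.sum_eq_zero fun B hB => ?_
  refine prs_cnJ_zero S ω Ψ h0 hh JT X B (hJ X fun hn => hb ?_)
  obtain ⟨hc1, hc2⟩ := (Finset.mem_filter.1 hX).2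
  obtain ⟨hB1, hB2⟩ := Finset.mem_filter.1 hB
  unfold Aff
  rw [Finset.mem_filter]
  exact ⟨Finset.mem_univ _, hB2 ▸ prg_label_central h c.R c.n0 hL X hc1 hc2 hn B hB1⟩

end ident

/-- L-PAIR-S1.  The ratio of the two products over ALL blocks is the product over the affected blocks. -/
theorem prs_prod_ratio {ι : Type} [Fintype ι] (A : Finset ι) (a0 aT : ι → ℂ) (h0 : ∀ b, 1 + a0 b ≠ 0) (hout : ∀ b, b ∉ A → aT b = a0 b) :
    (∏ b, (1 + aT b)) = (∏ b ∈ A, (1 + aT b) / (1 + a0 b)) * ∏ b, (1 + a0 b) := by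
  classical
  have h1 : ∀ b, 1 + aT b = (if b ∈ A then (1 + aT b) / (1 + a0 b) else 1) * (1 + a0 b) := by
    intro b
    by_cases hb : b ∈ A
    · rw [if_pos hb, div_mul_cancel₀ _ (h0 b)]
    · rw [if_neg hb, one_mul, hout b hb]
  calc ∏ b, (1 + aT b) = ∏ b, ((if b ∈ A then (1 + aT b) / (1 + a0 b) else 1) * (1 + a0 b)) :=
        Finset.prod_congr rfl fun b _ => h1 b
    _ = (∏ b, if b ∈ A then (1 + aT b) / (1 + a0 b) else 1) * ∏ b, (1 + a0 b) := Finset.prod_mul_distrib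
    _ = _ := by rw [Finset.prod_ite_mem, Finset.univ_inter]

/-- L-PAIR-S1. -/
theorem prs_sum_ratio {ι : Type} [Fintype ι] (A : Finset ι) (aT aJ : ι → ℂ) (hout : ∀ b, b ∉ A → aJ b = 0) :
    ∑ b, aJ b / (1 + aT b) = ∑ b ∈ A, aJ b / (1 + aT b) :=
  (Finset.sum_subset (Finset.subset_univ A) fun b _ hb => by rw [hout b hb, zero_div]).symm

/-- L-PAIR-S1.  `Aff g 1 ⊆ {n/2 - 1, n/2}²` (image of a 4-element set, or `prg_box_card`). -/
theorem prs_Aff_card (g : Grid G) : (Aff g 1).card ≤ 4 := by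
  classical
  have h := Finset.card_le_card_of_injOn (s := Aff g 1) (t := Finset.range 2 ×ˢ Finset.range 2)
    (fun a => ((a.1 : ℕ) + 1 - g.n / 2, (a.2 : ℕ) + 1 - g.n / 2))
    (by
      intro a ha
      obtain ⟨h1, h2, h3, h4⟩ := (Finset.mem_filter.1 (Finset.mem_coe.1 ha)).2
      rw [Finset.mem_coe, Finset.mem_product, Finset.mem_range, Finset.mem_range]
      constructor <;> simp only <;> omega)
    (by
      intro a ha a' ha' haa
      obtain ⟨h1, h2, h3, h4⟩ := (Finset.mem_filter.1 (Finset.mem_coe.1 ha)).2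
      obtain ⟨h1', h2', h3', h4'⟩ := (Finset.mem_filter.1 (Finset.mem_coe.1 ha')).2
      simp only [Prod.mk.injEq] at haa
      obtain ⟨e1, e2⟩ := haa
      exact Prod.ext (Fin.ext (by omega)) (Fin.ext (by omega)))
  simpa using h

/-! ## 2. Reality -/

section real

theorem prs_integral_im {α : Type} [MeasurableSpace α] (μ : Measure α) (f : α → ℂ) (hf : ∀ x, (f x).im = 0) :
    (∫ x, f x ∂μ).im = 0 := by
  have e : f = fun x => (((f x).re : ℝ) : ℂ) := by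
    funext x
    exact Complex.ext (by simp) (by simp [hf x])
  rw [e]
  have h2 : ∫ x, (((f x).re : ℝ) : ℂ) ∂μ = ((∫ x, (f x).re ∂μ : ℝ) : ℂ) := integral_ofReal
  exact (congrArg Complex.im h2).trans (Complex.ofReal_im _)

theorem prs_im_mul {a b : ℂ} (ha : a.im = 0) (hb : b.im = 0) : (a * b).im = 0 := by
  simp [Complex.mul_im, ha, hb]

theorem prs_im_inv_card (n : ℕ) : (1 / (n : ℂ)).im = 0 := by
  have : (1 / (n : ℂ)) = (((1 / (n : ℝ)) : ℝ) : ℂ) := by push_cast; rfl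
  rw [this]
  exact Complex.ofReal_im _

theorem prs_toC_zero : toC (0 : G.V → ℝ) = 0 := by
  funext v
  simp [toC]

/-- L-PAIR-S2.  `conv Γ F (toC φ) = ∫ F (toC (φ + ζ))`; the imaginary part of an integral: if integrable `Complex.imCLM.integral_comp_comm` (or `integral_ofReal`-type rewriting `F (..) = ((F (..)).re : ℂ)`), else the integral is `0`. -/
theorem prs_conv_real (Γ : Matrix G.V G.V ℝ) (F : Fn G) (hF : ∀ ψ : G.V → ℝ, (F (toC ψ)).im = 0) (φ : G.V → ℝ) :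
    (conv Γ F (toC φ)).im = 0 := by
  unfold conv
  refine prs_integral_im _ _ fun ζ => ?_
  have e : toC φ + toC ζ = toC (φ + ζ) := by
    funext v
    simp [toC]
  rw [e]
  exact hF _

/-- L-PAIR-S2.  `q = 0`: the character is `1`. -/
theorem prs_charge_real (ω : ℝ) (F : Fn G) (hF : ∀ ψ : G.V → ℝ, (F (toC ψ)).im = 0) (φ : G.V → ℝ) :
    (chargeProj ω 0 F (toC φ)).im = 0 := by
  unfold chargeProj
  refine prs_im_mul (Complex.ofReal_im _) ?_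
  rw [intervalIntegral, Complex.sub_im]
  have key : ∀ t : ℝ, (Complex.exp (-(Complex.I * ((0 : ℤ) : ℂ) * ((2 * Real.pi / ω : ℝ) : ℂ) * t)) * F fun v => toC φ v + (t : ℂ)).im = 0 := by
    intro t
    have e : (fun v => toC φ v + (t : ℂ)) = toC (fun v => φ v + t) := by
      funext v
      simp [toC]
    rw [e]
    simp [hF]
  rw [prs_integral_im _ _ key, prs_integral_im _ _ key, sub_zero]

variable (S : Step G D0 ℓ) (c : Geo) (ω : ℝ) (zn : Zn) (t z : ℂ) (Ψ : G.V → ℝ)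

theorem prs_Hq_real (K : Act S.P.g) (hK : Act.Real K) (X : Finset S.P.g.I) (φ : G.V → ℝ) : (S.Hq ω 0 K X (toC φ)).im = 0 :=
  prs_conv_real _ _ (fun ψ => prs_charge_real ω _ (hK X) ψ) φ

theorem prs_eBC_real (g : Grid G) (B : g.I) (φ : G.V → ℝ) : (eBC g B (toC φ)).im = 0 := by
  have h := w_eBC_conj g B (toC φ)
  have e : (fun v => starRingEnd ℂ (toC φ v)) = toC φ := by
    funext v
    simp [toC]
  rw [e] at h
  exact Complex.conj_eq_iff_im.1 h.symm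

theorem prs_cBC_real (g : Grid G) (α : ℝ) (B : g.I) (φ : G.V → ℝ) : (cBC g α B (toC φ)).im = 0 := by
  have h := w_cBC_conj g α B (toC φ)
  have e : (fun v => starRingEnd ℂ (toC φ v)) = toC φ := by
    funext v
    simp [toC]
  rw [e] at h
  exact Complex.conj_eq_iff_im.1 h.symm

theorem prs_half_im {t : ℂ} (ht : t.im = 0) : (t / 2).im = 0 := by
  have : t / 2 = t * (((1 / 2 : ℝ) : ℝ) : ℂ) := by push_cast; ring
  rw [this]
  exact prs_im_mul ht (Complex.ofReal_im _)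

/-- L-PAIR-S2.  `eBC`, `cBC` are real on real fields (`w_eBC_conj`, `w_cBC_conj` in `Map/WSing.lean`, or by definition). -/
theorem prs_R0_real (K0 : Act S.P.g) (hK : Act.Real K0) (ht : t.im = 0) (hz : z.im = 0) : Act.Real (R0 S ω zn t z K0) := by
  classical
  intro X φ
  unfold R0 singleWF
  rw [Pi.sub_apply, Pi.sub_apply, Complex.sub_im, hK X φ, Finset.sum_apply, Complex.im_sum, zero_sub, neg_eq_zero]
  refine Finset.sum_eq_zero fun B _ => ?_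
  split_ifs with h
  · simp only [Pi.add_apply, Pi.smul_apply, smul_eq_mul, Complex.add_im]
    rw [prs_im_mul (prs_half_im ht) (prs_eBC_real _ B φ), prs_im_mul hz (prs_cBC_real _ _ B φ), add_zero]
  · rfl

/-- L-PAIR-S2.  `0 = toC 0`; `prs_Hq_real`, `prs_R0_real`, `prs_conv_real` for `eBC`. -/
theorem prs_cn0_real (K0 : Act S.P.g) (hK : Act.Real K0) (ht : t.im = 0) (hz : z.im = 0) (X : Finset S.P.g.I) (B : S.P.g.I) :
    (cn0 S ω zn t z K0 X B).im = 0 := by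
  classical
  unfold cn0
  split_ifs with h1 h2
  · rw [Complex.add_im, ← prs_toC_zero]
    rw [prs_im_mul (prs_im_inv_card _) (prs_Hq_real S ω _ (prs_R0_real S ω zn t z K0 hK ht hz) X 0),
      prs_im_mul (prs_half_im ht) (prs_conv_real _ _ (fun ψ => prs_eBC_real _ B ψ) 0), add_zero]
  · rw [Complex.add_im, ← prs_toC_zero]
    rw [prs_im_mul (prs_im_inv_card _) (prs_Hq_real S ω _ (prs_R0_real S ω zn t z K0 hK ht hz) X 0)]
    simp
  · rw [← prs_toC_zero]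
    exact prs_im_mul (prs_im_inv_card _) (prs_Hq_real S ω _ hK X 0)

/-- L-PAIR-S2. -/
theorem prs_a0_real (K0 : Act S.P.g) (hK : Act.Real K0) (ht : t.im = 0) (hz : z.im = 0) (b : S.P.g'.I) :
    ((d0 S c ω zn t z K0).a b).im = 0 := by
  classical
  unfold d0
  rw [prs_ofPieces_a, Complex.im_sum]
  refine Finset.sum_eq_zero fun X _ => ?_
  rw [Complex.im_sum]
  exact Finset.sum_eq_zero fun B _ => prs_cn0_real S ω zn t z K0 hK ht hz X B

/-- L-PAIR-S2. -/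
theorem prs_aT_real (K0 KT : Act S.P.g) (hK : Act.Real K0) (hKT : Act.Real KT) (ht : t.im = 0) (hz : z.im = 0) (b : S.P.g'.I) :
    ((dT S c ω zn t z Ψ K0 KT).a b).im = 0 := by
  classical
  unfold dT
  rw [prs_ofPieces_a, Complex.im_sum]
  refine Finset.sum_eq_zero fun X _ => ?_
  rw [Complex.im_sum]
  refine Finset.sum_eq_zero fun B _ => ?_
  unfold cnT
  split_ifs with h
  · exact prs_cn0_real S ω zn t z K0 hK ht hz X B
  · exact prs_im_mul (prs_im_inv_card _) (prs_Hq_real S ω _ hKT X Ψ)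

/-- L-PAIR-S2. -/
theorem prs_aJ_real (JT : Act S.P.g) (hJ : Act.Real JT) (b : S.P.g'.I) : ((dJ S c ω Ψ JT).a b).im = 0 := by
  classical
  unfold dJ
  rw [prs_ofPieces_a, Complex.im_sum]
  refine Finset.sum_eq_zero fun X _ => ?_
  rw [Complex.im_sum]
  refine Finset.sum_eq_zero fun B _ => ?_
  unfold cnJ
  exact prs_im_mul (prs_im_inv_card _) (prs_Hq_real S ω _ hJ X Ψ)

end real

/-! ## 3. Bounds, general step -/

/-- the size of the centred state seen by the scalars: `|t| + ‖R0‖` on wall-free supports `+ ‖K0‖` on the other supports  (`≤ nP + nW`) -/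
def sz0 (p : Par) (S : Step G D0 ℓ) (zn : Zn) (t z : ℂ) (K0 : Act S.P.g) : ℝ≥0∞ :=
  (‖t‖₊ : ℝ≥0∞) + actNorm p S.P.g S.Vf (cutA (WallFree S.P.g zn.H0) (R0 S p.ω zn t z K0))
    + actNorm p S.P.g S.Vf (cutA (fun X => ¬ WallFree S.P.g zn.H0 X) K0)

/-- L-PAIR-S3.  `|E e_B^0 (ζ)| ≤ 8 C_k`, any boundary condition: the proof of `B8.w_conv_eBC_zero` (`Map/WSing.lean`, periodic case) with `card (sites {B}) ≤ (2 m)²` (`Grid.Ok.size`) instead of `= m²`. -/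
theorem prs_eB_mean (Ck ck : ℝ) (L : ℕ) (g : Grid G) (hg : g.Ok) (Γ : Matrix G.V G.V ℝ) (hΓ : Γ.PosSemidef)
    (hb : ShellBounds G Ck ck L g.m Γ) (B : g.I) : ‖conv Γ (eBC g B) 0‖ ≤ 8 * Ck := by
  rw [w5_conv_eBC_eq g Γ hΓ B 0, w5_eBC_zero, zero_add, Complex.norm_real, Real.norm_eq_abs]
  have hm : (0 : ℝ) < g.m := by exact_mod_cast hg.pos
  have hsq : ∀ (v : G.V) (e : Fin 4), ∫ ζ : G.V → ℝ, dif (dir e) (G.lift ζ) (G.ι v) ^ 2 ∂(gauss G Γ)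
      = kdif G ![e] ![e] Γ (G.ι v) (G.ι v) := fun v e => w5_dif_sq Γ hΓ v e
  have hCk : 0 ≤ Ck := by
    obtain ⟨v⟩ : Nonempty G.V := ⟨org G⟩
    have h := (abs_nonneg _).trans (hb.mixed 1 1 (by norm_num) (by norm_num) ![0] ![0] v v)
    have hp : 0 < ((((g.m : ℝ) + G.dist v v) ^ (1 + 1))⁻¹) := by positivity
    exact nonneg_of_mul_nonneg_left h hp
  have hbd : ∀ (v : G.V) (e : Fin 4), |kdif G ![e] ![e] Γ (G.ι v) (G.ι v)| ≤ Ck * ((g.m : ℝ) ^ 2)⁻¹ := by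
    intro v e
    refine (hb.mixed 1 1 (by norm_num) (by norm_num) ![e] ![e] v v).trans (mul_le_mul_of_nonneg_left ?_ hCk)
    have hd : (0 : ℝ) ≤ G.dist v v := Nat.cast_nonneg _
    exact inv_anti₀ (by positivity) (pow_le_pow_left₀ hm.le (by linarith) 2)
  have hcard : ((g.sites {B}).card : ℝ) ≤ 4 * (g.m : ℝ) ^ 2 := by
    have h1 : g.sites {B} = (Finset.univ.filter fun i => g.blk1 i = B.1) ×ˢ (Finset.univ.filter fun i => g.blk1 i = B.2) := by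
      ext v
      simp only [Grid.sites, Grid.blk, Finset.mem_filter, Finset.mem_univ, true_and, Finset.mem_singleton, Finset.mem_product]
      exact Prod.ext_iff
    rw [h1, Finset.card_product]
    have a1 : (((Finset.univ.filter fun i => g.blk1 i = B.1).card : ℕ) : ℝ) ≤ 2 * (g.m : ℝ) := by
      exact_mod_cast (hg.size B.1).2.le
    have a2 : (((Finset.univ.filter fun i => g.blk1 i = B.2).card : ℕ) : ℝ) ≤ 2 * (g.m : ℝ) := by
      exact_mod_cast (hg.size B.2).2.le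
    push_cast
    calc _ ≤ (2 * (g.m : ℝ)) * (2 * (g.m : ℝ)) := mul_le_mul a1 a2 (Nat.cast_nonneg _) (by positivity)
      _ = 4 * (g.m : ℝ) ^ 2 := by ring
  unfold eB gE
  rw [integral_const_mul, integral_finsetSum _ fun v _ => integrable_finsetSum _ fun e _ => (w5_dif_memLp Γ _ _).integrable_sq]
  simp only [integral_finsetSum _ fun e _ => (w5_dif_memLp Γ _ _).integrable_sq, hsq]
  rw [abs_mul, abs_of_pos (by norm_num : (0 : ℝ) < 1 / 2)]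
  have h2 : |∑ v ∈ g.sites {B}, ∑ e : Fin 4, kdif G ![e] ![e] Γ (G.ι v) (G.ι v)| ≤ (g.sites {B}).card • (4 * (Ck * ((g.m : ℝ) ^ 2)⁻¹)) := by
    refine (Finset.abs_sum_le_sum_abs _ _).trans (Finset.sum_le_card_nsmul _ _ _ fun v _ => ?_)
    refine (Finset.abs_sum_le_sum_abs _ _).trans ((Finset.sum_le_card_nsmul _ _ _ fun e _ => hbd v e).trans (le_of_eq ?_))
    simp
  rw [nsmul_eq_mul] at h2
  have h3 : ((g.sites {B}).card : ℝ) * (4 * (Ck * ((g.m : ℝ) ^ 2)⁻¹)) ≤ 4 * (g.m : ℝ) ^ 2 * (4 * (Ck * ((g.m : ℝ) ^ 2)⁻¹)) :=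
    mul_le_mul_of_nonneg_right hcard (by positivity)
  have h4 : 4 * (g.m : ℝ) ^ 2 * (4 * (Ck * ((g.m : ℝ) ^ 2)⁻¹)) = 16 * Ck := by field_simp; ring
  rw [h4] at h3
  linarith

/-- L-PAIR-S3.  Translations of the whole field commute with the charge projections and with the Gaussian convolution (pure rewriting under the integrals: `add_right_comm`). -/
theorem prs_Hq_shift (S : Step G D0 ℓ) (ω : ℝ) (q : ℤ) (K : Act S.P.g) (lam : G.V → ℝ) (X : Finset S.P.g.I) (w : G.V → ℂ) :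
    S.Hq ω q (shA K lam) X w = S.Hq ω q K X (w + toC lam) := by
  have h1 : ∀ u : G.V → ℂ, chargeProj ω q (shF (K X) lam) u = chargeProj ω q (K X) (u + toC lam) := by
    intro u
    unfold chargeProj shF
    congr 1
    refine intervalIntegral.integral_congr fun s _ => ?_
    show _ * K X ((fun v => u v + (s : ℂ)) + toC lam) = _ * K X (fun v => (u + toC lam) v + (s : ℂ))
    congr 2
    funext v
    simp only [Pi.add_apply]
    ring
  show conv S.Γ (chargeProj ω q (shF (K X) lam)) w = conv S.Γ (chargeProj ω q (K X)) (w + toC lam)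
  unfold conv
  refine integral_congr_ae (Filter.Eventually.of_forall fun ζ => ?_)
  show chargeProj ω q (shF (K X) lam) (w + toC ζ) = chargeProj ω q (K X) (w + toC lam + toC ζ)
  rw [h1, add_right_comm]

/-- L-PAIR-S3.  A real translation preserves the class (`Hol.strip_add_toC`; `DifferentiableOn.comp` with `z ↦ z + toC lam`). -/
theorem prs_shA_ok (p : Par) (col R : ℕ) {g : Grid G} {K : Act g} (hK : Act.Ok p col R K) (lam : G.V → ℝ) : Act.Ok p col R (shA K lam) := by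
  refine ⟨fun X => ⟨?_, ?_, ?_⟩, fun X hX => ?_⟩
  · have h1 : DifferentiableOn ℂ (fun z : G.V → ℂ => z + toC lam) (strip p.h0 g X) :=
      (differentiable_id.add (differentiable_const _)).differentiableOn
    exact (hK.fn X).hol.comp h1 fun z hz => Hol.strip_add_toC hz lam
  · intro z hz z' hz' hzz
    refine (hK.fn X).loc (z + toC lam) (Hol.strip_add_toC hz lam) (z' + toC lam) (Hol.strip_add_toC hz' lam) fun v hv => ?_
    simp only [Pi.add_apply]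
    rw [hzz v hv]
  · intro z hz
    have h1 := (hK.fn X).per (z + toC lam) (Hol.strip_add_toC hz lam)
    show K X ((fun v => z v + (p.ω : ℂ)) + toC lam) = K X (z + toC lam)
    rw [← h1]
    congr 1
    funext v
    simp only [Pi.add_apply]
    ring
  · funext z
    show K X (z + toC lam) = 0
    rw [hK.poly X hX]
    rfl

theorem prs_fnSize_le_cut (p : Par) (hA : 1 ≤ p.A) (g : Grid G) (V : Extra g) (𝒞 : Finset g.I → Prop) (K : Act g) (X : Finset g.I) (hX : 𝒞 X) :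
    fnSize p g V X (K X) ≤ actNorm p g V (cutA 𝒞 K) := by
  have h1 := w_fnSize_le_actNorm p hA g V (cutA 𝒞 K) X
  rwa [pk_cut_pos K hX] at h1

section bounds

variable {c : Geo} {p : Par} {S : Step G D0 ℓ}

/-- the value of `E F` at a REAL field `φ` costs the coarse regulator at `φ` -/
theorem prs_conv_at_le (h : Ctx0 c p S) (X : Finset S.P.g.I) (F : Fn G) (φ : G.V → ℝ) :
    (‖conv S.Γ F (toC φ)‖₊ : ℝ≥0∞)
      ≤ (c.cst : ℝ≥0∞) ^ X.card * fnSize p S.P.g S.Vf X F * ENNReal.ofReal (Wt S.P.g' p.δ p.κ S.Vc (S.P.N.cl X) φ) := by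
  have h1 := Hol.nnnorm_le_fnSize_mul p S.P.g' S.Vc (S.P.N.cl X) (conv S.Γ F) φ 0 (by rw [Hol.tnorm_zero]; exact_mod_cast h.hh)
  rw [add_zero] at h1
  exact h1.trans (mul_le_mul' (pk_conv_size h X _ (Finset.Subset.refl _) F) le_rfl)

/-- the value of `H_q^X` at a REAL reference field -/
theorem prs_Hq_at_le (h : Ctx0 c p S) {K : Act S.P.g} (hK : Act.Ok p c.col c.R K) (q : ℤ) (X : Finset S.P.g.I) (φ : G.V → ℝ) :
    (‖S.Hq p.ω q K X (toC φ)‖₊ : ℝ≥0∞)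
      ≤ (c.cst : ℝ≥0∞) ^ X.card * fnSize p S.P.g S.Vf X (K X) * ENNReal.ofReal (Wt S.P.g' p.δ p.κ S.Vc (S.P.N.cl X) φ) :=
  (prs_conv_at_le h X _ φ).trans
    (mul_le_mul' (mul_le_mul' le_rfl (B4.charge_proj p h.hω c.col S.P.g S.Vf X (K X) (hK.fn X) q).2.1) le_rfl)

theorem prsc_toC_strip {h0 : ℝ≥0} (hh : 0 < h0) (g : Grid G) (X : Finset g.I) (φ : G.V → ℝ) : toC φ ∈ strip h0 g X := by
  rw [Hol.mem_strip]
  have e : (fun v => (toC φ v).im) = (0 : G.V → ℝ) := by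
    funext v
    simp [toC]
  rw [e, Hol.tnorm_zero]
  exact hh

/-- neutrality: `H_0` is blind to constants -/
theorem prs_Hq_const (h : Ctx0 c p S) {K : Act S.P.g} (hK : Act.Ok p c.col c.R K) (X : Finset S.P.g.I) {z : G.V → ℂ} (a : ℂ) (hz : z ∈ strip p.h0 S.P.g X)
    (hz' : (fun v => z v + a) ∈ strip p.h0 S.P.g X) : S.Hq p.ω 0 K X (fun v => z v + a) = S.Hq p.ω 0 K X z := by
  unfold Step.Hq conv
  refine integral_congr_ae (Filter.Eventually.of_forall fun ζ => ?_)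
  simp only
  have e : (fun v => z v + a) + toC ζ = fun v => (z + toC ζ) v + a := by
    funext v
    simp only [Pi.add_apply]
    ring
  have h1 := (B4.charge_proj p h.hω c.col S.P.g S.Vf X (K X) (hK.fn X) 0).2.2 (z + toC ζ) a (Hol.strip_add_toC hz ζ) (by
    have := Hol.strip_add_toC hz' ζ
    rwa [e] at this)
  rw [e, h1]
  simp

/-- **the cost of a reference field** `η` (`= Ψ_ref - v_n/α`) on the closure of `X`: up to a constant and a perturbation inside the analyticity strip, `η` is a field `φ` whose coarse regulator is `≤ CΨ`.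
Producers: `RefCost.of_tnorm` (block REG, (R4): `CΨ = 1`), `RefCost.of_wt`. -/
def RefCost (p : Par) (S : Step G D0 ℓ) (X : Finset S.P.g.I) (η : G.V → ℝ) (CΨ : ℝ≥0∞) : Prop :=
  ∃ (a : ℝ) (φ : G.V → ℝ), tnorm S.P.g' (S.P.N.cl X) (fun v => η v - a - φ v) < p.h0 ∧
    ENNReal.ofReal (Wt S.P.g' p.δ p.κ S.Vc (S.P.N.cl X) φ) ≤ CΨ

/-- (R4): a reference field which is constant up to less than `h₀` costs nothing -/
theorem RefCost.of_tnorm {X : Finset S.P.g.I} {η : G.V → ℝ} (a : ℝ) (hη : tnorm S.P.g' (S.P.N.cl X) (fun v => η v - a) < p.h0) : RefCost p S X η 1 := by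
  refine ⟨a, 0, ?_, ?_⟩
  · simpa using hη
  · rw [Loc.loc_Wt_zero, ENNReal.ofReal_one]

theorem RefCost.of_wt (hh : 0 < p.h0) {X : Finset S.P.g.I} {η : G.V → ℝ} {CΨ : ℝ≥0∞}
    (hη : ENNReal.ofReal (Wt S.P.g' p.δ p.κ S.Vc (S.P.N.cl X) η) ≤ CΨ) : RefCost p S X η CΨ := by
  refine ⟨0, η, ?_, hη⟩
  have e : (fun v => η v - 0 - η v) = (0 : G.V → ℝ) := by
    funext v
    simp
  rw [e, Hol.tnorm_zero]
  exact hh

/-- the value of the neutral part at a reference field -/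
theorem prs_Hq_ref_le (h : Ctx0 c p S) {K : Act S.P.g} (hK : Act.Ok p c.col c.R K) (X : Finset S.P.g.I) (η : G.V → ℝ) (CΨ : ℝ≥0∞)
    (hη : RefCost p S X η CΨ) :
    (‖S.Hq p.ω 0 K X (toC η)‖₊ : ℝ≥0∞) ≤ (c.cst : ℝ≥0∞) ^ X.card * fnSize p S.P.g S.Vf X (K X) * CΨ := by
  obtain ⟨a, φ, h1, h2⟩ := hη
  have e1 : toC η = fun v => toC (fun v => η v - a) v + ((a : ℝ) : ℂ) := by
    funext v
    simp [toC]
  have e2 : toC (fun v => η v - a) = toC φ + toC (fun v => η v - a - φ v) := by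
    funext v
    simp [toC]
  have h3 := prs_Hq_const h hK X ((a : ℝ) : ℂ) (prsc_toC_strip h.hh S.P.g X (fun v => η v - a)) (by
    rw [← e1]; exact prsc_toC_strip h.hh S.P.g X η)
  rw [e1, h3, e2]
  have h4 := Hol.nnnorm_le_fnSize_mul p S.P.g' S.Vc (S.P.N.cl X) (S.Hq p.ω 0 K X) φ (toC (fun v => η v - a - φ v)) (by
    rw [Hol.tnorm_toC]; exact h1)
  exact h4.trans (mul_le_mul' (pk_Hq_size h hK 0 X _ (Finset.Subset.refl _)) h2)

/-- `‖(1/|X|) a‖ ≤ ‖a‖` -/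
theorem prs_S3_inv_card {ι : Type} (X : Finset ι) (a : ℂ) : (‖(1 / (X.card : ℂ)) * a‖₊ : ℝ≥0∞) ≤ (‖a‖₊ : ℝ≥0∞) := by
  rw [nnnorm_mul, ENNReal.coe_mul]
  have h1 : (‖(1 / (X.card : ℂ))‖₊ : ℝ≥0∞) ≤ 1 := by
    rw [← ENNReal.coe_one, ENNReal.coe_le_coe, ← NNReal.coe_le_coe, coe_nnnorm, NNReal.coe_one, norm_div, norm_one,
      Complex.norm_natCast]
    rcases Nat.eq_zero_or_pos X.card with h0 | h0
    · rw [h0]; simp
    · rw [div_le_one (by exact_mod_cast h0)]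
      exact_mod_cast h0
  calc _ ≤ 1 * (‖a‖₊ : ℝ≥0∞) := mul_le_mul' h1 le_rfl
    _ = _ := one_mul _

/-- `cst^{|X|} ≤ (max 1 cst)^{n0}` -/
theorem prs_S3_cst_pow (cst : ℝ≥0) {k n0 : ℕ} (hk : k ≤ n0) : (cst : ℝ≥0∞) ^ k ≤ ((max 1 cst : ℝ≥0) : ℝ≥0∞) ^ n0 := by
  have h1 : (cst : ℝ≥0∞) ≤ ((max 1 cst : ℝ≥0) : ℝ≥0∞) := ENNReal.coe_le_coe.2 (le_max_right _ _)
  have h2 : (1 : ℝ≥0∞) ≤ ((max 1 cst : ℝ≥0) : ℝ≥0∞) := by
    rw [← ENNReal.coe_one]
    exact ENNReal.coe_le_coe.2 (le_max_left _ _)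
  exact (pow_le_pow_left₀ zero_le h1 k).trans (pow_le_pow_right₀ h2 hk)

/-- L-PAIR-S3.  One centred constant.  Wall-free `X`: `pk_Hq_zero_le` for `R0`, `prs_fnSize_le_cut`, `prs_eB_mean` (`‖t/2‖ * 8 C_k`; `h.shell` contains the `ShellBounds`); otherwise `pk_Hq_zero_le` for `K0`.
`‖1/|X|‖ ≤ 1`; `cst^{|X|} ≤ (max 1 cst)^{n0}`. -/
theorem prs_cn0_le (h : Ctx0 c p S) (zn : Zn) (t z : ℂ) (K0 : Act S.P.g) (hK : Act.Ok p c.col c.R K0)
    (X : Finset S.P.g.I) (hX : X ∈ S.small c) (B : S.P.g.I) :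
    (‖cn0 S p.ω zn t z K0 X B‖₊ : ℝ≥0∞) ≤ ((max 1 c.cst : ℝ≥0) ^ c.n0 + ENNReal.ofReal (4 * c.Ck)) * sz0 p S zn t z K0 := by
  have hcard : X.card ≤ c.n0 := (B8.w_mem_small.1 hX).2
  have hpow := prs_S3_cst_pow c.cst hcard
  obtain ⟨M, hM⟩ : ∃ M : ℝ≥0∞, M = ((max 1 c.cst : ℝ≥0) : ℝ≥0∞) ^ c.n0 := ⟨_, rfl⟩
  obtain ⟨a2, ha2⟩ : ∃ a : ℝ≥0∞, a = actNorm p S.P.g S.Vf (cutA (WallFree S.P.g zn.H0) (R0 S p.ω zn t z K0)) := ⟨_, rfl⟩
  obtain ⟨a3, ha3⟩ : ∃ a : ℝ≥0∞, a = actNorm p S.P.g S.Vf (cutA (fun X => ¬ WallFree S.P.g zn.H0 X) K0) := ⟨_, rfl⟩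
  have hsz : sz0 p S zn t z K0 = (‖t‖₊ : ℝ≥0∞) + a2 + a3 := by rw [ha2, ha3]; rfl
  rw [hsz, ← hM]
  rw [← hM] at hpow
  unfold cn0
  by_cases hW : WallFree S.P.g zn.H0 X
  · rw [if_pos hW]
    have hR : Act.Ok p c.col c.R (R0 S p.ω zn t z K0) :=
      w_actOk_sub p c.col c.R hK (prs_singleWF_ok p h.hω c.col c.R h.geo.col_pos S.P.g zn.H0 t z)
    have h1 : (‖(1 / (X.card : ℂ)) * S.Hq p.ω 0 (R0 S p.ω zn t z K0) X 0‖₊ : ℝ≥0∞) ≤ M * a2 := by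
      refine (prs_S3_inv_card X _).trans ((pk_Hq_zero_le h hR 0 X).trans (mul_le_mul' hpow ?_))
      rw [ha2]
      exact prs_fnSize_le_cut p h.hA S.P.g S.Vf _ _ X hW
    have h2 : (‖(if X = {B} then (t / 2) * conv S.Γ (eBC S.P.g B) 0 else 0 : ℂ)‖₊ : ℝ≥0∞) ≤ ENNReal.ofReal (4 * c.Ck) * (‖t‖₊ : ℝ≥0∞) := by
      split_ifs
      · have h3 := prs_eB_mean c.Ck c.ck (2 ^ ℓ) S.P.g S.P.ok S.Γ h.psd h.shell.bounds B
        have h4 : ‖(t / 2) * conv S.Γ (eBC S.P.g B) 0‖ ≤ 4 * c.Ck * ‖t‖ := by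
          rw [norm_mul, norm_div]
          have : ‖(2 : ℂ)‖ = 2 := by simp
          rw [this]
          nlinarith [norm_nonneg t, norm_nonneg (conv S.Γ (eBC S.P.g B) 0)]
        have hCk : 0 ≤ 4 * c.Ck := by linarith [(norm_nonneg _).trans h3]
        rw [← enorm_eq_nnnorm, ← enorm_eq_nnnorm, ← ofReal_norm, ← ofReal_norm, ← ENNReal.ofReal_mul hCk]
        exact ENNReal.ofReal_le_ofReal h4
      · simp
    calc _ ≤ (‖(1 / (X.card : ℂ)) * S.Hq p.ω 0 (R0 S p.ω zn t z K0) X 0‖₊ : ℝ≥0∞)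
          + (‖(if X = {B} then (t / 2) * conv S.Γ (eBC S.P.g B) 0 else 0 : ℂ)‖₊ : ℝ≥0∞) := by
            rw [← ENNReal.coe_add, ENNReal.coe_le_coe]
            exact nnnorm_add_le _ _
      _ ≤ M * a2 + ENNReal.ofReal (4 * c.Ck) * (‖t‖₊ : ℝ≥0∞) := add_le_add h1 h2
      _ ≤ (M + ENNReal.ofReal (4 * c.Ck)) * ((‖t‖₊ : ℝ≥0∞) + a2 + a3) := by
          have e : (M + ENNReal.ofReal (4 * c.Ck)) * ((‖t‖₊ : ℝ≥0∞) + a2 + a3) =
              (M * a2 + ENNReal.ofReal (4 * c.Ck) * (‖t‖₊ : ℝ≥0∞)) +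
                (M * (‖t‖₊ : ℝ≥0∞) + M * a3 + ENNReal.ofReal (4 * c.Ck) * a2 + ENNReal.ofReal (4 * c.Ck) * a3) := by ring
          rw [e]
          exact le_self_add
  · rw [if_neg hW]
    have h1 : (‖(1 / (X.card : ℂ)) * S.Hq p.ω 0 K0 X 0‖₊ : ℝ≥0∞) ≤ M * a3 := by
      refine (prs_S3_inv_card X _).trans ((pk_Hq_zero_le h hK 0 X).trans (mul_le_mul' hpow ?_))
      rw [ha3]
      exact prs_fnSize_le_cut p h.hA S.P.g S.Vf (fun X => ¬ WallFree S.P.g zn.H0 X) _ X hW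
    exact h1.trans (mul_le_mul' le_self_add le_add_self)

/-- The neutral constant of a function of the TOTAL field at the reference field: `prs_Hq_shift`, `prs_Hq_ref_le` at `η = Ψ - lam` (`toC (Ψ - lam) + toC lam = toC Ψ`). -/
theorem prs_ref_le (h : Ctx0 c p S) (K : Act S.P.g) (lam Ψ : G.V → ℝ) (hK : Act.Ok p c.col c.R (shA K lam)) (X : Finset S.P.g.I) (hX : X ∈ S.small c)
    (CΨ : ℝ≥0∞) (hη : RefCost p S X (Ψ - lam) CΨ) :
    (‖(1 / (X.card : ℂ)) * S.Hq p.ω 0 K X (toC Ψ)‖₊ : ℝ≥0∞) ≤ (max 1 c.cst : ℝ≥0) ^ c.n0 * fnSize p S.P.g S.Vf X (shA K lam X) * CΨ := by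
  have hcard : X.card ≤ c.n0 := (B8.w_mem_small.1 hX).2
  have hpow := prs_S3_cst_pow c.cst hcard
  have e1 : toC (Ψ - lam) + toC lam = toC Ψ := by
    funext v
    simp [toC]
  have h1 := prs_Hq_ref_le h hK X (Ψ - lam) CΨ hη
  rw [prs_Hq_shift, e1] at h1
  exact (prs_S3_inv_card X _).trans (h1.trans (mul_le_mul' (mul_le_mul' hpow le_rfl) le_rfl))

end bounds

open Classical in
/-- a double sum over `O(1)` small inputs of a class -/
theorem prs_dsum_le (S : Step G D0 ℓ) (c : Geo) (𝒞 : Finset S.P.g.I → Prop) [DecidablePred 𝒞] (Cd : ℕ) (hcount : ((S.small c).filter 𝒞).card ≤ Cd) (b : S.P.g'.I)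
    (f : Finset S.P.g.I → S.P.g.I → ℂ) (M : ℝ≥0∞) (hf : ∀ X ∈ S.small c, 𝒞 X → ∀ B ∈ X, (‖f X B‖₊ : ℝ≥0∞) ≤ M) :
    (‖∑ X ∈ (S.small c).filter 𝒞, ∑ B ∈ X.filter (fun B => S.P.N.up B = b), f X B‖₊ : ℝ≥0∞) ≤ ((Cd * c.n0 : ℕ) : ℝ≥0∞) * M := by
  refine ((w_nn_sum_le _ _).trans (Finset.sum_le_sum fun X _ => w_nn_sum_le _ _)).trans ?_
  have h1 : ∀ X ∈ (S.small c).filter 𝒞, ∑ B ∈ X.filter (fun B => S.P.N.up B = b), (‖f X B‖₊ : ℝ≥0∞) ≤ (c.n0 : ℝ≥0∞) * M := by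
    intro X hX
    obtain ⟨hXs, hXc⟩ := Finset.mem_filter.1 hX
    have hcard : X.card ≤ c.n0 := by
      have := (Finset.mem_filter.1 hXs).2
      exact this.2
    calc ∑ B ∈ X.filter (fun B => S.P.N.up B = b), (‖f X B‖₊ : ℝ≥0∞)
        ≤ ∑ _B ∈ X.filter (fun B => S.P.N.up B = b), M :=
          Finset.sum_le_sum fun B hB => hf X hXs hXc B (Finset.mem_filter.1 hB).1
      _ = ((X.filter (fun B => S.P.N.up B = b)).card : ℝ≥0∞) * M := by rw [Finset.sum_const, nsmul_eq_mul]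
      _ ≤ (c.n0 : ℝ≥0∞) * M := by
          refine mul_le_mul' ?_ le_rfl
          exact_mod_cast (Finset.card_filter_le _ _).trans hcard
  calc ∑ X ∈ (S.small c).filter 𝒞, ∑ B ∈ X.filter (fun B => S.P.N.up B = b), (‖f X B‖₊ : ℝ≥0∞)
      ≤ ∑ _X ∈ (S.small c).filter 𝒞, (c.n0 : ℝ≥0∞) * M := Finset.sum_le_sum h1
    _ = (((S.small c).filter 𝒞).card : ℝ≥0∞) * ((c.n0 : ℝ≥0∞) * M) := by rw [Finset.sum_const, nsmul_eq_mul]
    _ ≤ (Cd : ℝ≥0∞) * ((c.n0 : ℝ≥0∞) * M) := mul_le_mul' (by exact_mod_cast hcount) le_rfl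
    _ = ((Cd * c.n0 : ℕ) : ℝ≥0∞) * M := by push_cast; ring

/-- the constant of the label direction vanishes if the label vanishes on `X` in the strip -/
theorem prs_cnJ_eq_zero (S : Step G D0 ℓ) (ω : ℝ) (Ψ : G.V → ℝ) (h0 : ℝ≥0) (hh : 0 < h0) (JT : Act S.P.g) (X : Finset S.P.g.I) (B : S.P.g.I)
    (h : ∀ w ∈ strip h0 S.P.g X, JT X w = 0) : cnJ S ω Ψ JT X B = 0 := by
  have hΨ : toC Ψ ∈ strip h0 S.P.g X := by
    rw [Hol.mem_strip]
    have e : (fun v => (toC Ψ v).im) = (0 : G.V → ℝ) := by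
      funext v
      simp [toC]
    rw [e, Hol.tnorm_zero]
    exact hh
  have h1 : ∀ ζ : G.V → ℝ, chargeProj ω 0 (JT X) (toC Ψ + toC ζ) = 0 := by
    intro ζ
    have h2 : ∀ s : ℝ, JT X (fun v => (toC Ψ + toC ζ) v + (s : ℂ)) = 0 := fun s =>
      h _ (Hol.strip_add_real (Hol.strip_add_toC hΨ ζ) s)
    unfold chargeProj
    simp only [h2, mul_zero, intervalIntegral.integral_zero]
  unfold cnJ B8.Step.Hq conv
  simp only [h1, integral_zero, mul_zero]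

/-- L-PAIR-S4.  **The centred scalars**: `|a⁰_b| ≤ C L² (U + w)`, `C` before `L`.   `pk_desig_a_le` with `Cn` from `prg_count_small c.R c.n0`, `M` from `prs_cn0_le`. -/
theorem prs_a0_le (c : Geo) : ∃ C : ℝ≥0, ∀ (G : Geom) (D0 ℓ : ℕ) (S : Step G D0 ℓ) (p : Par) (zn : Zn) (t z : ℂ) (K0 : Act S.P.g),
    Ctx0 c p S → Act.Ok p c.col c.R K0 → ∀ b : S.P.g'.I,
      (‖(d0 S c p.ω zn t z K0).a b‖₊ : ℝ≥0∞) ≤ C * ((2 : ℝ≥0∞) ^ ℓ) ^ 2 * sz0 p S zn t z K0 := by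
  classical
  obtain ⟨Cn, hCn⟩ := prg_count_small c.R c.n0
  refine ⟨(4 * Cn : ℕ) * ((max 1 c.cst : ℝ≥0) ^ c.n0 + Real.toNNReal (4 * c.Ck)), ?_⟩
  intro G D0 ℓ S p zn t z K0 h hK b
  have hCn' : ∀ B : S.P.g.I, ((S.small c).filter fun X => B ∈ X).card ≤ Cn := by
    intro B
    refine le_trans (le_of_eq ?_) (hCn G S.P.g S.P.ok B)
    congr 1
    ext X
    simp only [B8.Step.small, Finset.mem_filter, Finset.mem_univ, true_and, and_assoc]
  have h1 := pk_desig_a_le (S := S) (c := c) Cn (fun B => by convert hCn' B) (pc0 S p.ω zn t z K0) (cn0 S p.ω zn t z K0)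
    (((max 1 c.cst : ℝ≥0) ^ c.n0 + ENNReal.ofReal (4 * c.Ck)) * sz0 p S zn t z K0)
    (fun X hX B _ => prs_cn0_le h zn t z K0 hK X hX B) b
  refine h1.trans (le_of_eq ?_)
  have e : ENNReal.ofReal (4 * c.Ck) = ((Real.toNNReal (4 * c.Ck) : ℝ≥0) : ℝ≥0∞) := rfl
  rw [e]
  push_cast
  ring

/-- L-PAIR-S5.  **(obs:scalar-difference) is `O (U + w + d)`**, `C` before `L`.   `prs_diff`, `prg_count_defect c.R c.n0 H1` (`O(1)` small defects), `|X| ≤ n0`; centred part `prs_cn0_le`;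
unit part: `cnT = (1/|X|) Hq 0 KT X Ψ` on defects (`if_neg`), `prs_ref_le` in the context of the unit norm (`ST.small (geoT c cT) = S.small c`, `ST.Hq = S.Hq` by `rfl`), `prs_fnSize_le_cut`.
`CΨ` = cost of the reference field `Ψ_ref - v_n/α` on the closures of the small defects (`RefCost`; block REG (R4) gives `CΨ = 1` by `RefCost.of_tnorm`). -/
theorem prs_diff_le (c : Geo) (cT : ℝ≥0) (H1 : ℕ) : ∃ C : ℝ≥0, ∀ (G : Geom) (D0 ℓ : ℕ) (S : Step G D0 ℓ) (p pT : Par) (VTf : Extra S.P.g) (VTc : Extra S.P.g')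
    (zn : Zn) (t z : ℂ) (Ψ lam : G.V → ℝ) (K0 KT : Act S.P.g) (CΨ : ℝ≥0∞), zn.H1 = H1 → G.bc = BC.free → Ctx0 c p S →
    Ctx0 (geoT c cT) pT (⟨S.P, S.Γ, VTf, VTc⟩ : Step G D0 ℓ) → pT.ω = p.ω → Act.Ok p c.col c.R K0 → Act.Ok pT c.col c.R (shA KT lam) →
    (∀ X ∈ S.small c, ¬ ShiftGood S.P.g zn.H1 X → RefCost pT (⟨S.P, S.Γ, VTf, VTc⟩ : Step G D0 ℓ) X (Ψ - lam) CΨ) → ∀ b : S.P.g'.I,
      (‖(dT S c p.ω zn t z Ψ K0 KT).a b - (d0 S c p.ω zn t z K0).a b‖₊ : ℝ≥0∞)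
        ≤ C * (sz0 p S zn t z K0 + CΨ * actNorm pT S.P.g VTf (cutA (fun X => ¬ ShiftGood S.P.g zn.H1 X) (shA KT lam))) := by
  classical
  obtain ⟨Cd, hCd⟩ := prg_count_defect c.R c.n0 H1
  refine ⟨(Cd * c.n0 : ℕ) * (((max 1 c.cst : ℝ≥0) ^ c.n0 + Real.toNNReal (4 * c.Ck)) + (max 1 cT : ℝ≥0) ^ c.n0), ?_⟩
  intro G D0 ℓ S p pT VTf VTc zn t z Ψ lam K0 KT CΨ hH1 hG h hT hω hK hKT hΨ b
  have hcount : ((S.small c).filter fun X => ¬ ShiftGood S.P.g zn.H1 X).card ≤ Cd := by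
    refine le_trans (le_of_eq ?_) (hCd G S.P.g hG S.P.ok)
    congr 1
    ext X
    simp only [B8.Step.small, Finset.mem_filter, Finset.mem_univ, true_and, and_assoc, hH1]
  set N := actNorm pT S.P.g VTf (cutA (fun X => ¬ ShiftGood S.P.g zn.H1 X) (shA KT lam)) with hN
  set A0 : ℝ≥0∞ := (max 1 c.cst : ℝ≥0) ^ c.n0 + ENNReal.ofReal (4 * c.Ck) with hA0
  set AT : ℝ≥0∞ := ((max 1 cT : ℝ≥0) : ℝ≥0∞) ^ c.n0 with hAT
  have hterm : ∀ X ∈ S.small c, ¬ ShiftGood S.P.g zn.H1 X → ∀ B ∈ X,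
      (‖cnT S p.ω zn t z Ψ K0 KT X B - cn0 S p.ω zn t z K0 X B‖₊ : ℝ≥0∞) ≤ (A0 + AT) * (sz0 p S zn t z K0 + CΨ * N) := by
    intro X hX hbad B _
    have h0 := prs_cn0_le h zn t z K0 hK X hX B
    have hXT : X ∈ (⟨S.P, S.Γ, VTf, VTc⟩ : Step G D0 ℓ).small (geoT c cT) := hX
    have h1 := prs_ref_le hT KT lam Ψ hKT X hXT CΨ (hΨ X hX hbad)
    have e1 : cnT S p.ω zn t z Ψ K0 KT X B = (1 / (X.card : ℂ)) * (⟨S.P, S.Γ, VTf, VTc⟩ : Step G D0 ℓ).Hq pT.ω 0 KT X (toC Ψ) := by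
      unfold cnT
      rw [if_neg hbad, hω]
      rfl
    have h2 : (‖cnT S p.ω zn t z Ψ K0 KT X B‖₊ : ℝ≥0∞) ≤ AT * (CΨ * N) := by
      rw [e1]
      refine h1.trans ?_
      have k1 : fnSize pT S.P.g VTf X (shA KT lam X) ≤ N :=
        prs_fnSize_le_cut pT hT.hA S.P.g VTf (fun X => ¬ ShiftGood S.P.g zn.H1 X) (shA KT lam) X hbad
      calc _ ≤ AT * N * CΨ := mul_le_mul' (mul_le_mul' (le_of_eq (by rw [hAT]; push_cast; rfl)) k1) le_rfl
        _ = AT * (CΨ * N) := by ring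
    calc (‖cnT S p.ω zn t z Ψ K0 KT X B - cn0 S p.ω zn t z K0 X B‖₊ : ℝ≥0∞)
        ≤ (‖cnT S p.ω zn t z Ψ K0 KT X B‖₊ : ℝ≥0∞) + (‖cn0 S p.ω zn t z K0 X B‖₊ : ℝ≥0∞) := by
          exact_mod_cast nnnorm_sub_le _ _
      _ ≤ AT * (CΨ * N) + A0 * sz0 p S zn t z K0 := add_le_add h2 h0
      _ ≤ (A0 + AT) * (sz0 p S zn t z K0 + CΨ * N) := by
          have e : (A0 + AT) * (sz0 p S zn t z K0 + CΨ * N)
              = AT * (CΨ * N) + A0 * sz0 p S zn t z K0 + (A0 * (CΨ * N) + AT * sz0 p S zn t z K0) := by ring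
          rw [e]
          exact le_self_add
  rw [prs_diff]
  refine (prs_dsum_le S c (fun X => ¬ ShiftGood S.P.g zn.H1 X) Cd hcount b _ _ hterm).trans (le_of_eq ?_)
  have e : ENNReal.ofReal (4 * c.Ck) = ((Real.toNNReal (4 * c.Ck) : ℝ≥0) : ℝ≥0∞) := rfl
  rw [hA0, hAT, e]
  push_cast
  ring

/-- L-PAIR-S6.  **The labelled scalars**: `|\dot a_b| ≤ C C_Ψ ‖J‖`, `C` before `L`.   `prs_ofPieces_a`; the inputs which are not near the unit contribute `0` (as in `prs_outside_J`); `prg_count_label c.R c.n0`; `prs_ref_le`, `w_fnSize_le_actNorm`. -/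
theorem prs_aJ_le (c : Geo) : ∃ C : ℝ≥0, ∀ (G : Geom) (D0 ℓ : ℕ) (S : Step G D0 ℓ) (p : Par) (Ψ lam : G.V → ℝ) (JT : Act S.P.g) (CΨ : ℝ≥0∞),
    Ctx0 c p S → Act.Ok p c.col c.R (shA JT lam) → (∀ X, ¬ NearUnit S.P.g 1 X → ∀ w ∈ strip p.h0 S.P.g X, JT X w = 0) →
    (∀ X ∈ S.small c, NearUnit S.P.g 1 X → RefCost p S X (Ψ - lam) CΨ) → ∀ b : S.P.g'.I,
      (‖(dJ S c p.ω Ψ JT).a b‖₊ : ℝ≥0∞) ≤ C * CΨ * actNorm p S.P.g S.Vf (shA JT lam) := by
  classical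
  obtain ⟨Cl, hCl⟩ := prg_count_label c.R c.n0
  refine ⟨(Cl * c.n0 : ℕ) * (max 1 c.cst : ℝ≥0) ^ c.n0, ?_⟩
  intro G D0 ℓ S p Ψ lam JT CΨ h hK hJ hΨ b
  have hcount : ((S.small c).filter fun X => NearUnit S.P.g 1 X).card ≤ Cl := by
    refine le_trans (le_of_eq ?_) (hCl G S.P.g S.P.ok)
    congr 1
    ext X
    simp only [B8.Step.small, Finset.mem_filter, Finset.mem_univ, true_and, and_assoc]
  have e1 : (dJ S c p.ω Ψ JT).a b
      = ∑ X ∈ (S.small c).filter (fun X => NearUnit S.P.g 1 X), ∑ B ∈ X.filter (fun B => S.P.N.up B = b), cnJ S p.ω Ψ JT X B := by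
    unfold dJ
    rw [prs_ofPieces_a, Finset.sum_filter]
    refine Finset.sum_congr rfl fun X _ => ?_
    by_cases hX : NearUnit S.P.g 1 X
    · rw [if_pos hX]
    · rw [if_neg hX]
      exact Finset.sum_eq_zero fun B _ => prs_cnJ_eq_zero S p.ω Ψ p.h0 h.hh JT X B (hJ X hX)
  rw [e1]
  have hterm : ∀ X ∈ S.small c, NearUnit S.P.g 1 X → ∀ B ∈ X,
      (‖cnJ S p.ω Ψ JT X B‖₊ : ℝ≥0∞) ≤ ((max 1 c.cst : ℝ≥0) : ℝ≥0∞) ^ c.n0 * (CΨ * actNorm p S.P.g S.Vf (shA JT lam)) := by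
    intro X hX hn B _
    have h1 := prs_ref_le h JT lam Ψ hK X hX CΨ (hΨ X hX hn)
    have k1 : fnSize p S.P.g S.Vf X (shA JT lam X) ≤ actNorm p S.P.g S.Vf (shA JT lam) :=
      w_fnSize_le_actNorm p h.hA S.P.g S.Vf (shA JT lam) X
    calc (‖cnJ S p.ω Ψ JT X B‖₊ : ℝ≥0∞) ≤ _ := h1
      _ ≤ ((max 1 c.cst : ℝ≥0) : ℝ≥0∞) ^ c.n0 * actNorm p S.P.g S.Vf (shA JT lam) * CΨ :=
          mul_le_mul' (mul_le_mul' (le_of_eq (by push_cast; rfl)) k1) le_rfl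
      _ = _ := by ring
  refine (prs_dsum_le S c (fun X => NearUnit S.P.g 1 X) Cl hcount b _ _ hterm).trans (le_of_eq ?_)
  push_cast
  ring

/-! ## 4. Products -/

/-- L-PAIR-S7.  (obs:scalar-log-bound), real mean value theorem with `ρ = 1/2`: `log (1 + x) - log (1 + y)`, `|x|, |y| ≤ 1/2`; e.g. `(1 + aT)/(1 + a0) = 1 + u`, `u = (aT - a0)/(1 + a0)`, `|u| ≤ 2 |aT - a0|`,
`log (1 + u) ≤ u` and `-log (1 + u) = log ((1 + a0)/(1 + aT)) ≤ (a0 - aT)/(1 + aT)`. -/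
theorem prs_log (a0 aT : ℝ) (h0 : |a0| ≤ 1 / 2) (hT : |aT| ≤ 1 / 2) :
    0 < (1 + aT) / (1 + a0) ∧ |Real.log ((1 + aT) / (1 + a0))| ≤ 2 * |aT - a0| := by
  obtain ⟨h01, h02⟩ := abs_le.1 h0
  obtain ⟨hT1, hT2⟩ := abs_le.1 hT
  have hx : 0 < 1 + aT := by linarith
  have hy : 0 < 1 + a0 := by linarith
  have hpos : 0 < (1 + aT) / (1 + a0) := div_pos hx hy
  refine ⟨hpos, ?_⟩
  have hd := le_abs_self (aT - a0)
  have hd' := neg_abs_le (aT - a0)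
  have hd0 := abs_nonneg (aT - a0)
  rw [abs_le]
  constructor
  · have h1 := Real.log_le_sub_one_of_pos (div_pos hy hx)
    have e : Real.log ((1 + a0) / (1 + aT)) = -Real.log ((1 + aT) / (1 + a0)) := by
      rw [← Real.log_inv, inv_div]
    rw [e] at h1
    have h2 : (1 + a0) / (1 + aT) - 1 ≤ 2 * |aT - a0| := by
      have : (1 + a0) / (1 + aT) - 1 = (a0 - aT) / (1 + aT) := by field_simp; ring
      rw [this, div_le_iff₀ hx]
      nlinarith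
    linarith
  · have h1 := Real.log_le_sub_one_of_pos hpos
    have h2 : (1 + aT) / (1 + a0) - 1 ≤ 2 * |aT - a0| := by
      have : (1 + aT) / (1 + a0) - 1 = (aT - a0) / (1 + a0) := by field_simp; ring
      rw [this, div_le_iff₀ hy]
      nlinarith
    linarith

/-- L-PAIR-S7.  One step of `D_ex`: a real number in `[e^{-8 e}, e^{8 e}]`.  Write `a0 b = ((a0 b).re : ℂ)` (`Complex.ext`), push the casts out of the product; `r = exp (∑ log ..)`, `prs_log`, `|A| ≤ 4`. -/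
theorem prs_factor {ι : Type} (A : Finset ι) (hA : A.card ≤ 4) (a0 aT : ι → ℂ) (e : ℝ) (he : 0 ≤ e)
    (h : ∀ b ∈ A, (a0 b).im = 0 ∧ (aT b).im = 0 ∧ ‖a0 b‖ ≤ 1 / 2 ∧ ‖aT b‖ ≤ 1 / 2 ∧ ‖aT b - a0 b‖ ≤ e) :
    ∃ r : ℝ, Real.exp (-(8 * e)) ≤ r ∧ r ≤ Real.exp (8 * e) ∧ ∏ b ∈ A, (1 + aT b) / (1 + a0 b) = (r : ℂ) := by
  have hre : ∀ w : ℂ, w.im = 0 → w = ((w.re : ℝ) : ℂ) := fun w hw => Complex.ext rfl (by simpa using hw)
  have key : ∀ b ∈ A, Real.exp (-(2 * e)) ≤ (1 + (aT b).re) / (1 + (a0 b).re) ∧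
      (1 + (aT b).re) / (1 + (a0 b).re) ≤ Real.exp (2 * e) := by
    intro b hb
    obtain ⟨i0, iT, n0, nT, nd⟩ := h b hb
    have m0 : |(a0 b).re| ≤ 1 / 2 := (Complex.abs_re_le_norm _).trans n0
    have mT : |(aT b).re| ≤ 1 / 2 := (Complex.abs_re_le_norm _).trans nT
    have md : |(aT b).re - (a0 b).re| ≤ e := by
      rw [← Complex.sub_re]
      exact (Complex.abs_re_le_norm _).trans nd
    obtain ⟨hp, hl⟩ := prs_log _ _ m0 mT
    obtain ⟨l1, l2⟩ := abs_le.1 hl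
    constructor
    · rw [← Real.exp_log hp]
      exact Real.exp_le_exp.2 (by linarith)
    · rw [← Real.exp_log hp]
      exact Real.exp_le_exp.2 (by linarith)
  have hc : (A.card : ℝ) ≤ 4 := by exact_mod_cast hA
  refine ⟨∏ b ∈ A, (1 + (aT b).re) / (1 + (a0 b).re), ?_, ?_, ?_⟩
  · calc Real.exp (-(8 * e)) ≤ Real.exp (-(2 * e)) ^ A.card := by
          rw [← Real.exp_nat_mul]
          exact Real.exp_le_exp.2 (by nlinarith)
      _ = ∏ _b ∈ A, Real.exp (-(2 * e)) := by rw [Finset.prod_const]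
      _ ≤ _ := Finset.prod_le_prod (fun _ _ => (Real.exp_pos _).le) fun b hb => (key b hb).1
  · calc ∏ b ∈ A, (1 + (aT b).re) / (1 + (a0 b).re) ≤ ∏ _b ∈ A, Real.exp (2 * e) :=
          Finset.prod_le_prod (fun b hb => (Real.exp_pos _).le.trans (key b hb).1) fun b hb => (key b hb).2
      _ = Real.exp (2 * e) ^ A.card := by rw [Finset.prod_const]
      _ ≤ _ := by
          rw [← Real.exp_nat_mul]
          exact Real.exp_le_exp.2 (by nlinarith)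
  · push_cast
    refine Finset.prod_congr rfl fun b hb => ?_
    obtain ⟨i0, iT, -⟩ := h b hb
    rw [← hre _ i0, ← hre _ iT]

theorem prs_Dex_succ (pm : Prm) (T : Tw G ℓ) (t z : ℕ → ℂ) (j0 : ℕ) (x0 : St (lev G ℓ j0)) (i : ℕ) :
    Dex pm T t z j0 x0 (i + 1) = Dex pm T t z j0 x0 i *
      ∏ b ∈ Aff (lev G ℓ (j0 + i + 1)) 1, (1 + (scal pm T t z j0 x0 i b).2.1) / (1 + (scal pm T t z j0 x0 i b).1) :=
  Finset.prod_range_succ _ _

theorem prs_cex_succ (pm : Prm) (T : Tw G ℓ) (t z : ℕ → ℂ) (j0 : ℕ) (x0 : St (lev G ℓ j0)) (i : ℕ) :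
    cex pm T t z j0 x0 (i + 1) = cex pm T t z j0 x0 i +
      ∑ b ∈ Aff (lev G ℓ (j0 + i + 1)) 1, (scal pm T t z j0 x0 i b).2.2 / (1 + (scal pm T t z j0 x0 i b).2.1) :=
  Finset.sum_range_succ _ _

/-- L-PAIR-S7.  `D_ex` is real, positive and `≤ exp (8 ∑ e_k)`: induction on `i` with `prs_Dex_succ`, `prs_factor`, `prs_Aff_card`. -/
theorem prs_Dex_bound (pm : Prm) (T : Tw G ℓ) (t z : ℕ → ℂ) (j0 : ℕ) (x0 : St (lev G ℓ j0)) (i : ℕ) (e : ℕ → ℝ) (he : ∀ k, 0 ≤ e k)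
    (h : ∀ k < i, ∀ b ∈ Aff (lev G ℓ (j0 + k + 1)) 1,
      (scal pm T t z j0 x0 k b).1.im = 0 ∧ (scal pm T t z j0 x0 k b).2.1.im = 0 ∧ ‖(scal pm T t z j0 x0 k b).1‖ ≤ 1 / 2 ∧
      ‖(scal pm T t z j0 x0 k b).2.1‖ ≤ 1 / 2 ∧ ‖(scal pm T t z j0 x0 k b).2.1 - (scal pm T t z j0 x0 k b).1‖ ≤ e k) :
    (Dex pm T t z j0 x0 i).im = 0 ∧ 0 < (Dex pm T t z j0 x0 i).re ∧
      (Dex pm T t z j0 x0 i).re ≤ Real.exp (8 * ∑ k ∈ Finset.range i, e k) := by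
  have key : ∃ r : ℝ, 0 < r ∧ r ≤ Real.exp (8 * ∑ k ∈ Finset.range i, e k) ∧ Dex pm T t z j0 x0 i = (r : ℂ) := by
    induction i with
    | zero =>
      refine ⟨1, one_pos, by simp, ?_⟩
      unfold Dex
      simp
    | succ i ih =>
      obtain ⟨r, hr0, hr1, hr2⟩ := ih fun k hk => h k (Nat.lt_succ_of_lt hk)
      obtain ⟨s, hs0, hs1, hs2⟩ := prs_factor (Aff (lev G ℓ (j0 + i + 1)) 1) (prs_Aff_card _)
        (fun b => (scal pm T t z j0 x0 i b).1) (fun b => (scal pm T t z j0 x0 i b).2.1) (e i) (he i) (h i (Nat.lt_succ_self i))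
      have hs : 0 < s := (Real.exp_pos _).trans_le hs0
      refine ⟨r * s, mul_pos hr0 hs, ?_, ?_⟩
      · rw [Finset.sum_range_succ, mul_add, Real.exp_add]
        exact mul_le_mul hr1 hs1 hs.le (Real.exp_pos _).le
      · rw [prs_Dex_succ, hr2, hs2]
        push_cast
        rfl
  obtain ⟨r, hr0, hr1, hr2⟩ := key
  rw [hr2]
  exact ⟨Complex.ofReal_im _, by rwa [Complex.ofReal_re], by rwa [Complex.ofReal_re]⟩

/-- L-PAIR-S7. -/
theorem prs_cex_real (pm : Prm) (T : Tw G ℓ) (t z : ℕ → ℂ) (j0 : ℕ) (x0 : St (lev G ℓ j0)) (i : ℕ)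
    (h : ∀ k < i, ∀ b ∈ Aff (lev G ℓ (j0 + k + 1)) 1, (scal pm T t z j0 x0 k b).2.1.im = 0 ∧ (scal pm T t z j0 x0 k b).2.2.im = 0) :
    (cex pm T t z j0 x0 i).im = 0 := by
  induction i with
  | zero =>
    unfold cex
    simp
  | succ i ih =>
    rw [prs_cex_succ, Complex.add_im, ih fun k hk => h k (Nat.lt_succ_of_lt hk), zero_add, Complex.im_sum]
    refine Finset.sum_eq_zero fun b hb => ?_
    obtain ⟨h1, h2⟩ := h i (Nat.lt_succ_self i) b hb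
    rw [Complex.div_im, h2, Complex.add_im, h1]
    simp

/-! ## 5. Copies between two volumes, (obs:factor-copy): see `Obs/PairSC.lean` (generic tools: `prc_conv_copy`, `prc_charge_copy`, `pr_ofPieces_copy` in `Obs/PairInv.lean`, helper79) -/

/-! ## 6. EXITS in the vocabulary of `Pr.Ctx` -/

section exits

/-- `sz0 ≤ nP + nW` (the term `‖z‖` is dropped) -/
theorem prs_sz0_le (p : Par) (S : Step G D0 ℓ) (zn : Zn) (t z : ℂ) (x : St S.P.g) :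
    sz0 p S zn t z x.K0 ≤ nP p S.Vf zn.H0 (Step.alpha p.ω) t z x + nW p S.Vf zn.H0 x := by
  unfold sz0 nP nW R0
  gcongr
  exact le_self_add

/-- L-PAIR-S11.  **EXIT (S), bounds.**  `C` after `L`.  `prs_a0_le`, `prs_diff_le`, `prs_ctx0`, `prs_ctxT`, `prs_sz0_le`, `ok_par`, `prs_shA_ok`; `(T.stepT h) = ⟨(T.step h).P, (T.step h).Γ, T.VT j, T.VT (j+1)⟩` by `rfl`. -/
theorem prs_exit_bd (c : Geo) (cT : ℝ≥0) (H1 ℓ : ℕ) : ∃ C : ℝ≥0, ∀ (pm : Prm) (nm : Nm) (k0 kT : KC) (G : Geom) (T : Tw G ℓ) (j : ℕ) (h : Ret G ℓ pm.D0 j)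
    (x : St (lev G ℓ j)) (t z : ℂ) (μ : G.V → ℝ) (CΨ : ℝ≥0∞), pm.c = c → pm.zn.H1 = H1 → Pr.Ctx pm nm cT k0 kT T h → Inv pm nm.h0 x →
    (∀ X ∈ (T.step h).small pm.c, ¬ ShiftGood (lev G ℓ j) pm.zn.H1 X → RefCost (nm.pT pm.ω) (T.stepT h) X (pm.ref G - μ) CΨ) →
    ∀ b : (lev G ℓ (j + 1)).I,
      (‖(d0 (T.step h) pm.c pm.ω pm.zn t z x.K0).a b‖₊ : ℝ≥0∞)
        ≤ C * (nP (nm.p0 pm.ω) (T.V0 j) pm.zn.H0 pm.α t z x + nW (nm.p0 pm.ω) (T.V0 j) pm.zn.H0 x) ∧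
      (‖(dT (T.step h) pm.c pm.ω pm.zn t z (pm.ref G) x.K0 x.KT).a b - (d0 (T.step h) pm.c pm.ω pm.zn t z x.K0).a b‖₊ : ℝ≥0∞)
        ≤ C * (nP (nm.p0 pm.ω) (T.V0 j) pm.zn.H0 pm.α t z x + nW (nm.p0 pm.ω) (T.V0 j) pm.zn.H0 x
            + CΨ * nD (nm.pT pm.ω) (T.VT j) pm.zn.H1 μ x) := by
  obtain ⟨C1, hC1⟩ := prs_a0_le c
  obtain ⟨C2, hC2⟩ := prs_diff_le c cT H1
  refine ⟨C1 * ((2 : ℝ≥0) ^ ℓ) ^ 2 + C2, ?_⟩
  intro pm nm k0 kT G T j h x t z μ CΨ hc hH1 H hx hΨ b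
  subst hc
  have hcx0 : Ctx0 pm.c (nm.p0 pm.ω) (T.step h) := prs_ctx0 H
  have hcxT : Ctx0 (geoT pm.c cT) (nm.pT pm.ω) (T.stepT h) := prs_ctxT H
  have hK0 : Act.Ok (nm.p0 pm.ω) pm.c.col pm.c.R x.K0 := ok_par hx.ok0 nm.δ nm.κ nm.A
  have hKT : Act.Ok (nm.pT pm.ω) pm.c.col pm.c.R (shA x.KT μ) :=
    prs_shA_ok (nm.pT pm.ω) pm.c.col pm.c.R (ok_par hx.okT nm.δ nm.κT nm.AT) μ
  have hsz : sz0 (nm.p0 pm.ω) (T.step h) pm.zn t z x.K0
      ≤ nP (nm.p0 pm.ω) (T.V0 j) pm.zn.H0 pm.α t z x + nW (nm.p0 pm.ω) (T.V0 j) pm.zn.H0 x :=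
    prs_sz0_le (nm.p0 pm.ω) (T.step h) pm.zn t z x
  have hcast : ((C1 * ((2 : ℝ≥0) ^ ℓ) ^ 2 + C2 : ℝ≥0) : ℝ≥0∞) = (C1 : ℝ≥0∞) * ((2 : ℝ≥0∞) ^ ℓ) ^ 2 + C2 := by
    push_cast
    rfl
  rw [hcast]
  constructor
  · have h1 := hC1 G pm.D0 ℓ (T.step h) (nm.p0 pm.ω) pm.zn t z x.K0 hcx0 hK0 b
    calc (‖(d0 (T.step h) pm.c pm.ω pm.zn t z x.K0).a b‖₊ : ℝ≥0∞)
        ≤ (C1 : ℝ≥0∞) * ((2 : ℝ≥0∞) ^ ℓ) ^ 2 * sz0 (nm.p0 pm.ω) (T.step h) pm.zn t z x.K0 := h1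
      _ ≤ ((C1 : ℝ≥0∞) * ((2 : ℝ≥0∞) ^ ℓ) ^ 2 + C2)
            * (nP (nm.p0 pm.ω) (T.V0 j) pm.zn.H0 pm.α t z x + nW (nm.p0 pm.ω) (T.V0 j) pm.zn.H0 x) :=
          mul_le_mul' le_self_add hsz
  · have h2 := hC2 G pm.D0 ℓ (T.step h) (nm.p0 pm.ω) (nm.pT pm.ω) (T.VT j) (T.VT (j + 1)) pm.zn t z (pm.ref G) μ x.K0 x.KT CΨ
      hH1 H.free hcx0 hcxT rfl hK0 hKT hΨ b
    calc (‖(dT (T.step h) pm.c pm.ω pm.zn t z (pm.ref G) x.K0 x.KT).a b - (d0 (T.step h) pm.c pm.ω pm.zn t z x.K0).a b‖₊ : ℝ≥0∞)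
        ≤ (C2 : ℝ≥0∞) * (sz0 (nm.p0 pm.ω) (T.step h) pm.zn t z x.K0 + CΨ * nD (nm.pT pm.ω) (T.VT j) pm.zn.H1 μ x) := h2
      _ ≤ ((C1 : ℝ≥0∞) * ((2 : ℝ≥0∞) ^ ℓ) ^ 2 + C2)
            * (nP (nm.p0 pm.ω) (T.V0 j) pm.zn.H0 pm.α t z x + nW (nm.p0 pm.ω) (T.V0 j) pm.zn.H0 x
              + CΨ * nD (nm.pT pm.ω) (T.VT j) pm.zn.H1 μ x) :=
          mul_le_mul' le_add_self (add_le_add hsz le_rfl)

/-- L-PAIR-S11.  **EXIT (S), the labelled scalars.**  `prs_aJ_le (geoT c cT)` for `T.stepT h` (`dJ` does not see the regulators nor `cst`: `rfl`), `Inv.label`. -/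
theorem prs_exit_J (c : Geo) (cT : ℝ≥0) : ∃ C : ℝ≥0, ∀ (ℓ : ℕ) (pm : Prm) (nm : Nm) (k0 kT : KC) (G : Geom) (T : Tw G ℓ) (j : ℕ) (h : Ret G ℓ pm.D0 j)
    (x : St (lev G ℓ j)) (μ : G.V → ℝ) (CΨ : ℝ≥0∞), pm.c = c → Pr.Ctx pm nm cT k0 kT T h → Inv pm nm.h0 x →
    (∀ X ∈ (T.step h).small pm.c, NearUnit (lev G ℓ j) 1 X → RefCost (nm.pT pm.ω) (T.stepT h) X (pm.ref G - μ) CΨ) →
    ∀ b : (lev G ℓ (j + 1)).I,
      (‖(dJ (T.step h) pm.c pm.ω (pm.ref G) x.JT).a b‖₊ : ℝ≥0∞) ≤ C * CΨ * nJ (nm.pT pm.ω) (T.VT j) μ x := by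
  obtain ⟨C, hC⟩ := prs_aJ_le (geoT c cT)
  refine ⟨C, ?_⟩
  intro ℓ pm nm k0 kT G T j h x μ CΨ hc H hx hΨ b
  subst hc
  have hcxT : Ctx0 (geoT pm.c cT) (nm.pT pm.ω) (T.stepT h) := prs_ctxT H
  have hJT : Act.Ok (nm.pT pm.ω) pm.c.col pm.c.R (shA x.JT μ) :=
    prs_shA_ok (nm.pT pm.ω) pm.c.col pm.c.R (ok_par hx.okJ nm.δ nm.κT nm.AT) μ
  exact hC G pm.D0 ℓ (T.stepT h) (nm.pT pm.ω) (pm.ref G) μ x.JT CΨ hcxT hJT hx.label hΨ b

variable {pm : Prm} {nm : Nm} {cT : ℝ≥0} {k0 kT : KC} {T : Tw G ℓ} {j : ℕ} {h : Ret G ℓ pm.D0 j}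

/-- **EXIT (S), reality** -/
theorem prs_exit_real {h0 : ℝ≥0} (x : St (lev G ℓ j)) (hx : Inv pm h0 x) (t z : ℂ) (ht : t.im = 0) (hz : z.im = 0) (b : (lev G ℓ (j + 1)).I) :
    ((d0 (T.step h) pm.c pm.ω pm.zn t z x.K0).a b).im = 0 ∧ ((dT (T.step h) pm.c pm.ω pm.zn t z (pm.ref G) x.K0 x.KT).a b).im = 0 ∧
      ((dJ (T.step h) pm.c pm.ω (pm.ref G) x.JT).a b).im = 0 :=
  ⟨prs_a0_real (T.step h) pm.c pm.ω pm.zn t z x.K0 hx.real0 ht hz b,
    prs_aT_real (T.step h) pm.c pm.ω pm.zn t z (pm.ref G) x.K0 x.KT hx.real0 hx.realT ht hz b,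
    prs_aJ_real (T.step h) pm.c pm.ω (pm.ref G) x.JT hx.realJ b⟩

/-- **EXIT (S), (obs:factor-outside)** -/
theorem prs_exit_out (H : Pr.Ctx pm nm cT k0 kT T h) (x : St (lev G ℓ j)) (hx : Inv pm nm.h0 x) (t z : ℂ) (b : (lev G ℓ (j + 1)).I)
    (hb : b ∉ Aff (lev G ℓ (j + 1)) 1) :
    (dT (T.step h) pm.c pm.ω pm.zn t z (pm.ref G) x.K0 x.KT).a b = (d0 (T.step h) pm.c pm.ω pm.zn t z x.K0).a b ∧
      (dJ (T.step h) pm.c pm.ω (pm.ref G) x.JT).a b = 0 := by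
  have hL := H.hL
  exact ⟨prs_outside_T (T.step h) pm.c pm.ω pm.zn t z (pm.ref G) H.cenP (by omega) x.K0 x.KT b hb,
    prs_outside_J (T.step h) pm.c pm.ω (pm.ref G) H.cenP (by omega) nm.h0 H.nmOk.h0_pos x.JT hx.label b hb⟩

end exits

end

end Claimed.Agent.R285.F6.Pr
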