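import Claimed.Agent.R285.Obs.PairDefs
import Claimed.Agent.R285.Map.WNl

/-!
# ROW 285, unit OBS, [F] L6.2: THE BC-FREE GENERIC STEP KIT, part 1 (linear part)                                   (owner helper202)

For ANY boundary condition, any activity `K` with `Act.Ok`, any designation by pieces `ofPieces S c pc cn` (`Obs/PairDefs.lean`).  Consumers: the estimates (W), (D), (J), (S) of `Obs.pair_stop`.
* (K0) `Ctx0 c p S` = `B8.Ctx` WITHOUT `per / inv / diag / nest / trans / square`;  `Ctx0.of` : `B8.Ctx → Ctx0`;  bc-free copies of the convolution calculus `pk_integrable`, `pk_conv_add/sub/sum`, `pk_conv_local`, `pk_conv_size`,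
  `pk_conv_hasSum`, `pk_Hq_local`, `pk_Hq_size`, `pk_Hq_zero_le`, `pk_input`.
* calculus of `cutA`: `pk_cut_le_iff`, `pk_cut_le`, `pk_cut_add`, `pk_norm_le_cut`.
* (K1) `pk_klin` : EXACT identity  `Klin (K, ofPieces pc cn) = linS + ClinL + linR` (subtracted small inputs, large inputs, relocated pieces minus constants at the singletons).
* (K2) `pk_small_norm` : class `𝒞` of fine supports, per-input gain `η`, `N` placements  ⟹  `‖sumS 𝒞 T‖' ≤ N η ‖cutA 𝒞 K‖`;  `pk_linS_split`: `linS = sumS 𝒞 + sumS ¬𝒞`.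
* (K3) `pk_large_norm` : large inputs `≤ η ‖K‖` for `A ≥ A₀ (η, L)`.
* (K4) `pk_desig_small`, `pk_desig_fn`, `pk_desig_ok`, `pk_desig_size`, `pk_rel_size`, `pk_linR_norm`.
-/

set_option autoImplicit false

namespace Claimed.Agent.R285.F6.Pr

open scoped BigOperators ENNReal NNReal
open MeasureTheory
open Claimed.Agent.R285 Claimed.Agent.R285.RG Claimed.Agent.R285.Hol

noncomputable section

variable {G : Geom} {D0 ℓ : ℕ}

/-! ## (K0) the standing hypotheses, any boundary condition -/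

/-- **standing hypotheses on one step, ANY boundary condition** (no symmetry, no constant diagonal) -/
structure Ctx0 (c : B8.Geo) (p : Par) (S : B8.Step G D0 ℓ) : Prop where
  geo : c.Ok
  shell : ShellOK c.Ck c.ck c.ρ S.P S.Γ
  reg : RegStable c.R c.n0 c.cst p.δ p.κ S.P S.Vf S.Vc S.Γ
  adm : p.Adm S.P.g'
  admf : p.Adm S.P.g
  sep : S.Vc.sep ≤ c.sepV
  sepf : S.Vf.sep ≤ c.sepV
  col : 2 * c.col < S.P.g.m
  half : ∀ X : Finset S.P.g.I, S.P.g.Conn c.R X → c.n0 < X.card → 2 * (S.P.N.cl X).card ≤ X.card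
  diam : ∀ X : Finset S.P.g.I, S.P.g.Conn c.R X → X.card ≤ c.n0 → S.P.g'.idiam (S.P.N.cl X) ≤ 1 ∧ S.P.g'.Conn c.r (S.P.N.cl X)
  hω : 0 < p.ω
  hh : 0 < p.h0
  hA : 1 ≤ p.A
  hL : c.R ≤ 2 ^ ℓ

variable {c : B8.Geo} {p : Par} {S : B8.Step G D0 ℓ}

theorem Ctx0.of {gs : Grid G} (h : B8.Ctx c p gs S) : Ctx0 c p S :=
  ⟨h.geo, h.ok.shell, h.ok.reg, h.ok.adm, h.ok.admf, h.ok.sep, h.ok.sepf, h.ok.col, h.ok.half, h.ok.diam, h.hω, h.hh, h.hA, h.hL⟩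

theorem Ctx0.psd (h : Ctx0 c p S) : S.Γ.PosSemidef := h.shell.psd

theorem Ctx0.hR (h : Ctx0 c p S) : max 5 S.Vf.sep ≤ c.R := by
  have h1 := h.geo.hs
  have h2 := h.geo.hrR
  have h3 := h.sepf
  omega

theorem Ctx0.hint (h : Ctx0 c p S) (X : Finset S.P.g.I) (φ : G.V → ℝ) :
    ∫⁻ ζ, ENNReal.ofReal (Wt S.P.g p.δ p.κ S.Vf X (φ + ζ)) ∂(gauss G S.Γ) ≠ ⊤ :=
  Scal.lintegral_Wt_ne_top ENNReal.coe_ne_top h.reg X φ

theorem pk_integrable (h : Ctx0 c p S) {X : Finset S.P.g.I} {F : Fn G} (hF : Hol p.h0 S.P.g X F) (hfin : fnSize p S.P.g S.Vf X F ≠ ⊤)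
    {z : G.V → ℂ} (hz : z ∈ strip p.h0 S.P.g X) : Integrable (fun ζ => F (z + toC ζ)) (gauss G S.Γ) :=
  Scal.integrable_strip p S.P.g S.Vf X S.Γ F hF hfin (h.hint X) hz

theorem pk_conv_add (h : Ctx0 c p S) {X : Finset S.P.g.I} {F F' : Fn G} (hF : Hol p.h0 S.P.g X F) (hF' : Hol p.h0 S.P.g X F')
    (hfin : fnSize p S.P.g S.Vf X F ≠ ⊤) (hfin' : fnSize p S.P.g S.Vf X F' ≠ ⊤) {z : G.V → ℂ} (hz : z ∈ strip p.h0 S.P.g X) :
    conv S.Γ (F + F') z = conv S.Γ F z + conv S.Γ F' z :=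
  integral_add (pk_integrable h hF hfin hz) (pk_integrable h hF' hfin' hz)

theorem pk_conv_sub (h : Ctx0 c p S) {X : Finset S.P.g.I} {F F' : Fn G} (hF : Hol p.h0 S.P.g X F) (hF' : Hol p.h0 S.P.g X F')
    (hfin : fnSize p S.P.g S.Vf X F ≠ ⊤) (hfin' : fnSize p S.P.g S.Vf X F' ≠ ⊤) {z : G.V → ℂ} (hz : z ∈ strip p.h0 S.P.g X) :
    conv S.Γ (F - F') z = conv S.Γ F z - conv S.Γ F' z :=
  integral_sub (pk_integrable h hF hfin hz) (pk_integrable h hF' hfin' hz)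

theorem pk_conv_local (h : Ctx0 c p S) {X : Finset S.P.g.I} {F : Fn G} (hF : LocalFn p c.col S.P.g X F) (hfin : fnSize p S.P.g S.Vf X F ≠ ⊤) :
    LocalFn p c.col S.P.g X (conv S.Γ F) := Scal.localFn_conv S.Vf S.Γ hF hfin (h.hint X)

theorem pk_conv_size (h : Ctx0 c p S) (X : Finset S.P.g.I) (Y : Finset S.P.g'.I) (hXY : S.P.N.cl X ⊆ Y) (F : Fn G) :
    fnSize p S.P.g' S.Vc Y (conv S.Γ F) ≤ (c.cst : ℝ≥0∞) ^ X.card * fnSize p S.P.g S.Vf X F := by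
  rcases eq_or_ne (fnSize p S.P.g S.Vf X F) ⊤ with htop | htop
  · rw [htop, ENNReal.mul_top (Scal.cst_pow_ne_zero h.adm.δ_pos.le h.adm.κ_pos.le h.reg X)]
    exact le_top
  set u : ℝ≥0∞ := fnSize p S.P.g S.Vf X F with hu
  unfold fnSize
  refine iSup_le fun φ => ?_
  rw [ENNReal.div_le_iff (Scal.ofReal_Wt_ne_zero _ _ _ _ _ _) ENNReal.ofReal_ne_top]
  calc ptNorm p.h0 S.P.g' Y (conv S.Γ F) φ
      ≤ ptNorm p.h0 S.P.g X (conv S.Γ F) φ := Hol.ptNorm_coarse S.P p.h0 X Y hXY _ φ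
    _ ≤ ∫⁻ ζ, ptNorm p.h0 S.P.g X F (φ + ζ) ∂(gauss G S.Γ) := Hol.ptNorm_conv _ _ _ _ _ _
    _ ≤ ∫⁻ ζ, u * ENNReal.ofReal (Wt S.P.g p.δ p.κ S.Vf X (φ + ζ)) ∂(gauss G S.Γ) := lintegral_mono fun ζ =>
        Hol.ptNorm_le_fnSize_mul p S.P.g S.Vf X _ (φ + ζ)
    _ = u * ∫⁻ ζ, ENNReal.ofReal (Wt S.P.g p.δ p.κ S.Vf X (φ + ζ)) ∂(gauss G S.Γ) := lintegral_const_mul' _ _ htop
    _ ≤ u * ((c.cst : ℝ≥0∞) ^ X.card * ENNReal.ofReal (Wt S.P.g' p.δ p.κ S.Vc Y φ)) := mul_le_mul' le_rfl (h.reg.main X Y hXY φ)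
    _ = _ := by ring

theorem pk_conv_zero_le (h : Ctx0 c p S) (X : Finset S.P.g.I) (F : Fn G) :
    (‖conv S.Γ F 0‖₊ : ℝ≥0∞) ≤ (c.cst : ℝ≥0∞) ^ X.card * fnSize p S.P.g S.Vf X F :=
  (B8.w_zero_le_fnSize p h.hh S.P.g' S.Vc (S.P.N.cl X) _).trans (pk_conv_size h X _ (Finset.Subset.refl _) F)

theorem pk_charge_conv (h : Ctx0 c p S) {X : Finset S.P.g.I} {F : Fn G} (hF : LocalFn p c.col S.P.g X F) (hfin : fnSize p S.P.g S.Vf X F ≠ ⊤) (q : ℤ)
    {z : G.V → ℂ} (hz : z ∈ strip p.h0 S.P.g X) : chargeProj p.ω q (conv S.Γ F) z = conv S.Γ (chargeProj p.ω q F) z :=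
  B8.w_charge_conv_gen p h.hω S.P.g S.Vf X S.Γ F hF.hol hfin (h.hint X) q hz

theorem pk_conv_hasSum (h : Ctx0 c p S) {X : Finset S.P.g.I} {F : Fn G} (hF : LocalFn p c.col S.P.g X F) (hfin : fnSize p S.P.g S.Vf X F ≠ ⊤)
    {z : G.V → ℂ} (hz : z ∈ strip p.h0 S.P.g X) : HasSum (fun q : ℤ => conv S.Γ (chargeProj p.ω q F) z) (conv S.Γ F z) := by
  have h1 := B4.charge_inversion p h.hω c.col S.P.g X (conv S.Γ F) (pk_conv_local h hF hfin) z hz
  have h2 : (fun q : ℤ => chargeProj p.ω q (conv S.Γ F) z) = fun q : ℤ => conv S.Γ (chargeProj p.ω q F) z :=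
    funext fun q => pk_charge_conv h hF hfin q hz
  rwa [h2] at h1

theorem pk_fin (h : Ctx0 c p S) {K : Act S.P.g} (hfin : actNorm p S.P.g S.Vf K ≠ ⊤) (X : Finset S.P.g.I) : fnSize p S.P.g S.Vf X (K X) ≠ ⊤ :=
  ne_top_of_le_ne_top hfin (B8.w_fnSize_le_actNorm p h.hA S.P.g S.Vf K X)

theorem pk_Hq_local (h : Ctx0 c p S) {K : Act S.P.g} (hK : Act.Ok p c.col c.R K) (hfin : actNorm p S.P.g S.Vf K ≠ ⊤) (q : ℤ) (X : Finset S.P.g.I) :
    LocalFn p c.col S.P.g X (S.Hq p.ω q K X) := by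
  have h1 := B4.charge_proj p h.hω c.col S.P.g S.Vf X (K X) (hK.fn X) q
  exact pk_conv_local h h1.1 (ne_top_of_le_ne_top (pk_fin h hfin X) h1.2.1)

theorem pk_Hq_size (h : Ctx0 c p S) {K : Act S.P.g} (hK : Act.Ok p c.col c.R K) (q : ℤ) (X : Finset S.P.g.I) (Y : Finset S.P.g'.I) (hXY : S.P.N.cl X ⊆ Y) :
    fnSize p S.P.g' S.Vc Y (S.Hq p.ω q K X) ≤ (c.cst : ℝ≥0∞) ^ X.card * fnSize p S.P.g S.Vf X (K X) :=
  (pk_conv_size h X Y hXY _).trans (mul_le_mul' le_rfl (B4.charge_proj p h.hω c.col S.P.g S.Vf X (K X) (hK.fn X) q).2.1)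

theorem pk_Hq_zero_le (h : Ctx0 c p S) {K : Act S.P.g} (hK : Act.Ok p c.col c.R K) (q : ℤ) (X : Finset S.P.g.I) :
    (‖S.Hq p.ω q K X 0‖₊ : ℝ≥0∞) ≤ (c.cst : ℝ≥0∞) ^ X.card * fnSize p S.P.g S.Vf X (K X) :=
  (pk_conv_zero_le h X _).trans (mul_le_mul' le_rfl (B4.charge_proj p h.hω c.col S.P.g S.Vf X (K X) (hK.fn X) q).2.1)

/-- a small polymer with its activity is a `LocalInput` of L4.5 / L4.6 -/
theorem pk_input {K : Act S.P.g} (hK : Act.Ok p c.col c.R K) {X : Finset S.P.g.I} (hX : X ∈ S.small c) :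
    LocalInput p c.col c.R c.n0 S.P.g S.Vf X (K X) (fnSize p S.P.g S.Vf X (K X)) :=
  ⟨(B8.w_mem_small.1 hX).1, (B8.w_mem_small.1 hX).2, hK.fn X, le_rfl⟩

theorem pk_anchor_mem {X : Finset S.P.g.I} (hX : X ∈ S.small c) : B8.anchor S.P.g X ∈ S.P.g.sites X := by
  have hne : (S.P.g.sites X).Nonempty := Chg.chg_exists_site S.P.g S.P.ok X (B8.w_mem_small.1 hX).1.1
  unfold B8.anchor
  rw [dif_pos hne]
  exact hne.choose_spec

/-! ## calculus of `cutA` -/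

section cut

variable {g : Grid G}

theorem pk_cut_pos {𝒞 : Finset g.I → Prop} (K : Act g) {X : Finset g.I} (hX : 𝒞 X) : cutA 𝒞 K X = K X := by
  classical
  unfold cutA
  rw [if_pos hX]

theorem pk_cut_neg {𝒞 : Finset g.I → Prop} (K : Act g) {X : Finset g.I} (hX : ¬ 𝒞 X) : cutA 𝒞 K X = 0 := by
  classical
  unfold cutA
  rw [if_neg hX]

theorem pk_cut_le_iff (p : Par) (V : Extra g) (𝒞 : Finset g.I → Prop) (K : Act g) (M : ℝ≥0∞) :
    actNorm p g V (cutA 𝒞 K) ≤ M ↔ ∀ X, 𝒞 X → ENNReal.ofReal (p.A ^ X.card) * fnSize p g V X (K X) ≤ M := by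
  rw [B8.w_actNorm_le_iff]
  constructor
  · intro h X hX
    have := h X
    rwa [pk_cut_pos K hX] at this
  · intro h X
    by_cases hX : 𝒞 X
    · rw [pk_cut_pos K hX]; exact h X hX
    · rw [pk_cut_neg K hX, B8.w_fnSize_zero, mul_zero]; exact zero_le

theorem pk_le_cut (p : Par) (V : Extra g) {𝒞 : Finset g.I → Prop} (K : Act g) {X : Finset g.I} (hX : 𝒞 X) :
    ENNReal.ofReal (p.A ^ X.card) * fnSize p g V X (K X) ≤ actNorm p g V (cutA 𝒞 K) :=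
  (pk_cut_le_iff p V 𝒞 K _).1 le_rfl X hX

theorem pk_cut_le (p : Par) (V : Extra g) (𝒞 : Finset g.I → Prop) (K : Act g) : actNorm p g V (cutA 𝒞 K) ≤ actNorm p g V K :=
  (pk_cut_le_iff p V 𝒞 K _).2 fun X _ => B8.w_le_actNorm p g V K X

theorem pk_cut_mono (p : Par) (V : Extra g) {𝒞 𝒞' : Finset g.I → Prop} (h : ∀ X, 𝒞 X → 𝒞' X) (K : Act g) :
    actNorm p g V (cutA 𝒞 K) ≤ actNorm p g V (cutA 𝒞' K) :=
  (pk_cut_le_iff p V 𝒞 K _).2 fun _ hX => pk_le_cut p V K (h _ hX)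

theorem pk_cut_add (𝒞 : Finset g.I → Prop) (K K' : Act g) : cutA 𝒞 (K + K') = cutA 𝒞 K + cutA 𝒞 K' := by
  funext X
  by_cases hX : 𝒞 X
  · rw [Pi.add_apply, pk_cut_pos _ hX, pk_cut_pos _ hX, pk_cut_pos _ hX, Pi.add_apply]
  · rw [Pi.add_apply, pk_cut_neg _ hX, pk_cut_neg _ hX, pk_cut_neg _ hX, add_zero]

theorem pk_cut_sub (𝒞 : Finset g.I → Prop) (K K' : Act g) : cutA 𝒞 (K - K') = cutA 𝒞 K - cutA 𝒞 K' := by
  funext X
  by_cases hX : 𝒞 X
  · rw [Pi.sub_apply, pk_cut_pos _ hX, pk_cut_pos _ hX, pk_cut_pos _ hX, Pi.sub_apply]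
  · rw [Pi.sub_apply, pk_cut_neg _ hX, pk_cut_neg _ hX, pk_cut_neg _ hX, sub_zero]

theorem pk_cut_split (𝒞 : Finset g.I → Prop) (K : Act g) : K = cutA 𝒞 K + cutA (fun X => ¬ 𝒞 X) K := by
  funext X
  by_cases hX : 𝒞 X
  · rw [Pi.add_apply, pk_cut_pos _ hX, pk_cut_neg (𝒞 := fun X => ¬ 𝒞 X) _ (not_not.2 hX), add_zero]
  · rw [Pi.add_apply, pk_cut_neg _ hX, pk_cut_pos (𝒞 := fun X => ¬ 𝒞 X) _ hX, zero_add]

/-- the norm is the maximum of the norms on a class and on its complement -/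
theorem pk_norm_le_cut (p : Par) (V : Extra g) (𝒞 : Finset g.I → Prop) (K : Act g) :
    actNorm p g V K ≤ max (actNorm p g V (cutA 𝒞 K)) (actNorm p g V (cutA (fun X => ¬ 𝒞 X) K)) := by
  rw [B8.w_actNorm_le_iff]
  intro X
  by_cases hX : 𝒞 X
  · exact (pk_le_cut p V K hX).trans (le_max_left _ _)
  · exact (pk_le_cut (𝒞 := fun X => ¬ 𝒞 X) p V K hX).trans (le_max_right _ _)

theorem pk_cut_ok (p : Par) (col R : ℕ) (𝒞 : Finset g.I → Prop) {K : Act g} (hK : Act.Ok p col R K) : Act.Ok p col R (cutA 𝒞 K) where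
  fn := fun X => by
    by_cases hX : 𝒞 X
    · rw [pk_cut_pos _ hX]; exact hK.fn X
    · rw [pk_cut_neg _ hX]; exact B8.w_localFn_zero p col g X
  poly := fun X hc => by
    by_cases hX : 𝒞 X
    · rw [pk_cut_pos _ hX]; exact hK.poly X hc
    · exact pk_cut_neg _ hX

end cut

/-! ## (K1) the linear part for a designation by pieces: EXACT identity -/

open Classical in
/-- the sum of `T X` over the small inputs `X` of the class `𝒞` with closure `Y` -/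
def sumS (S : B8.Step G D0 ℓ) (c : B8.Geo) (𝒞 : Finset S.P.g.I → Prop) (T : Finset S.P.g.I → Fn G) : Act S.P.g' := fun Y =>
  ∑ X ∈ (S.small c).filter (fun X => S.P.N.cl X = Y ∧ 𝒞 X), T X

/-- the subtracted small input -/
def subT (S : B8.Step G D0 ℓ) (pc : Finset S.P.g.I → S.P.g.I → Fn G) (K : Act S.P.g) (X : Finset S.P.g.I) : Fn G :=
  conv S.Γ (K X) - ∑ B ∈ X, pc X B

/-- the subtracted small inputs -/
def linS (S : B8.Step G D0 ℓ) (c : B8.Geo) (pc : Finset S.P.g.I → S.P.g.I → Fn G) (K : Act S.P.g) : Act S.P.g' :=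
  sumS S c (fun _ => True) (subT S pc K)

open Classical in
/-- everything that is relocated to the coarse block `b`, minus the extracted constant -/
def relB (S : B8.Step G D0 ℓ) (c : B8.Geo) (pc : Finset S.P.g.I → S.P.g.I → Fn G) (cn : Finset S.P.g.I → S.P.g.I → ℂ) (b : S.P.g'.I) : Fn G :=
  ∑ X ∈ S.small c, ∑ B ∈ X.filter (fun B => S.P.N.up B = b), (pc X B - fun _ => cn X B)

open Classical in
/-- the relocated pieces, as an activity on the singletons -/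
def linR (S : B8.Step G D0 ℓ) (c : B8.Geo) (pc : Finset S.P.g.I → S.P.g.I → Fn G) (cn : Finset S.P.g.I → S.P.g.I → ℂ) : Act S.P.g' := fun Y =>
  ∑ b ∈ Y, if Y = {b} then relB S c pc cn b else 0

theorem pk_linR_singleton (pc : Finset S.P.g.I → S.P.g.I → Fn G) (cn : Finset S.P.g.I → S.P.g.I → ℂ) (b : S.P.g'.I) :
    linR S c pc cn {b} = relB S c pc cn b := by
  unfold linR
  rw [Finset.sum_singleton, if_pos rfl]

theorem pk_linR_of_ne (pc : Finset S.P.g.I → S.P.g.I → Fn G) (cn : Finset S.P.g.I → S.P.g.I → ℂ) (Y : Finset S.P.g'.I) (hY : ∀ b, Y ≠ {b}) :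
    linR S c pc cn Y = 0 := by
  unfold linR
  exact Finset.sum_eq_zero fun b _ => if_neg (hY b)

/-- **(K1)** the linear part with a designation by pieces, an identity of functions (no hypothesis).
plan: copy of `B8.wlin_klin` + `B8.w_clin_split` (`Map/WLin.lean`), simpler (no singletons).  `funext Y`.  `Y` not a polymer: `Klin = 0` (`B8.wlin_klin_zero`), the filters of `linS`, `ClinL` are empty (`B8.w_conn_cl`), `linR Y = 0`
(`pk_linR_of_ne`, `B8.w_conn_singleton`).  `Y` a polymer: `B8.wlin_split_sum` (small + large);  `∑_{b ∈ Y} F Y b = ∑_{X small, cl X = Y} ∑_{B ∈ X} pc X B` (`Finset.sum_comm`, `Finset.sum_fiberwise_of_maps_to`);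
`∑_{Y' ∋ b} F Y' b = ∑_{X small} ∑_{B ∈ X, up B = b} pc X B` (`B8.wlin_labels`);  `a b • 1 = ∑ ∑ fun _ => cn X B`;  `Finset.sum_sub_distrib`. -/
theorem pk_klin (S : B8.Step G D0 ℓ) (c : B8.Geo) (pc : Finset S.P.g.I → S.P.g.I → Fn G) (cn : Finset S.P.g.I → S.P.g.I → ℂ) (K : Act S.P.g) :
    Klin S.P c.R (conv S.Γ) K (ofPieces S c pc cn) = linS S c pc K + B8.ClinL S c K + linR S c pc cn := by
  classical
  funext Y
  rw [Pi.add_apply, Pi.add_apply]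
  by_cases hY : S.P.g'.Conn c.R Y
  · have hK : Klin S.P c.R (conv S.Γ) K (ofPieces S c pc cn) Y
        = (∑ X ∈ Finset.univ.filter (fun X : Finset S.P.g.I => S.P.g.Conn c.R X ∧ S.P.N.cl X = Y), conv S.Γ (K X))
          - (∑ b ∈ Y, (ofPieces S c pc cn).F Y b)
          + ∑ b ∈ Y, if Y = {b} then (∑ Y' : Finset S.P.g'.I, if b ∈ Y' then (ofPieces S c pc cn).F Y' b else 0)
              - (ofPieces S c pc cn).a b • 1 else 0 := by
      unfold Klin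
      rw [if_pos hY]
    have ha : ∑ b ∈ Y, (ofPieces S c pc cn).F Y b
        = ∑ X ∈ (S.small c).filter (fun X => S.P.N.cl X = Y), ∑ B ∈ X, pc X B := by
      show ∑ b ∈ Y, ∑ X ∈ (S.small c).filter (fun X => S.P.N.cl X = Y), ∑ B ∈ X.filter (fun B => S.P.N.up B = b), pc X B = _
      rw [Finset.sum_comm]
      refine Finset.sum_congr rfl fun X hX => ?_
      have hcl : S.P.N.cl X = Y := (Finset.mem_filter.1 hX).2
      exact Finset.sum_fiberwise_of_maps_to (fun B hB => hcl ▸ Finset.mem_image_of_mem _ hB) _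
    have hb : ∀ b : S.P.g'.I, (∑ Y' : Finset S.P.g'.I, if b ∈ Y' then (ofPieces S c pc cn).F Y' b else 0)
        - (ofPieces S c pc cn).a b • 1 = relB S c pc cn b := by
      intro b
      have h1 : (∑ Y' : Finset S.P.g'.I, if b ∈ Y' then (ofPieces S c pc cn).F Y' b else 0)
          = ∑ X ∈ S.small c, ∑ B ∈ X.filter (fun B => S.P.N.up B = b), pc X B :=
        B8.wlin_labels S.P (S.small c) b pc
      have h2 : (ofPieces S c pc cn).a b • (1 : Fn G)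
          = ∑ X ∈ S.small c, ∑ B ∈ X.filter (fun B => S.P.N.up B = b), fun _ => cn X B := by
        funext z
        show (∑ X ∈ S.small c, ∑ B ∈ X.filter (fun B => S.P.N.up B = b), cn X B) • (1 : ℂ) = _
        simp only [Finset.sum_apply, smul_eq_mul, mul_one]
      rw [h1, h2]
      unfold relB
      simp only [Finset.sum_sub_distrib]
    have hS : linS S c pc K Y = ∑ X ∈ (S.small c).filter (fun X => S.P.N.cl X = Y), (conv S.Γ (K X) - ∑ B ∈ X, pc X B) := by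
      unfold linS sumS subT
      refine Finset.sum_congr ?_ fun _ _ => rfl
      ext X
      simp only [Finset.mem_filter, and_true]
    rw [hK, ha, B8.wlin_split_sum, hS, Finset.sum_sub_distrib]
    simp only [hb]
    unfold B8.ClinL linR
    abel
  · rw [B8.wlin_klin_zero _ _ _ _ _ _ hY, pk_linR_of_ne pc cn Y fun b hb => hY (hb ▸ B8.w_conn_singleton _ _ b)]
    unfold linS sumS B8.ClinL
    rw [Finset.sum_eq_zero, Finset.sum_eq_zero]
    · simp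
    · intro X hX
      exact absurd ((Finset.mem_filter.1 hX).2.2.2 ▸ B8.w_conn_cl S.P c.R (Finset.mem_filter.1 hX).2.1) hY
    · intro X hX
      simp only [Finset.mem_filter] at hX
      obtain ⟨h1, h2, -⟩ := hX
      exact absurd (h2 ▸ B8.w_conn_cl S.P c.R (B8.w_mem_small.1 h1).1) hY

/-- splitting the small inputs into a class and its complement.  plan: `funext Y`, `Finset.sum_filter_add_sum_filter_not` on the filter of `𝒞` with the predicate `𝒟`, `Finset.filter_filter`. -/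
theorem pk_sumS_split (S : B8.Step G D0 ℓ) (c : B8.Geo) (𝒞 𝒟 : Finset S.P.g.I → Prop) (T : Finset S.P.g.I → Fn G) :
    sumS S c 𝒞 T = sumS S c (fun X => 𝒞 X ∧ 𝒟 X) T + sumS S c (fun X => 𝒞 X ∧ ¬ 𝒟 X) T := by
  classical
  funext Y
  rw [Pi.add_apply]
  unfold sumS
  rw [← Finset.sum_filter_add_sum_filter_not ((S.small c).filter (fun X => S.P.N.cl X = Y ∧ 𝒞 X)) 𝒟,
    Finset.filter_filter, Finset.filter_filter]
  congr 1
  · refine Finset.sum_congr ?_ fun _ _ => rfl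
    ext X
    simp only [Finset.mem_filter]
    tauto
  · refine Finset.sum_congr ?_ fun _ _ => rfl
    ext X
    simp only [Finset.mem_filter]
    tauto

/-- only the values inside the strips matter.  plan: `Finset.sum_apply`, `Finset.sum_congr`, `B8.w_strip_coarse` (`cl X = Y`). -/
theorem pk_sumS_congr (S : B8.Step G D0 ℓ) (c : B8.Geo) (h0 : ℝ≥0) (𝒞 : Finset S.P.g.I → Prop) {T T' : Finset S.P.g.I → Fn G}
    (h : ∀ X ∈ S.small c, 𝒞 X → ∀ z ∈ strip h0 S.P.g X, T X z = T' X z) : B8.EqOn h0 (sumS S c 𝒞 T) (sumS S c 𝒞 T') := by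
  intro Y z hz
  unfold sumS
  rw [Finset.sum_apply, Finset.sum_apply]
  refine Finset.sum_congr rfl fun X hX => ?_
  simp only [Finset.mem_filter] at hX
  obtain ⟨h1, h2, h3⟩ := hX
  exact h X h1 h3 z (B8.w_strip_coarse S.P h0 (le_of_eq h2) hz)

/-! ## (K2) the small inputs of a class -/

theorem pk_small_norm_cut_aux (hA : 1 ≤ p.A) (𝒴 : Finset S.P.g'.I → Prop) (𝒞 : Finset S.P.g.I → Prop) (T : Finset S.P.g.I → Fn G) (K : Act S.P.g) (η : ℝ≥0∞) (N : ℕ)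
    (hg : ∀ X ∈ S.small c, 𝒞 X → 𝒴 (S.P.N.cl X) → fnSize p S.P.g' S.Vc (S.P.N.cl X) (T X) ≤ η * fnSize p S.P.g S.Vf X (K X))
    (hN : ∀ Y : Finset S.P.g'.I, 𝒴 Y → (open Classical in (S.small c).filter (fun X => S.P.N.cl X = Y ∧ 𝒞 X)).card ≤ N) :
    actNorm p S.P.g' S.Vc (cutA 𝒴 (sumS S c 𝒞 T)) ≤ (N : ℝ≥0∞) * η * actNorm p S.P.g S.Vf (cutA 𝒞 K) := by
  classical
  rw [pk_cut_le_iff]
  intro Y hYc
  have hNY := hN Y hYc
  unfold sumS
  generalize hs : @Finset.filter _ (fun X => S.P.N.cl X = Y ∧ 𝒞 X) _ (S.small c) = s at hNY ⊢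
  have hmem : ∀ X ∈ s, X ∈ S.small c ∧ S.P.N.cl X = Y ∧ 𝒞 X := by
    intro X hX
    rw [← hs, Finset.mem_filter] at hX
    exact hX
  calc ENNReal.ofReal (p.A ^ Y.card) * fnSize p S.P.g' S.Vc Y (∑ X ∈ s, T X)
      ≤ ENNReal.ofReal (p.A ^ Y.card) * ∑ X ∈ s, fnSize p S.P.g' S.Vc Y (T X) :=
        mul_le_mul' le_rfl (B8.w_fnSize_sum_le p S.P.g' S.Vc Y s _)
    _ = ∑ X ∈ s, ENNReal.ofReal (p.A ^ Y.card) * fnSize p S.P.g' S.Vc Y (T X) := Finset.mul_sum _ _ _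
    _ ≤ ∑ _X ∈ s, η * actNorm p S.P.g S.Vf (cutA 𝒞 K) := by
        refine Finset.sum_le_sum fun X hX => ?_
        obtain ⟨hXs, hXY, hXc⟩ := hmem X hX
        have h1 := hg X hXs hXc (hXY ▸ hYc)
        rw [hXY] at h1
        have h2 : Y.card ≤ X.card := by
          rw [← hXY]
          exact Finset.card_image_le
        have h3 : ENNReal.ofReal (p.A ^ Y.card) ≤ ENNReal.ofReal (p.A ^ X.card) :=
          ENNReal.ofReal_le_ofReal (pow_le_pow_right₀ hA h2)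
        calc ENNReal.ofReal (p.A ^ Y.card) * fnSize p S.P.g' S.Vc Y (T X)
            ≤ ENNReal.ofReal (p.A ^ X.card) * (η * fnSize p S.P.g S.Vf X (K X)) := mul_le_mul' h3 h1
          _ = η * (ENNReal.ofReal (p.A ^ X.card) * fnSize p S.P.g S.Vf X (K X)) := by ring
          _ ≤ _ := mul_le_mul' le_rfl (pk_le_cut p S.Vf K hXc)
    _ = (s.card : ℝ≥0∞) * (η * actNorm p S.P.g S.Vf (cutA 𝒞 K)) := by
        rw [Finset.sum_const, nsmul_eq_mul]
    _ ≤ (N : ℝ≥0∞) * (η * actNorm p S.P.g S.Vf (cutA 𝒞 K)) := mul_le_mul' (by exact_mod_cast hNY) le_rfl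
    _ = _ := by ring

/-- **(K2)** per-input gain `η` (relative to ANY activity `K`, e.g. the remainder), `N` placements per output.   plan: `pk_small_norm_cut` with `𝒴 = True` (`cutA (fun _ => True) K = K`). -/
theorem pk_small_norm (hA : 1 ≤ p.A) (𝒞 : Finset S.P.g.I → Prop) (T : Finset S.P.g.I → Fn G) (K : Act S.P.g) (η : ℝ≥0∞) (N : ℕ)
    (hg : ∀ X ∈ S.small c, 𝒞 X → fnSize p S.P.g' S.Vc (S.P.N.cl X) (T X) ≤ η * fnSize p S.P.g S.Vf X (K X))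
    (hN : ∀ Y : Finset S.P.g'.I, (open Classical in (S.small c).filter (fun X => S.P.N.cl X = Y ∧ 𝒞 X)).card ≤ N) :
    actNorm p S.P.g' S.Vc (sumS S c 𝒞 T) ≤ (N : ℝ≥0∞) * η * actNorm p S.P.g S.Vf (cutA 𝒞 K) := by
  have h1 := pk_small_norm_cut_aux (c := c) hA (fun _ => True) 𝒞 T K η N (fun X hX hc _ => hg X hX hc) (fun Y _ => hN Y)
  have e : cutA (fun _ => True) (sumS S c 𝒞 T) = sumS S c 𝒞 T := funext fun Y => pk_cut_pos _ trivial
  rwa [e] at h1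

/-- the same on a class `𝒴` of outputs: only the placements below outputs of the class are counted.
plan: copy of `B8.w_clinS_norm` (`Map/WBnd.lean`): `pk_cut_le_iff`; `B8.w_fnSize_sum_le`; `|Y| = |cl X| ≤ |X|` (`Finset.card_image_le`), `A ≥ 1`; `pk_le_cut` instead of `B8.w_le_actNorm`. -/
theorem pk_small_norm_cut (hA : 1 ≤ p.A) (𝒴 : Finset S.P.g'.I → Prop) (𝒞 : Finset S.P.g.I → Prop) (T : Finset S.P.g.I → Fn G) (K : Act S.P.g) (η : ℝ≥0∞) (N : ℕ)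
    (hg : ∀ X ∈ S.small c, 𝒞 X → 𝒴 (S.P.N.cl X) → fnSize p S.P.g' S.Vc (S.P.N.cl X) (T X) ≤ η * fnSize p S.P.g S.Vf X (K X))
    (hN : ∀ Y : Finset S.P.g'.I, 𝒴 Y → (open Classical in (S.small c).filter (fun X => S.P.N.cl X = Y ∧ 𝒞 X)).card ≤ N) :
    actNorm p S.P.g' S.Vc (cutA 𝒴 (sumS S c 𝒞 T)) ≤ (N : ℝ≥0∞) * η * actNorm p S.P.g S.Vf (cutA 𝒞 K) := by
  exact pk_small_norm_cut_aux hA 𝒴 𝒞 T K η N hg hN

/-! ## (K3) the large inputs -/

/-- **(K3)**  plan: copy of `B8.w_clinL_norm` (`Map/WBnd.lean`) with `h.half`, `h.reg`, `h.adm`, `h.hR`. -/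
theorem pk_large_norm (c : B8.Geo) (η : ℝ≥0) (hη : 0 < η) (ℓ : ℕ) : ∃ A0 : ℝ, 1 ≤ A0 ∧ ∀ A ≥ A0, ∀ (δ κ : ℝ) (h0 : ℝ≥0) (ω : ℝ) (D0 : ℕ) (G : Geom) (S : B8.Step G D0 ℓ),
    Ctx0 c ⟨δ, κ, h0, A, ω⟩ S → ∀ K : Act S.P.g,
      actNorm ⟨δ, κ, h0, A, ω⟩ S.P.g' S.Vc (B8.ClinL S c K) ≤ η * actNorm ⟨δ, κ, h0, A, ω⟩ S.P.g S.Vf K := by
  obtain ⟨A0, hA0⟩ := B4.large_linear_abs c.R c.n0 c.cst η hη ℓ
  refine ⟨max 1 (A0 : ℝ), le_max_left _ _, fun A hA δ κ h0 ω D0 G S h Rm => ?_⟩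
  have hA1 : (1 : ℝ) ≤ A := (le_max_left _ _).trans hA
  have hA0' : (0 : ℝ) ≤ A := by linarith
  have hA' : A0 ≤ A.toNNReal := by
    rw [← NNReal.coe_le_coe, Real.coe_toNNReal _ hA0']
    exact (le_max_right _ _).trans hA
  have hR : max 5 S.Vf.sep ≤ c.R := h.hR
  have key := hA0 A.toNNReal hA' D0 G S.P h.half (Fn G) (conv S.Γ)
    (B4.scalarSizes S.P S.Γ S.Vf S.Vc ⟨δ, κ, h0, A, ω⟩ c.R c.n0 c.cst h.reg h.adm hR) Rm le_rfl
  have e1 : ∀ n : ℕ, ENNReal.ofReal (A ^ n) = ((A.toNNReal : ℝ≥0) : ℝ≥0∞) ^ n := fun n => ENNReal.ofReal_pow hA0' n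
  have e2 : actNorm ⟨δ, κ, h0, A, ω⟩ S.P.g' S.Vc (B8.ClinL S c Rm)
      = (B4.scalarSizes S.P S.Γ S.Vf S.Vc ⟨δ, κ, h0, A, ω⟩ c.R c.n0 c.cst h.reg h.adm hR).nc A.toNNReal
        (B8.ClinL S c Rm) := by
    unfold actNorm SizeSys.nc
    exact iSup_congr fun Y => by rw [e1]; rfl
  have e3 : actNorm ⟨δ, κ, h0, A, ω⟩ S.P.g S.Vf Rm
      = (B4.scalarSizes S.P S.Γ S.Vf S.Vc ⟨δ, κ, h0, A, ω⟩ c.R c.n0 c.cst h.reg h.adm hR).nf A.toNNReal Rm := by
    unfold actNorm SizeSys.nf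
    exact iSup_congr fun Y => by rw [e1]; rfl
  rw [e2, e3]
  exact key

/-! ## (K4) admissibility and size of a designation by pieces -/

/-- plan: first half of `B8.w_desig_small` (`Map/WDes.lean`) with `h.diam`. -/
theorem pk_desig_small (h : Ctx0 c p S) (pc : Finset S.P.g.I → S.P.g.I → Fn G) (cn : Finset S.P.g.I → S.P.g.I → ℂ) :
    (ofPieces S c pc cn).Small c.r S.P.g' := by
  classical
  intro Y b hYb
  show (∑ X ∈ (S.small c).filter (fun X => S.P.N.cl X = Y), ∑ B ∈ X.filter (fun B => S.P.N.up B = b), pc X B) = 0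
  refine Finset.sum_eq_zero fun X hX => ?_
  rw [Finset.mem_filter, B8.w_mem_small] at hX
  obtain ⟨⟨hc, hn⟩, rfl⟩ := hX
  have hd := h.diam X hc hn
  refine Finset.sum_eq_zero fun B hB => ?_
  rw [Finset.mem_filter] at hB
  exact absurd ⟨hd.2, hd.1, by rw [← hB.2]; exact Finset.mem_image_of_mem _ hB.1⟩ hYb

/-- plan: `B8.w_localFn_sum` twice; `up B = b` on the inner filter. -/
theorem pk_desig_fn (pc : Finset S.P.g.I → S.P.g.I → Fn G) (cn : Finset S.P.g.I → S.P.g.I → ℂ)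
    (hpc : ∀ X ∈ S.small c, ∀ B ∈ X, LocalFn p c.col S.P.g' {S.P.N.up B} (pc X B)) (Y : Finset S.P.g'.I) (b : S.P.g'.I) :
    LocalFn p c.col S.P.g' {b} ((ofPieces S c pc cn).F Y b) := by
  classical
  show LocalFn p c.col S.P.g' {b} (∑ X ∈ (S.small c).filter (fun X => S.P.N.cl X = Y), ∑ B ∈ X.filter (fun B => S.P.N.up B = b), pc X B)
  refine B8.w_localFn_sum p c.col S.P.g' {b} _ _ fun X hX => ?_
  refine B8.w_localFn_sum p c.col S.P.g' {b} _ _ fun B hB => ?_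
  rw [Finset.mem_filter] at hX hB
  have := hpc X hX.1 B hB.1
  rwa [hB.2] at this

/-- plan: `pk_desig_small`, `pk_desig_fn`; `1 + a ≠ 0` because `‖a‖ ≤ 1/2` (as in `B8.w_desig_ok`). -/
theorem pk_desig_ok (h : Ctx0 c p S) (pc : Finset S.P.g.I → S.P.g.I → Fn G) (cn : Finset S.P.g.I → S.P.g.I → ℂ)
    (hpc : ∀ X ∈ S.small c, ∀ B ∈ X, LocalFn p c.col S.P.g' {S.P.N.up B} (pc X B)) (ha : ∀ b, ‖(ofPieces S c pc cn).a b‖ ≤ 1 / 2) :
    (ofPieces S c pc cn).Ok p c.col c.r := by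
  refine ⟨pk_desig_small h pc cn, pk_desig_fn pc cn hpc, fun b hb => ?_⟩
  have h1 : (ofPieces S c pc cn).a b = -1 := by linear_combination hb
  have h2 := ha b
  rw [h1, norm_neg, norm_one] at h2
  norm_num at h2

/-- the double counting behind `pk_rel_size`, `pk_desig_size`, `pk_desig_a_le` -/
theorem pk_double_count (Cn : ℕ) (hCn : ∀ B : S.P.g.I, (open Classical in (S.small c).filter fun X => B ∈ X).card ≤ Cn) (b : S.P.g'.I)
    (φ : Finset S.P.g.I → S.P.g.I → ℝ≥0∞) (M : ℝ≥0∞) (hφ : ∀ X ∈ S.small c, ∀ B ∈ X, S.P.N.up B = b → φ X B ≤ M) :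
    (open Classical in ∑ X ∈ S.small c, ∑ B ∈ X.filter (fun B => S.P.N.up B = b), φ X B)
      ≤ (((2 * 2 ^ ℓ) ^ 2 * Cn : ℕ) : ℝ≥0∞) * M := by
  classical
  have hfib : ((Finset.univ.filter fun B => S.P.N.up B = b).card : ℝ≥0∞) ≤ (((2 * 2 ^ ℓ) ^ 2 : ℕ) : ℝ≥0∞) := by
    exact_mod_cast B8.w_count_fib S.P b
  have e : ∑ X ∈ S.small c, ∑ B ∈ X.filter (fun B => S.P.N.up B = b), φ X B
      = ∑ X ∈ S.small c, ∑ B ∈ X.filter (fun B => S.P.N.up B = b), (if B ∈ X then φ X B else 0) :=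
    Finset.sum_congr rfl fun X _ => Finset.sum_congr rfl fun B hB => (if_pos (Finset.mem_filter.1 hB).1).symm
  have h1 := B8.w_ds_double (S.small c) (fun B => S.P.N.up B = b) Cn (fun B => by convert hCn B)
    (fun X B => if B ∈ X then φ X B else 0) M (fun X hX B hB => by
      by_cases hBX : B ∈ X
      · rw [if_pos hBX]; exact hφ X hX B hBX hB
      · rw [if_neg hBX]; exact bot_le)
  have h2 : ∑ X ∈ S.small c, ∑ B ∈ X.filter (fun B => S.P.N.up B = b), φ X B ≤ (((2 * 2 ^ ℓ) ^ 2 * Cn : ℕ) : ℝ≥0∞) * M := by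
    rw [e]
    refine (h1.trans (mul_le_mul' hfib le_rfl)).trans (le_of_eq ?_)
    push_cast
    ring
  convert h2

/-- double counting: at most `Cn` small polymers through a fine block (`B8.w_count_small`), at most `(2 L)²` fine blocks in a coarse block (`B8.w_count_fib`).
plan: `B8.w_fnSize_sum_le` twice, then `B8.w_ds_double` with `Q B := up B = b`. -/
theorem pk_rel_size (Cn : ℕ) (hCn : ∀ B : S.P.g.I, (open Classical in (S.small c).filter fun X => B ∈ X).card ≤ Cn) (b : S.P.g'.I)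
    (f : Finset S.P.g.I → S.P.g.I → Fn G) (M : ℝ≥0∞) (hf : ∀ X ∈ S.small c, ∀ B ∈ X, S.P.N.up B = b → fnSize p S.P.g' S.Vc {b} (f X B) ≤ M) :
    fnSize p S.P.g' S.Vc {b} (open Classical in ∑ X ∈ S.small c, ∑ B ∈ X.filter (fun B => S.P.N.up B = b), f X B)
      ≤ (((2 * 2 ^ ℓ) ^ 2 * Cn : ℕ) : ℝ≥0∞) * M := by
  refine ((B8.w_fnSize_sum_le _ _ _ _ _ _).trans (Finset.sum_le_sum fun X _ => B8.w_fnSize_sum_le _ _ _ _ _ _)).trans ?_
  exact pk_double_count Cn hCn b (fun X B => fnSize p S.P.g' S.Vc {b} (f X B)) M hf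

/-- the rooted size of a designation by pieces.
plan: `Desig.size = ⨆_b (∑_Y fnSize {b} (F Y b)) + ‖a b‖`; `iSup_le`; `∑_Y fnSize {b} (∑_{X : cl X = Y} ..) ≤ ∑_Y ∑_{X : cl X = Y} ∑_B fnSize .. = ∑_{X small} ∑_{B ∈ X, up B = b} fnSize {b} (pc X B)` (`Finset.sum_fiberwise`), `B8.w_ds_double`;
`pk_desig_a_le`.  See `B8.w_ds_core`. -/
theorem pk_desig_size (Cn : ℕ) (hCn : ∀ B : S.P.g.I, (open Classical in (S.small c).filter fun X => B ∈ X).card ≤ Cn)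
    (pc : Finset S.P.g.I → S.P.g.I → Fn G) (cn : Finset S.P.g.I → S.P.g.I → ℂ) (M : ℝ≥0∞)
    (hpc : ∀ X ∈ S.small c, ∀ B ∈ X, fnSize p S.P.g' S.Vc {S.P.N.up B} (pc X B) ≤ M) (hcn : ∀ X ∈ S.small c, ∀ B ∈ X, (‖cn X B‖₊ : ℝ≥0∞) ≤ M) :
    (ofPieces S c pc cn).size p S.Vc ≤ 2 * (((2 * 2 ^ ℓ) ^ 2 * Cn : ℕ) : ℝ≥0∞) * M := by
  unfold Desig.size
  refine iSup_le fun b => ?_
  have h1 : ∑ Y : Finset S.P.g'.I, fnSize p S.P.g' S.Vc {b} ((ofPieces S c pc cn).F Y b) ≤ (((2 * 2 ^ ℓ) ^ 2 * Cn : ℕ) : ℝ≥0∞) * M := by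
    have hF : ∀ Y, fnSize p S.P.g' S.Vc {b} ((ofPieces S c pc cn).F Y b)
        ≤ (open Classical in ∑ X ∈ (S.small c).filter (fun X => S.P.N.cl X = Y), ∑ B ∈ X.filter (fun B => S.P.N.up B = b),
            fnSize p S.P.g' S.Vc {b} (pc X B)) := fun Y =>
      (B8.w_fnSize_sum_le _ _ _ _ _ _).trans (Finset.sum_le_sum fun X _ => B8.w_fnSize_sum_le _ _ _ _ _ _)
    refine (Finset.sum_le_sum fun Y _ => hF Y).trans ?_
    rw [Finset.sum_fiberwise]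
    exact pk_double_count Cn hCn b (fun X B => fnSize p S.P.g' S.Vc {b} (pc X B)) M fun X hX B hB hb => by
      have := hpc X hX B hB
      rwa [hb] at this
  have h2 : (‖(ofPieces S c pc cn).a b‖₊ : ℝ≥0∞) ≤ (((2 * 2 ^ ℓ) ^ 2 * Cn : ℕ) : ℝ≥0∞) * M := by
    refine ((B8.w_nn_sum_le _ _).trans (Finset.sum_le_sum fun X _ => B8.w_nn_sum_le _ _)).trans ?_
    exact pk_double_count Cn hCn b (fun X B => (‖cn X B‖₊ : ℝ≥0∞)) M fun X hX B hB _ => hcn X hX B hB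
  refine (add_le_add h1 h2).trans (le_of_eq ?_)
  ring

/-- the extracted constants.  plan: `B8.w_nn_sum_le` twice, `B8.w_ds_double`, `B8.w_count_fib`. -/
theorem pk_desig_a_le (Cn : ℕ) (hCn : ∀ B : S.P.g.I, (open Classical in (S.small c).filter fun X => B ∈ X).card ≤ Cn)
    (pc : Finset S.P.g.I → S.P.g.I → Fn G) (cn : Finset S.P.g.I → S.P.g.I → ℂ) (M : ℝ≥0∞)
    (hcn : ∀ X ∈ S.small c, ∀ B ∈ X, (‖cn X B‖₊ : ℝ≥0∞) ≤ M) (b : S.P.g'.I) :
    (‖(ofPieces S c pc cn).a b‖₊ : ℝ≥0∞) ≤ (((2 * 2 ^ ℓ) ^ 2 * Cn : ℕ) : ℝ≥0∞) * M := by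
  refine ((B8.w_nn_sum_le _ _).trans (Finset.sum_le_sum fun X _ => B8.w_nn_sum_le _ _)).trans ?_
  exact pk_double_count Cn hCn b (fun X B => (‖cn X B‖₊ : ℝ≥0∞)) M fun X hX B hB _ => hcn X hX B hB

/-- the relocated part on a class `𝒴` of outputs.  plan: `pk_cut_le_iff`; `Y = {b}`: `pk_linR_singleton`, `card = 1`; otherwise `pk_linR_of_ne`, `B8.w_fnSize_zero`. -/
theorem pk_linR_norm (𝒴 : Finset S.P.g'.I → Prop) (pc : Finset S.P.g.I → S.P.g.I → Fn G) (cn : Finset S.P.g.I → S.P.g.I → ℂ) (M : ℝ≥0∞)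
    (h : ∀ b, 𝒴 {b} → fnSize p S.P.g' S.Vc {b} (relB S c pc cn b) ≤ M) :
    actNorm p S.P.g' S.Vc (cutA 𝒴 (linR S c pc cn)) ≤ ENNReal.ofReal p.A * M := by
  rw [pk_cut_le_iff]
  intro Y hY
  by_cases hb : ∃ b, Y = {b}
  · obtain ⟨b, rfl⟩ := hb
    rw [pk_linR_singleton, Finset.card_singleton, pow_one]
    exact mul_le_mul' le_rfl (h b hY)
  · rw [pk_linR_of_ne pc cn Y (fun b hYb => hb ⟨b, hYb⟩), B8.w_fnSize_zero, mul_zero]
    exact zero_le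

end

end Claimed.Agent.R285.F6.Pr
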