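import Claimed.Agent.R285.Obs.PairInv
import Claimed.Agent.R285.Obs.PairKit

/-!
# ROW 285, unit OBS, BP-OBS-L62, block COPY of `Obs.pair_stop`, part 2: zones under embeddings, the pieces of the three sectors, THE STEPS OF THE INVARIANTS      (architect helper79)   -- KEEP

s3  zones and gauges under centred embeddings                       leaves L-PAIR-C9, C10
s4  the pieces of the three sectors                                 leaves L-PAIR-C11 .. C15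
s5  the steps: gauge, label, square - square, square - torus        leaves L-PAIR-C16 .. C21
NO ESTIMATE.
-/

set_option autoImplicit false

namespace Claimed.Agent.R285.F6.Pr

open scoped BigOperators ENNReal NNReal
open MeasureTheory
open Claimed.Agent.R285 Claimed.Agent.R285.RG Claimed.Agent.R285.B4 Claimed.Agent.R285.F4a

noncomputable section

/-! ## 3. Zones and gauges under embeddings -/

section zones

variable {G₀ G₁ : Geom} {g₀ : Grid G₀} {g₁ : Grid G₁}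

/-- a centred embedding of whole-block grids of two centred free squares (`prg_emb_sq`) -/
structure CenEmb (E : GEmb g₀ g₁) : Prop where
  ok : E.Ok
  cen : Centred E.s
  free₀ : G₀.bc = BC.free
  free₁ : G₁.bc = BC.free
  std₀ : Std g₀
  std₁ : Std g₁
  even₀ : 2 ∣ g₀.n
  even₁ : 2 ∣ g₁.n
  le : g₀.n ≤ g₁.n
  val : ∀ b : g₀.I, ((E.e b).1 : ℕ) = (b.1 : ℕ) + (g₁.n / 2 - g₀.n / 2) ∧ ((E.e b).2 : ℕ) = (b.2 : ℕ) + (g₁.n / 2 - g₀.n / 2)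

/-- an embedding of a free square into the corner chart of a big torus (`prg_emb_tor`) -/
structure TorEmb (E : GEmb g₀ g₁) : Prop where
  ok : E.Ok
  sh : Shift E.s 0
  free₀ : G₀.bc = BC.free
  per₁ : G₁.bc = BC.per
  std₀ : Std g₀
  std₁ : Std g₁
  le : 2 * g₀.n ≤ g₁.n
  val : ∀ b : g₀.I, ((E.e b).1 : ℕ) = (b.1 : ℕ) ∧ ((E.e b).2 : ℕ) = (b.2 : ℕ)

theorem prz_c9_ex_map (e : g₀.I ↪ g₁.I) (X : Finset g₀.I) (P : g₁.I → Prop) : (∃ a ∈ X.map e, P a) ↔ ∃ a ∈ X, P (e a) := by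
  constructor
  · rintro ⟨a, ha, hP⟩
    obtain ⟨b, hb, rfl⟩ := Finset.mem_map.1 ha
    exact ⟨b, hb, hP⟩
  · rintro ⟨a, ha, hP⟩
    exact ⟨e a, Finset.mem_map_of_mem _ ha, hP⟩

/-- **LEAF L-PAIR-C9** (7 statements, `omega` after unfolding; `Finset.mem_map`) -/
theorem prz_wallFree_map {E : GEmb g₀ g₁} (hE : CenEmb E) (H : ℕ) (X : Finset g₀.I) (h : WallFree g₀ H X) : WallFree g₁ H (X.map E.e) := by
  intro b' hb'
  obtain ⟨b, hb, rfl⟩ := Finset.mem_map.1 hb'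
  obtain ⟨p, hp⟩ := hE.even₀
  obtain ⟨q, hq⟩ := hE.even₁
  have hle := hE.le
  have hv := hE.val b
  have hb2 := h b hb
  omega

theorem prz_shiftGood_map {E : GEmb g₀ g₁} (hE : CenEmb E) (H : ℕ) (X : Finset g₀.I) : ShiftGood g₁ H (X.map E.e) ↔ ShiftGood g₀ H X := by
  obtain ⟨p, hp⟩ := hE.even₀
  obtain ⟨q, hq⟩ := hE.even₁
  have hle := hE.le
  unfold ShiftGood InRect
  rw [prz_c9_ex_map, prz_c9_ex_map, prz_c9_ex_map, prz_c9_ex_map]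
  have e1 : ∀ a : g₀.I, (((E.e a).1 : ℕ) ≤ g₁.n / 2 + H ↔ (a.1 : ℕ) ≤ g₀.n / 2 + H) := fun a => by
    have hv := hE.val a
    omega
  have e2 : ∀ a : g₀.I, (g₁.n / 2 ≤ ((E.e a).1 : ℕ) + H ↔ g₀.n / 2 ≤ (a.1 : ℕ) + H) := fun a => by
    have hv := hE.val a
    omega
  have e3 : ∀ a : g₀.I, (((E.e a).2 : ℕ) ≤ g₁.n / 2 + H ↔ (a.2 : ℕ) ≤ g₀.n / 2 + H) := fun a => by
    have hv := hE.val a
    omega
  have e4 : ∀ a : g₀.I, (g₁.n / 2 ≤ ((E.e a).2 : ℕ) + H ↔ g₀.n / 2 ≤ (a.2 : ℕ) + H) := fun a => by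
    have hv := hE.val a
    omega
  simp only [e1, e2, e3, e4]

theorem prz_nearB_map {E : GEmb g₀ g₁} (hE : CenEmb E) (H : ℕ) (b : g₀.I) : NearB g₁ H (E.e b) ↔ NearB g₀ H b := by
  obtain ⟨p, hp⟩ := hE.even₀
  obtain ⟨q, hq⟩ := hE.even₁
  have hle := hE.le
  have hv := hE.val b
  unfold NearB
  omega

theorem prz_nearUnit_map {E : GEmb g₀ g₁} (hE : CenEmb E) (H : ℕ) (X : Finset g₀.I) : NearUnit g₁ H (X.map E.e) ↔ NearUnit g₀ H X := by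
  unfold NearUnit
  rw [prz_c9_ex_map]
  simp only [prz_nearB_map hE]

/-- the unit neighbourhood of the image of an interior block is in the range -/
theorem prz_nb_cen {E : GEmb g₀ g₁} (hE : CenEmb E) (b : g₀.I) (h : WallFree g₀ 1 {b}) (b' : g₁.I) (hd : g₁.idist (E.e b) b' ≤ 1) : b' ∈ Set.range E.e := by
  obtain ⟨p, hp⟩ := hE.even₀
  obtain ⟨q, hq⟩ := hE.even₁
  have hle := hE.le
  have hv := hE.val b
  have hb := h b (Finset.mem_singleton_self b)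
  have hd' := prg_idist_le hE.free₁ g₁ hd
  have h1 : (b'.1 : ℕ) - (g₁.n / 2 - g₀.n / 2) < g₀.n := by omega
  have h2 : (b'.2 : ℕ) - (g₁.n / 2 - g₀.n / 2) < g₀.n := by omega
  refine ⟨(⟨_, h1⟩, ⟨_, h2⟩), ?_⟩
  have hv' := hE.val (⟨_, h1⟩, ⟨_, h2⟩)
  simp only at hv'
  refine Prod.ext (Fin.ext ?_) (Fin.ext ?_)
  · omega
  · omega

theorem prz_nb_tor {E : GEmb g₀ g₁} (hE : TorEmb E) (b : g₀.I) (h : WallFree g₀ 1 {b}) (b' : g₁.I) (hd : g₁.idist (E.e b) b' ≤ 1) : b' ∈ Set.range E.e := by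
  have hle := hE.le
  have hv := hE.val b
  have hb := h b (Finset.mem_singleton_self b)
  have hd1 : g₁.idist1 (E.e b).1 b'.1 ≤ 1 := (le_max_left _ _).trans hd
  have hd2 : g₁.idist1 (E.e b).2 b'.2 ≤ 1 := (le_max_right _ _).trans hd
  rw [prg_idist1_per hE.per₁] at hd1 hd2
  have hb1 := b'.1.2
  have hb2 := b'.2.2
  have h1 : (b'.1 : ℕ) < g₀.n := by omega
  have h2 : (b'.2 : ℕ) < g₀.n := by omega
  refine ⟨(⟨_, h1⟩, ⟨_, h2⟩), ?_⟩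
  have hv' := hE.val (⟨_, h1⟩, ⟨_, h2⟩)
  exact Prod.ext (Fin.ext hv'.1) (Fin.ext hv'.2)

/-- the unit stencils of an interior block stay in the box -/
theorem prz_inner (h₀ : G₀.bc = BC.free) (hg : Std g₀) (B : g₀.I) (h : WallFree g₀ 1 {B}) : Inner g₀ B := by
  intro v hv e
  have hB := h B (Finset.mem_singleton_self B)
  have hvB : g₀.blk v = B := by
    unfold Grid.sites at hv
    simpa using hv
  have hm := hg.pos
  have key : ∀ (i : Fin G₀.M) (k : Fin g₀.n), g₀.blk1 i = k → 1 ≤ (k : ℕ) → (k : ℕ) + 1 < g₀.n → 1 ≤ (i : ℕ) ∧ (i : ℕ) + 1 < G₀.M := by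
    intro i k hik h1 h2
    have e1 : (i : ℕ) / g₀.m = (k : ℕ) := by rw [← hg.blk i, hik]
    have e2 : (k : ℕ) * g₀.m ≤ (i : ℕ) := by rw [← e1]; exact Nat.div_mul_le_self _ _
    have e3 : (i : ℕ) < ((k : ℕ) + 1) * g₀.m := by
      rw [← e1]
      have h1' := Nat.div_add_mod (i : ℕ) g₀.m
      have h2' := Nat.mod_lt (i : ℕ) hm
      have h3' : ((i : ℕ) / g₀.m + 1) * g₀.m = g₀.m * ((i : ℕ) / g₀.m) + g₀.m := by ring
      omega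
    have e4 : 1 * g₀.m ≤ (k : ℕ) * g₀.m := Nat.mul_le_mul_right _ h1
    have e5 : ((k : ℕ) + 2) * g₀.m ≤ g₀.n * g₀.m := Nat.mul_le_mul_right _ (by omega)
    have e6 : ((k : ℕ) + 2) * g₀.m = (k : ℕ) * g₀.m + 2 * g₀.m := by ring
    have e7 : ((k : ℕ) + 1) * g₀.m = (k : ℕ) * g₀.m + g₀.m := by ring
    have e8 := hg.card
    omega
  have k1 := key v.1 B.1 (congrArg Prod.fst hvB) hB.1 hB.2.1
  have k2 := key v.2 B.2 (congrArg Prod.snd hvB) hB.2.2.1 hB.2.2.2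
  unfold InBox Geom.ι
  fin_cases e <;> simp [dir] <;> omega

/-- the reference field is the same plane function in all centred squares -/
theorem prz_psiRef {s : G₀.V ↪ G₁.V} (hs : Centred s) (vinf : ℤ × ℤ → ℝ) (α : ℝ) (v : G₀.V) : psiRef G₁ vinf α (s v) = psiRef G₀ vinf α v := by
  unfold psiRef
  rw [hs v]
  congr 2
  ext <;> simp <;> ring

theorem prz_cen_coord {s : G₀.V ↪ G₁.V} (hs : Centred s) (v : G₀.V) :
    (((s v).1 : ℕ) : ℤ) = ((v.1 : ℕ) : ℤ) + (((G₁.M / 2 : ℕ) : ℤ) - ((G₀.M / 2 : ℕ) : ℤ)) ∧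
    (((s v).2 : ℕ) : ℤ) = ((v.2 : ℕ) : ℤ) + (((G₁.M / 2 : ℕ) : ℤ) - ((G₀.M / 2 : ℕ) : ℤ)) :=
  ⟨congrArg Prod.fst (hs v), congrArg Prod.snd (hs v)⟩

theorem prz_Dm_map {E : GEmb g₀ g₁} (hE : E.Ok) (X : Finset g₀.I) {a : G₀.V} (ha : a ∈ g₀.Dm X) : E.s a ∈ g₁.Dm (X.map E.e) := by
  unfold Grid.Dm Grid.sites Grid.collar at ha ⊢
  simp only [Finset.mem_filter, Finset.mem_univ, true_and] at ha ⊢
  obtain ⟨x, hx, hd⟩ := ha
  refine ⟨E.e x, Finset.mem_map_of_mem _ hx, ?_⟩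
  rw [hE.blk, hE.dist]
  exact hd

theorem prz_hull_map {E : GEmb g₀ g₁} (hE : E.Ok) (hc : Centred E.s) (X : Finset g₀.I) {v : G₀.V} (hv : v ∈ hullS (g₀.Dm X)) :
    E.s v ∈ hullS (g₁.Dm (X.map E.e)) := by
  unfold hullS at hv ⊢
  simp only [Finset.mem_filter, Finset.mem_univ, true_and] at hv ⊢
  obtain ⟨⟨a, ha, h1⟩, ⟨b, hb, h2⟩, ⟨a', ha', h3⟩, ⟨b', hb', h4⟩⟩ := hv
  have cv := prz_cen_coord hc v
  refine ⟨⟨E.s a, prz_Dm_map hE X ha, ?_⟩, ⟨E.s b, prz_Dm_map hE X hb, ?_⟩, ⟨E.s a', prz_Dm_map hE X ha', ?_⟩, ⟨E.s b', prz_Dm_map hE X hb', ?_⟩⟩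
  · have c1 := prz_cen_coord hc a
    rw [Fin.le_def] at h1 ⊢
    omega
  · have c1 := prz_cen_coord hc b
    rw [Fin.le_def] at h2 ⊢
    omega
  · have c1 := prz_cen_coord hc a'
    rw [Fin.le_def] at h3 ⊢
    omega
  · have c1 := prz_cen_coord hc b'
    rw [Fin.le_def] at h4 ⊢
    omega

theorem prz_stp_map {E : GEmb g₀ g₁} (hE : E.Ok) (h₀ : G₀.bc = BC.free) (v : G₀.V) (d : Bool) (h : stp v d ≠ v) : stp (E.s v) d = E.s (stp v d) := by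
  have h1 := iota_stp_free h₀ v d h
  have h2 : InBox G₀ (G₀.ι v + bdir d) := by
    rw [← h1]
    refine ⟨Int.natCast_nonneg _, ?_, Int.natCast_nonneg _, ?_⟩
    · show (((stp v d).1 : ℕ) : ℤ) < (G₀.M : ℤ)
      exact_mod_cast (stp v d).1.2
    · show (((stp v d).2 : ℕ) : ℤ) < (G₀.M : ℤ)
      exact_mod_cast (stp v d).2.2
  exact hE.lat v (bdir d) h2

theorem prz_tauE_map {s : G₀.V ↪ G₁.V} (hs : Centred s) (v : G₀.V) (d : Bool) : tauE (G₁.M / 2) (s v, d) = tauE (G₀.M / 2) (v, d) := by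
  have cv := prz_cen_coord hs v
  unfold tauE
  have e : (d = false ∧ ((s v).2 : ℕ) + 1 = G₁.M / 2 ∧ G₁.M / 2 ≤ ((s v).1 : ℕ)) ↔ (d = false ∧ (v.2 : ℕ) + 1 = G₀.M / 2 ∧ G₀.M / 2 ≤ (v.1 : ℕ)) := by
    constructor
    · rintro ⟨a, b, c⟩
      exact ⟨a, by omega, by omega⟩
    · rintro ⟨a, b, c⟩
      exact ⟨a, by omega, by omega⟩
  exact if_congr e rfl rfl

/-- **LEAF L-PAIR-C10: a gauge of the image is a gauge of the support.**  `X` wall-free with `H ≥ 3`: the rectangle spanned by `D_m (X)` is interior; `E.s` maps it INTO the rectangle spanned by `D_m (X.map E.e)`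
(`GEmb.Ok.blk`, `dist`; coordinates by `Centred`); `stp (E.s v) d = E.s (stp v d)` (`GEmb.Ok.lat`); `tauE (M₁/2) (E.s v, d) = tauE (M₀/2) (v, d)` (`Centred`: both coordinates are shifted by `M₁/2 - M₀/2`). -/
theorem prz_gauge_pull {E : GEmb g₀ g₁} (hE : CenEmb E) (H : ℕ) (hH : 3 ≤ H) (X : Finset g₀.I) (h : WallFree g₀ H X) (κ : G₁.V → ℤ)
    (hκ : IsGauge g₁ (X.map E.e) κ) : IsGauge g₀ X fun v => κ (E.s v) := by
  intro e he h1 h2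
  have hs := prz_stp_map hE.ok hE.free₀ e.1 e.2 he
  have key := hκ (E.s e.1, e.2) (by
      show stp (E.s e.1) e.2 ≠ E.s e.1
      rw [hs]
      exact fun hh => he (E.s.injective hh))
    (prz_hull_map hE.ok hE.cen X h1) (by
      show stp (E.s e.1) e.2 ∈ _
      rw [hs]
      exact prz_hull_map hE.ok hE.cen X h2)
  have key' : κ (stp (E.s e.1) e.2) - κ (E.s e.1) = tauE (G₁.M / 2) (E.s e.1, e.2) := key
  rw [hs, prz_tauE_map hE.cen] at key'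
  exact key'

end zones

/-! ## 4. The pieces of the three sectors -/

/-- real fields lie in all strips -/
theorem pr_toC_mem_strip {G : Geom} {h0 : ℝ≥0} (hh : 0 < h0) (g : Grid G) (X : Finset g.I) (φ : G.V → ℝ) : toC φ ∈ strip h0 g X := by
  rw [Hol.mem_strip]
  have e : (fun v => (toC φ v).im) = (0 : G.V → ℝ) := by
    funext v
    simp [toC]
  rw [e, Hol.tnorm_zero]
  exact hh

section sectors

variable {G : Geom} {D0 ℓ : ℕ} (S : B8.Step G D0 ℓ)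

theorem pr_c11_dif {g : Grid G} (col : ℕ) (hcol : 1 ≤ col) (B : g.I) (a : ℂ) {w w' : G.V → ℂ} (h : ∀ v ∈ dep g col {B}, w' v = w v + a)
    {v : G.V} (hv : v ∈ g.sites {B}) (e : Fin 4) : dif (dir e) (G.lift w') (G.ι v) = dif (dir e) (G.lift w) (G.ι v) := by
  rw [Reg.reg_dif_lift, Reg.reg_dif_lift]
  unfold Reg.regNb
  rw [h _ (prc_c1_dep_nb col hcol B hv e), h _ (prc_c1_dep_self col B hv)]
  ring

theorem pr_c11_eBC {g : Grid G} (col : ℕ) (hcol : 1 ≤ col) (B : g.I) (a : ℂ) {w w' : G.V → ℂ} (h : ∀ v ∈ dep g col {B}, w' v = w v + a) :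
    eBC g B w' = eBC g B w := by
  unfold eBC
  congr 1
  refine Finset.sum_congr rfl fun v hv => Finset.sum_congr rfl fun e _ => ?_
  rw [pr_c11_dif col hcol B a h hv e]

theorem pr_c11_cBC {g : Grid G} (col : ℕ) (B : g.I) (ω : ℝ) (hω : ω ≠ 0) (n : ℤ) {w w' : G.V → ℂ}
    (h : ∀ v ∈ dep g col {B}, w' v = w v + ((ω * n : ℝ) : ℂ)) : cBC g (B8.Step.alpha ω) B w' = cBC g (B8.Step.alpha ω) B w := by
  unfold cBC
  congr 1
  refine Finset.sum_congr rfl fun v hv => ?_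
  rw [h _ (prc_c1_dep_self col B hv)]
  have e : ((B8.Step.alpha ω : ℝ) : ℂ) * (w v + ((ω * n : ℝ) : ℂ)) = ((B8.Step.alpha ω : ℝ) : ℂ) * w v + (n : ℂ) * (2 * (Real.pi : ℂ)) := by
    have hω' : (ω : ℂ) ≠ 0 := by exact_mod_cast hω
    unfold B8.Step.alpha
    push_cast
    field_simp
  rw [e, Complex.cos_add_int_mul_two_pi]

theorem pr_c11_Loc {g : Grid G} (col : ℕ) (hcol : 1 ≤ col) (X : Finset g.I) (v0 : G.V) (H : Fn G) (B : g.I) (a : ℂ) {w w' : G.V → ℂ}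
    (h : ∀ v ∈ dep g col {B}, w' v = w v + a) : Loc g X v0 H B w' = Loc g X v0 H B w := by
  have hp : ∀ v ∈ g.sites {B}, ∀ (ε : Fin 2 → Bool) (i : Fin 2), pvec g w' v ε i = pvec g w v ε i := by
    intro v hv ε i
    unfold pvec
    rw [pr_c11_dif col hcol B a h hv]
  unfold Loc
  congr 3
  refine Finset.sum_congr rfl fun v hv => ?_
  congr 1
  refine Finset.sum_congr rfl fun ε _ => Finset.sum_congr rfl fun i _ => Finset.sum_congr rfl fun j _ => ?_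
  rw [hp v hv, hp v hv]

theorem pr_c11_conv (Γ : Matrix G.V G.V ℝ) (F : Fn G) {w w' : G.V → ℂ} (h : ∀ ζ : G.V → ℝ, F (w' + toC ζ) = F (w + toC ζ)) :
    conv Γ F w' = conv Γ F w := by
  unfold conv
  exact integral_congr_ae (Filter.Eventually.of_forall h)

/-- **LEAF L-PAIR-C11: the centred pieces are local at `B` and periodic, at ALL complex fields** (no hypothesis on `K0`: `Loc` only sees differences at the sites of `B` and their neighbours,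
`cBC (w + ω n) = cBC w` because `α ω = 2π`, `conv Γ F w' = conv Γ F w` if `F (w' + ζ) = F (w + ζ)` for all `ζ`; the last case of `pc0` is a constant). -/
theorem pr_pc0_per (ω : ℝ) (hω : ω ≠ 0) (zn : Zn) (t z : ℂ) (K0 : Act S.P.g) (X : Finset S.P.g.I) (B : S.P.g.I) (col : ℕ) (hcol : 1 ≤ col) (n : ℤ)
    (w w' : G.V → ℂ) (h : ∀ v ∈ dep S.P.g col {B}, w' v = w v + ((ω * n : ℝ) : ℂ)) :
    pc0 S ω zn t z K0 X B w' = pc0 S ω zn t z K0 X B w := by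
  have hpiece : S.piece ω true (R0 S ω zn t z K0) X B w' = S.piece ω true (R0 S ω zn t z K0) X B w := by
    unfold B8.Step.piece
    rw [if_pos rfl, Pi.add_apply, Pi.add_apply, Pi.smul_apply, Pi.smul_apply, pr_c11_Loc col hcol X _ _ B _ h, pr_c11_cBC col B ω hω n h]
  have hconv : conv S.Γ ((t / 2) • eBC S.P.g B + z • cBC S.P.g (B8.Step.alpha ω) B) w'
      = conv S.Γ ((t / 2) • eBC S.P.g B + z • cBC S.P.g (B8.Step.alpha ω) B) w := by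
    refine pr_c11_conv S.Γ _ fun ζ => ?_
    have h' : ∀ v ∈ dep S.P.g col {B}, (w' + toC ζ) v = (w + toC ζ) v + ((ω * n : ℝ) : ℂ) := by
      intro v hv
      rw [Pi.add_apply, Pi.add_apply, h v hv]
      ring
    rw [Pi.add_apply, Pi.add_apply, Pi.smul_apply, Pi.smul_apply, Pi.smul_apply, Pi.smul_apply, pr_c11_eBC col hcol B _ h',
      pr_c11_cBC col B ω hω n h']
  unfold pc0
  by_cases h1 : WallFree S.P.g zn.H0 X
  · rw [if_pos h1]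
    by_cases h2 : X = {B}
    · rw [if_pos h2, Pi.add_apply, Pi.add_apply, hpiece, hconv]
    · rw [if_neg h2, Pi.add_apply, Pi.add_apply, hpiece, Pi.zero_apply, Pi.zero_apply]
  · rw [if_neg h1]

/-- **LEAF L-PAIR-C13: the unit piece of a shift-good input is the centred piece in ANY gauge.**
`pcT = shF (pc0 ..) (gF ω (gaugeOf ..))` (`if_pos`); `gaugeOf` is an `IsGaugeR` (`prg_gauge_exists`, `dif_pos`, `choose_spec`), hence an `IsGauge` (`prg_gaugeR_gauge`); two gauges differ by an integer constant on the rectangle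
(`prg_gauge_unique`), which contains `dep g col {B}` (`prg_dep_hull`, `prc_dep_mono`); conclude by C11. -/
theorem pr_pcT_gauge (hG : G.bc = BC.free) (hg : Std S.P.g) (he : 2 ∣ S.P.g.n) (ω : ℝ) (hω : ω ≠ 0) (zn : Zn) (hH1 : 2 ≤ zn.H1) (t z : ℂ) (Ψ : G.V → ℝ)
    (K0 KT : Act S.P.g) (X : Finset S.P.g.I) (B : S.P.g.I) (hB : B ∈ X) (hX : ShiftGood S.P.g zn.H1 X) (col : ℕ) (hcol : 1 ≤ col) (hcm : col ≤ S.P.g.m)
    (κ : G.V → ℤ) (hκ : IsGauge S.P.g X κ) (w w' : G.V → ℂ) (h : ∀ v ∈ dep S.P.g col {B}, w' v = w v + (gF ω κ v : ℂ)) :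
    pcT S ω zn t z Ψ K0 KT X B w = pc0 S ω zn t z K0 X B w' := by
  have hex := prg_gauge_exists hG S.P.g hg he zn.H1 X hX
  have hκ0R : IsGaugeR S.P.g zn.H1 X (gaugeOf S.P.g zn.H1 X) := by
    unfold gaugeOf
    rw [dif_pos hex]
    exact hex.choose_spec
  have hκ0 : IsGauge S.P.g X (gaugeOf S.P.g zn.H1 X) := prg_gaugeR_gauge hG S.P.g hg zn.H1 hH1 X _ hκ0R
  obtain ⟨n, hn⟩ := prg_gauge_unique hG S.P.g X κ (gaugeOf S.P.g zn.H1 X) hκ hκ0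
  have hsub : dep S.P.g col {B} ⊆ (hullS (S.P.g.Dm X) : Set G.V) :=
    (prc_dep_mono S.P.g col (Finset.singleton_subset_iff.2 hB)).trans (prg_dep_hull hG S.P.g hg col hcm X)
  have e1 : pcT S ω zn t z Ψ K0 KT X B w = pc0 S ω zn t z K0 X B (w + toC (gF ω (gaugeOf S.P.g zn.H1 X))) := by
    unfold pcT
    rw [if_pos hX]
    rfl
  rw [e1]
  refine (pr_pc0_per S ω hω zn t z K0 X B col hcol n _ _ ?_).symm
  intro v hv
  have h1 := hn v (hsub hv)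
  rw [h v hv]
  show w v + (gF ω κ v : ℂ) = w v + toC (gF ω (gaugeOf S.P.g zn.H1 X)) v + ((ω * n : ℝ) : ℂ)
  simp only [gF, toC, h1]
  push_cast
  ring

/-- the constant of the label direction vanishes if the label vanishes on `X` in the strip -/
theorem pr_cnJ_zero (ω : ℝ) (Ψ : G.V → ℝ) (h0 : ℝ≥0) (JT : Act S.P.g) (X : Finset S.P.g.I) (B : S.P.g.I)
    (h : ∀ w ∈ strip h0 S.P.g X, JT X w = 0) (hh : 0 < h0) : cnJ S ω Ψ JT X B = 0 := by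
  have h1 : ∀ ζ : G.V → ℝ, chargeProj ω 0 (JT X) (toC Ψ + toC ζ) = 0 := by
    intro ζ
    have h2 : ∀ s : ℝ, JT X (fun v => (toC Ψ + toC ζ) v + (s : ℂ)) = 0 := fun s =>
      h _ (Hol.strip_add_real (Hol.strip_add_toC (pr_toC_mem_strip hh S.P.g X Ψ) ζ) s)
    unfold chargeProj
    simp only [h2, mul_zero, intervalIntegral.integral_zero]
  unfold cnJ B8.Step.Hq conv
  simp only [h1, integral_zero, mul_zero]

end sectors

section sectorsCopy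

variable {G₀ G₁ : Geom} {g₀ : Grid G₀} {g₁ : Grid G₁}

theorem pr_c12_singleWF_single {G : Geom} (g : Grid G) (H0 : ℕ) (α : ℝ) (t z : ℂ) (B : g.I) (h : WallFree g H0 {B}) :
    singleWF g H0 α t z {B} = (t / 2) • eBC g B + z • cBC g α B := by
  unfold singleWF
  rw [Finset.sum_eq_single B]
  · rw [if_pos ⟨rfl, h⟩]
  · intro B' _ hne
    rw [if_neg fun h' => hne (Finset.singleton_injective h'.1).symm]
  · intro h'
    exact absurd (Finset.mem_univ _) h'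

theorem pr_c12_singleWF_ne {G : Geom} (g : Grid G) (H0 : ℕ) (α : ℝ) (t z : ℂ) (X : Finset g.I) (h : ∀ B, X ≠ {B}) :
    singleWF g H0 α t z X = 0 := by
  unfold singleWF
  exact Finset.sum_eq_zero fun B _ => if_neg fun h' => h B h'.1

theorem pr_c12_single_single {G : Geom} (g : Grid G) (α : ℝ) (t z : ℂ) (B : g.I) :
    B8.single g α t z {B} = (t / 2) • eBC g B + z • cBC g α B := by
  unfold B8.single
  rw [Finset.sum_eq_single B]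
  · rw [if_pos rfl]
  · intro B' _ hne
    rw [if_neg fun h' => hne (Finset.singleton_injective h').symm]
  · intro h'
    exact absurd (Finset.mem_univ _) h'

theorem pr_c12_single_ne {G : Geom} (g : Grid G) (α : ℝ) (t z : ℂ) (X : Finset g.I) (h : ∀ B, X ≠ {B}) : B8.single g α t z X = 0 := by
  unfold B8.single
  exact Finset.sum_eq_zero fun B _ => if_neg (h B)

theorem pr_c12_wf_one {G : Geom} (g : Grid G) {H0 : ℕ} (hH : 1 ≤ H0) {X : Finset g.I} (h : WallFree g H0 X) : WallFree g 1 X := by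
  intro b hb
  obtain ⟨h1, h2, h3, h4⟩ := h b hb
  exact ⟨by omega, by omega, by omega, by omega⟩

theorem pr_c12_map_ne (E : GEmb g₀ g₁) (X : Finset g₀.I) (h : ∀ B, X ≠ {B}) (B' : g₁.I) : X.map E.e ≠ {B'} := by
  intro h'
  have hc : X.card = 1 := by
    rw [← Finset.card_map E.e, h', Finset.card_singleton]
  obtain ⟨B, hB⟩ := Finset.card_eq_one.1 hc
  exact h B hB

theorem pr_c12_pair (E : GEmb g₀ g₁) (hE : E.Ok) (h0 : ℝ≥0) (col : ℕ) (hcol : 1 ≤ col) (α : ℝ) (t z : ℂ) (B : g₀.I) (hin : Inner g₀ B) :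
    CopyFn E h0 col 0 {B} ((t / 2) • eBC g₀ B + z • cBC g₀ α B) ((t / 2) • eBC g₁ (E.e B) + z • cBC g₁ α (E.e B)) :=
  ((prc_eBC_copy E hE h0 col hcol B hin).smul _).add ((prc_cBC_copy E hE h0 col α B).smul _)

/-- **LEAF L-PAIR-C12** (two statements): the retained singletons are copied on wall-free supports (C1, C9; `X.map E.e = {B'} ↔ ∃ B, X = {B} ∧ B' = E.e B`) -/
theorem pr_singleWF_copy_cen {E : GEmb g₀ g₁} (hE : CenEmb E) (h0 : ℝ≥0) (col : ℕ) (hcol : 1 ≤ col) (H0 : ℕ) (hH : 1 ≤ H0) (α : ℝ) (t z : ℂ)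
    (X : Finset g₀.I) (hX : WallFree g₀ H0 X) : CopyX E h0 col 0 (singleWF g₀ H0 α t z) (singleWF g₁ H0 α t z) X := by
  unfold CopyX
  by_cases h : ∃ B, X = {B}
  · obtain ⟨B, rfl⟩ := h
    have h1 : WallFree g₁ H0 {E.e B} := by
      have := prz_wallFree_map hE H0 {B} hX
      rwa [Finset.map_singleton] at this
    rw [Finset.map_singleton, pr_c12_singleWF_single g₀ H0 α t z B hX, pr_c12_singleWF_single g₁ H0 α t z (E.e B) h1]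
    exact pr_c12_pair E hE.ok h0 col hcol α t z B (prz_inner hE.free₀ hE.std₀ B (pr_c12_wf_one g₀ hH hX))
  · have h' : ∀ B, X ≠ {B} := fun B hB => h ⟨B, hB⟩
    rw [pr_c12_singleWF_ne g₀ H0 α t z X h', pr_c12_singleWF_ne g₁ H0 α t z _ (pr_c12_map_ne E X h')]
    exact CopyFn.zero E h0 col 0 X

theorem pr_singleWF_copy_tor {E : GEmb g₀ g₁} (hE : TorEmb E) (h0 : ℝ≥0) (col : ℕ) (hcol : 1 ≤ col) (H0 : ℕ) (hH : 1 ≤ H0) (α : ℝ) (t z : ℂ)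
    (X : Finset g₀.I) (hX : WallFree g₀ H0 X) : CopyX E h0 col 0 (singleWF g₀ H0 α t z) (B8.single g₁ α t z) X := by
  unfold CopyX
  by_cases h : ∃ B, X = {B}
  · obtain ⟨B, rfl⟩ := h
    rw [Finset.map_singleton, pr_c12_singleWF_single g₀ H0 α t z B hX, pr_c12_single_single g₁ α t z (E.e B)]
    exact pr_c12_pair E hE.ok h0 col hcol α t z B (prz_inner hE.free₀ hE.std₀ B (pr_c12_wf_one g₀ hH hX))
  · have h' : ∀ B, X ≠ {B} := fun B hB => h ⟨B, hB⟩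
    rw [pr_c12_singleWF_ne g₀ H0 α t z X h', pr_c12_single_ne g₁ α t z _ (pr_c12_map_ne E X h')]
    exact CopyFn.zero E h0 col 0 X

variable {D0 D0' ℓ : ℕ} (S₀ : B8.Step G₀ D0 ℓ) (S₁ : B8.Step G₁ D0' ℓ) (E : PEmb S₀.P S₁.P)

/-- **LEAF L-PAIR-C14a: the centred pieces of a wall-free small input are copied between two centred squares** (`pc0_wf`, `cn0_wf` on both sides by C9; `R0` is copied: `hK` minus C12; then C5 = `pr_pcPl_copy`) -/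
theorem pr_pc0_copy_cen (hE : E.Ok) (hf : CenEmb E.fine) (p : Par) (hh : 0 < p.h0) (col : ℕ) (hcol : 1 ≤ col)
    (hΓ₀ : S₀.Γ.PosSemidef) (hΓ₁ : S₁.Γ.PosSemidef) (zn : Zn) (hH0 : 1 ≤ zn.H0) (t z : ℂ) (K₀ : Act S₀.P.g) (K₁ : Act S₁.P.g)
    (X : Finset S₀.P.g.I) (B : S₀.P.g.I) (hB : B ∈ X) (hX : WallFree S₀.P.g zn.H0 X) (hd : 2 * ((S₀.P.g.idiam X + 1) * S₀.P.g.m + col) < G₁.M)
    (hcov : ∀ v ∈ dep S₀.P.g col X, ∀ w ∈ dep S₀.P.g col X, S₀.Γ v w = S₁.Γ (E.s v) (E.s w))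
    (hK : CopyX E.fine p.h0 col 0 K₀ K₁ X)
    (hH₀ : HqReg p col S₀ (R0 S₀ p.ω zn t z K₀) X) (hH₁ : HqReg p col S₁ (R0 S₁ p.ω zn t z K₁) (X.map E.f)) :
    CopyFn E.fine p.h0 col 0 {B} (pc0 S₀ p.ω zn t z K₀ X B) (pc0 S₁ p.ω zn t z K₁ (X.map E.f) (E.f B)) ∧
      cn0 S₀ p.ω zn t z K₀ X B = cn0 S₁ p.ω zn t z K₁ (X.map E.f) (E.f B) := by
  have hX₁ : WallFree S₁.P.g zn.H0 (X.map E.f) := prz_wallFree_map hf zn.H0 X hX
  have hR : CopyX E.fine p.h0 col 0 (R0 S₀ p.ω zn t z K₀) (R0 S₁ p.ω zn t z K₁) X :=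
    CopyFn.sub hK (pr_singleWF_copy_cen hf p.h0 col hcol zn.H0 hH0 (B8.Step.alpha p.ω) t z X hX)
  have hB1 : WallFree S₀.P.g 1 {B} := by
    intro b hb
    rw [Finset.mem_singleton] at hb
    subst hb
    have := hX b hB
    omega
  have hin : Inner S₀.P.g B := prz_inner hf.free₀ hf.std₀ B hB1
  rw [pc0_wf S₀ p.ω t z zn K₀ B hX, cn0_wf S₀ p.ω t z zn K₀ B hX, pc0_wf S₁ p.ω t z zn K₁ (E.f B) hX₁,
    cn0_wf S₁ p.ω t z zn K₁ (E.f B) hX₁]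
  exact pr_pcPl_copy S₀ S₁ E hE _ hf.cen hf.free₀ hf.std₀ p hh col hcol hΓ₀ hΓ₁ t z _ _ X B hB hin hd hcov hR hH₀ hH₁

/-- the neutral constants at the reference field are copied -/
theorem pr_cnJ_copy_aux (hs : Centred E.s) (h0 : ℝ≥0) (hh : 0 < h0) (col : ℕ) (hΓ₀ : S₀.Γ.PosSemidef) (hΓ₁ : S₁.Γ.PosSemidef) (ω : ℝ) (vinf : ℤ × ℤ → ℝ) (α : ℝ)
    (J₀ : Act S₀.P.g) (J₁ : Act S₁.P.g) (X : Finset S₀.P.g.I)
    (hcov : ∀ v ∈ dep S₀.P.g col X, ∀ w ∈ dep S₀.P.g col X, S₀.Γ v w = S₁.Γ (E.s v) (E.s w))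
    (hJ : CopyX E.fine h0 col 0 J₀ J₁ X) :
    (1 / (X.card : ℂ)) * S₀.Hq ω 0 J₀ X (toC (psiRef G₀ vinf α)) = (1 / ((X.map E.f).card : ℂ)) * S₁.Hq ω 0 J₁ (X.map E.f) (toC (psiRef G₁ vinf α)) := by
  have h1 : CopyFn E.fine h0 col 0 X (S₀.Hq ω 0 J₀ X) (S₁.Hq ω 0 J₁ (X.map E.f)) :=
    prc_conv_copy E.fine h0 col 0 X S₀.Γ S₁.Γ hΓ₀ hΓ₁ hcov (prc_charge_copy E.fine h0 col 0 X ω 0 hJ)
  rw [Finset.card_map]
  congr 1
  refine h1 _ (pr_toC_mem_strip hh _ _ _) _ (pr_toC_mem_strip hh _ _ _) ?_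
  intro v _
  show toC (psiRef G₁ vinf α) (E.s v) = toC (psiRef G₀ vinf α) v + (((0 : G₀.V → ℝ) v : ℝ) : ℂ)
  simp only [toC]
  rw [prz_psiRef hs]
  simp

/-- **LEAF L-PAIR-C14b: the unit pieces of a wall-free small input are copied between two centred squares.**
Shift-good `X` (equivalently `X.map E.f`, C9): both sides are centred pieces in the chosen gauges; `κ₁ ∘ E.s` is a gauge of `X` (C10), so by C13 (in the square `G₀`, gauge `κ₁ ∘ E.s`) the left side at `w₀` is `pc0 .. (w₀ + ω κ₁ ∘ E.s)`; apply C14a at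
`w₀ + ω κ₁ ∘ E.s`, `w₁ + ω κ₁` (real translations preserve the strips and `Agree`).   Defect: `Hq 0 KT X` is copied (`prc_conv_copy`, `prc_charge_copy`), evaluate at the reference fields (`prz_psiRef`; real fields lie in the strips). -/
theorem pr_pcT_copy_cen (hE : E.Ok) (hf : CenEmb E.fine) (p : Par) (hh : 0 < p.h0) (hω : p.ω ≠ 0) (col : ℕ) (hcol : 1 ≤ col) (hcm : col ≤ S₀.P.g.m)
    (hΓ₀ : S₀.Γ.PosSemidef) (hΓ₁ : S₁.Γ.PosSemidef) (zn : Zn) (hH0 : 3 ≤ zn.H0) (hH1 : 2 ≤ zn.H1) (t z : ℂ) (vinf : ℤ × ℤ → ℝ) (α : ℝ)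
    (x₀ : St S₀.P.g) (x₁ : St S₁.P.g)
    (X : Finset S₀.P.g.I) (B : S₀.P.g.I) (hB : B ∈ X) (hX : WallFree S₀.P.g zn.H0 X) (hd : 2 * ((S₀.P.g.idiam X + 1) * S₀.P.g.m + col) < G₁.M)
    (hcov : ∀ v ∈ dep S₀.P.g col X, ∀ w ∈ dep S₀.P.g col X, S₀.Γ v w = S₁.Γ (E.s v) (E.s w))
    (hK : CopyX E.fine p.h0 col 0 x₀.K0 x₁.K0 X) (hT : CopyX E.fine p.h0 col 0 x₀.KT x₁.KT X)
    (hH₀ : HqReg p col S₀ (R0 S₀ p.ω zn t z x₀.K0) X) (hH₁ : HqReg p col S₁ (R0 S₁ p.ω zn t z x₁.K0) (X.map E.f)) :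
    CopyFn E.fine p.h0 col 0 {B} (pcT S₀ p.ω zn t z (psiRef G₀ vinf α) x₀.K0 x₀.KT X B)
        (pcT S₁ p.ω zn t z (psiRef G₁ vinf α) x₁.K0 x₁.KT (X.map E.f) (E.f B)) ∧
      cnT S₀ p.ω zn t z (psiRef G₀ vinf α) x₀.K0 x₀.KT X B = cnT S₁ p.ω zn t z (psiRef G₁ vinf α) x₁.K0 x₁.KT (X.map E.f) (E.f B) := by
  have hiff : ShiftGood S₁.P.g zn.H1 (X.map E.f) ↔ ShiftGood S₀.P.g zn.H1 X := prz_shiftGood_map hf zn.H1 X
  by_cases hg : ShiftGood S₀.P.g zn.H1 X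
  · have hg₁ : ShiftGood S₁.P.g zn.H1 (X.map E.f) := hiff.2 hg
    obtain ⟨c1, c2⟩ := pr_pc0_copy_cen S₀ S₁ E hE hf p hh col hcol hΓ₀ hΓ₁ zn (by omega) t z x₀.K0 x₁.K0 X B hB hX hd hcov hK hH₀ hH₁
    refine ⟨?_, ?_⟩
    · intro z₀ hz₀ z₁ hz₁ hag
      have hex := prg_gauge_exists hf.free₁ S₁.P.g hf.std₁ hf.even₁ zn.H1 (X.map E.f) hg₁
      have hκ1R : IsGaugeR S₁.P.g zn.H1 (X.map E.f) (gaugeOf S₁.P.g zn.H1 (X.map E.f)) := by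
        unfold gaugeOf
        rw [dif_pos hex]
        exact hex.choose_spec
      have hκ1 : IsGauge S₁.P.g (X.map E.f) (gaugeOf S₁.P.g zn.H1 (X.map E.f)) :=
        prg_gaugeR_gauge hf.free₁ S₁.P.g hf.std₁ zn.H1 hH1 _ _ hκ1R
      have hκ0 : IsGauge S₀.P.g X fun v => gaugeOf S₁.P.g zn.H1 (X.map E.f) (E.s v) :=
        prz_gauge_pull hf zn.H0 hH0 X hX _ hκ1
      have e0 := pr_pcT_gauge S₀ hf.free₀ hf.std₀ hf.even₀ p.ω hω zn hH1 t z (psiRef G₀ vinf α) x₀.K0 x₀.KT X B hB hg col hcol hcm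
        (fun v => gaugeOf S₁.P.g zn.H1 (X.map E.f) (E.s v)) hκ0 z₀
        (z₀ + toC (gF p.ω fun v => gaugeOf S₁.P.g zn.H1 (X.map E.f) (E.s v))) (fun v _ => rfl)
      have e1 : pcT S₁ p.ω zn t z (psiRef G₁ vinf α) x₁.K0 x₁.KT (X.map E.f) (E.f B) z₁
          = pc0 S₁ p.ω zn t z x₁.K0 (X.map E.f) (E.f B) (z₁ + toC (gF p.ω (gaugeOf S₁.P.g zn.H1 (X.map E.f)))) := by
        unfold pcT
        rw [if_pos hg₁]
        rfl
      rw [e0, e1]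
      refine c1 _ (Hol.strip_add_toC hz₀ _) _ (Hol.strip_add_toC hz₁ _) ?_
      intro v hv
      have h1 : z₁ (E.s v) = z₀ v + (((0 : G₀.V → ℝ) v : ℝ) : ℂ) := hag v hv
      show z₁ (E.s v) + toC (gF p.ω (gaugeOf S₁.P.g zn.H1 (X.map E.f))) (E.s v)
        = z₀ v + toC (gF p.ω fun v => gaugeOf S₁.P.g zn.H1 (X.map E.f) (E.s v)) v + (((0 : G₀.V → ℝ) v : ℝ) : ℂ)
      rw [h1]
      simp only [toC, gF]
      ring
    · unfold cnT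
      rw [if_pos hg, if_pos hg₁]
      exact c2
  · have hg₁ : ¬ ShiftGood S₁.P.g zn.H1 (X.map E.f) := fun h => hg (hiff.1 h)
    have key := pr_cnJ_copy_aux S₀ S₁ E hf.cen p.h0 hh col hΓ₀ hΓ₁ p.ω vinf α x₀.KT x₁.KT X hcov hT
    refine ⟨?_, ?_⟩
    · intro z₀ _ z₁ _ _
      unfold pcT
      rw [if_neg hg, if_neg hg₁]
      exact key
    · unfold cnT
      rw [if_neg hg, if_neg hg₁]
      exact key

/-- **LEAF L-PAIR-C15: the constants of the label direction are copied** (`prc_conv_copy`, `prc_charge_copy`, `prz_psiRef`) -/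
theorem pr_cnJ_copy_cen (hs : Centred E.s) (h0 : ℝ≥0) (hh : 0 < h0) (col : ℕ) (hΓ₀ : S₀.Γ.PosSemidef) (hΓ₁ : S₁.Γ.PosSemidef) (ω : ℝ) (vinf : ℤ × ℤ → ℝ) (α : ℝ)
    (J₀ : Act S₀.P.g) (J₁ : Act S₁.P.g) (X : Finset S₀.P.g.I) (B : S₀.P.g.I)
    (hcov : ∀ v ∈ dep S₀.P.g col X, ∀ w ∈ dep S₀.P.g col X, S₀.Γ v w = S₁.Γ (E.s v) (E.s w))
    (hJ : CopyX E.fine h0 col 0 J₀ J₁ X) :
    cnJ S₀ ω (psiRef G₀ vinf α) J₀ X B = cnJ S₁ ω (psiRef G₁ vinf α) J₁ (X.map E.f) (E.f B) :=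
  pr_cnJ_copy_aux S₀ S₁ E hs h0 hh col hΓ₀ hΓ₁ ω vinf α J₀ J₁ X hcov hJ

end sectorsCopy

/-! ## 5. The steps of the invariants -/

section steps

variable {pm : Prm} {nm : Nm} {cT : ℝ≥0} {k0 kT : KC}

/-- closure geometry of the small polymers of a square -/
theorem Ctx.smallGeo {G : Geom} {ℓ : ℕ} {T : Tw G ℓ} {j : ℕ} {h : Ret G ℓ pm.D0 j} (H : Ctx pm nm cT k0 kT T h) : SmallGeo (T.step h) pm.c := by
  classical
  intro X hX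
  have hX' : (T.step h).P.g.Conn pm.c.R X ∧ X.card ≤ pm.c.n0 := by
    simpa only [B8.Step.small, Finset.mem_filter, Finset.mem_univ, true_and] using hX
  exact ⟨(H.hyp0.geo X hX'.1).1, (H.hyp0.geo X hX'.1).2.1 hX'.2⟩

/-- the retained singletons on the wall-free blocks are local functions -/
theorem pr_singleWF_local (p : Par) (hω : 0 < p.ω) (col : ℕ) (hcol : 1 ≤ col) {G : Geom} (g : Grid G) (H0 : ℕ) (t z : ℂ) (X : Finset g.I) :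
    LocalFn p col g X (singleWF g H0 (B8.Step.alpha p.ω) t z X) := by
  classical
  unfold singleWF
  refine B8.w_localFn_sum p col g X _ _ fun B _ => ?_
  split_ifs with h
  · obtain ⟨rfl, -⟩ := h
    exact B8.w_localFn_add p col g _ (B8.w_localFn_smul p col g _ _ (B8.w_eBC_local p col hcol g B))
      (B8.w_localFn_smul p col g _ _ (B8.w_cBC_local p hω col g B))
  · exact B8.w_localFn_zero p col g X

/-- **LEAF L-PAIR-C16: regularity of the neutral parts in a square.**  `R0 X = K0 X - singleWF X` is a `LocalFn` (`Inv.ok0`, `ok_par`; `eBC`, `cBC`: `B4.eB_local`-type lemmas, see `Map/WSing.lean`), of finite size (`hfin`, `cutA` is the identity on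
wall-free supports, `0 < A`); `B4.charge_proj` (locality, size, blindness to complex constants for `q = 0`); `Scal.localFn_conv` with the integrability from `RegStable` (copy `B8.w_Hq_local`, `B8.w_Hq_const` of `Map/WInt.lean`; they never use periodicity;
helper205's `Obs/PairKit.lean` restates that kit without boundary conditions). -/
theorem pr_HqReg_sq {G : Geom} {ℓ : ℕ} {T : Tw G ℓ} {j : ℕ} {h : Ret G ℓ pm.D0 j} (H : Ctx pm nm cT k0 kT T h) (t z : ℂ) (x : St (lev G ℓ j))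
    (hx : Inv pm nm.h0 x) (hfin : nP (nm.p0 pm.ω) (T.V0 j) pm.zn.H0 pm.α t z x ≠ ⊤) (X : Finset (lev G ℓ j).I) (hX : WallFree (lev G ℓ j) pm.zn.H0 X) :
    HqReg (nm.p0 pm.ω) pm.c.col (T.step h) (R0 (T.step h) pm.ω pm.zn t z x.K0) X := by
  have hω : 0 < (nm.p0 pm.ω).ω := H.ω_pos
  have hA : (1 : ℝ) ≤ (nm.p0 pm.ω).A := H.nmOk.AT_ge.trans H.nmOk.A_ge
  have hloc : LocalFn (nm.p0 pm.ω) pm.c.col (T.step h).P.g X (R0 (T.step h) pm.ω pm.zn t z x.K0 X) :=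
    B8.w_localFn_sub _ _ _ _ ((ok_par hx.ok0 nm.δ nm.κ nm.A).fn X)
      (pr_singleWF_local (nm.p0 pm.ω) hω pm.c.col H.geo.col_pos _ pm.zn.H0 t z X)
  have hfs : fnSize (nm.p0 pm.ω) (T.step h).P.g (T.step h).Vf X (R0 (T.step h) pm.ω pm.zn t z x.K0 X) ≠ ⊤ := by
    have h1 : actNorm (nm.p0 pm.ω) (lev G ℓ j) (T.V0 j)
        (cutA (WallFree (lev G ℓ j) pm.zn.H0) (x.K0 - singleWF (lev G ℓ j) pm.zn.H0 pm.α t z)) ≠ ⊤ := by
      intro h2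
      apply hfin
      unfold nP
      rw [h2]
      simp
    have h2 := pk_le_cut (nm.p0 pm.ω) (T.V0 j) (x.K0 - singleWF (lev G ℓ j) pm.zn.H0 pm.α t z) hX
    have h3 : ENNReal.ofReal ((nm.p0 pm.ω).A ^ X.card) ≠ 0 := by
      rw [Ne, ENNReal.ofReal_eq_zero, not_le]
      have : (0 : ℝ) < (nm.p0 pm.ω).A := by linarith
      positivity
    intro h4
    have h5 : fnSize (nm.p0 pm.ω) (lev G ℓ j) (T.V0 j) X ((x.K0 - singleWF (lev G ℓ j) pm.zn.H0 pm.α t z) X) = ⊤ := h4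
    rw [h5, ENNReal.mul_top h3, top_le_iff] at h2
    exact h1 h2
  have hcp := B4.charge_proj (nm.p0 pm.ω) hω pm.c.col (T.step h).P.g (T.step h).Vf X _ hloc 0
  refine ⟨Scal.localFn_conv (T.step h).Vf (T.step h).Γ hcp.1 (ne_top_of_le_ne_top hfs hcp.2.1)
    (Scal.lintegral_Wt_ne_top ENNReal.coe_ne_top H.hyp0.reg X), ?_⟩
  intro w hw a hw'
  unfold B8.Step.Hq conv
  refine integral_congr_ae (Filter.Eventually.of_forall fun ζ => ?_)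
  simp only
  have e : (fun v => w v + a) + toC ζ = fun v => (w + toC ζ) v + a := by
    funext v
    simp only [Pi.add_apply]
    ring
  have h1 := hcp.2.2 (w + toC ζ) a (Hol.strip_add_toC hw ζ) (by
    have := Hol.strip_add_toC hw' ζ
    rwa [e] at this)
  rw [e, h1]
  simp

section stepsAux

variable {G : Geom} {D0 ℓ : ℕ} (S : B8.Step G D0 ℓ) (c : B8.Geo)

theorem pr_id_ok : (PEmb.id S.P).Ok := ⟨prg_emb_id S.P.g, prg_emb_id S.P.g'⟩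

/-- a small input with a block over `b` lies over the unit neighbourhood of `b` -/
theorem pr_small_near (hg : SmallGeo S c) {X : Finset S.P.g.I} (hX : X ∈ S.small c) {B : S.P.g.I} (hB : B ∈ X) {Y : Finset S.P.g'.I}
    (hb : S.P.N.up B ∈ Y) : ∀ a ∈ X, ∃ b' ∈ Y, S.P.g'.idist (S.P.N.up a) b' ≤ 1 := by
  classical
  intro a ha
  exact ⟨_, hb, (Alg.idist_le_idiam (Finset.mem_image_of_mem _ ha) (Finset.mem_image_of_mem _ hB)).trans (hg X hX).2⟩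

/-- an input under `Y` lies over `Y` -/
theorem pr_cl_near {X : Finset S.P.g.I} {Y : Finset S.P.g'.I} (h : S.P.N.cl X ⊆ Y) :
    ∀ a ∈ X, ∃ b' ∈ Y, S.P.g'.idist (S.P.N.up a) b' ≤ 1 := by
  classical
  intro a ha
  exact ⟨_, h (Finset.mem_image_of_mem _ ha), by rw [Alg.idist_self]; exact Nat.zero_le _⟩

theorem pr_dep_up (col : ℕ) (B : S.P.g.I) : dep S.P.g col {B} ⊆ dep S.P.g' col {S.P.N.up B} := by
  classical
  refine prc_dep_coarse S.P col ?_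
  intro b hb
  simpa [Nest.cl] using hb

/-- the gauge identity is preserved, abstract step -/
theorem pr_gauge_step_aux (ω : ℝ) (zn : Zn) (t z : ℂ) (Ψ : G.V → ℝ) (h0 : ℝ≥0) (x : St S.P.g)
    (hcen : Cen S.P) (hℓ : 1 ≤ ℓ) (hΓ : S.Γ.PosSemidef) (hg : SmallGeo S c) (hcol : 1 ≤ c.col) (hcm : c.col ≤ S.P.g.m) (hω : ω ≠ 0)
    (hH1 : 2 ≤ zn.H1) (hL : zn.H1 ≤ 2 ^ ℓ)
    (hloc : ∀ X, LocalFn ⟨0, 0, h0, 0, ω⟩ c.col S.P.g X (x.K0 X))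
    (hgauge : ∀ X : Finset S.P.g.I, ShiftGood S.P.g zn.H1 X → ∀ κ : G.V → ℤ, IsGauge S.P.g X κ → ∀ z ∈ strip h0 S.P.g X,
      x.KT X z = x.K0 X (z + toC (gF ω κ)))
    (Y : Finset S.P.g'.I) (hY : ShiftGood S.P.g' zn.H1 Y) (κ : G.V → ℤ) (hκ : IsGauge S.P.g' Y κ) (w : G.V → ℂ)
    (hw : w ∈ strip h0 S.P.g' Y) :
    (next S c ω zn t z Ψ x).KT Y w = (next S c ω zn t z Ψ x).K0 Y (w + toC (gF ω κ)) := by
  classical
  have he : 2 ∣ S.P.g.n := by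
    rw [prg_n hcen]
    exact Dvd.dvd.mul_left hcen.even _
  -- the pieces
  have hpc : ∀ b ∈ Y, ∀ X ∈ S.small c, ∀ B ∈ X, S.P.N.up B = b →
      CopyFn (PEmb.id S.P).coarse h0 c.col (gF ω κ) {b} (pcT S ω zn t z Ψ x.K0 x.KT X B) (pc0 S ω zn t z x.K0 X B) := by
    intro b hb X hX B hB hBb z₀ _ z₁ _ hag
    have hn := pr_small_near S c hg hX hB (Y := Y) (by rw [hBb]; exact hb)
    refine pr_pcT_gauge S hcen.free hcen.fine he ω hω zn hH1 t z Ψ x.K0 x.KT X B hB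
      (prg_shiftGood_fine hcen zn.H1 hH1 hL Y hY X hn) c.col hcol hcm κ (prg_gauge_fine hcen hℓ Y κ hκ X hn) z₀ z₁ ?_
    intro v hv
    exact hag v (by rw [← hBb]; exact pr_dep_up S c.col B hv)
  have hcn : ∀ b ∈ Y, ∀ X ∈ S.small c, ∀ B ∈ X, S.P.N.up B = b → cnT S ω zn t z Ψ x.K0 x.KT X B = cn0 S ω zn t z x.K0 X B := by
    intro b hb X hX B hB hBb
    have hn := pr_small_near S c hg hX hB (Y := Y) (by rw [hBb]; exact hb)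
    unfold cnT
    rw [if_pos (prg_shiftGood_fine hcen zn.H1 hH1 hL Y hY X hn)]
  have key := pr_copy_step (PEmb.id S.P) (pr_id_ok S) h0 c.col c.r c.R S.Γ S.Γ hΓ hΓ (gF ω κ) x.KT x.K0
    (dT S c ω zn t z Ψ x.K0 x.KT) (d0 S c ω zn t z x.K0) (pr_ofPieces_small S c hg _ _) (pr_ofPieces_small S c hg _ _) Y
    (fun b _ b' _ => ⟨b', rfl⟩) (fun _ _ _ _ => rfl) ?_ ?_ ?_
  · have h1 := key w hw (w + toC (gF ω κ)) (by
      show w + toC (gF ω κ) ∈ strip h0 S.P.g' (Y.map (Function.Embedding.refl _))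
      rw [Finset.map_refl]
      exact Hol.strip_add_toC hw _) (fun v _ => rfl)
    have e : Y.map (PEmb.id S.P).coarse.e = Y := Finset.map_refl
    rw [e] at h1
    exact h1
  · -- the fine activities
    intro X hXY z₀ hz₀ z₁ hz₁ hag
    have hn := pr_cl_near S hXY
    have e : X.map (PEmb.id S.P).fine.e = X := Finset.map_refl
    rw [e] at hz₁ ⊢
    rw [hgauge X (prg_shiftGood_fine hcen zn.H1 hH1 hL Y hY X hn) κ (prg_gauge_fine hcen hℓ Y κ hκ X hn) z₀ hz₀]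
    refine (hloc X).loc _ (Hol.strip_add_toC hz₀ _) _ hz₁ ?_
    intro v hv
    exact (hag v hv).symm
  · -- the designated pieces
    intro b hb Y'
    have e : Y'.map (PEmb.id S.P).c = Y' := Finset.map_refl
    rw [e]
    show CopyFn _ h0 c.col (gF ω κ) {b}
      (∑ X ∈ (S.small c).filter (fun X => S.P.N.cl X = Y'), ∑ B ∈ X.filter (fun B => S.P.N.up B = b), pcT S ω zn t z Ψ x.K0 x.KT X B)
      (∑ X ∈ (S.small c).filter (fun X => S.P.N.cl X = Y'), ∑ B ∈ X.filter (fun B => S.P.N.up B = b), pc0 S ω zn t z x.K0 X B)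
    refine CopyFn.sum _ fun X hX => CopyFn.sum _ fun B hB => ?_
    exact hpc b hb X (Finset.mem_filter.1 hX).1 B (Finset.mem_filter.1 hB).1 (Finset.mem_filter.1 hB).2
  · intro b hb
    show ∑ X ∈ S.small c, ∑ B ∈ X.filter (fun B => S.P.N.up B = b), cnT S ω zn t z Ψ x.K0 x.KT X B
      = ∑ X ∈ S.small c, ∑ B ∈ X.filter (fun B => S.P.N.up B = b), cn0 S ω zn t z x.K0 X B
    refine Finset.sum_congr rfl fun X hX => Finset.sum_congr rfl fun B hB => ?_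
    exact hcn b hb X hX B (Finset.mem_filter.1 hB).1 (Finset.mem_filter.1 hB).2

/-- the unit pieces are local at `B` -/
theorem pr_pcT_loc (ω : ℝ) (hω : ω ≠ 0) (zn : Zn) (t z : ℂ) (Ψ : G.V → ℝ) (K0 KT : Act S.P.g) (X : Finset S.P.g.I) (B : S.P.g.I) (col : ℕ)
    (hcol : 1 ≤ col) (w w' : G.V → ℂ) (h : ∀ v ∈ dep S.P.g col {B}, w' v = w v) :
    pcT S ω zn t z Ψ K0 KT X B w' = pcT S ω zn t z Ψ K0 KT X B w := by
  classical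
  unfold pcT
  split_ifs with hX
  · unfold shF
    refine pr_pc0_per S ω hω zn t z K0 X B col hcol 0 _ _ ?_
    intro v hv
    show w' v + _ = w v + _ + _
    rw [h v hv]
    simp
  · rfl

/-- the label stays at the unit, abstract step -/
theorem pr_label_step_aux (ω : ℝ) (zn : Zn) (t z : ℂ) (Ψ : G.V → ℝ) (h0 : ℝ≥0) (hh : 0 < h0) (x : St S.P.g)
    (hcen : Cen S.P) (hΓ : S.Γ.PosSemidef) (hg : SmallGeo S c) (hcol : 1 ≤ c.col) (hω : ω ≠ 0)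
    (hL : c.R * c.n0 + 1 ≤ 2 ^ ℓ)
    (hloc : ∀ X, LocalFn ⟨0, 0, h0, 0, ω⟩ c.col S.P.g X (x.KT X))
    (hlabel : ∀ X : Finset S.P.g.I, ¬ NearUnit S.P.g 1 X → ∀ z ∈ strip h0 S.P.g X, x.JT X z = 0)
    (Y : Finset S.P.g'.I) (hY : ¬ NearUnit S.P.g' 1 Y) (w : G.V → ℂ) (hw : w ∈ strip h0 S.P.g' Y) :
    (next S c ω zn t z Ψ x).JT Y w = 0 := by
  classical
  -- the constants of the label direction vanish over `Y`
  have hcn : ∀ b ∈ Y, ∀ X ∈ S.small c, ∀ B ∈ X, S.P.N.up B = b → cnJ S ω Ψ x.JT X B = 0 := by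
    intro b hb X hX B hB hBb
    have hX' : S.P.g.Conn c.R X ∧ X.card ≤ c.n0 := by
      simpa only [B8.Step.small, Finset.mem_filter, Finset.mem_univ, true_and] using hX
    refine pr_cnJ_zero S ω Ψ h0 x.JT X B (hlabel X fun hd => hY ?_) hh
    exact ⟨b, hb, hBb ▸ prg_label_central hcen c.R c.n0 hL X hX'.1 hX'.2 hd B hB⟩
  have hconst : ∀ s : ℂ, famT S c ω zn t z Ψ x s Y w
      = Kprime S.P c.r c.R (conv S.Γ) x.KT (dT S c ω zn t z Ψ x.K0 x.KT) Y w := by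
    intro s
    have key := pr_copy_step (PEmb.id S.P) (pr_id_ok S) h0 c.col c.r c.R S.Γ S.Γ hΓ hΓ 0 (x.KT + s • x.JT) x.KT
      (dLin (dT S c ω zn t z Ψ x.K0 x.KT) (dJ S c ω Ψ x.JT) s) (dT S c ω zn t z Ψ x.K0 x.KT)
      (pr_dLin_small (pr_ofPieces_small S c hg _ _) (pr_ofPieces_small S c hg _ _) s) (pr_ofPieces_small S c hg _ _) Y
      (fun b _ b' _ => ⟨b', rfl⟩) (fun _ _ _ _ => rfl) ?_ ?_ ?_
    · have h1 := key w hw w (by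
        show w ∈ strip h0 S.P.g' (Y.map (Function.Embedding.refl _))
        rw [Finset.map_refl]
        exact hw) (fun v _ => by simp [PEmb.id, PEmb.coarse])
      have e : Y.map (PEmb.id S.P).coarse.e = Y := Finset.map_refl
      rw [e] at h1
      exact h1
    · intro X hXY z₀ hz₀ z₁ hz₁ hag
      have e : X.map (PEmb.id S.P).fine.e = X := Finset.map_refl
      rw [e] at hz₁ ⊢
      have hJ : x.JT X z₀ = 0 := by
        refine hlabel X (fun hd => hY ?_) z₀ hz₀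
        obtain ⟨b, hb, hnb⟩ := prg_near_cl hcen X hd
        exact ⟨b, hXY hb, hnb⟩
      show x.KT X z₀ + s • x.JT X z₀ = x.KT X z₁
      rw [hJ, smul_zero, add_zero]
      refine (hloc X).loc _ hz₀ _ hz₁ ?_
      intro v hv
      have := hag v hv
      simpa [PEmb.id, PEmb.fine] using this.symm
    · intro b hb Y' z₀ _ z₁ _ hag
      have e : Y'.map (PEmb.id S.P).c = Y' := Finset.map_refl
      rw [e]
      have hJ0 : (dJ S c ω Ψ x.JT).F Y' b = 0 := by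
        show ∑ X ∈ (S.small c).filter (fun X => S.P.N.cl X = Y'), ∑ B ∈ X.filter (fun B => S.P.N.up B = b),
          (fun _ : G.V → ℂ => cnJ S ω Ψ x.JT X B) = 0
        refine Finset.sum_eq_zero fun X hX => Finset.sum_eq_zero fun B hB => ?_
        rw [hcn b hb X (Finset.mem_filter.1 hX).1 B (Finset.mem_filter.1 hB).1 (Finset.mem_filter.1 hB).2]
        rfl
      show ((dT S c ω zn t z Ψ x.K0 x.KT).F Y' b + s • (dJ S c ω Ψ x.JT).F Y' b) z₀ = (dT S c ω zn t z Ψ x.K0 x.KT).F Y' b z₁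
      rw [hJ0, smul_zero, add_zero]
      show (∑ X ∈ (S.small c).filter (fun X => S.P.N.cl X = Y'), ∑ B ∈ X.filter (fun B => S.P.N.up B = b),
          pcT S ω zn t z Ψ x.K0 x.KT X B) z₀
        = (∑ X ∈ (S.small c).filter (fun X => S.P.N.cl X = Y'), ∑ B ∈ X.filter (fun B => S.P.N.up B = b),
          pcT S ω zn t z Ψ x.K0 x.KT X B) z₁
      rw [Finset.sum_apply, Finset.sum_apply]
      refine Finset.sum_congr rfl fun X _ => ?_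
      rw [Finset.sum_apply, Finset.sum_apply]
      refine Finset.sum_congr rfl fun B hB => ?_
      refine (pr_pcT_loc S ω hω zn t z Ψ x.K0 x.KT X B c.col hcol z₀ z₁ ?_).symm
      intro v hv
      have hv' : v ∈ dep S.P.g' c.col {b} := by
        rw [← (Finset.mem_filter.1 hB).2]
        exact pr_dep_up S c.col B hv
      have := hag v hv'
      simpa [PEmb.id, PEmb.coarse] using this
    · intro b hb
      have hJ0 : (dJ S c ω Ψ x.JT).a b = 0 := by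
        show ∑ X ∈ S.small c, ∑ B ∈ X.filter (fun B => S.P.N.up B = b), cnJ S ω Ψ x.JT X B = 0
        refine Finset.sum_eq_zero fun X hX => Finset.sum_eq_zero fun B hB => ?_
        exact hcn b hb X hX B (Finset.mem_filter.1 hB).1 (Finset.mem_filter.1 hB).2
      show (dT S c ω zn t z Ψ x.K0 x.KT).a b + s • (dJ S c ω Ψ x.JT).a b = (dT S c ω zn t z Ψ x.K0 x.KT).a b
      rw [hJ0, smul_zero, add_zero]
  show deriv (fun s : ℂ => famT S c ω zn t z Ψ x s Y w) 0 = 0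
  simp only [hconst]
  exact deriv_const _ _

end stepsAux

theorem Ctx.one_le_l {G : Geom} {ℓ : ℕ} {T : Tw G ℓ} {j : ℕ} {h : Ret G ℓ pm.D0 j} (H : Ctx pm nm cT k0 kT T h) : 1 ≤ ℓ := by
  rcases Nat.eq_zero_or_pos ℓ with rfl | h1
  · have := H.hL
    simp at this
  · exact h1

/-- **LEAF L-PAIR-C17: THE GAUGE IDENTITY IS PRESERVED.**  `pr_copy_step` with `E = PEmb.id`, `μ = gF ω κ`, `K₀ = KT`, `K₁ = K0`, `d₀ = dT`, `d₁ = d0` (`Finset.map_refl`).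
`hK`: `cl X ⊆ Y` ⟹ `X` shift-good (`prg_shiftGood_fine`), `κ` is a gauge of `X` (`prg_gauge_fine`), `Inv.gauge` + locality of `K0 X` (`Inv.ok0`).   `hF`, `ha`: termwise in `ofPieces`: a small `X` with a block over `b ∈ Y` has `cl X` in the unit
neighbourhood of `Y` (`Ctx.smallGeo`), so it is shift-good and C13 applies; `cnT = cn0` by `if_pos`.   `hnb`, `hcov` are trivial; `Small` by C6. -/
theorem pr_gauge_step {G : Geom} {ℓ : ℕ} {T : Tw G ℓ} {j : ℕ} {h : Ret G ℓ pm.D0 j} (H : Ctx pm nm cT k0 kT T h) (t z : ℂ) (x : St (lev G ℓ j))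
    (hx : Inv pm nm.h0 x) (Y : Finset (lev G ℓ (j + 1)).I) (hY : ShiftGood (lev G ℓ (j + 1)) pm.zn.H1 Y) (κ : G.V → ℤ)
    (hκ : IsGauge (lev G ℓ (j + 1)) Y κ) (w : G.V → ℂ) (hw : w ∈ strip nm.h0 (lev G ℓ (j + 1)) Y) :
    (next (T.step h) pm.c pm.ω pm.zn t z (pm.ref G) x).KT Y w = (next (T.step h) pm.c pm.ω pm.zn t z (pm.ref G) x).K0 Y (w + toC (gF pm.ω κ)) := by
  have hL := H.hL
  have hH1 := H.hH1
  have hcol := H.col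
  exact pr_gauge_step_aux (T.step h) pm.c pm.ω pm.zn t z (pm.ref G) nm.h0 x H.cenP H.one_le_l H.hyp0.shell.psd H.smallGeo H.geo.col_pos
    (by show pm.c.col ≤ side G ℓ j; omega) H.ω_pos.ne' (by omega) (by omega) hx.ok0.fn hx.gauge Y hY κ hκ w hw

/-- **LEAF L-PAIR-C18: THE LABEL STAYS AT THE UNIT.**  If `Y` has no central block then `famT s Y w = famT 0 Y w` for all `s` (so the derivative vanishes): `pr_copy_step` with `E = PEmb.id`, `μ = 0`, `K₀ = KT + s JT`, `K₁ = KT`.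
`hK`: `cl X ⊆ Y` ⟹ `X` has no central block (`prg_near_cl`) ⟹ `JT X = 0` in the strip.   `hF`, `ha`: a small `X` with a block over `b ∈ Y`: if `X` had a central block, all its blocks would sit over central coarse blocks (`prg_label_central`);
so `JT X = 0` in the strip and `cnJ = 0` (`pr_cnJ_zero`). -/
theorem pr_label_step {G : Geom} {ℓ : ℕ} {T : Tw G ℓ} {j : ℕ} {h : Ret G ℓ pm.D0 j} (H : Ctx pm nm cT k0 kT T h) (t z : ℂ) (x : St (lev G ℓ j))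
    (hx : Inv pm nm.h0 x) (Y : Finset (lev G ℓ (j + 1)).I) (hY : ¬ NearUnit (lev G ℓ (j + 1)) 1 Y) (w : G.V → ℂ) (hw : w ∈ strip nm.h0 (lev G ℓ (j + 1)) Y) :
    (next (T.step h) pm.c pm.ω pm.zn t z (pm.ref G) x).JT Y w = 0 := by
  have hL := H.hL
  exact pr_label_step_aux (T.step h) pm.c pm.ω pm.zn t z (pm.ref G) nm.h0 H.nmOk.h0_pos x H.cenP H.hyp0.shell.psd H.smallGeo H.geo.col_pos
    H.ω_pos.ne' (by omega) hx.okT.fn hx.label Y hY w hw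

/-- the embedding of the retained pair `(j, j + 1)` of two squares -/
def TEmb.pe {G₀ G₁ : Geom} {ℓ : ℕ} (E : TEmb (lev G₀ ℓ) (lev G₁ ℓ)) {D0 D0' j : ℕ} (h₀ : Ret G₀ ℓ D0 j) (h₁ : Ret G₁ ℓ D0' j) : PEmb (pair h₀) (pair h₁) :=
  ⟨E.s, E.e j, E.e (j + 1)⟩

/-- **shared set-up of C19, C20, C21**: the geometry of `pr_copy_step` / `pr_ofPieces_copy` on a wall-free coarse support -/
theorem pr_sq_step_geo {G₀ G₁ : Geom} {ℓ : ℕ} {T₀ : Tw G₀ ℓ} {j : ℕ} {h₀ : Ret G₀ ℓ pm.D0 j} {h₁ : Ret G₁ ℓ pm.D0 j}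
    (H₀ : Ctx pm nm cT k0 kT T₀ h₀) (E : TEmb (lev G₀ ℓ) (lev G₁ ℓ)) (hE' : CenEmb (E.lv (j + 1)))
    (hcov : ∀ Y, WallFree (lev G₀ ℓ (j + 1)) (pm.zn.H0 - 1) Y → ∀ v ∈ dep (lev G₀ ℓ (j + 1)) pm.c.col Y, ∀ w ∈ dep (lev G₀ ℓ (j + 1)) pm.c.col Y,
      Gm G₀ ℓ j v w = Gm G₁ ℓ j (E.s v) (E.s w))
    (Y : Finset (lev G₀ ℓ (j + 1)).I) (hY : WallFree (lev G₀ ℓ (j + 1)) pm.zn.H0 Y) :
    (∀ b ∈ Y, ∀ b' : (lev G₁ ℓ (j + 1)).I, (lev G₁ ℓ (j + 1)).idist (E.e (j + 1) b) b' ≤ 1 → b' ∈ Set.range (E.e (j + 1))) ∧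
    (∀ v ∈ dep (lev G₀ ℓ (j + 1)) pm.c.col Y, ∀ w ∈ dep (lev G₀ ℓ (j + 1)) pm.c.col Y, Gm G₀ ℓ j v w = Gm G₁ ℓ j (E.s v) (E.s w)) ∧
    (∀ X : Finset (lev G₀ ℓ j).I, (nest G₀ ℓ j).cl X ⊆ Y → WallFree (lev G₀ ℓ j) pm.zn.H0 X) ∧
    (∀ b ∈ Y, ∀ X ∈ (T₀.step h₀).small pm.c, ∀ B ∈ X, (nest G₀ ℓ j).up B = b →
      WallFree (lev G₀ ℓ j) pm.zn.H0 X ∧ 2 * (((lev G₀ ℓ j).idiam X + 1) * (lev G₀ ℓ j).m + pm.c.col) < G₁.M ∧
      ∀ v ∈ dep (lev G₀ ℓ j) pm.c.col X, ∀ w ∈ dep (lev G₀ ℓ j) pm.c.col X, Gm G₀ ℓ j v w = Gm G₁ ℓ j (E.s v) (E.s w)) := by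
  classical
  have hℓ := H₀.one_le_l
  have hH0 := H₀.hH0
  have hpp : pp = 32 := rfl
  have hH2 : 2 ≤ pm.zn.H0 := by omega
  have hcen : Cen (pair h₀) := H₀.cenP
  refine ⟨?_, ?_, ?_, ?_⟩
  · intro b hb b' hd
    refine prz_nb_cen hE' b ?_ b' hd
    intro a ha
    rw [Finset.mem_singleton] at ha
    subst ha
    obtain ⟨d1, d2, d3, d4⟩ := hY a hb
    omega
  · refine hcov Y ?_
    intro b hb
    obtain ⟨d1, d2, d3, d4⟩ := hY b hb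
    omega
  · intro X hX
    refine prg_wallFree_fine hcen hℓ _ hH2 Y hY X fun a ha => ⟨(nest G₀ ℓ j).up a, hX (Finset.mem_image_of_mem _ ha), ?_⟩
    exact le_of_eq_of_le (Geo.geo_idist_self (lev G₀ ℓ (j + 1)) _) (Nat.zero_le _)
  · intro b hb X hXs B hB hup
    have hX'' : (T₀.step h₀).P.g.Conn pm.c.R X ∧ X.card ≤ pm.c.n0 := by
      simpa only [B8.Step.small, Finset.mem_filter, Finset.mem_univ, true_and] using hXs
    have hX' : (lev G₀ ℓ j).Conn pm.c.R X ∧ X.card ≤ pm.c.n0 := hX''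
    have hdiam : (lev G₀ ℓ (j + 1)).idiam ((nest G₀ ℓ j).cl X) ≤ 1 := (H₀.smallGeo X hXs).2
    have hbcl : b ∈ (nest G₀ ℓ j).cl X := hup ▸ Finset.mem_image_of_mem _ hB
    refine ⟨?_, ?_, ?_⟩
    · refine prg_wallFree_fine hcen hℓ _ hH2 Y hY X fun a ha => ⟨b, hb, ?_⟩
      exact (Alg.idist_le_idiam (Finset.mem_image_of_mem _ ha) hbcl).trans hdiam
    · have h1 := prg_small_diam (lev G₀ ℓ j) pm.c.R pm.c.n0 X hX'.1 hX'.2
      have h2 : 4 * pm.c.col ≤ side G₀ ℓ j := H₀.col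
      have h3 := H₀.hD
      have h4 := h₁.clear
      have hm : (lev G₀ ℓ j).m = (2 ^ ℓ) ^ j := side_eq h₀.dvd'
      have hs : side G₀ ℓ j = (2 ^ ℓ) ^ j := side_eq h₀.dvd'
      rw [hm]
      rw [hs] at h2
      set m := (2 ^ ℓ) ^ j with hmdef
      have h5 : (2 ^ ℓ) ^ (j + 1) = m * 2 ^ ℓ := pow_succ _ _
      have h6 : m ≤ (2 ^ ℓ) ^ (j + 1) := by
        rw [h5]
        exact Nat.le_mul_of_pos_right _ (by positivity)
      have h7 : ((lev G₀ ℓ j).idiam X + 1) * m ≤ (pm.c.R * pm.c.n0 + 1) * m := Nat.mul_le_mul_right _ (by omega)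
      have h8 : 2 * (pm.c.R * pm.c.n0 + 2) * m ≤ pm.D0 * (2 ^ ℓ) ^ (j + 1) := Nat.mul_le_mul (by omega) h6
      have h9 : 2 * (pm.c.R * pm.c.n0 + 2) * m = 2 * ((pm.c.R * pm.c.n0 + 1) * m) + 2 * m := by ring
      omega
    · have hwf : WallFree (lev G₀ ℓ (j + 1)) (pm.zn.H0 - 1) ((nest G₀ ℓ j).cl X) := by
        intro b' hb'
        obtain ⟨c1, c2, c3, c4⟩ := prg_idist_le H₀.free (lev G₀ ℓ (j + 1)) ((Alg.idist_le_idiam hb' hbcl).trans hdiam)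
        obtain ⟨d1, d2, d3, d4⟩ := hY b hb
        omega
      have hsub : dep (lev G₀ ℓ j) pm.c.col X ⊆ dep (lev G₀ ℓ (j + 1)) pm.c.col ((nest G₀ ℓ j).cl X) :=
        prc_dep_coarse (pair h₀) pm.c.col (Finset.Subset.refl _)
      intro v hv w hw
      exact hcov _ hwf v (hsub hv) w (hsub hw)

/-- **L-PAIR-C19** -/
theorem pr_sq_step_c0 {G₀ G₁ : Geom} {ℓ : ℕ} {T₀ : Tw G₀ ℓ} {T₁ : Tw G₁ ℓ} {j : ℕ} {h₀ : Ret G₀ ℓ pm.D0 j} {h₁ : Ret G₁ ℓ pm.D0 j}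
    (H₀ : Ctx pm nm cT k0 kT T₀ h₀) (H₁ : Ctx pm nm cT k0 kT T₁ h₁) (E : TEmb (lev G₀ ℓ) (lev G₁ ℓ)) (hE : CenEmb (E.lv j)) (hE' : CenEmb (E.lv (j + 1)))
    (hcov : ∀ Y, WallFree (lev G₀ ℓ (j + 1)) (pm.zn.H0 - 1) Y → ∀ v ∈ dep (lev G₀ ℓ (j + 1)) pm.c.col Y, ∀ w ∈ dep (lev G₀ ℓ (j + 1)) pm.c.col Y,
      Gm G₀ ℓ j v w = Gm G₁ ℓ j (E.s v) (E.s w))
    (t z : ℂ) (x₀ : St (lev G₀ ℓ j)) (x₁ : St (lev G₁ ℓ j)) (hx₀ : Inv pm nm.h0 x₀) (hx₁ : Inv pm nm.h0 x₁)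
    (hf₀ : nP (nm.p0 pm.ω) (T₀.V0 j) pm.zn.H0 pm.α t z x₀ ≠ ⊤) (hf₁ : nP (nm.p0 pm.ω) (T₁.V0 j) pm.zn.H0 pm.α t z x₁ ≠ ⊤)
    (hc : InvSq pm nm.h0 (E.lv j) x₀ x₁) (Y : Finset (lev G₀ ℓ (j + 1)).I) (hY : WallFree (lev G₀ ℓ (j + 1)) pm.zn.H0 Y) :
    CopyX (E.lv (j + 1)) nm.h0 pm.c.col 0 (next (T₀.step h₀) pm.c pm.ω pm.zn t z (pm.ref G₀) x₀).K0
      (next (T₁.step h₁) pm.c pm.ω pm.zn t z (pm.ref G₁) x₁).K0 Y := by
  classical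
  obtain ⟨g1, g2, g3, g4⟩ := pr_sq_step_geo (h₁ := h₁) H₀ E hE' hcov Y hY
  have hEok : (E.pe h₀ h₁).Ok := ⟨hE.ok, hE'.ok⟩
  have hΓ₀ : (T₀.step h₀).Γ.PosSemidef := H₀.hyp0.shell.psd
  have hΓ₁ : (T₁.step h₁).Γ.PosSemidef := H₁.hyp0.shell.psd
  have hH0 := H₀.hH0
  have key : ∀ b ∈ Y, ∀ X ∈ (T₀.step h₀).small pm.c, ∀ B ∈ X, (T₀.step h₀).P.N.up B = b →
      CopyFn (E.pe h₀ h₁).coarse nm.h0 pm.c.col 0 {b} (pc0 (T₀.step h₀) pm.ω pm.zn t z x₀.K0 X B)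
        (pc0 (T₁.step h₁) pm.ω pm.zn t z x₁.K0 (X.map (E.pe h₀ h₁).f) ((E.pe h₀ h₁).f B)) ∧
      cn0 (T₀.step h₀) pm.ω pm.zn t z x₀.K0 X B = cn0 (T₁.step h₁) pm.ω pm.zn t z x₁.K0 (X.map (E.pe h₀ h₁).f) ((E.pe h₀ h₁).f B) := by
    intro b hb X hXs B hB hup
    obtain ⟨w1, w2, w3⟩ := g4 b hb X hXs B hB hup
    have a1 : CenEmb (E.pe h₀ h₁).fine := hE
    have a2 : WallFree (T₀.step h₀).P.g pm.zn.H0 X := w1
    have a3 : 2 * (((T₀.step h₀).P.g.idiam X + 1) * (T₀.step h₀).P.g.m + pm.c.col) < G₁.M := w2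
    have a4 : ∀ v ∈ dep (T₀.step h₀).P.g pm.c.col X, ∀ w ∈ dep (T₀.step h₀).P.g pm.c.col X,
        (T₀.step h₀).Γ v w = (T₁.step h₁).Γ ((E.pe h₀ h₁).s v) ((E.pe h₀ h₁).s w) := w3
    have a5 : CopyX (E.pe h₀ h₁).fine (nm.p0 pm.ω).h0 pm.c.col 0 x₀.K0 x₁.K0 X := hc.c0 X w1
    have a6 : HqReg (nm.p0 pm.ω) pm.c.col (T₀.step h₀) (R0 (T₀.step h₀) (nm.p0 pm.ω).ω pm.zn t z x₀.K0) X := pr_HqReg_sq H₀ t z x₀ hx₀ hf₀ X w1
    have a7 : HqReg (nm.p0 pm.ω) pm.c.col (T₁.step h₁) (R0 (T₁.step h₁) (nm.p0 pm.ω).ω pm.zn t z x₁.K0) (X.map (E.pe h₀ h₁).f) :=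
      pr_HqReg_sq H₁ t z x₁ hx₁ hf₁ _ (prz_wallFree_map hE _ X w1)
    have h1 := pr_pc0_copy_cen (T₀.step h₀) (T₁.step h₁) (E.pe h₀ h₁) hEok a1 (nm.p0 pm.ω) H₀.nmOk.h0_pos pm.c.col H₀.geo.col_pos hΓ₀ hΓ₁
      pm.zn (by omega) t z x₀.K0 x₁.K0 X B hB a2 a3 a4 a5 a6 a7
    have hcl : (T₀.step h₀).P.N.cl {B} ⊆ {b} := by
      rw [Nest.cl, Finset.image_singleton, hup]
      exact Finset.Subset.refl _
    exact ⟨CopyFn.coarse (S₀ := T₀.step h₀) (S₁ := T₁.step h₁) (E := E.pe h₀ h₁) hEok hcl h1.1, h1.2⟩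
  have hp : ∀ b ∈ Y, _ := fun b hb => pr_ofPieces_copy (T₀.step h₀) (T₁.step h₁) (E.pe h₀ h₁) hEok pm.c H₁.smallGeo nm.h0 pm.c.col 0
    (pc0 (T₀.step h₀) pm.ω pm.zn t z x₀.K0) (cn0 (T₀.step h₀) pm.ω pm.zn t z x₀.K0)
    (pc0 (T₁.step h₁) pm.ω pm.zn t z x₁.K0) (cn0 (T₁.step h₁) pm.ω pm.zn t z x₁.K0) b (g1 b hb)
    (fun X hXs B hB hup => (key b hb X hXs B hB hup).1) (fun X hXs B hB hup => (key b hb X hXs B hB hup).2)
  exact pr_copy_step (E.pe h₀ h₁) hEok nm.h0 pm.c.col pm.c.r pm.c.R _ _ hΓ₀ hΓ₁ 0 x₀.K0 x₁.K0 _ _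
    (pr_ofPieces_small _ _ H₀.smallGeo _ _) (pr_ofPieces_small _ _ H₁.smallGeo _ _) Y g1 g2 (fun X hX => hc.c0 X (g3 X hX))
    (fun b hb => (hp b hb).1) (fun b hb => (hp b hb).2)

/-- **L-PAIR-C20** -/
theorem pr_sq_step_cT {G₀ G₁ : Geom} {ℓ : ℕ} {T₀ : Tw G₀ ℓ} {T₁ : Tw G₁ ℓ} {j : ℕ} {h₀ : Ret G₀ ℓ pm.D0 j} {h₁ : Ret G₁ ℓ pm.D0 j}
    (H₀ : Ctx pm nm cT k0 kT T₀ h₀) (H₁ : Ctx pm nm cT k0 kT T₁ h₁) (E : TEmb (lev G₀ ℓ) (lev G₁ ℓ)) (hE : CenEmb (E.lv j)) (hE' : CenEmb (E.lv (j + 1)))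
    (hcov : ∀ Y, WallFree (lev G₀ ℓ (j + 1)) (pm.zn.H0 - 1) Y → ∀ v ∈ dep (lev G₀ ℓ (j + 1)) pm.c.col Y, ∀ w ∈ dep (lev G₀ ℓ (j + 1)) pm.c.col Y,
      Gm G₀ ℓ j v w = Gm G₁ ℓ j (E.s v) (E.s w))
    (t z : ℂ) (x₀ : St (lev G₀ ℓ j)) (x₁ : St (lev G₁ ℓ j)) (hx₀ : Inv pm nm.h0 x₀) (hx₁ : Inv pm nm.h0 x₁)
    (hf₀ : nP (nm.p0 pm.ω) (T₀.V0 j) pm.zn.H0 pm.α t z x₀ ≠ ⊤) (hf₁ : nP (nm.p0 pm.ω) (T₁.V0 j) pm.zn.H0 pm.α t z x₁ ≠ ⊤)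
    (hc : InvSq pm nm.h0 (E.lv j) x₀ x₁) (Y : Finset (lev G₀ ℓ (j + 1)).I) (hY : WallFree (lev G₀ ℓ (j + 1)) pm.zn.H0 Y) :
    CopyX (E.lv (j + 1)) nm.h0 pm.c.col 0 (next (T₀.step h₀) pm.c pm.ω pm.zn t z (pm.ref G₀) x₀).KT
      (next (T₁.step h₁) pm.c pm.ω pm.zn t z (pm.ref G₁) x₁).KT Y := by
  classical
  obtain ⟨g1, g2, g3, g4⟩ := pr_sq_step_geo (h₁ := h₁) H₀ E hE' hcov Y hY
  have hEok : (E.pe h₀ h₁).Ok := ⟨hE.ok, hE'.ok⟩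
  have hΓ₀ : (T₀.step h₀).Γ.PosSemidef := H₀.hyp0.shell.psd
  have hΓ₁ : (T₁.step h₁).Γ.PosSemidef := H₁.hyp0.shell.psd
  have hH0 := H₀.hH0
  have hH1 := H₀.hH1
  have hpp : pp = 32 := rfl
  have hcm : pm.c.col ≤ (T₀.step h₀).P.g.m := by
    have h2 : 4 * pm.c.col ≤ side G₀ ℓ j := H₀.col
    show pm.c.col ≤ side G₀ ℓ j
    omega
  have key : ∀ b ∈ Y, ∀ X ∈ (T₀.step h₀).small pm.c, ∀ B ∈ X, (T₀.step h₀).P.N.up B = b →
      CopyFn (E.pe h₀ h₁).coarse nm.h0 pm.c.col 0 {b} (pcT (T₀.step h₀) pm.ω pm.zn t z (pm.ref G₀) x₀.K0 x₀.KT X B)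
        (pcT (T₁.step h₁) pm.ω pm.zn t z (pm.ref G₁) x₁.K0 x₁.KT (X.map (E.pe h₀ h₁).f) ((E.pe h₀ h₁).f B)) ∧
      cnT (T₀.step h₀) pm.ω pm.zn t z (pm.ref G₀) x₀.K0 x₀.KT X B
        = cnT (T₁.step h₁) pm.ω pm.zn t z (pm.ref G₁) x₁.K0 x₁.KT (X.map (E.pe h₀ h₁).f) ((E.pe h₀ h₁).f B) := by
    intro b hb X hXs B hB hup
    obtain ⟨w1, w2, w3⟩ := g4 b hb X hXs B hB hup
    have a1 : CenEmb (E.pe h₀ h₁).fine := hE
    have a2 : WallFree (T₀.step h₀).P.g pm.zn.H0 X := w1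
    have a3 : 2 * (((T₀.step h₀).P.g.idiam X + 1) * (T₀.step h₀).P.g.m + pm.c.col) < G₁.M := w2
    have a4 : ∀ v ∈ dep (T₀.step h₀).P.g pm.c.col X, ∀ w ∈ dep (T₀.step h₀).P.g pm.c.col X,
        (T₀.step h₀).Γ v w = (T₁.step h₁).Γ ((E.pe h₀ h₁).s v) ((E.pe h₀ h₁).s w) := w3
    have a5 : CopyX (E.pe h₀ h₁).fine (nm.p0 pm.ω).h0 pm.c.col 0 x₀.K0 x₁.K0 X := hc.c0 X w1
    have a6 : HqReg (nm.p0 pm.ω) pm.c.col (T₀.step h₀) (R0 (T₀.step h₀) (nm.p0 pm.ω).ω pm.zn t z x₀.K0) X := pr_HqReg_sq H₀ t z x₀ hx₀ hf₀ X w1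
    have a7 : HqReg (nm.p0 pm.ω) pm.c.col (T₁.step h₁) (R0 (T₁.step h₁) (nm.p0 pm.ω).ω pm.zn t z x₁.K0) (X.map (E.pe h₀ h₁).f) :=
      pr_HqReg_sq H₁ t z x₁ hx₁ hf₁ _ (prz_wallFree_map hE _ X w1)
    have a8 : CopyX (E.pe h₀ h₁).fine (nm.p0 pm.ω).h0 pm.c.col 0 x₀.KT x₁.KT X := hc.cT X w1
    have h1 := pr_pcT_copy_cen (T₀.step h₀) (T₁.step h₁) (E.pe h₀ h₁) hEok a1 (nm.p0 pm.ω) H₀.nmOk.h0_pos H₀.ω_pos.ne' pm.c.col H₀.geo.col_pos hcm hΓ₀ hΓ₁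
      pm.zn (by omega) (by omega) t z pm.vinf pm.α x₀ x₁ X B hB a2 a3 a4 a5 a8 a6 a7
    have hcl : (T₀.step h₀).P.N.cl {B} ⊆ {b} := by
      rw [Nest.cl, Finset.image_singleton, hup]
      exact Finset.Subset.refl _
    exact ⟨CopyFn.coarse (S₀ := T₀.step h₀) (S₁ := T₁.step h₁) (E := E.pe h₀ h₁) hEok hcl h1.1, h1.2⟩
  have hp : ∀ b ∈ Y, _ := fun b hb => pr_ofPieces_copy (T₀.step h₀) (T₁.step h₁) (E.pe h₀ h₁) hEok pm.c H₁.smallGeo nm.h0 pm.c.col 0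
    (pcT (T₀.step h₀) pm.ω pm.zn t z (pm.ref G₀) x₀.K0 x₀.KT) (cnT (T₀.step h₀) pm.ω pm.zn t z (pm.ref G₀) x₀.K0 x₀.KT)
    (pcT (T₁.step h₁) pm.ω pm.zn t z (pm.ref G₁) x₁.K0 x₁.KT) (cnT (T₁.step h₁) pm.ω pm.zn t z (pm.ref G₁) x₁.K0 x₁.KT) b (g1 b hb)
    (fun X hXs B hB hup => (key b hb X hXs B hB hup).1) (fun X hXs B hB hup => (key b hb X hXs B hB hup).2)
  exact pr_copy_step (E.pe h₀ h₁) hEok nm.h0 pm.c.col pm.c.r pm.c.R _ _ hΓ₀ hΓ₁ 0 x₀.KT x₁.KT _ _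
    (pr_ofPieces_small _ _ H₀.smallGeo _ _) (pr_ofPieces_small _ _ H₁.smallGeo _ _) Y g1 g2 (fun X hX => hc.cT X (g3 X hX))
    (fun b hb => (hp b hb).1) (fun b hb => (hp b hb).2)

theorem pr71_idist_le_idiam {G : Geom} (g : Grid G) (X : Finset g.I) {a b : g.I} (ha : a ∈ X) (hb : b ∈ X) : g.idist a b ≤ g.idiam X := by
  unfold Grid.idiam
  exact (Finset.le_sup (f := fun b => g.idist a b) hb).trans (Finset.le_sup (f := fun a => X.sup fun b => g.idist a b) ha)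

theorem pr71_wf_mono {G : Geom} {g : Grid G} {H H' : ℕ} {X X' : Finset g.I} (h : WallFree g H X) (hH : H' ≤ H) (hX : X' ⊆ X) : WallFree g H' X' := by
  intro b hb
  obtain ⟨h1, h2, h3, h4⟩ := h b (hX hb)
  exact ⟨by omega, by omega, by omega, by omega⟩

theorem Ctx.one_le_ell {G : Geom} {ℓ : ℕ} {T : Tw G ℓ} {j : ℕ} {h : Ret G ℓ pm.D0 j} (H : Ctx pm nm cT k0 kT T h) : 1 ≤ ℓ := by
  by_contra hl
  have h0 : ℓ = 0 := by omega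
  have h1 := H.hL
  rw [h0, pow_zero] at h1
  omega

theorem Ctx.three_le_H0 {G : Geom} {ℓ : ℕ} {T : Tw G ℓ} {j : ℕ} {h : Ret G ℓ pm.D0 j} (H : Ctx pm nm cT k0 kT T h) : 3 ≤ pm.zn.H0 := by
  have h1 := H.hH0
  have h2 : pp = 32 := rfl
  omega

/-- a small input with a block over a wall-free coarse block -/
theorem pr71_small_geo {G : Geom} {ℓ : ℕ} {T : Tw G ℓ} {j : ℕ} {h : Ret G ℓ pm.D0 j} (H : Ctx pm nm cT k0 kT T h)
    {X : Finset (T.step h).P.g.I} (hX : X ∈ (T.step h).small pm.c) {B : (T.step h).P.g.I} (hB : B ∈ X) {b : (T.step h).P.g'.I}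
    (hb : (T.step h).P.N.up B = b) (hw : WallFree (lev G ℓ (j + 1)) pm.zn.H0 {b}) :
    WallFree (lev G ℓ j) pm.zn.H0 X ∧ WallFree (lev G ℓ (j + 1)) (pm.zn.H0 - 1) ((T.step h).P.N.cl X) ∧ (lev G ℓ j).idiam X ≤ pm.c.R * pm.c.n0 := by
  classical
  have hX' : (T.step h).P.g.Conn pm.c.R X ∧ X.card ≤ pm.c.n0 := by
    simpa only [B8.Step.small, Finset.mem_filter, Finset.mem_univ, true_and] using hX
  obtain ⟨-, hdiam⟩ := H.smallGeo X hX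
  have hbcl : b ∈ (T.step h).P.N.cl X := hb ▸ Finset.mem_image_of_mem _ hB
  have near : ∀ b' ∈ (T.step h).P.N.cl X, (T.step h).P.g'.idist b' b ≤ 1 := fun b' hb' =>
    (pr71_idist_le_idiam _ _ hb' hbcl).trans hdiam
  have h3 := H.three_le_H0
  refine ⟨?_, ?_, prg_small_diam _ _ _ X hX'.1 hX'.2⟩
  · exact prg_wallFree_fine H.cenP H.one_le_ell pm.zn.H0 (by omega) {b} hw X
      fun a ha => ⟨b, Finset.mem_singleton_self b, near _ (Finset.mem_image_of_mem _ ha)⟩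
  · intro b' hb'
    obtain ⟨c1, c2, c3, c4⟩ := prg_idist_le H.free (lev G ℓ (j + 1)) (near b' hb')
    obtain ⟨d1, d2, d3, d4⟩ := hw b (Finset.mem_singleton_self b)
    exact ⟨by omega, by omega, by omega, by omega⟩

/-- the diameter condition of the copies of `ell` -/
theorem pr71_diam {G₀ G₁ : Geom} {ℓ : ℕ} {T₀ : Tw G₀ ℓ} {j : ℕ} {h₀ : Ret G₀ ℓ pm.D0 j} (h₁ : Ret G₁ ℓ pm.D0 j)
    (H₀ : Ctx pm nm cT k0 kT T₀ h₀) {a : ℕ} (ha : a ≤ pm.c.R * pm.c.n0) :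
    2 * ((a + 1) * (lev G₀ ℓ j).m + pm.c.col) < G₁.M := by
  have hm : (lev G₀ ℓ j).m = (2 ^ ℓ) ^ j := side_eq h₀.dvd'
  have hcol : 4 * pm.c.col ≤ (2 ^ ℓ) ^ j := by
    have := H₀.col
    rwa [side_eq h₀.dvd'] at this
  rw [hm]
  set m := (2 ^ ℓ) ^ j with hmdef
  have h1 : (a + 1) * m ≤ (pm.c.R * pm.c.n0 + 1) * m := Nat.mul_le_mul_right _ (by omega)
  have h2 : 2 * (pm.c.R * pm.c.n0 + 2) * m ≤ pm.D0 * m := Nat.mul_le_mul_right _ (by have := H₀.hD; omega)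
  have h3 : pm.D0 * m ≤ pm.D0 * (2 ^ ℓ) ^ (j + 1) := by
    refine Nat.mul_le_mul_left _ ?_
    rw [pow_succ]
    exact Nat.le_mul_of_pos_right _ (by positivity)
  have h4 := h₁.clear
  have e1 : 2 * (pm.c.R * pm.c.n0 + 2) * m = 2 * ((pm.c.R * pm.c.n0 + 1) * m + m) := by ring
  omega

/-- **the designated data of the unit sector and of the label direction are copied at a wall-free coarse block** -/
theorem pr71_desig_copy {G₀ G₁ : Geom} {ℓ : ℕ} {T₀ : Tw G₀ ℓ} {T₁ : Tw G₁ ℓ} {j : ℕ} {h₀ : Ret G₀ ℓ pm.D0 j} {h₁ : Ret G₁ ℓ pm.D0 j}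
    (H₀ : Ctx pm nm cT k0 kT T₀ h₀) (H₁ : Ctx pm nm cT k0 kT T₁ h₁) (E : TEmb (lev G₀ ℓ) (lev G₁ ℓ)) (hE : CenEmb (E.lv j)) (hE' : CenEmb (E.lv (j + 1)))
    (hcov : ∀ Y, WallFree (lev G₀ ℓ (j + 1)) (pm.zn.H0 - 1) Y → ∀ v ∈ dep (lev G₀ ℓ (j + 1)) pm.c.col Y, ∀ w ∈ dep (lev G₀ ℓ (j + 1)) pm.c.col Y,
      Gm G₀ ℓ j v w = Gm G₁ ℓ j (E.s v) (E.s w))
    (t z : ℂ) (x₀ : St (lev G₀ ℓ j)) (x₁ : St (lev G₁ ℓ j)) (hx₀ : Inv pm nm.h0 x₀) (hx₁ : Inv pm nm.h0 x₁)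
    (hf₀ : nP (nm.p0 pm.ω) (T₀.V0 j) pm.zn.H0 pm.α t z x₀ ≠ ⊤) (hf₁ : nP (nm.p0 pm.ω) (T₁.V0 j) pm.zn.H0 pm.α t z x₁ ≠ ⊤)
    (hc : InvSq pm nm.h0 (E.lv j) x₀ x₁) (b : (lev G₀ ℓ (j + 1)).I) (hb : WallFree (lev G₀ ℓ (j + 1)) pm.zn.H0 {b}) :
    ((∀ Y', CopyFn (E.pe h₀ h₁).coarse nm.h0 pm.c.col 0 {b} ((dT (T₀.step h₀) pm.c pm.ω pm.zn t z (pm.ref G₀) x₀.K0 x₀.KT).F Y' b)
        ((dT (T₁.step h₁) pm.c pm.ω pm.zn t z (pm.ref G₁) x₁.K0 x₁.KT).F (Y'.map (E.pe h₀ h₁).c) ((E.pe h₀ h₁).c b))) ∧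
      (dT (T₀.step h₀) pm.c pm.ω pm.zn t z (pm.ref G₀) x₀.K0 x₀.KT).a b
        = (dT (T₁.step h₁) pm.c pm.ω pm.zn t z (pm.ref G₁) x₁.K0 x₁.KT).a ((E.pe h₀ h₁).c b)) ∧
    ((∀ Y', CopyFn (E.pe h₀ h₁).coarse nm.h0 pm.c.col 0 {b} ((dJ (T₀.step h₀) pm.c pm.ω (pm.ref G₀) x₀.JT).F Y' b)
        ((dJ (T₁.step h₁) pm.c pm.ω (pm.ref G₁) x₁.JT).F (Y'.map (E.pe h₀ h₁).c) ((E.pe h₀ h₁).c b))) ∧
      (dJ (T₀.step h₀) pm.c pm.ω (pm.ref G₀) x₀.JT).a b = (dJ (T₁.step h₁) pm.c pm.ω (pm.ref G₁) x₁.JT).a ((E.pe h₀ h₁).c b)) := by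
  classical
  have hEok : (E.pe h₀ h₁).Ok := ⟨hE.ok, hE'.ok⟩
  have hΓ₀ : (T₀.step h₀).Γ.PosSemidef := H₀.hyp0.shell.psd
  have hΓ₁ : (T₁.step h₁).Γ.PosSemidef := H₁.hyp0.shell.psd
  have hh : 0 < nm.h0 := H₀.nmOk.h0_pos
  have h3 := H₀.three_le_H0
  have hnb : ∀ b' : (T₁.step h₁).P.g'.I, (T₁.step h₁).P.g'.idist ((E.pe h₀ h₁).c b) b' ≤ 1 → b' ∈ Set.range (E.pe h₀ h₁).c :=
    fun b' hd => prz_nb_cen hE' b (pr71_wf_mono hb (by omega) subset_rfl) b' hd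
  -- the facts on a small input over `b`
  have hcovX : ∀ X ∈ (T₀.step h₀).small pm.c, ∀ B ∈ X, (T₀.step h₀).P.N.up B = b →
      ∀ v ∈ dep (T₀.step h₀).P.g pm.c.col X, ∀ w ∈ dep (T₀.step h₀).P.g pm.c.col X,
        (T₀.step h₀).Γ v w = (T₁.step h₁).Γ ((E.pe h₀ h₁).s v) ((E.pe h₀ h₁).s w) := by
    intro X hX B hB hup v hv w hw
    exact hcov _ (pr71_small_geo H₀ hX hB hup hb).2.1 v (prc_dep_coarse (T₀.step h₀).P pm.c.col subset_rfl hv) w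
      (prc_dep_coarse (T₀.step h₀).P pm.c.col subset_rfl hw)
  have hT : ∀ X ∈ (T₀.step h₀).small pm.c, ∀ B ∈ X, (T₀.step h₀).P.N.up B = b →
      CopyFn (E.pe h₀ h₁).fine nm.h0 pm.c.col 0 {B} (pcT (T₀.step h₀) pm.ω pm.zn t z (pm.ref G₀) x₀.K0 x₀.KT X B)
          (pcT (T₁.step h₁) pm.ω pm.zn t z (pm.ref G₁) x₁.K0 x₁.KT (X.map (E.pe h₀ h₁).f) ((E.pe h₀ h₁).f B)) ∧
        cnT (T₀.step h₀) pm.ω pm.zn t z (pm.ref G₀) x₀.K0 x₀.KT X B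
          = cnT (T₁.step h₁) pm.ω pm.zn t z (pm.ref G₁) x₁.K0 x₁.KT (X.map (E.pe h₀ h₁).f) ((E.pe h₀ h₁).f B) := by
    intro X hX B hB hup
    obtain ⟨hw, -, hdm⟩ := pr71_small_geo H₀ hX hB hup hb
    exact pr_pcT_copy_cen (T₀.step h₀) (T₁.step h₁) (E.pe h₀ h₁) hEok hE (nm.p0 pm.ω) hh H₀.ω_pos.ne' pm.c.col H₀.geo.col_pos
      (by have := H₀.col; show pm.c.col ≤ side G₀ ℓ j; omega) hΓ₀ hΓ₁ pm.zn h3 (by have := H₀.hH1; omega) t z pm.vinf pm.α x₀ x₁ X B hB hw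
      (pr71_diam h₁ H₀ hdm) (hcovX X hX B hB hup) (hc.c0 X hw) (hc.cT X hw) (pr_HqReg_sq H₀ t z x₀ hx₀ hf₀ X hw)
      (pr_HqReg_sq H₁ t z x₁ hx₁ hf₁ _ (prz_wallFree_map hE pm.zn.H0 X hw))
  have hJ : ∀ X ∈ (T₀.step h₀).small pm.c, ∀ B ∈ X, (T₀.step h₀).P.N.up B = b →
      cnJ (T₀.step h₀) pm.ω (pm.ref G₀) x₀.JT X B = cnJ (T₁.step h₁) pm.ω (pm.ref G₁) x₁.JT (X.map (E.pe h₀ h₁).f) ((E.pe h₀ h₁).f B) := by
    intro X hX B hB hup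
    obtain ⟨hw, -, -⟩ := pr71_small_geo H₀ hX hB hup hb
    exact pr_cnJ_copy_cen (T₀.step h₀) (T₁.step h₁) (E.pe h₀ h₁) hE.cen nm.h0 hh pm.c.col hΓ₀ hΓ₁ pm.ω pm.vinf pm.α x₀.JT x₁.JT X B
      (hcovX X hX B hB hup) (hc.cJ X hw)
  refine ⟨?_, ?_⟩
  · exact pr_ofPieces_copy (T₀.step h₀) (T₁.step h₁) (E.pe h₀ h₁) hEok pm.c H₁.smallGeo nm.h0 pm.c.col 0 _ _ _ _ b hnb
      (fun X hX B hB hup => CopyFn.coarse hEok (by
        show (T₀.step h₀).P.N.cl {B} ⊆ {b}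
        rw [← hup]
        exact (Finset.image_singleton _ _).subset) (hT X hX B hB hup).1)
      (fun X hX B hB hup => (hT X hX B hB hup).2)
  · exact pr_ofPieces_copy (T₀.step h₀) (T₁.step h₁) (E.pe h₀ h₁) hEok pm.c H₁.smallGeo nm.h0 pm.c.col 0 _ _ _ _ b hnb
      (fun X hX B hB hup _ _ _ _ _ => hJ X hX B hB hup) hJ

/-- **the unit activity along the label direction is copied, for every `s`** (`s = 0`: the field `cT`) -/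
theorem pr71_famT_copy {G₀ G₁ : Geom} {ℓ : ℕ} {T₀ : Tw G₀ ℓ} {T₁ : Tw G₁ ℓ} {j : ℕ} {h₀ : Ret G₀ ℓ pm.D0 j} {h₁ : Ret G₁ ℓ pm.D0 j}
    (H₀ : Ctx pm nm cT k0 kT T₀ h₀) (H₁ : Ctx pm nm cT k0 kT T₁ h₁) (E : TEmb (lev G₀ ℓ) (lev G₁ ℓ)) (hE : CenEmb (E.lv j)) (hE' : CenEmb (E.lv (j + 1)))
    (hcov : ∀ Y, WallFree (lev G₀ ℓ (j + 1)) (pm.zn.H0 - 1) Y → ∀ v ∈ dep (lev G₀ ℓ (j + 1)) pm.c.col Y, ∀ w ∈ dep (lev G₀ ℓ (j + 1)) pm.c.col Y,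
      Gm G₀ ℓ j v w = Gm G₁ ℓ j (E.s v) (E.s w))
    (t z : ℂ) (x₀ : St (lev G₀ ℓ j)) (x₁ : St (lev G₁ ℓ j)) (hx₀ : Inv pm nm.h0 x₀) (hx₁ : Inv pm nm.h0 x₁)
    (hf₀ : nP (nm.p0 pm.ω) (T₀.V0 j) pm.zn.H0 pm.α t z x₀ ≠ ⊤) (hf₁ : nP (nm.p0 pm.ω) (T₁.V0 j) pm.zn.H0 pm.α t z x₁ ≠ ⊤)
    (hc : InvSq pm nm.h0 (E.lv j) x₀ x₁) (s : ℂ) (Y : Finset (lev G₀ ℓ (j + 1)).I) (hY : WallFree (lev G₀ ℓ (j + 1)) pm.zn.H0 Y) :
    CopyX (E.lv (j + 1)) nm.h0 pm.c.col 0 (famT (T₀.step h₀) pm.c pm.ω pm.zn t z (pm.ref G₀) x₀ s)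
      (famT (T₁.step h₁) pm.c pm.ω pm.zn t z (pm.ref G₁) x₁ s) Y := by
  classical
  have hEok : (E.pe h₀ h₁).Ok := ⟨hE.ok, hE'.ok⟩
  have h3 := H₀.three_le_H0
  have hP := fun b (hb : b ∈ Y) => pr71_desig_copy H₀ H₁ E hE hE' hcov t z x₀ x₁ hx₀ hx₁ hf₀ hf₁ hc b
    (pr71_wf_mono hY le_rfl (Finset.singleton_subset_iff.2 hb))
  refine pr_copy_step (E.pe h₀ h₁) hEok nm.h0 pm.c.col pm.c.r pm.c.R (T₀.step h₀).Γ (T₁.step h₁).Γ H₀.hyp0.shell.psd H₁.hyp0.shell.psd 0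
    (x₀.KT + s • x₀.JT) (x₁.KT + s • x₁.JT) _ _
    (pr_dLin_small (pr_ofPieces_small _ _ H₀.smallGeo _ _) (pr_ofPieces_small _ _ H₀.smallGeo _ _) s)
    (pr_dLin_small (pr_ofPieces_small _ _ H₁.smallGeo _ _) (pr_ofPieces_small _ _ H₁.smallGeo _ _) s) Y ?_ ?_ ?_ ?_ ?_
  · intro b hb b' hd
    exact prz_nb_cen hE' b (pr71_wf_mono hY (by omega) (Finset.singleton_subset_iff.2 hb)) b' hd
  · exact hcov Y (pr71_wf_mono hY (Nat.sub_le _ _) subset_rfl)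
  · intro X hXY
    have hw : WallFree (lev G₀ ℓ j) pm.zn.H0 X := prg_wallFree_fine H₀.cenP H₀.one_le_ell pm.zn.H0 (by omega) Y hY X
      fun a ha => ⟨_, hXY (Finset.mem_image_of_mem _ ha), by rw [Geo.geo_idist_self]; exact Nat.zero_le _⟩
    exact (hc.cT X hw).add ((hc.cJ X hw).smul s)
  · intro b hb Y'
    exact ((hP b hb).1.1 Y').add (((hP b hb).2.1 Y').smul s)
  · intro b hb
    show (dT (T₀.step h₀) pm.c pm.ω pm.zn t z (pm.ref G₀) x₀.K0 x₀.KT).a b + s • (dJ (T₀.step h₀) pm.c pm.ω (pm.ref G₀) x₀.JT).a b = _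
    rw [(hP b hb).1.2, (hP b hb).2.2]
    rfl

/-- the field `cJ` of `pr_sq_step` -/
theorem pr71_sq_cJ {G₀ G₁ : Geom} {ℓ : ℕ} {T₀ : Tw G₀ ℓ} {T₁ : Tw G₁ ℓ} {j : ℕ} {h₀ : Ret G₀ ℓ pm.D0 j} {h₁ : Ret G₁ ℓ pm.D0 j}
    (H₀ : Ctx pm nm cT k0 kT T₀ h₀) (H₁ : Ctx pm nm cT k0 kT T₁ h₁) (E : TEmb (lev G₀ ℓ) (lev G₁ ℓ)) (hE : CenEmb (E.lv j)) (hE' : CenEmb (E.lv (j + 1)))
    (hcov : ∀ Y, WallFree (lev G₀ ℓ (j + 1)) (pm.zn.H0 - 1) Y → ∀ v ∈ dep (lev G₀ ℓ (j + 1)) pm.c.col Y, ∀ w ∈ dep (lev G₀ ℓ (j + 1)) pm.c.col Y,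
      Gm G₀ ℓ j v w = Gm G₁ ℓ j (E.s v) (E.s w))
    (t z : ℂ) (x₀ : St (lev G₀ ℓ j)) (x₁ : St (lev G₁ ℓ j)) (hx₀ : Inv pm nm.h0 x₀) (hx₁ : Inv pm nm.h0 x₁)
    (hf₀ : nP (nm.p0 pm.ω) (T₀.V0 j) pm.zn.H0 pm.α t z x₀ ≠ ⊤) (hf₁ : nP (nm.p0 pm.ω) (T₁.V0 j) pm.zn.H0 pm.α t z x₁ ≠ ⊤)
    (hc : InvSq pm nm.h0 (E.lv j) x₀ x₁) (Y : Finset (lev G₀ ℓ (j + 1)).I) (hY : WallFree (lev G₀ ℓ (j + 1)) pm.zn.H0 Y) :
    CopyX (E.lv (j + 1)) nm.h0 pm.c.col 0 (next (T₀.step h₀) pm.c pm.ω pm.zn t z (pm.ref G₀) x₀).JT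
      (next (T₁.step h₁) pm.c pm.ω pm.zn t z (pm.ref G₁) x₁).JT Y := by
  intro z₀ hz₀ z₁ hz₁ hag
  show deriv (fun s : ℂ => famT (T₀.step h₀) pm.c pm.ω pm.zn t z (pm.ref G₀) x₀ s Y z₀) 0
    = deriv (fun s : ℂ => famT (T₁.step h₁) pm.c pm.ω pm.zn t z (pm.ref G₁) x₁ s (Y.map (E.lv (j + 1)).e) z₁) 0
  congr 1
  funext s
  exact pr71_famT_copy H₀ H₁ E hE hE' hcov t z x₀ x₁ hx₀ hx₁ hf₀ hf₁ hc s Y hY z₀ hz₀ z₁ hz₁ hag

/-- **LEAVES L-PAIR-C19 (`c0`), C20 (`cT`), C21 (`cJ`): THE COPIES BETWEEN TWO CENTRED SQUARES ARE PRESERVED.**  `pr_copy_step` with `E.pe h₀ h₁`, `μ = 0`, on a wall-free coarse `Y`.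
`hnb`: `prz_nb_cen`.  `hK`: `cl X ⊆ Y` ⟹ `X` wall-free (`prg_wallFree_fine`).  `hF`, `ha`: `pr_ofPieces_copy` (C8) with C14a / C14b / C15 lifted by `CopyFn.coarse`; a small `X` with a block over `b ∈ Y` is wall-free (`Ctx.smallGeo`, `prg_wallFree_fine`);
`hd` from `prg_small_diam`, `Ctx.hL`, `Ctx.hD`, `Ret.clear`; covariances on `dep X ⊆ dep (cl X) ⊆ dep` of a wall-free coarse set (apply `hcov` to `cl X`, wall-free with the constant `H0 - 1`... use `hcov` at `Y ∪ cl X`: see NOTE).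
`cJ`: the same for `KT + s JT`, `dLin dT dJ s` for every `s` (`CopyFn.add`, `CopyFn.smul`, `pr_dLin_small`), then `deriv` of equal functions.
NOTE: `hcov` is assumed for ALL coarse supports which are wall-free with the constant `H0 - 1`. -/
theorem pr_sq_step {G₀ G₁ : Geom} {ℓ : ℕ} {T₀ : Tw G₀ ℓ} {T₁ : Tw G₁ ℓ} {j : ℕ} {h₀ : Ret G₀ ℓ pm.D0 j} {h₁ : Ret G₁ ℓ pm.D0 j}
    (H₀ : Ctx pm nm cT k0 kT T₀ h₀) (H₁ : Ctx pm nm cT k0 kT T₁ h₁) (E : TEmb (lev G₀ ℓ) (lev G₁ ℓ)) (hE : CenEmb (E.lv j)) (hE' : CenEmb (E.lv (j + 1)))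
    (hcov : ∀ Y, WallFree (lev G₀ ℓ (j + 1)) (pm.zn.H0 - 1) Y → ∀ v ∈ dep (lev G₀ ℓ (j + 1)) pm.c.col Y, ∀ w ∈ dep (lev G₀ ℓ (j + 1)) pm.c.col Y,
      Gm G₀ ℓ j v w = Gm G₁ ℓ j (E.s v) (E.s w))
    (t z : ℂ) (x₀ : St (lev G₀ ℓ j)) (x₁ : St (lev G₁ ℓ j)) (hx₀ : Inv pm nm.h0 x₀) (hx₁ : Inv pm nm.h0 x₁)
    (hf₀ : nP (nm.p0 pm.ω) (T₀.V0 j) pm.zn.H0 pm.α t z x₀ ≠ ⊤) (hf₁ : nP (nm.p0 pm.ω) (T₁.V0 j) pm.zn.H0 pm.α t z x₁ ≠ ⊤)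
    (hc : InvSq pm nm.h0 (E.lv j) x₀ x₁) :
    InvSq pm nm.h0 (E.lv (j + 1)) (next (T₀.step h₀) pm.c pm.ω pm.zn t z (pm.ref G₀) x₀) (next (T₁.step h₁) pm.c pm.ω pm.zn t z (pm.ref G₁) x₁) where
  c0 := pr_sq_step_c0 H₀ H₁ E hE hE' hcov t z x₀ x₁ hx₀ hx₁ hf₀ hf₁ hc
  cT := pr_sq_step_cT H₀ H₁ E hE hE' hcov t z x₀ x₁ hx₀ hx₁ hf₀ hf₁ hc
  cJ := pr71_sq_cJ H₀ H₁ E hE hE' hcov t z x₀ x₁ hx₀ hx₁ hf₀ hf₁ hc

theorem prt_wf_mono {G : Geom} {g : Grid G} {H H' : ℕ} (hH : H' ≤ H) {X X' : Finset g.I} (hX : X' ⊆ X) (h : WallFree g H X) : WallFree g H' X' := by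
  intro b hb
  have := h b (hX hb)
  omega

theorem prt_mem_small {G : Geom} {D0 ℓ : ℕ} (S : B8.Step G D0 ℓ) (c : B8.Geo) (X : Finset S.P.g.I) : X ∈ S.small c ↔ S.P.g.Conn c.R X ∧ X.card ≤ c.n0 := by
  classical
  simp only [B8.Step.small, Finset.mem_filter, Finset.mem_univ, true_and]

theorem prt_copy_add_sub {G₀ G₁ : Geom} {g₀ : Grid G₀} {g₁ : Grid G₁} {E : GEmb g₀ g₁} {h0 : ℝ≥0} {col : ℕ} {μ : G₀.V → ℝ} {K s₀ : Act g₀} {s₁ R₁ : Act g₁}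
    {X : Finset g₀.I} (h1 : CopyX E h0 col μ s₀ s₁ X) (h2 : CopyX E h0 col μ (K - s₀) R₁ X) : CopyX E h0 col μ K (s₁ + R₁) X := by
  have h3 := CopyFn.add h1 h2
  have e : s₀ X + (K - s₀) X = K X := by rw [Pi.sub_apply, add_sub_cancel]
  rw [e] at h3
  exact h3

theorem prt_copy_sub {G₀ G₁ : Geom} {g₀ : Grid G₀} {g₁ : Grid G₁} {E : GEmb g₀ g₁} {h0 : ℝ≥0} {col : ℕ} {μ : G₀.V → ℝ} {K s₀ : Act g₀} {K₁ s₁ : Act g₁}
    {X : Finset g₀.I} (h1 : CopyX E h0 col μ K K₁ X) (h2 : CopyX E h0 col μ s₀ s₁ X) : CopyX E h0 col μ (K - s₀) (K₁ - s₁) X :=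
  CopyFn.sub h1 h2

theorem prt_small_map {G₀ G₁ : Geom} {D0 D0' ℓ : ℕ} (S₀ : B8.Step G₀ D0 ℓ) (S₁ : B8.Step G₁ D0' ℓ) (E : PEmb S₀.P S₁.P) (hE : E.fine.Ok) (c : B8.Geo)
    {X : Finset S₀.P.g.I} (hX : X ∈ S₀.small c) : X.map E.f ∈ S₁.small c := by
  rw [prt_mem_small] at hX ⊢
  exact ⟨(pra_conn_map E.f hE.dist c.R X).2 hX.1, by rw [Finset.card_map]; exact hX.2⟩

theorem prt_cl_singleton {G : Geom} {D0 ℓ : ℕ} (P : Pair G D0 ℓ) (B : P.g.I) : P.N.cl {B} = {P.N.up B} := by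
  classical
  unfold Nest.cl
  rw [Finset.image_singleton]

theorem prt_cl_singleton_sub {G : Geom} {D0 ℓ : ℕ} (P : Pair G D0 ℓ) {B : P.g.I} {b : P.g'.I} (h : P.N.up B = b) : P.N.cl {B} ⊆ {b} := by
  rw [prt_cl_singleton, h]

/-- the threshold is positive (a singleton does not lose half of its blocks) -/
theorem Ctx.n0_pos {G : Geom} {ℓ : ℕ} {T : Tw G ℓ} {j : ℕ} {h : Ret G ℓ pm.D0 j} (H : Ctx pm nm cT k0 kT T h) : 1 ≤ pm.c.n0 := by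
  classical
  by_contra hc
  have h0 : pm.c.n0 = 0 := by omega
  set B : (pair h).g.I := (pair h).g.blk (B8.org G) with hB
  have hconn : (pair h).g.Conn pm.c.R {B} := by
    refine ⟨Finset.singleton_nonempty _, fun a ha b hb => ?_⟩
    rw [Finset.mem_singleton] at ha hb
    rw [ha, hb]
  have h1 := (H.hyp0.geo {B} hconn).2.2 (by rw [h0, Finset.card_singleton]; exact Nat.one_pos)
  have h2 : ((pair h).N.cl {B}).card = 1 := by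
    rw [prt_cl_singleton, Finset.card_singleton]
  rw [h2, Finset.card_singleton] at h1
  omega

theorem Ctx.ℓ_pos {G : Geom} {ℓ : ℕ} {T : Tw G ℓ} {j : ℕ} {h : Ret G ℓ pm.D0 j} (H : Ctx pm nm cT k0 kT T h) : 1 ≤ ℓ := by
  have h1 := H.hL
  by_contra hc
  have h0 : ℓ = 0 := by omega
  rw [h0, pow_zero] at h1
  omega

/-- a small polymer with a block over a wall-free coarse block: it is wall-free, its closure is wall-free with the constant `H0 - 1` -/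
theorem Ctx.small_wf {G : Geom} {ℓ : ℕ} {T : Tw G ℓ} {j : ℕ} {h : Ret G ℓ pm.D0 j} (H : Ctx pm nm cT k0 kT T h)
    {Y : Finset (lev G ℓ (j + 1)).I} (hY : WallFree (lev G ℓ (j + 1)) pm.zn.H0 Y) {b : (lev G ℓ (j + 1)).I} (hb : b ∈ Y)
    {X : Finset (lev G ℓ j).I} (hX : X ∈ (T.step h).small pm.c) {B : (lev G ℓ j).I} (hB : B ∈ X) (hBb : (pair h).N.up B = b) :
    WallFree (lev G ℓ j) pm.zn.H0 X ∧ WallFree (lev G ℓ (j + 1)) (pm.zn.H0 - 1) ((pair h).N.cl X) := by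
  classical
  have hH0 : 2 ≤ pm.zn.H0 := by have := H.hH0; omega
  have hd : (pair h).g'.idiam ((pair h).N.cl X) ≤ 1 := (H.smallGeo X hX).2
  have hbX : b ∈ (pair h).N.cl X := by rw [← hBb]; exact Finset.mem_image_of_mem _ hB
  constructor
  · refine prg_wallFree_fine H.cenP H.ℓ_pos pm.zn.H0 hH0 Y hY X fun a ha => ⟨b, hb, ?_⟩
    exact (Alg.idist_le_idiam (Finset.mem_image_of_mem _ ha) hbX).trans hd
  · intro c hc
    have h1 : (pair h).g'.idist c b ≤ 1 := (Alg.idist_le_idiam hc hbX).trans hd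
    have h2 := prg_idist_le H.free (pair h).g' h1
    have h3 := hY b hb
    have h2' : (c.1 : ℕ) ≤ (b.1 : ℕ) + 1 ∧ (b.1 : ℕ) ≤ (c.1 : ℕ) + 1 ∧ (c.2 : ℕ) ≤ (b.2 : ℕ) + 1 ∧ (b.2 : ℕ) ≤ (c.2 : ℕ) + 1 := h2
    omega

/-- a small polymer is much smaller than the square -/
theorem Ctx.small_diam {G : Geom} {ℓ : ℕ} {T : Tw G ℓ} {j : ℕ} {h : Ret G ℓ pm.D0 j} (H : Ctx pm nm cT k0 kT T h)
    {X : Finset (lev G ℓ j).I} (hX : X ∈ (T.step h).small pm.c) : ((lev G ℓ j).idiam X + 1) * (lev G ℓ j).m + pm.c.col < G.M := by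
  classical
  have hX' : (T.step h).P.g.Conn pm.c.R X ∧ X.card ≤ pm.c.n0 := (prt_mem_small (T.step h) pm.c X).1 hX
  have h1 : (lev G ℓ j).idiam X ≤ pm.c.R * pm.c.n0 := prg_small_diam _ _ _ X hX'.1 hX'.2
  have h2 : 4 * pm.c.col ≤ (lev G ℓ j).m := H.col
  have h3 : (lev G ℓ (j + 1)).m = 2 ^ ℓ * (lev G ℓ j).m := (pair h).hS
  have h4 : pm.D0 * (lev G ℓ (j + 1)).m < G.M := (pair h).clear
  have h5 := H.hL
  have h6 := H.hD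
  have h7 : ((lev G ℓ j).idiam X + 2) * (lev G ℓ j).m ≤ 2 ^ ℓ * (lev G ℓ j).m := Nat.mul_le_mul_right _ (by omega)
  have h8 : 1 * (lev G ℓ (j + 1)).m ≤ pm.D0 * (lev G ℓ (j + 1)).m := Nat.mul_le_mul_right _ (by omega)
  have h9 : ((lev G ℓ j).idiam X + 2) * (lev G ℓ j).m = ((lev G ℓ j).idiam X + 1) * (lev G ℓ j).m + (lev G ℓ j).m := by ring
  omega

/-- **LEAF L-PAIR-C22: THE COPY OF THE PLANE STATE IS PRESERVED.**  `S₁` = the step of the weak map on a big torus.  `(S₁.Phi ..).2.2 = Kprime (Kof ..) (desig ..) - single (tz ..)`.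
`pr_copy_step` with `K₀ = K0`, `K₁ = Kof g₁ α (t, z, Rt)`, `d₀ = d0`, `d₁ = desig = ofPieces (pcPl ..) (cnPl ..)` (C7); `hK`: `K0 X = (K0 - singleWF) X + singleWF X`, `hc` + C12;  pieces: `pc0_wf`, C5;  `hnb`: `prz_nb_tor`;
the new singletons: C12 at the coarse level. -/
theorem pr_tor_step {G₀ : Geom} {ℓ : ℕ} {T₀ : Tw G₀ ℓ} {j : ℕ} {h₀ : Ret G₀ ℓ pm.D0 j} (H₀ : Ctx pm nm cT k0 kT T₀ h₀)
    {G₁ : Geom} {D0' : ℕ} (S₁ : B8.Step G₁ D0' ℓ) (E : PEmb (pair h₀) S₁.P) (hE : TorEmb E.fine) (hE' : TorEmb E.coarse)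
    (hg₁ : SmallGeo S₁ pm.c) (hΓ₁ : S₁.Γ.PosSemidef)
    (hcov : ∀ Y, WallFree (lev G₀ ℓ (j + 1)) (pm.zn.H0 - 1) Y → ∀ v ∈ dep (lev G₀ ℓ (j + 1)) pm.c.col Y, ∀ w ∈ dep (lev G₀ ℓ (j + 1)) pm.c.col Y,
      Gm G₀ ℓ j v w = S₁.Γ (E.s v) (E.s w))
    (t z : ℂ) (x₀ : St (lev G₀ ℓ j)) (Rt : Act S₁.P.g) (hx₀ : Inv pm nm.h0 x₀)
    (hf₀ : nP (nm.p0 pm.ω) (T₀.V0 j) pm.zn.H0 pm.α t z x₀ ≠ ⊤) (hr₁ : ∀ X₁ ∈ S₁.small pm.c, HqReg (nm.p0 pm.ω) pm.c.col S₁ Rt X₁)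
    (hc : InvTor pm nm.h0 E.fine t z x₀ Rt) :
    InvTor pm nm.h0 E.coarse (S₁.tz pm.c pm.ω true (t, z, Rt)).1 (S₁.tz pm.c pm.ω true (t, z, Rt)).2
      (next (T₀.step h₀) pm.c pm.ω pm.zn t z (pm.ref G₀) x₀) (S₁.Phi pm.c pm.ω true (t, z, Rt)).2.2 := by
  classical
  intro Y hY
  have hEok : E.Ok := ⟨hE.ok, hE'.ok⟩
  have hcol : 1 ≤ pm.c.col := H₀.geo.col_pos
  have hH0 : 2 ≤ pm.zn.H0 := by have := H₀.hH0; omega
  have hh : 0 < nm.h0 := H₀.nmOk.h0_pos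
  have hΓ₀ : (Gm G₀ ℓ j).PosSemidef := H₀.hyp0.shell.psd
  have hnb : ∀ b ∈ Y, ∀ b' : S₁.P.g'.I, S₁.P.g'.idist (E.c b) b' ≤ 1 → b' ∈ Set.range E.c := fun b hb b' hd =>
    prz_nb_tor hE' b (prt_wf_mono (by omega) (Finset.singleton_subset_iff.2 hb) hY) b' hd
  -- the fine activities
  have hK : ∀ X : Finset (pair h₀).g.I, (pair h₀).N.cl X ⊆ Y →
      CopyX E.fine nm.h0 pm.c.col 0 x₀.K0 (B8.Kof S₁.P.g (B8.Step.alpha pm.ω) (t, z, Rt)) X := by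
    intro X hXY
    have hX : WallFree (lev G₀ ℓ j) pm.zn.H0 X := prg_wallFree_fine H₀.cenP H₀.ℓ_pos pm.zn.H0 hH0 Y hY X fun a ha =>
      ⟨(pair h₀).N.up a, hXY (Finset.mem_image_of_mem _ ha), by rw [Alg.idist_self]; exact Nat.zero_le _⟩
    exact prt_copy_add_sub (pr_singleWF_copy_tor hE nm.h0 pm.c.col hcol pm.zn.H0 (by omega) pm.α t z X hX) (hc X hX)
  -- the pieces
  have hP : ∀ b ∈ Y, (∀ Y', CopyFn E.coarse nm.h0 pm.c.col 0 {b} ((d0 (T₀.step h₀) pm.c pm.ω pm.zn t z x₀.K0).F Y' b)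
        ((S₁.desig pm.c pm.ω true (t, z, Rt)).F (Y'.map E.c) (E.c b))) ∧
      (d0 (T₀.step h₀) pm.c pm.ω pm.zn t z x₀.K0).a b = (S₁.desig pm.c pm.ω true (t, z, Rt)).a (E.c b) := by
    intro b hb
    rw [pr_desig_eq S₁ pm.c pm.ω t z H₀.n0_pos Rt]
    have hpiece : ∀ X ∈ (T₀.step h₀).small pm.c, ∀ B ∈ X, (T₀.step h₀).P.N.up B = b →
        CopyFn E.fine nm.h0 pm.c.col 0 {B} (pc0 (T₀.step h₀) pm.ω pm.zn t z x₀.K0 X B) (pcPl S₁ pm.ω t z Rt (X.map E.f) (E.f B)) ∧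
          cn0 (T₀.step h₀) pm.ω pm.zn t z x₀.K0 X B = cnPl S₁ pm.ω t Rt (X.map E.f) (E.f B) := by
      intro X hX B hB hBb
      obtain ⟨hXw, hXc⟩ := H₀.small_wf hY hb hX hB hBb
      have hX₁ : X.map E.f ∈ S₁.small pm.c := prt_small_map (T₀.step h₀) S₁ E hE.ok pm.c hX
      have hd : 2 * (((T₀.step h₀).P.g.idiam X + 1) * (T₀.step h₀).P.g.m + pm.c.col) < G₁.M := by
        have h1 := H₀.small_diam hX
        have h2 : G₁.M = S₁.P.g.n * S₁.P.g.m := hE.std₁.card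
        have h3 : G₀.M = (lev G₀ ℓ j).n * (lev G₀ ℓ j).m := hE.std₀.card
        have h4 : S₁.P.g.m = (lev G₀ ℓ j).m := hE.ok.side
        have h5 : 2 * (lev G₀ ℓ j).n ≤ S₁.P.g.n := hE.le
        have h6 : 2 * (lev G₀ ℓ j).n * (lev G₀ ℓ j).m ≤ S₁.P.g.n * (lev G₀ ℓ j).m := Nat.mul_le_mul_right _ h5
        have h7 : 2 * (lev G₀ ℓ j).n * (lev G₀ ℓ j).m = 2 * ((lev G₀ ℓ j).n * (lev G₀ ℓ j).m) := by ring
        have h1' : ((T₀.step h₀).P.g.idiam X + 1) * (T₀.step h₀).P.g.m + pm.c.col < G₀.M := h1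
        rw [h2, h4]
        omega
      rw [pc0_wf (T₀.step h₀) pm.ω t z pm.zn x₀.K0 B hXw, cn0_wf (T₀.step h₀) pm.ω t z pm.zn x₀.K0 B hXw]
      exact pr_pcPl_copy (T₀.step h₀) S₁ E hEok 0 hE.sh H₀.free hE.std₀ (nm.p0 pm.ω) hh pm.c.col hcol hΓ₀ hΓ₁ t z
        (R0 (T₀.step h₀) pm.ω pm.zn t z x₀.K0) Rt X B hB
        (prz_inner H₀.free hE.std₀ B (prt_wf_mono (by omega) (Finset.singleton_subset_iff.2 hB) hXw)) hd
        (fun v hv w hw => hcov _ hXc v (prc_dep_coarse (pair h₀) pm.c.col (Finset.Subset.refl _) hv) w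
          (prc_dep_coarse (pair h₀) pm.c.col (Finset.Subset.refl _) hw))
        (hc X hXw) (pr_HqReg_sq H₀ t z x₀ hx₀ hf₀ X hXw) (hr₁ _ hX₁)
    exact pr_ofPieces_copy (T₀.step h₀) S₁ E hEok pm.c hg₁ nm.h0 pm.c.col 0 (pc0 (T₀.step h₀) pm.ω pm.zn t z x₀.K0)
      (cn0 (T₀.step h₀) pm.ω pm.zn t z x₀.K0) (pcPl S₁ pm.ω t z Rt) (cnPl S₁ pm.ω t Rt) b (hnb b hb)
      (fun X hX B hB hBb => CopyFn.coarse hEok (prt_cl_singleton_sub (T₀.step h₀).P hBb) (hpiece X hX B hB hBb).1)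
      (fun X hX B hB hBb => (hpiece X hX B hB hBb).2)
  have hd₁ : (S₁.desig pm.c pm.ω true (t, z, Rt)).Small pm.c.r S₁.P.g' := by
    rw [pr_desig_eq S₁ pm.c pm.ω t z H₀.n0_pos Rt]
    exact pr_ofPieces_small S₁ pm.c hg₁ _ _
  have h1 := pr_copy_step E hEok nm.h0 pm.c.col pm.c.r pm.c.R (Gm G₀ ℓ j) S₁.Γ hΓ₀ hΓ₁ 0 x₀.K0
    (B8.Kof S₁.P.g (B8.Step.alpha pm.ω) (t, z, Rt)) (d0 (T₀.step h₀) pm.c pm.ω pm.zn t z x₀.K0) (S₁.desig pm.c pm.ω true (t, z, Rt))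
    (pr_ofPieces_small (T₀.step h₀) pm.c H₀.smallGeo _ _) hd₁ Y hnb
    (hcov Y (prt_wf_mono (Nat.sub_le _ _) (Finset.Subset.refl _) hY)) hK (fun b hb => (hP b hb).1) (fun b hb => (hP b hb).2)
  exact prt_copy_sub h1 (pr_singleWF_copy_tor hE' nm.h0 pm.c.col hcol pm.zn.H0 (by omega) pm.α _ _ Y hY)

end steps

end

end Claimed.Agent.R285.F6.Pr
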