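import Claimed.Agent.R285.Obs.PairWall
import Claimed.Agent.R285.Obs.PairJX
import Claimed.Agent.R285.Obs.PairS
import Claimed.Agent.R285.Obs.PairStep
import Claimed.Agent.R285.Obs.PairKitN

/-!
# ROW 285, unit OBS, BP-OBS-L62, block M3 = MAIN-A: THE ONE-STEP THEOREM of [F] Lemma 6.2 in the vocabulary of `Obs/PairCtx.lean`, LAYER A      (architect helper202)   -- KEEP

`Ctx` + `StepIn` (all the analytic inputs of ONE step, with their numbers `n : RNum`) + `Inv` + sizes `≤ ρ`  ⟹  `Inv` of `next` + the rows (W), (D), (J), (S) with uniform `(θ, C, ρ)`.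
LAYER B (`Obs/PairRowB.lean`) = the chain of constants: the producers (K6 gains, KER, counts, DESIG-0/T, R2, R4, (S)) ⟹ `StepIn`.
Sizes of a state at the level `j`:  `sU` (plane part), `sW` (wall), `sD` (defect), `sJ` (label): abbreviations of `nP nW nD nJ` in the two norms of `nm`;  `nx` = `next` with the parameters of `pm`.
Prefix `prr_`.  LEAVES `L-ROW-*`: every `sorry`; edit ONLY your theorem (helpers directly above it), pull before landing.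
-/

set_option autoImplicit false

namespace Claimed.Agent.R285.F6.Pr

open scoped BigOperators ENNReal NNReal
open MeasureTheory
open Claimed.Agent.R285 Claimed.Agent.R285.RG Claimed.Agent.R285.B4 Claimed.Agent.R285.F4a

noncomputable section

/-! ## 0. Abbreviations -/

section abbr

variable (pm : Prm) (nm : Nm) {G : Geom} {ℓ : ℕ} (T : Tw G ℓ)

/-- `U`: the plane part -/
abbrev sU (j : ℕ) (t z : ℂ) (x : St (lev G ℓ j)) : ℝ≥0∞ := nP (nm.p0 pm.ω) (T.V0 j) pm.zn.H0 pm.α t z x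

/-- `w`: the wall part -/
abbrev sW (j : ℕ) (x : St (lev G ℓ j)) : ℝ≥0∞ := nW (nm.p0 pm.ω) (T.V0 j) pm.zn.H0 x

/-- `d`: the defects -/
abbrev sD (j : ℕ) (μ : G.V → ℝ) (x : St (lev G ℓ j)) : ℝ≥0∞ := nD (nm.pT pm.ω) (T.VT j) pm.zn.H1 μ x

/-- `vJ`: the label -/
abbrev sJ (j : ℕ) (μ : G.V → ℝ) (x : St (lev G ℓ j)) : ℝ≥0∞ := nJ (nm.pT pm.ω) (T.VT j) μ x

/-- the paired step with the parameters of `pm` -/
abbrev nx {j : ℕ} (h : Ret G ℓ pm.D0 j) (t z : ℂ) (x : St (lev G ℓ j)) : St (lev G ℓ (j + 1)) :=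
  next (T.step h) pm.c pm.ω pm.zn t z (pm.ref G) x

end abbr

/-! ## 1. The inputs of one step -/

/-- the numbers of one step -/
structure RNum where
  /-- gain of an even input minus its neutral constant, centred norm (`C L⁻²`) -/
  γ0 : ℝ≥0
  /-- gain of an input minus its neutral constant, unit norm (`C L⁻¹`) -/
  γT : ℝ≥0
  /-- displacement of the reference point of the defect constants (`C L⁻¹`) -/
  γr : ℝ≥0
  /-- placements of the small inputs at a wall below one output (`C L`) -/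
  NW : ℕ
  /-- small defects (`O (1)`) -/
  ND : ℕ
  /-- small inputs with a block in one coarse block (`C L²`) -/
  M : ℕ
  /-- small polymers through one fine block -/
  Cn : ℕ
  /-- small labelled inputs -/
  CJ : ℕ
  /-- `‖K0‖` on the wall-free supports `≤ C1 U` -/
  C1 : ℝ≥0
  /-- the centred pieces of the wall-free inputs `≤ Cp U` -/
  Cp : ℝ≥0
  /-- the translated unit pieces of the shift-good inputs `≤ Ca (U + w)` -/
  Ca : ℝ≥0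
  /-- the coarse regulator of `Ψ_ref - μ` on the closures of the small defects -/
  CΨ : ℝ≥0
  /-- the scalars -/
  CS : ℝ≥0
  Cγ : ℝ
  αmax : ℝ
  /-- `Ψ_ref - μ` is `ηr`-close to a constant on the small labelled inputs (fine norm) -/
  ηr : ℝ≥0

/-- the radius which `StepGain.quad` has to allow in the centred sector -/
def RNum.Cd0 (n : RNum) (c : B8.Geo) (ℓ : ℕ) : ℝ≥0 := 2 * ((2 * 2 ^ ℓ) ^ 2 * n.Cn : ℕ) * (n.Cp + max 1 c.cst ^ c.n0)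

/-- the radius which `StepGain.quad` has to allow in the unit sector -/
def RNum.CdT (n : RNum) (c : B8.Geo) (cT : ℝ≥0) (ℓ : ℕ) : ℝ≥0 := 2 * ((2 * 2 ^ ℓ) ^ 2 * n.Cn : ℕ) * (n.Ca + max 1 cT ^ c.n0 * n.CΨ)

section inputs

variable (pm : Prm) (nm : Nm) {G : Geom} {ℓ : ℕ} (T : Tw G ℓ) {j : ℕ} (h : Ret G ℓ pm.D0 j)

/-- DESIG-0, per piece: the centred pieces of the WALL-FREE small inputs (plane rule) -/
structure Pc0 (Cp : ℝ≥0) (t z : ℂ) (x : St (lev G ℓ j)) : Prop where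
  loc : ∀ X ∈ (T.step h).small pm.c, WallFree (lev G ℓ j) pm.zn.H0 X → ∀ B ∈ X,
    LocalFn (nm.p0 pm.ω) pm.c.col (lev G ℓ (j + 1)) {(nest G ℓ j).up B} (pc0 (T.step h) pm.ω pm.zn t z x.K0 X B)
  bd : ∀ X ∈ (T.step h).small pm.c, WallFree (lev G ℓ j) pm.zn.H0 X → ∀ B ∈ X,
    fnSize (nm.p0 pm.ω) (lev G ℓ (j + 1)) (T.V0 (j + 1)) {(nest G ℓ j).up B} (pc0 (T.step h) pm.ω pm.zn t z x.K0 X B) ≤ Cp * sU pm nm T j t z x ∧
    (‖cn0 (T.step h) pm.ω pm.zn t z x.K0 X B‖₊ : ℝ≥0∞) ≤ Cp * sU pm nm T j t z x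

/-- DESIG-T, per piece: the unit pieces of the SHIFT-GOOD small inputs, in the fluctuation variable (`shF (pcT X B) μ = shF (pc0 X B) (lamX ..)`) -/
structure PcT (Ca : ℝ≥0) (μ : G.V → ℝ) (t z : ℂ) (x : St (lev G ℓ j)) : Prop where
  loc : ∀ X ∈ (T.step h).small pm.c, ShiftGood (lev G ℓ j) pm.zn.H1 X → ∀ B ∈ X,
    LocalFn (nm.pT pm.ω) pm.c.col (lev G ℓ (j + 1)) {(nest G ℓ j).up B} (shF (pcT (T.step h) pm.ω pm.zn t z (pm.ref G) x.K0 x.KT X B) μ)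
  bd : ∀ X ∈ (T.step h).small pm.c, ShiftGood (lev G ℓ j) pm.zn.H1 X → ∀ B ∈ X,
    fnSize (nm.pT pm.ω) (lev G ℓ (j + 1)) (T.VT (j + 1)) {(nest G ℓ j).up B} (shF (pcT (T.step h) pm.ω pm.zn t z (pm.ref G) x.K0 x.KT X B) μ)
      ≤ Ca * (sU pm nm T j t z x + sW pm nm T j x) ∧
    (‖cnT (T.step h) pm.ω pm.zn t z (pm.ref G) x.K0 x.KT X B‖₊ : ℝ≥0∞) ≤ Ca * (sU pm nm T j t z x + sW pm nm T j x)

/-- (R4): the reference field `Ψ_ref` minus the background `μ = v / α` near the unit: close to a constant in the fine and in the coarse norm, bounded coarse regulator -/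
structure RefOK (μ : G.V → ℝ) (ηr CΨ : ℝ≥0) : Prop where
  fine : ∀ X ∈ (T.step h).small pm.c, NearUnit (lev G ℓ j) 1 X → ∃ a : ℝ, tnorm (lev G ℓ j) X (fun v => (pm.ref G v - μ v) - a) ≤ ηr
  coarse : ∀ X ∈ (T.step h).small pm.c, ¬ ShiftGood (lev G ℓ j) pm.zn.H1 X →
    ∃ a : ℝ, tnorm (lev G ℓ (j + 1)) ((nest G ℓ j).cl X) (fun v => (pm.ref G - μ) v - a) ≤ ηr
  wt : ∀ X ∈ (T.step h).small pm.c, ¬ ShiftGood (lev G ℓ j) pm.zn.H1 X →
    ENNReal.ofReal (Wt (lev G ℓ (j + 1)) nm.δ nm.κT (T.VT (j + 1)) ((nest G ℓ j).cl X) (pm.ref G - μ)) ≤ CΨ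
  wtJ : ∀ X ∈ (T.step h).small pm.c, NearUnit (lev G ℓ j) 1 X →
    ENNReal.ofReal (Wt (lev G ℓ (j + 1)) nm.δ nm.κT (T.VT (j + 1)) ((nest G ℓ j).cl X) (pm.ref G - μ)) ≤ CΨ

open Classical in
/-- **ALL THE ANALYTIC INPUTS OF ONE STEP** `j → j + 1` of one centred free square, background `μ = v / α`, amplitude `β` of the charge gain of the unit norm -/
structure StepIn (n : RNum) (β : ℝ) (μ : G.V → ℝ) : Prop where
  /-- K6 + KER K1 -/
  gE : GainE pm.c (nm.p0 pm.ω) (T.step h) n.γ0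
  gN : GainN pm.c (nm.pT pm.ω) (T.stepT h) n.γT
  /-- K6 + R4 (coarse norm `< h₀`) -/
  gR : RefAt pm.c (nm.pT pm.ω) (T.stepT h) (fun X => ¬ ShiftGood (lev G ℓ j) pm.zn.H1 X) (pm.ref G - μ) n.γr
  /-- counts -/
  cW : ∀ Y, (((T.step h).small pm.c).filter fun X => (nest G ℓ j).cl X = Y ∧ ¬ WallFree (lev G ℓ j) pm.zn.H0 X).card ≤ n.NW
  cD : ∀ Y, (((T.step h).small pm.c).filter fun X => (nest G ℓ j).cl X = Y ∧ ¬ ShiftGood (lev G ℓ j) pm.zn.H1 X).card ≤ n.ND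
  cM : ∀ b : (lev G ℓ (j + 1)).I, (((T.step h).small pm.c).filter fun X => ∃ B ∈ X, (nest G ℓ j).up B = b).card ≤ n.M
  cN : ∀ B : (lev G ℓ j).I, (((T.step h).small pm.c).filter fun X => B ∈ X).card ≤ n.Cn
  cJ : JCount pm.c (T.step h) n.CJ
  /-- KER K1 for the label -/
  chg : JChg (nm.pT pm.ω) (T.stepT h) β n.Cγ n.αmax
  /-- R4 -/
  η_pos : 0 < n.ηr
  η_lt : n.ηr < nm.h0
  href : ∀ X ∈ (T.step h).small pm.c, NearUnit (lev G ℓ j) 1 X → ∃ a : ℝ, tnorm (lev G ℓ j) X (fun v => (pm.ref G v - μ v) - a) ≤ n.ηr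
  wt : ∀ X ∈ (T.step h).small pm.c, ¬ ShiftGood (lev G ℓ j) pm.zn.H1 X →
    ENNReal.ofReal (Wt (lev G ℓ (j + 1)) nm.δ nm.κT (T.VT (j + 1)) ((nest G ℓ j).cl X) (pm.ref G - μ)) ≤ n.CΨ
  /-- DESIG-0 -/
  C1_ge : 1 ≤ n.C1
  tot : ∀ (t z : ℂ) (x : St (lev G ℓ j)),
    actNorm (nm.p0 pm.ω) (lev G ℓ j) (T.V0 j) (cutA (WallFree (lev G ℓ j) pm.zn.H0) x.K0) ≤ n.C1 * sU pm nm T j t z x
  pc0 : ∀ (t z : ℂ) (x : St (lev G ℓ j)), Inv pm nm.h0 x → sU pm nm T j t z x ≠ ⊤ → Pc0 pm nm T h n.Cp t z x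
  /-- DESIG-T -/
  pcT : ∀ (t z : ℂ) (x : St (lev G ℓ j)), Inv pm nm.h0 x → sU pm nm T j t z x ≠ ⊤ → sW pm nm T j x ≠ ⊤ → PcT pm nm T h n.Ca μ t z x
  /-- R2 -/
  r2 : ∀ x : St (lev G ℓ j), Inv pm nm.h0 x →
    actNorm (nm.pT pm.ω) (lev G ℓ j) (T.VT j) (cutA (ShiftGood (lev G ℓ j) pm.zn.H1) (shA x.KT μ)) ≤ actNorm (nm.p0 pm.ω) (lev G ℓ j) (T.V0 j) x.K0
  /-- (S) -/
  sc : ∀ (t z : ℂ) (x : St (lev G ℓ j)), Inv pm nm.h0 x → ∀ b : (lev G ℓ (j + 1)).I,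
    (‖(d0 (T.step h) pm.c pm.ω pm.zn t z x.K0).a b‖₊ : ℝ≥0∞) ≤ n.CS * (sU pm nm T j t z x + sW pm nm T j x) ∧
    (‖(dT (T.step h) pm.c pm.ω pm.zn t z (pm.ref G) x.K0 x.KT).a b - (d0 (T.step h) pm.c pm.ω pm.zn t z x.K0).a b‖₊ : ℝ≥0∞)
      ≤ n.CS * (sU pm nm T j t z x + sW pm nm T j x + sD pm nm T j μ x)

end inputs

/-! ## 2. Bookkeeping for one step (explicit numbers) -/

section step

variable {pm : Prm} {nm : Nm} {cT : ℝ≥0} {k0 kT : KC} {G : Geom} {ℓ : ℕ} {T : Tw G ℓ} {j : ℕ} {h : Ret G ℓ pm.D0 j} {n : RNum} {β : ℝ} {μ : G.V → ℝ}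

/-- **LEAF `L-ROW-A1`** (10 l.): `prw_cut_split` with the class `WallFree`, `max_le`, `I.tot`. -/
theorem prr_K0_le (I : StepIn pm nm T h n β μ) (t z : ℂ) (x : St (lev G ℓ j)) :
    actNorm (nm.p0 pm.ω) (lev G ℓ j) (T.V0 j) x.K0 ≤ n.C1 * sU pm nm T j t z x + sW pm nm T j x := by
  refine (prw_cut_split (nm.p0 pm.ω) (T.V0 j) (WallFree (lev G ℓ j) pm.zn.H0) x.K0).trans ?_
  refine max_le ((I.tot t z x).trans le_self_add) ?_
  exact le_add_self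

/-- **LEAF `L-ROW-A1`** (15 l.): `prw_cut_split` with the class `ShiftGood`, `I.r2`, `prr_K0_le`. -/
theorem prr_KT_le (I : StepIn pm nm T h n β μ) (t z : ℂ) (x : St (lev G ℓ j)) (hx : Inv pm nm.h0 x) :
    actNorm (nm.pT pm.ω) (lev G ℓ j) (T.VT j) (shA x.KT μ) ≤ n.C1 * sU pm nm T j t z x + sW pm nm T j x + sD pm nm T j μ x := by
  refine (prw_cut_split (nm.pT pm.ω) (T.VT j) (ShiftGood (lev G ℓ j) pm.zn.H1) (shA x.KT μ)).trans ?_
  refine max_le (((I.r2 x hx).trans (prr_K0_le I t z x)).trans le_self_add) ?_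
  exact le_add_self

/-- **LEAF `L-ROW-A2`** (60 l.): the centred pieces of the small inputs AT THE WALLS are the constants `Hq 0 K0 X 0 / |X|` (`if_neg` in `pc0`, `cn0`): `Scal.localFn_const` (or `prj_dJ_fn`'s argument), `B8.w_ds_const_size`,
`B8.w_nn_inv_card_mul_le`, `pk_Hq_zero_le` in the context `H.to0 _` (`Obs/PairKit2.lean`; `prs_ctx0 H`), `B8.w_ds_cst_le`, `prs_fnSize_le_cut`. -/
theorem prr_pc0_wall (H : Ctx pm nm cT k0 kT T h) (t z : ℂ) (x : St (lev G ℓ j)) (hx : Inv pm nm.h0 x)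
    (X : Finset (lev G ℓ j).I) (hX : X ∈ (T.step h).small pm.c) (hw : ¬ WallFree (lev G ℓ j) pm.zn.H0 X) (B : (lev G ℓ j).I) :
    LocalFn (nm.p0 pm.ω) pm.c.col (lev G ℓ (j + 1)) {(nest G ℓ j).up B} (pc0 (T.step h) pm.ω pm.zn t z x.K0 X B) ∧
    fnSize (nm.p0 pm.ω) (lev G ℓ (j + 1)) (T.V0 (j + 1)) {(nest G ℓ j).up B} (pc0 (T.step h) pm.ω pm.zn t z x.K0 X B)
      ≤ ((max 1 pm.c.cst ^ pm.c.n0 : ℝ≥0) : ℝ≥0∞) * sW pm nm T j x ∧
    (‖cn0 (T.step h) pm.ω pm.zn t z x.K0 X B‖₊ : ℝ≥0∞) ≤ ((max 1 pm.c.cst ^ pm.c.n0 : ℝ≥0) : ℝ≥0∞) * sW pm nm T j x := by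
  have hc0 : Ctx0 pm.c (nm.p0 pm.ω) (T.step h) := prs_ctx0 H
  have hK0 : Act.Ok (nm.p0 pm.ω) pm.c.col pm.c.R x.K0 := ok_par hx.ok0 nm.δ nm.κ nm.A
  have hcard : X.card ≤ pm.c.n0 := (B8.w_mem_small.1 hX).2
  have e1 : pc0 (T.step h) pm.ω pm.zn t z x.K0 X B = fun _ => (1 / (X.card : ℂ)) * (T.step h).Hq pm.ω 0 x.K0 X 0 := by
    unfold pc0
    exact if_neg hw
  have e2 : cn0 (T.step h) pm.ω pm.zn t z x.K0 X B = (1 / (X.card : ℂ)) * (T.step h).Hq pm.ω 0 x.K0 X 0 := by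
    unfold cn0
    exact if_neg hw
  have key : (‖(1 / (X.card : ℂ)) * (T.step h).Hq pm.ω 0 x.K0 X 0‖₊ : ℝ≥0∞)
      ≤ ((max 1 pm.c.cst ^ pm.c.n0 : ℝ≥0) : ℝ≥0∞) * sW pm nm T j x := by
    refine (B8.w_nn_inv_card_mul_le _ _).trans ((pk_Hq_zero_le hc0 hK0 0 X).trans (mul_le_mul' (B8.w_ds_cst_le pm.c hcard) ?_))
    exact prs_fnSize_le_cut (nm.p0 pm.ω) hc0.hA (lev G ℓ j) (T.V0 j) (fun X => ¬ WallFree (lev G ℓ j) pm.zn.H0 X) x.K0 X hw
  rw [e1, e2]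
  refine ⟨Scal.localFn_const _ _ _ _ _, ?_, key⟩
  exact (B8.w_ds_const_size (nm.p0 pm.ω) H.nmOk.δ_pos.le H.nmOk.κ_pos.le _ _ _ _).trans key

/-- **LEAF `L-ROW-A3`** (100 l.): THE CENTRED DESIGNATION.  `d0 = ofPieces ..` by `rfl`.  Every piece and every constant is `≤ M := (Cp + cst^{n0}) (U + w)` (`(I.pc0 ..).bd`, `prr_pc0_wall`);
`pk_desig_size` (`I.cN`), `pk_desig_a_le`, `pk_desig_ok` in the context `prs_ctx0 H`;  `U + w ≤ C1 U + w` (`I.C1_ge`);  `‖a b‖ ≤ 1/2` from `Cd0 (U + w) ≤ 1` (`Cd0 = 2 (2L)² Cn (Cp + cst^{n0})`). -/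
theorem prr_d0 (H : Ctx pm nm cT k0 kT T h) (I : StepIn pm nm T h n β μ) (t z : ℂ) (x : St (lev G ℓ j)) (hx : Inv pm nm.h0 x)
    (hU : sU pm nm T j t z x ≠ ⊤) :
    (d0 (T.step h) pm.c pm.ω pm.zn t z x.K0).size (nm.p0 pm.ω) (T.V0 (j + 1)) ≤ n.Cd0 pm.c ℓ * (n.C1 * sU pm nm T j t z x + sW pm nm T j x) ∧
    (n.Cd0 pm.c ℓ * (sU pm nm T j t z x + sW pm nm T j x) ≤ 1 → (d0 (T.step h) pm.c pm.ω pm.zn t z x.K0).Ok (nm.p0 pm.ω) pm.c.col pm.c.r) := by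
  classical
  obtain ⟨U, hUd⟩ : ∃ U : ℝ≥0∞, U = sU pm nm T j t z x := ⟨_, rfl⟩
  obtain ⟨w, hwd⟩ : ∃ w : ℝ≥0∞, w = sW pm nm T j x := ⟨_, rfl⟩
  obtain ⟨q, hq⟩ : ∃ q : ℝ≥0, q = max 1 pm.c.cst ^ pm.c.n0 := ⟨_, rfl⟩
  obtain ⟨N, hN⟩ : ∃ N : ℕ, N = (2 * 2 ^ ℓ) ^ 2 * n.Cn := ⟨_, rfl⟩
  obtain ⟨M, hM⟩ : ∃ M : ℝ≥0∞, M = ((n.Cp + q : ℝ≥0) : ℝ≥0∞) * (U + w) := ⟨_, rfl⟩
  have hP := I.pc0 t z x hx hU
  have hCd : ((n.Cd0 pm.c ℓ : ℝ≥0) : ℝ≥0∞) = 2 * (N : ℝ≥0∞) * ((n.Cp + q : ℝ≥0) : ℝ≥0∞) := by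
    unfold RNum.Cd0
    rw [← hq, ← hN]
    push_cast
    rfl
  have m1 : (n.Cp : ℝ≥0∞) * U ≤ M := by
    rw [hM]
    exact mul_le_mul' (by exact_mod_cast le_self_add) le_self_add
  have m2 : (q : ℝ≥0∞) * w ≤ M := by
    rw [hM]
    exact mul_le_mul' (by exact_mod_cast le_add_self) le_add_self
  have key : ∀ X ∈ (T.step h).small pm.c, ∀ B ∈ X,
      LocalFn (nm.p0 pm.ω) pm.c.col (T.step h).P.g' {(T.step h).P.N.up B} (pc0 (T.step h) pm.ω pm.zn t z x.K0 X B) ∧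
      fnSize (nm.p0 pm.ω) (T.step h).P.g' (T.step h).Vc {(T.step h).P.N.up B} (pc0 (T.step h) pm.ω pm.zn t z x.K0 X B) ≤ M ∧
      (‖cn0 (T.step h) pm.ω pm.zn t z x.K0 X B‖₊ : ℝ≥0∞) ≤ M := by
    intro X hX B hB
    by_cases hw : WallFree (lev G ℓ j) pm.zn.H0 X
    · obtain ⟨b1, b2⟩ := hP.bd X hX hw B hB
      rw [← hUd] at b1 b2
      exact ⟨hP.loc X hX hw B hB, b1.trans m1, b2.trans m1⟩
    · obtain ⟨b0, b1, b2⟩ := prr_pc0_wall H t z x hx X hX hw B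
      rw [← hwd, ← hq] at b1 b2
      exact ⟨b0, b1.trans m2, b2.trans m2⟩
  have hcN : ∀ B : (T.step h).P.g.I, (((T.step h).small pm.c).filter fun X => B ∈ X).card ≤ n.Cn := fun B => by
    convert I.cN B
    exact Iff.rfl
  have hsize := pk_desig_size (c := pm.c) (p := nm.p0 pm.ω) (S := T.step h) n.Cn (fun B => by convert hcN B)
    (pc0 (T.step h) pm.ω pm.zn t z x.K0) (cn0 (T.step h) pm.ω pm.zn t z x.K0) M
    (fun X hX B hB => (key X hX B hB).2.1) (fun X hX B hB => (key X hX B hB).2.2)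
  rw [← hUd, ← hwd, hCd]
  constructor
  · refine le_trans hsize ?_
    rw [← hN, hM, ← mul_assoc]
    refine mul_le_mul' le_rfl (add_le_add ?_ le_rfl)
    calc U = 1 * U := (one_mul U).symm
      _ ≤ n.C1 * U := mul_le_mul' (by exact_mod_cast I.C1_ge) le_rfl
  · intro hsm
    refine pk_desig_ok (prs_ctx0 H) _ _ (fun X hX B hB => (key X hX B hB).1) fun b => ?_
    have ha := pk_desig_a_le (c := pm.c) (S := T.step h) n.Cn (fun B => by convert hcN B)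
      (pc0 (T.step h) pm.ω pm.zn t z x.K0) (cn0 (T.step h) pm.ω pm.zn t z x.K0) M (fun X hX B hB => (key X hX B hB).2.2) b
    rw [← hN] at ha
    have h2 : 2 * (‖(ofPieces (T.step h) pm.c (pc0 (T.step h) pm.ω pm.zn t z x.K0) (cn0 (T.step h) pm.ω pm.zn t z x.K0)).a b‖₊ : ℝ≥0∞) ≤ 1 := by
      refine le_trans (mul_le_mul' le_rfl ha) (le_trans (le_of_eq ?_) hsm)
      rw [hM]
      ring
    have h3 : 2 * ‖(ofPieces (T.step h) pm.c (pc0 (T.step h) pm.ω pm.zn t z x.K0) (cn0 (T.step h) pm.ω pm.zn t z x.K0)).a b‖₊ ≤ 1 := by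
      exact_mod_cast h2
    have h4 : 2 * ‖(ofPieces (T.step h) pm.c (pc0 (T.step h) pm.ω pm.zn t z x.K0) (cn0 (T.step h) pm.ω pm.zn t z x.K0)).a b‖ ≤ 1 := by
      exact_mod_cast h3
    linarith

/-- **LEAF `L-ROW-A4`** (80 l.): the unit pieces of the small DEFECTS are the constants `Hq 0 KT X Ψ_ref / |X|` (`if_neg` in `pcT`, `cnT`; `shF` of a constant is the constant): `prs_ref_le` in the context `prs_ctxT H`
(`(T.stepT h).Hq = (T.step h).Hq`, `small` : `rfl`), `I.wt`, `prs_fnSize_le_cut`, `prj_shA_ok`, `ok_par`. -/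
theorem prr_pcT_def (H : Ctx pm nm cT k0 kT T h) (I : StepIn pm nm T h n β μ) (t z : ℂ) (x : St (lev G ℓ j)) (hx : Inv pm nm.h0 x)
    (X : Finset (lev G ℓ j).I) (hX : X ∈ (T.step h).small pm.c) (hd : ¬ ShiftGood (lev G ℓ j) pm.zn.H1 X) (B : (lev G ℓ j).I) :
    LocalFn (nm.pT pm.ω) pm.c.col (lev G ℓ (j + 1)) {(nest G ℓ j).up B} (shF (pcT (T.step h) pm.ω pm.zn t z (pm.ref G) x.K0 x.KT X B) μ) ∧
    fnSize (nm.pT pm.ω) (lev G ℓ (j + 1)) (T.VT (j + 1)) {(nest G ℓ j).up B} (shF (pcT (T.step h) pm.ω pm.zn t z (pm.ref G) x.K0 x.KT X B) μ)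
      ≤ ((max 1 cT ^ pm.c.n0 * n.CΨ : ℝ≥0) : ℝ≥0∞) * sD pm nm T j μ x ∧
    (‖cnT (T.step h) pm.ω pm.zn t z (pm.ref G) x.K0 x.KT X B‖₊ : ℝ≥0∞) ≤ ((max 1 cT ^ pm.c.n0 * n.CΨ : ℝ≥0) : ℝ≥0∞) * sD pm nm T j μ x := by
  classical
  obtain ⟨a, ha⟩ : ∃ a : ℂ, a = (1 / (X.card : ℂ)) * (T.step h).Hq pm.ω 0 x.KT X (toC (pm.ref G)) := ⟨_, rfl⟩
  have hd' : ¬ ShiftGood (T.step h).P.g pm.zn.H1 X := hd
  have e1 : shF (pcT (T.step h) pm.ω pm.zn t z (pm.ref G) x.K0 x.KT X B) μ = fun _ => a := by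
    unfold pcT
    rw [if_neg hd', ha]
    rfl
  have e2 : cnT (T.step h) pm.ω pm.zn t z (pm.ref G) x.K0 x.KT X B = a := by
    unfold cnT
    rw [if_neg hd', ha]
    rfl
  have hok : Act.Ok (nm.pT pm.ω) (geoT pm.c cT).col (geoT pm.c cT).R (shA x.KT μ) := prj_shA_ok (ok_par hx.okT _ _ _) μ
  have hcost : RefCost (nm.pT pm.ω) (T.stepT h) X (pm.ref G - μ) n.CΨ := RefCost.of_wt H.nmOk.h0_pos (I.wt X hX hd)
  have hb := prs_ref_le (prs_ctxT H) x.KT μ (pm.ref G) hok X hX n.CΨ hcost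
  have hcut : fnSize (nm.pT pm.ω) (lev G ℓ j) (T.VT j) X (shA x.KT μ X) ≤ sD pm nm T j μ x :=
    prs_fnSize_le_cut (nm.pT pm.ω) H.nmOk.AT_ge (lev G ℓ j) (T.VT j) (fun X => ¬ ShiftGood (lev G ℓ j) pm.zn.H1 X) (shA x.KT μ) X hd
  have hA : (‖a‖₊ : ℝ≥0∞) ≤ ((max 1 cT ^ pm.c.n0 * n.CΨ : ℝ≥0) : ℝ≥0∞) * sD pm nm T j μ x := by
    rw [ha]
    refine le_trans hb ?_
    calc ((max 1 (geoT pm.c cT).cst : ℝ≥0) : ℝ≥0∞) ^ (geoT pm.c cT).n0 * fnSize (nm.pT pm.ω) (T.stepT h).P.g (T.stepT h).Vf X (shA x.KT μ X) * (n.CΨ : ℝ≥0∞)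
        ≤ ((max 1 cT : ℝ≥0) : ℝ≥0∞) ^ pm.c.n0 * sD pm nm T j μ x * (n.CΨ : ℝ≥0∞) := mul_le_mul' (mul_le_mul' le_rfl hcut) le_rfl
      _ = _ := by
          push_cast
          ring
  rw [e1, e2]
  refine ⟨Scal.localFn_const _ _ _ _ a, ?_, hA⟩
  exact (B8.w_ds_const_size (nm.pT pm.ω) H.nmOk.δ_pos.le (H.nmOk.κ_pos.le.trans H.nmOk.κ_le) _ _ _ a).trans hA

/-- **LEAF `L-ROW-A5`** (100 l.): THE UNIT DESIGNATION in the fluctuation variable.  `shD (dT ..) μ = ofPieces (T.stepT h) (geoT pm.c cT) (fun X B => shF (pcT .. X B) μ) (cnT ..)` (`prd_ofPieces_sh`; `shD = prdSh` by `rfl`);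
then as `prr_d0` with `(I.pcT ..).bd`, `prr_pcT_def`, context `prs_ctxT H`. -/
theorem prr_dT (H : Ctx pm nm cT k0 kT T h) (I : StepIn pm nm T h n β μ) (t z : ℂ) (x : St (lev G ℓ j)) (hx : Inv pm nm.h0 x)
    (hU : sU pm nm T j t z x ≠ ⊤) (hW : sW pm nm T j x ≠ ⊤) :
    (shD (dT (T.step h) pm.c pm.ω pm.zn t z (pm.ref G) x.K0 x.KT) μ).size (nm.pT pm.ω) (T.VT (j + 1))
      ≤ n.CdT pm.c cT ℓ * (n.C1 * sU pm nm T j t z x + sW pm nm T j x + sD pm nm T j μ x) ∧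
    (n.CdT pm.c cT ℓ * (sU pm nm T j t z x + sW pm nm T j x + sD pm nm T j μ x) ≤ 1 →
      (shD (dT (T.step h) pm.c pm.ω pm.zn t z (pm.ref G) x.K0 x.KT) μ).Ok (nm.pT pm.ω) pm.c.col pm.c.r) := by
  classical
  have e : shD (dT (T.step h) pm.c pm.ω pm.zn t z (pm.ref G) x.K0 x.KT) μ
      = ofPieces (T.stepT h) (geoT pm.c cT) (fun X B => shF (pcT (T.step h) pm.ω pm.zn t z (pm.ref G) x.K0 x.KT X B) μ)
          (cnT (T.step h) pm.ω pm.zn t z (pm.ref G) x.K0 x.KT) :=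
    prd_ofPieces_sh (T.step h) pm.c _ _ μ
  rw [e]
  generalize hUe : sU pm nm T j t z x = U at *
  generalize hWe : sW pm nm T j x = w at *
  generalize hDe : sD pm nm T j μ x = d at *
  set N : ℕ := (2 * 2 ^ ℓ) ^ 2 * n.Cn with hN
  set q : ℝ≥0 := max 1 cT ^ pm.c.n0 * n.CΨ with hq
  set M : ℝ≥0∞ := ((n.Ca + q : ℝ≥0) : ℝ≥0∞) * (U + w + d) with hM
  have hP := I.pcT t z x hx (by rw [hUe]; exact hU) (by rw [hWe]; exact hW)
  have hg : (n.Ca : ℝ≥0∞) * (U + w) ≤ M := by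
    rw [hM]
    exact mul_le_mul' (by exact_mod_cast le_self_add) le_self_add
  have hb : (q : ℝ≥0∞) * d ≤ M := by
    rw [hM]
    exact mul_le_mul' (by exact_mod_cast le_add_self) le_add_self
  have hloc : ∀ X ∈ (T.stepT h).small (geoT pm.c cT), ∀ B ∈ X,
      LocalFn (nm.pT pm.ω) (geoT pm.c cT).col (T.stepT h).P.g' {(T.stepT h).P.N.up B}
        (shF (pcT (T.step h) pm.ω pm.zn t z (pm.ref G) x.K0 x.KT X B) μ) := by
    intro X hX B hB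
    by_cases hs : ShiftGood (lev G ℓ j) pm.zn.H1 X
    · exact hP.loc X hX hs B hB
    · exact (prr_pcT_def H I t z x hx X hX hs B).1
  have hpc : ∀ X ∈ (T.stepT h).small (geoT pm.c cT), ∀ B ∈ X,
      fnSize (nm.pT pm.ω) (T.stepT h).P.g' (T.stepT h).Vc {(T.stepT h).P.N.up B}
        (shF (pcT (T.step h) pm.ω pm.zn t z (pm.ref G) x.K0 x.KT X B) μ) ≤ M := by
    intro X hX B hB
    by_cases hs : ShiftGood (lev G ℓ j) pm.zn.H1 X
    · have h1 := (hP.bd X hX hs B hB).1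
      rw [hUe, hWe] at h1
      exact h1.trans hg
    · have h1 := (prr_pcT_def H I t z x hx X hX hs B).2.1
      rw [hDe] at h1
      exact h1.trans hb
  have hcn : ∀ X ∈ (T.stepT h).small (geoT pm.c cT), ∀ B ∈ X,
      (‖cnT (T.step h) pm.ω pm.zn t z (pm.ref G) x.K0 x.KT X B‖₊ : ℝ≥0∞) ≤ M := by
    intro X hX B hB
    by_cases hs : ShiftGood (lev G ℓ j) pm.zn.H1 X
    · have h1 := (hP.bd X hX hs B hB).2
      rw [hUe, hWe] at h1
      exact h1.trans hg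
    · have h1 := (prr_pcT_def H I t z x hx X hX hs B).2.2
      rw [hDe] at h1
      exact h1.trans hb
  have hCn : ∀ B : (T.stepT h).P.g.I, (((T.stepT h).small (geoT pm.c cT)).filter fun X => B ∈ X).card ≤ n.Cn := fun B => by
    refine le_trans (Finset.card_le_card fun X hX => ?_) (I.cN B)
    have h2 := Finset.mem_filter.1 hX
    exact Finset.mem_filter.2 ⟨h2.1, h2.2⟩
  have eC : ((n.CdT pm.c cT ℓ : ℝ≥0) : ℝ≥0∞) = 2 * (N : ℝ≥0∞) * ((n.Ca + q : ℝ≥0) : ℝ≥0∞) := by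
    rw [hq, hN]
    unfold RNum.CdT
    push_cast
    rfl
  constructor
  · have h1 := pk_desig_size (p := nm.pT pm.ω) (S := T.stepT h) (c := geoT pm.c cT) n.Cn (fun B => by convert hCn B) _ _ M hpc hcn
    refine h1.trans ?_
    rw [eC, hM, ← mul_assoc]
    refine mul_le_mul' le_rfl (add_le_add (add_le_add ?_ le_rfl) le_rfl)
    calc U = 1 * U := (one_mul _).symm
      _ ≤ n.C1 * U := mul_le_mul' (by exact_mod_cast I.C1_ge) le_rfl
  · intro h1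
    refine pk_desig_ok (prs_ctxT H) _ _ hloc fun b => ?_
    have h2 := pk_desig_a_le (S := T.stepT h) (c := geoT pm.c cT) n.Cn (fun B => by convert hCn B)
      (fun X B => shF (pcT (T.step h) pm.ω pm.zn t z (pm.ref G) x.K0 x.KT X B) μ) _ M hcn b
    have h3 : 2 * ((N : ℝ≥0∞) * M) ≤ 1 := by
      rw [eC] at h1
      rw [hM, ← mul_assoc, ← mul_assoc]
      exact h1
    have h4 : 2 * (‖(ofPieces (T.stepT h) (geoT pm.c cT) (fun X B => shF (pcT (T.step h) pm.ω pm.zn t z (pm.ref G) x.K0 x.KT X B) μ)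
        (cnT (T.step h) pm.ω pm.zn t z (pm.ref G) x.K0 x.KT)).a b‖₊ : ℝ≥0∞) ≤ 1 := (mul_le_mul' le_rfl h2).trans h3
    have h5 : 2 * ‖(ofPieces (T.stepT h) (geoT pm.c cT) (fun X B => shF (pcT (T.step h) pm.ω pm.zn t z (pm.ref G) x.K0 x.KT X B) μ)
        (cnT (T.step h) pm.ω pm.zn t z (pm.ref G) x.K0 x.KT)).a b‖₊ ≤ (1 : ℝ≥0) := by exact_mod_cast h4
    have h6 : 2 * ‖(ofPieces (T.stepT h) (geoT pm.c cT) (fun X B => shF (pcT (T.step h) pm.ω pm.zn t z (pm.ref G) x.K0 x.KT X B) μ)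
        (cnT (T.step h) pm.ω pm.zn t z (pm.ref G) x.K0 x.KT)).a b‖ ≤ 1 := by exact_mod_cast h5
    linarith

end step

/-! ## 3. The four rows, uniform constants -/

/-- **LEAF `L-ROW-W`: (obs:wall-recurrence)** (200 l., bookkeeping).  `U := (sU ..).toNNReal`, `w := (sW ..).toNNReal` (finite: `≤ ρ`).  `prw_row (T.step h) pm.c (nm.p0 pm.ω) pm.zn t z x.K0 ..` with `H.hyp0`, `H.gain0`,
`hA` from `H.nmOk`, `ok_par hx.ok0`, `hx.even0`, `I.gE`, `I.cW`, `I.cM`, `I.tot`, `(I.pc0 ..).bd`, `prr_d0` (`Cd0 ≤ k0.Cd`).   `ρ := min (ε0 / (C1 + 1)) (1 / (Cd0 + 1))`;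
`C := max` of the coefficient of `U` in `prw_row` (a finite number depending on `n, c, nm.A, k0`) and of `Cnl (C1 + 1)²` (`(C1 U + w)² ≤ (C1 + 1)² (U + w)²`).   The new wall part is `≤` the whole new norm (`prw_cut_le`). -/
theorem prr_W (n : RNum) (c : B8.Geo) (nm : Nm) (ℓ : ℕ) (k0 : KC) (hCd : n.Cd0 c ℓ ≤ k0.Cd) (hε : 0 < k0.ε0) : ∃ C ρ : ℝ≥0, 0 < ρ ∧
    ∀ (pm : Prm) (cT : ℝ≥0) (kT : KC) (G : Geom) (T : Tw G ℓ) (j : ℕ) (h : Ret G ℓ pm.D0 j) (β : ℝ) (μ : G.V → ℝ), pm.c = c →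
      Ctx pm nm cT k0 kT T h → StepIn pm nm T h n β μ → ∀ (t z : ℂ) (x : St (lev G ℓ j)), Inv pm nm.h0 x →
      sU pm nm T j t z x + sW pm nm T j x ≤ ρ →
        (d0 (T.step h) pm.c pm.ω pm.zn t z x.K0).Ok (nm.p0 pm.ω) pm.c.col pm.c.r ∧
        actNorm (nm.p0 pm.ω) (lev G ℓ (j + 1)) (T.V0 (j + 1)) (nx pm T h t z x).K0
          ≤ ((n.NW * n.γ0 + k0.η : ℝ≥0) : ℝ≥0∞) * sW pm nm T j x + C * sU pm nm T j t z x + C * (sU pm nm T j t z x + sW pm nm T j x) ^ 2 := by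
  refine ⟨max (k0.η * n.C1 + Real.toNNReal (nm.A ^ c.n0) * ((n.M * (1 + c.n0) : ℕ) * (max 1 c.cst ^ c.n0 * n.C1 + (c.n0 + 2) * n.Cp)))
      (k0.Cnl * (n.C1 + 1) ^ 2), min (k0.ε0 / (n.C1 + 1)) (1 / (n.Cd0 c ℓ + 1)), lt_min (by positivity) (by positivity), ?_⟩
  intro pm cT kT G T j h β μ hc H I t z x hx hσ
  subst hc
  have hfin : sU pm nm T j t z x + sW pm nm T j x ≠ ⊤ := ne_top_of_le_ne_top ENNReal.coe_ne_top hσ
  have hU : sU pm nm T j t z x ≠ ⊤ := ne_top_of_le_ne_top hfin le_self_add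
  have hW : sW pm nm T j x ≠ ⊤ := ne_top_of_le_ne_top hfin le_add_self
  obtain ⟨U, hUe⟩ : ∃ U : ℝ≥0, sU pm nm T j t z x = U := ⟨_, (ENNReal.coe_toNNReal hU).symm⟩
  obtain ⟨w, hwe⟩ : ∃ w : ℝ≥0, sW pm nm T j x = w := ⟨_, (ENNReal.coe_toNNReal hW).symm⟩
  have hd := prr_d0 H I t z x hx hU
  have htot := I.tot t z x
  have hpc := (I.pc0 t z x hx hU).bd
  have hwle : actNorm (nm.p0 pm.ω) (lev G ℓ j) (T.V0 j) (cutA (fun X => ¬ WallFree (lev G ℓ j) pm.zn.H0 X) x.K0) ≤ w := hwe.le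
  rw [hUe, hwe] at hσ hd
  rw [hUe] at htot
  simp only [hUe] at hpc
  rw [hUe, hwe]
  have hσ' : U + w ≤ min (k0.ε0 / (n.C1 + 1)) (1 / (n.Cd0 pm.c ℓ + 1)) := by exact_mod_cast hσ
  have hσ1 : U + w ≤ k0.ε0 / (n.C1 + 1) := hσ'.trans (min_le_left _ _)
  have hσ2 : U + w ≤ 1 / (n.Cd0 pm.c ℓ + 1) := hσ'.trans (min_le_right _ _)
  have hC1 : n.C1 * U + w ≤ (n.C1 + 1) * (U + w) := by
    have : (n.C1 + 1) * (U + w) = n.C1 * U + w + (n.C1 * w + U) := by ring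
    rw [this]; exact le_self_add
  have hεle : n.C1 * U + w ≤ k0.ε0 := by
    refine hC1.trans ?_
    rw [le_div_iff₀ (by positivity)] at hσ1
    rw [mul_comm]; exact hσ1
  have hone : n.Cd0 pm.c ℓ * (U + w) ≤ 1 := by
    rw [le_div_iff₀ (by positivity)] at hσ2
    refine le_trans ?_ hσ2
    rw [mul_comm]
    exact mul_le_mul' le_rfl le_self_add
  have hOk : (d0 (T.step h) pm.c pm.ω pm.zn t z x.K0).Ok (nm.p0 pm.ω) pm.c.col pm.c.r := hd.2 (by exact_mod_cast hone)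
  refine ⟨hOk, ?_⟩
  have hA : 1 ≤ (nm.p0 pm.ω).A := H.nmOk.AT_ge.trans H.nmOk.A_ge
  have hsz : (d0 (T.step h) pm.c pm.ω pm.zn t z x.K0).size (nm.p0 pm.ω) (T.V0 (j + 1)) ≤ k0.Cd * ((n.C1 * U + w : ℝ≥0) : ℝ≥0∞) := by
    refine hd.1.trans ?_
    push_cast
    exact mul_le_mul' (by exact_mod_cast hCd) le_rfl
  have hrow := prw_row (T.step h) pm.c (nm.p0 pm.ω) pm.zn t z x.K0 k0.Cg k0.Cd k0.Cnl k0.ε0 k0.η k0.β H.hyp0 H.gain0 hA
    (ok_par hx.ok0 _ _ _) hx.even0 n.γ0 n.Cp n.C1 U w n.NW n.M I.gE I.cW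
    (fun b => le_trans (le_of_eq (by congr 1; ext X; simp only [Finset.mem_filter]; exact Iff.rfl)) (I.cM b)) htot hwle hpc hOk hsz hεle
  refine hrow.trans (add_le_add (add_le_add le_rfl (mul_le_mul' ?_ le_rfl)) ?_)
  · refine le_trans (le_of_eq ?_) (ENNReal.coe_le_coe.2 (le_max_left _ _))
    push_cast
    rfl
  · refine le_trans ?_ (mul_le_mul' (ENNReal.coe_le_coe.2 (le_max_right _ _)) le_rfl)
    have h2 : (n.C1 * U + w) ^ 2 ≤ ((n.C1 + 1) * (U + w)) ^ 2 := pow_le_pow_left₀ zero_le hC1 2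
    have h3 : k0.Cnl * (n.C1 * U + w) ^ 2 ≤ k0.Cnl * (n.C1 + 1) ^ 2 * (U + w) ^ 2 := by
      rw [mul_assoc, ← mul_pow]
      exact mul_le_mul' le_rfl h2
    exact_mod_cast h3

/-- **LEAF `L-ROW-D`: (obs:defect-recurrence)** (250 l., bookkeeping).  `prd_row (T.stepT h) pm.c cT (nm.pT pm.ω) pm.zn t z (pm.ref G) μ x.K0 x.KT ..` with `s := C1 U + w` (`I.r2`, `prr_K0_le`), `d := sD`, `a := Ca (U + w)`,
`H.hypT`, `H.gainT`, `prj_shA_ok (ok_par hx.okT ..) μ`, `I.gN`, `I.gR`, `I.cD`, `I.cM`, `(I.pcT ..).bd`, `prr_dT` (`prdSh = shD` by `rfl`; `dT (T.stepT h) .. = dT (T.step h) ..` by `rfl`).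
`Kprime (shA KT μ) (shD dT μ) = shA (next ..).KT μ`: `prj_Kprime_shift`.   Constants as in `prr_W`. -/
theorem prr_D (n : RNum) (c : B8.Geo) (cT : ℝ≥0) (nm : Nm) (ℓ : ℕ) (kT : KC) (hCd : n.CdT c cT ℓ ≤ kT.Cd) (hε : 0 < kT.ε0) : ∃ C ρ : ℝ≥0, 0 < ρ ∧
    ∀ (pm : Prm) (k0 : KC) (G : Geom) (T : Tw G ℓ) (j : ℕ) (h : Ret G ℓ pm.D0 j) (β : ℝ) (μ : G.V → ℝ), pm.c = c →
      Ctx pm nm cT k0 kT T h → StepIn pm nm T h n β μ → ∀ (t z : ℂ) (x : St (lev G ℓ j)), Inv pm nm.h0 x →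
      sU pm nm T j t z x + sW pm nm T j x + sD pm nm T j μ x ≤ ρ →
        (shD (dT (T.step h) pm.c pm.ω pm.zn t z (pm.ref G) x.K0 x.KT) μ).Ok (nm.pT pm.ω) pm.c.col pm.c.r ∧
        actNorm (nm.pT pm.ω) (lev G ℓ (j + 1)) (T.VT (j + 1)) (shA (nx pm T h t z x).KT μ)
          ≤ ((n.ND * (n.γT + n.γr) + kT.η : ℝ≥0) : ℝ≥0∞) * sD pm nm T j μ x + C * (sU pm nm T j t z x + sW pm nm T j x)
            + C * (sU pm nm T j t z x + sW pm nm T j x + sD pm nm T j μ x) ^ 2 := by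
  classical
  obtain ⟨A', hA'⟩ : ∃ A' : ℝ≥0, A' = (nm.AT ^ c.n0).toNNReal := ⟨_, rfl⟩
  refine ⟨max (kT.η * (n.C1 + 1) + A' * ((n.M * (1 + c.n0) : ℕ) * (max 1 cT ^ c.n0 * (n.C1 + 1) + (c.n0 + 2) * n.Ca))) (kT.Cnl * (n.C1 + 1) ^ 2),
    min (kT.ε0 / (n.C1 + 1)) (1 / (n.CdT c cT ℓ + 1)), lt_min (div_pos hε (by positivity)) (by positivity), ?_⟩
  intro pm k0 G T j h β μ hc H I t z x hx hσ
  subst hc
  have hfin : sU pm nm T j t z x + sW pm nm T j x + sD pm nm T j μ x ≠ ⊤ := ne_top_of_le_ne_top ENNReal.coe_ne_top hσ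
  have hUW : sU pm nm T j t z x + sW pm nm T j x ≠ ⊤ := ne_top_of_le_ne_top hfin le_self_add
  have hU : sU pm nm T j t z x ≠ ⊤ := ne_top_of_le_ne_top hUW le_self_add
  have hW : sW pm nm T j x ≠ ⊤ := ne_top_of_le_ne_top hUW le_add_self
  have hD : sD pm nm T j μ x ≠ ⊤ := ne_top_of_le_ne_top hfin le_add_self
  have f1 := prr_dT H I t z x hx hU hW
  have f2 := (I.pcT t z x hx hU hW).bd
  have f3 := (I.r2 x hx).trans (prr_K0_le I t z x)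
  have f4 : actNorm (nm.pT pm.ω) (lev G ℓ j) (T.VT j) (cutA (fun X => ¬ ShiftGood (lev G ℓ j) pm.zn.H1 X) (shA x.KT μ)) = sD pm nm T j μ x := rfl
  obtain ⟨U, hUe⟩ : ∃ U : ℝ≥0, sU pm nm T j t z x = U := ⟨_, (ENNReal.coe_toNNReal hU).symm⟩
  obtain ⟨w, hWe⟩ : ∃ w : ℝ≥0, sW pm nm T j x = w := ⟨_, (ENNReal.coe_toNNReal hW).symm⟩
  obtain ⟨d, hDe⟩ : ∃ d : ℝ≥0, sD pm nm T j μ x = d := ⟨_, (ENNReal.coe_toNNReal hD).symm⟩
  rw [hUe, hWe, hDe] at f1 hσ ⊢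
  rw [hUe, hWe] at f2 f3
  rw [hDe] at f4
  have hσ' : U + w + d ≤ min (kT.ε0 / (n.C1 + 1)) (1 / (n.CdT pm.c cT ℓ + 1)) := by exact_mod_cast hσ
  have hs1 : n.C1 * U + w ≤ (n.C1 + 1) * (U + w) := by
    have e : (n.C1 + 1) * (U + w) = n.C1 * U + w + (n.C1 * w + U) := by ring
    rw [e]; exact le_self_add
  have hs2 : n.C1 * U + w + d ≤ (n.C1 + 1) * (U + w + d) := by
    have e : (n.C1 + 1) * (U + w + d) = n.C1 * U + w + d + (n.C1 * w + n.C1 * d + U) := by ring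
    rw [e]; exact le_self_add
  have hε' : n.C1 * U + w + d ≤ kT.ε0 := by
    refine hs2.trans ?_
    have := (le_div_iff₀ (by positivity : 0 < n.C1 + 1)).1 (hσ'.trans (min_le_left _ _))
    rwa [mul_comm] at this
  have h1 : n.CdT pm.c cT ℓ * (U + w + d) ≤ 1 := by
    have := (le_div_iff₀ (by positivity : 0 < n.CdT pm.c cT ℓ + 1)).1 (hσ'.trans (min_le_right _ _))
    refine le_trans ?_ this
    rw [mul_comm]
    exact mul_le_mul' le_rfl le_self_add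
  have hd := f1.2 (by exact_mod_cast h1)
  refine ⟨hd, ?_⟩
  have hsz : (shD (dT (T.step h) pm.c pm.ω pm.zn t z (pm.ref G) x.K0 x.KT) μ).size (nm.pT pm.ω) (T.VT (j + 1))
      ≤ kT.Cd * ((n.C1 * U + w + d : ℝ≥0) : ℝ≥0∞) := by
    refine f1.1.trans ?_
    push_cast
    exact mul_le_mul' (by exact_mod_cast hCd) le_rfl
  have key := prd_row (T.stepT h) pm.c cT (nm.pT pm.ω) pm.zn t z (pm.ref G) μ x.K0 x.KT kT.Cg kT.Cd kT.Cnl kT.ε0 kT.η kT.β H.hypT H.gainT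
    H.nmOk.AT_ge (prj_shA_ok (ok_par hx.okT _ _ _) μ) n.γT n.γr (n.Ca * (U + w)) (n.C1 * U + w) d n.ND n.M I.gN I.gR I.cD (fun b => by convert I.cM b using 3 <;> rfl)
    (by push_cast; exact f3) (le_of_eq f4) (fun X hX hg B hB => by have := f2 X hX hg B hB; push_cast; exact this) hd hsz hε'
  have e : Kprime (pair h) pm.c.r pm.c.R (conv (Gm G ℓ j)) (shA x.KT μ) (shD (dT (T.step h) pm.c pm.ω pm.zn t z (pm.ref G) x.K0 x.KT) μ)
      = shA (nx pm T h t z x).KT μ := prj_Kprime_shift _ _ _ _ _ _ _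
  rw [← e]
  refine le_trans key ?_
  have eA : ENNReal.ofReal ((nm.pT pm.ω).A ^ pm.c.n0) = (A' : ℝ≥0∞) := by rw [hA']; rfl
  rw [eA]
  have g1 : kT.η * (n.C1 * U + w) + A' * ((n.M * (1 + pm.c.n0) : ℕ) * (max 1 cT ^ pm.c.n0 * (n.C1 * U + w) + (pm.c.n0 + 2) * (n.Ca * (U + w))))
      ≤ max (kT.η * (n.C1 + 1) + A' * ((n.M * (1 + pm.c.n0) : ℕ) * (max 1 cT ^ pm.c.n0 * (n.C1 + 1) + (pm.c.n0 + 2) * n.Ca))) (kT.Cnl * (n.C1 + 1) ^ 2)
        * (U + w) := by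
    refine le_trans ?_ (mul_le_mul' (le_max_left _ _) le_rfl)
    calc kT.η * (n.C1 * U + w) + A' * ((n.M * (1 + pm.c.n0) : ℕ) * (max 1 cT ^ pm.c.n0 * (n.C1 * U + w) + (pm.c.n0 + 2) * (n.Ca * (U + w))))
        ≤ kT.η * ((n.C1 + 1) * (U + w))
          + A' * ((n.M * (1 + pm.c.n0) : ℕ) * (max 1 cT ^ pm.c.n0 * ((n.C1 + 1) * (U + w)) + (pm.c.n0 + 2) * (n.Ca * (U + w)))) := by gcongr
      _ = _ := by ring
  have g2 : kT.Cnl * (n.C1 * U + w + d) ^ 2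
      ≤ max (kT.η * (n.C1 + 1) + A' * ((n.M * (1 + pm.c.n0) : ℕ) * (max 1 cT ^ pm.c.n0 * (n.C1 + 1) + (pm.c.n0 + 2) * n.Ca))) (kT.Cnl * (n.C1 + 1) ^ 2)
        * (U + w + d) ^ 2 := by
    refine le_trans ?_ (mul_le_mul' (le_max_right _ _) le_rfl)
    calc kT.Cnl * (n.C1 * U + w + d) ^ 2 ≤ kT.Cnl * ((n.C1 + 1) * (U + w + d)) ^ 2 := by gcongr
      _ = _ := by ring
  have g3 := add_le_add (add_le_add (le_refl ((n.ND * (n.γT + n.γr) + kT.η) * d)) g1) g2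
  rw [← add_assoc] at g3
  exact_mod_cast g3

/-- **LEAF `L-ROW-J`: (obs:label-recurrence)** (150 l., bookkeeping).  `prj_label_ctx H I.chg t z μ x hx I.η_pos I.η_lt I.href hfin I.cJ hCdp (ε := (C1 U + w + d).toNNReal) ..` with `prr_KT_le`, `prr_dT`.
`ρ := min (ε0 / (2 (C1 + 1))) (1 / (CdT + 1))`, `C := Cnl (C1 + 1) (1 + 2 CJ cstN)` (`cstN (cT_geo pm cT) = (max 1 cT)^{c.n0}`). -/
theorem prr_J (n : RNum) (c : B8.Geo) (cT : ℝ≥0) (nm : Nm) (ℓ : ℕ) (kT : KC) (hCd : n.CdT c cT ℓ ≤ kT.Cd) (hCdp : 0 < kT.Cd) (hε : 0 < kT.ε0) :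
    ∃ C ρ : ℝ≥0, 0 < ρ ∧
    ∀ (pm : Prm) (k0 : KC) (G : Geom) (T : Tw G ℓ) (j : ℕ) (h : Ret G ℓ pm.D0 j) (μ : G.V → ℝ), pm.c = c →
      Ctx pm nm cT k0 kT T h → StepIn pm nm T h n kT.β μ → ∀ (t z : ℂ) (x : St (lev G ℓ j)), Inv pm nm.h0 x → sJ pm nm T j μ x ≠ ⊤ →
      sU pm nm T j t z x + sW pm nm T j x + sD pm nm T j μ x ≤ ρ →
        Act.Ok ⟨0, 0, nm.h0, 0, pm.ω⟩ pm.c.col pm.c.R (nx pm T h t z x).JT ∧
        sJ pm nm T (j + 1) μ (nx pm T h t z x)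
          ≤ (n.CJ * gJ (cT_geo pm cT) (nm.pT pm.ω) ℓ kT.Cg n.Cγ n.αmax n.ηr + kT.η
              + C * (sU pm nm T j t z x + sW pm nm T j x + sD pm nm T j μ x)) * sJ pm nm T j μ x := by
  refine ⟨kT.Cnl * n.C1 * (1 + 2 * n.CJ * (max 1 cT) ^ c.n0), min (kT.ε0 / (2 * (n.C1 + 1))) (1 / (n.CdT c cT ℓ + 1)),
    lt_min (div_pos hε (by positivity)) (by positivity), ?_⟩
  intro pm k0 G T j h μ hc H I t z x hx hJf hσ
  subst hc
  have hfin : sU pm nm T j t z x + sW pm nm T j x + sD pm nm T j μ x ≠ ⊤ := ne_top_of_le_ne_top ENNReal.coe_ne_top hσ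
  have hUW : sU pm nm T j t z x + sW pm nm T j x ≠ ⊤ := ne_top_of_le_ne_top hfin le_self_add
  have hU : sU pm nm T j t z x ≠ ⊤ := ne_top_of_le_ne_top hUW le_self_add
  have hW : sW pm nm T j x ≠ ⊤ := ne_top_of_le_ne_top hUW le_add_self
  obtain ⟨s, hs⟩ : ∃ s : ℝ≥0, sU pm nm T j t z x + sW pm nm T j x + sD pm nm T j μ x = s :=
    ⟨_, (ENNReal.coe_toNNReal hfin).symm⟩
  have hsρ : s ≤ min (kT.ε0 / (2 * (n.C1 + 1))) (1 / (n.CdT pm.c cT ℓ + 1)) := by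
    rw [hs] at hσ
    exact_mod_cast hσ
  have hC1 : (1 : ℝ≥0∞) ≤ n.C1 := by exact_mod_cast I.C1_ge
  have hle : n.C1 * sU pm nm T j t z x + sW pm nm T j x + sD pm nm T j μ x ≤ ((n.C1 * s : ℝ≥0) : ℝ≥0∞) := by
    rw [ENNReal.coe_mul, ← hs, mul_add, mul_add]
    exact add_le_add (add_le_add le_rfl (le_mul_of_one_le_left' hC1)) (le_mul_of_one_le_left' hC1)
  have hε' : n.C1 * s < kT.ε0 := by
    have h1 : (s : ℝ) ≤ kT.ε0 / (2 * (n.C1 + 1)) := by exact_mod_cast hsρ.trans (min_le_left _ _)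
    rw [le_div_iff₀ (by positivity)] at h1
    have h2 : (0 : ℝ) < kT.ε0 := by exact_mod_cast hε
    have h3 : (0 : ℝ) ≤ s := s.coe_nonneg
    have h4 : ((n.C1 * s : ℝ≥0) : ℝ) < kT.ε0 := by
      push_cast
      nlinarith
    exact_mod_cast h4
  have hone : (n.CdT pm.c cT ℓ : ℝ≥0∞) * (sU pm nm T j t z x + sW pm nm T j x + sD pm nm T j μ x) ≤ 1 := by
    have h1 : (s : ℝ) ≤ 1 / (n.CdT pm.c cT ℓ + 1) := by exact_mod_cast hsρ.trans (min_le_right _ _)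
    rw [le_div_iff₀ (by positivity)] at h1
    have h3 : (0 : ℝ) ≤ s := s.coe_nonneg
    have h4 : ((n.CdT pm.c cT ℓ * s : ℝ≥0) : ℝ) ≤ 1 := by
      push_cast
      nlinarith
    rw [hs]
    exact_mod_cast h4
  obtain ⟨hd1, hd2⟩ := prr_dT H I t z x hx hU hW
  obtain ⟨h1, h2⟩ := prj_label_ctx H I.chg t z μ x hx I.η_pos I.η_lt I.href hJf I.cJ hCdp hε' ((prr_KT_le I t z x hx).trans hle) (hd2 hone)
    (hd1.trans (mul_le_mul' (by exact_mod_cast hCd) hle))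
  refine ⟨h1, h2.trans (le_of_eq ?_)⟩
  have e : cstN (cT_geo pm cT) = (((max 1 cT) ^ pm.c.n0 : ℝ≥0) : ℝ≥0∞) := by
    unfold cstN
    rw [ENNReal.coe_pow]
    rfl
  rw [e, hs]
  push_cast
  ring

/-! ## 4. The structural invariants of the next state -/

section inv

variable {pm : Prm} {nm : Nm} {cT : ℝ≥0} {k0 kT : KC} {G : Geom} {ℓ : ℕ} {T : Tw G ℓ} {j : ℕ} {h : Ret G ℓ pm.D0 j}

/-- **LEAF `L-ROW-R0`** (40 l., Mathlib only): if `f` is not differentiable at `0` then `deriv f 0 = 0`; otherwise `HasDerivAt.comp_ofReal` and the derivative of the real function `s ↦ (f s).im = 0`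
(`Complex.imCLM.hasFDerivAt.comp_hasDerivAt`, `HasDerivAt.unique` with `hasDerivAt_const`). -/
theorem prr_deriv_real (f : ℂ → ℂ) (hf : ∀ s : ℝ, (f (s : ℂ)).im = 0) : (deriv f 0).im = 0 := by
  by_cases h : DifferentiableAt ℂ f 0
  · have h1 : HasDerivAt f (deriv f 0) ((0 : ℝ) : ℂ) := by
      rw [Complex.ofReal_zero]
      exact h.hasDerivAt
    have h2 : HasDerivAt (fun y : ℝ => f (y : ℂ)) (deriv f 0) 0 := h1.comp_ofReal
    have h3 : HasDerivAt (fun y : ℝ => (f (y : ℂ)).im) (deriv f 0).im 0 :=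
      Complex.imCLM.hasFDerivAt.comp_hasDerivAt (0 : ℝ) h2
    have h4 : (fun y : ℝ => (f (y : ℂ)).im) = fun _ => 0 := funext hf
    rw [h4] at h3
    exact h3.unique (hasDerivAt_const (0 : ℝ) (0 : ℝ))
  · rw [deriv_zero_of_not_differentiableAt h]
    rfl

/-- the class of the functions which are real on the real fields -/
def prrRealCls (g' : Grid G) : Scal.FamCls Unit (Fn G) g' where
  mem _ x := ∀ φ : G.V → ℝ, (x () (toC φ)).im = 0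
  sc c := (c ()).im = 0
  mono _ h := h
  zero _ _ := rfl
  one _ _ := rfl
  add hx hy φ := by
    show (_ + _ : ℂ).im = 0
    rw [Complex.add_im, hx φ, hy φ, add_zero]
  sub hx hy φ := by
    show (_ - _ : ℂ).im = 0
    rw [Complex.sub_im, hx φ, hy φ, sub_zero]
  mul hx hy φ := prs_im_mul (hx φ) (hy φ)
  smul hc hx φ := prs_im_mul hc (hx φ)
  sc_one := rfl
  sc_mul hc hc' := prs_im_mul hc hc'

/-- **LEAF `L-ROW-R1`** (100 l.): the closure principle `Scal.FamCls.kprime` with `T = Unit`, `mem _ x := ∀ φ : G.V → ℝ, (x () (toC φ)).im = 0`, `sc c := (c ()).im = 0`.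
`conv` of a function which is real on the real fields is real on the real fields (`prs_conv_real`); finite products of such functions (`Finset.prod_induction`, `prs_im_mul`); `((1 + a)⁻¹ - 1).im = 0` (`Complex.inv_im`). -/
theorem prr_Kprime_real {D0 : ℕ} (P : Pair G D0 ℓ) (r R : ℕ) (Γ : Matrix G.V G.V ℝ) (K : Act P.g) (d : Desig P.g' (Fn G)) (hK : Act.Real K)
    (hF : ∀ Y b (φ : G.V → ℝ), (d.F Y b (toC φ)).im = 0) (ha : ∀ b, (d.a b).im = 0) : Act.Real (Kprime P r R (conv Γ) K d) := by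
  intro Y φ
  refine (prrRealCls P.g').kprime r R (fun _ => conv Γ) (fun _ => K) (fun _ => d) ?_ (fun Y b => hF Y b) ?_ Y φ
  · intro V φ
    refine prs_conv_real Γ _ (fun ψ => ?_) φ
    rw [Finset.prod_apply]
    exact Finset.prod_induction _ (fun w : ℂ => w.im = 0) (fun a b ha hb => prs_im_mul ha hb) rfl fun X _ => hK X ψ
  · intro b
    show ((1 + d.a b)⁻¹ - 1).im = 0
    rw [Complex.sub_im, Complex.inv_im, Complex.add_im, ha b]
    simp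

/-- **LEAF `L-ROW-R2`** (120 l.): second derivatives at `0` in real directions of a function which is holomorphic near `0` and real on the real fields: `B8.wcm_d2_line` (`Map/WCopyM.lean`) + `prr_deriv_real` twice
(`s • toC u + t • toC v = toC (s u + t v)` for real `s, t`). -/
theorem prr_DX_real (g : Grid G) (v0 : G.V) (H : Fn G) (U : Set (G.V → ℂ)) (hU : IsOpen U) (h0 : (0 : G.V → ℂ) ∈ U) (hH : DifferentiableOn ℂ H U)
    (hr : ∀ φ : G.V → ℝ, (H (toC φ)).im = 0) (i k : Fin 2) : (DX g v0 H i k).im = 0 := by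
  unfold DX
  rw [B8.wcm_d2_line hU h0 hH]
  refine prr_deriv_real _ fun s => prr_deriv_real _ fun t => ?_
  have e : (s : ℂ) • toC (ell g v0 i) + (t : ℂ) • toC (ell g v0 k) = toC (fun v => s * ell g v0 i v + t * ell g v0 k v) := by
    funext v
    simp [toC]
  rw [e]
  exact hr _


theorem prr_r3_conj_toC (φ : G.V → ℝ) : (fun v => starRingEnd ℂ (toC φ v)) = toC φ := by
  funext v
  simp [toC]

theorem prr_r3_pvec_real (g : Grid G) (φ : G.V → ℝ) (v : G.V) (ε : Fin 2 → Bool) (i : Fin 2) : (pvec g (toC φ) v ε i).im = 0 := by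
  have h := B8.w_des4_pvec_conj g (toC φ) v ε i
  rw [prr_r3_conj_toC] at h
  exact Complex.conj_eq_iff_im.1 h.symm

theorem prr_r3_charge_congr (ω : ℝ) (q : ℤ) (F F' : Fn G) (h : ∀ ψ : G.V → ℝ, F (toC ψ) = F' (toC ψ)) (φ : G.V → ℝ) :
    chargeProj ω q F (toC φ) = chargeProj ω q F' (toC φ) := by
  unfold chargeProj
  have e : ∀ t : ℝ, (fun v => toC φ v + (t : ℂ)) = toC (fun v => φ v + t) := by
    intro t
    funext v
    simp [toC]
  simp only [e, h]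

theorem prr_r3_charge_conj (ω : ℝ) (q : ℤ) (F : Fn G) (hF : ∀ ψ : G.V → ℝ, (F (toC ψ)).im = 0) (φ : G.V → ℝ) :
    chargeProj ω q F (toC φ) = starRingEnd ℂ (chargeProj ω (-q) F (toC φ)) := by
  have h := B8.w_charge_conj ω q F (toC φ)
  rw [prr_r3_conj_toC] at h
  rw [← h]
  refine prr_r3_charge_congr ω q _ _ (fun ψ => ?_) φ
  rw [prr_r3_conj_toC]
  exact (Complex.conj_eq_iff_im.2 (hF ψ)).symm

theorem prr_r3_pm {D0 : ℕ} (S : B8.Step G D0 ℓ) (ω : ℝ) (K : Act S.P.g) (hK : Act.Real K) (X : Finset S.P.g.I) :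
    (S.Hq ω 1 K X 0 + S.Hq ω (-1) K X 0).im = 0 := by
  have h : S.Hq ω 1 K X 0 = starRingEnd ℂ (S.Hq ω (-1) K X 0) := by
    unfold B8.Step.Hq conv
    rw [← integral_conj]
    refine integral_congr_ae (Filter.Eventually.of_forall fun ζ => ?_)
    simp only [zero_add]
    exact prr_r3_charge_conj ω 1 _ (hK X) ζ
  rw [h, Complex.add_im, Complex.conj_im]
  ring

theorem prr_r3_Loc_real (g : Grid G) (X : Finset g.I) (v0 : G.V) (H : Fn G) (B : g.I) (h0 : (H 0).im = 0)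
    (hD : ∀ i k, (DX g v0 H i k).im = 0) (φ : G.V → ℝ) : (Loc g X v0 H B (toC φ)).im = 0 := by
  unfold Loc
  refine prs_im_mul (prs_im_inv_card _) ?_
  rw [Complex.add_im, h0, zero_add]
  refine prs_im_mul ?_ ?_
  · have : (1 / (2 * (g.m : ℂ) ^ 2)) = (((1 / (2 * (g.m : ℝ) ^ 2)) : ℝ) : ℂ) := by
      push_cast
      rfl
    rw [this]
    exact Complex.ofReal_im _
  · rw [Complex.im_sum]
    refine Finset.sum_eq_zero fun v _ => prs_im_mul ?_ ?_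
    · have : (1 / 4 : ℂ) = (((1 / 4 : ℝ)) : ℂ) := by
        push_cast
        rfl
      rw [this]
      exact Complex.ofReal_im _
    · rw [Complex.im_sum]
      refine Finset.sum_eq_zero fun ε _ => ?_
      rw [Complex.im_sum]
      refine Finset.sum_eq_zero fun i _ => ?_
      rw [Complex.im_sum]
      refine Finset.sum_eq_zero fun k _ => ?_
      exact prs_im_mul (prs_im_mul (prr_r3_pvec_real g φ v ε i) (hD i k)) (prr_r3_pvec_real g φ v ε k)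

/-- **LEAF `L-ROW-R3`** (150 l.): the centred pieces are real on the real fields.  Not wall-free: `prs_Hq_real`.  Wall-free: `B8.Step.piece` = `Loc` (`prr_DX_real` for `H = Hq 0 R0 X`, holomorphic in the strip: `pk_Hq_local` in the context
`prs_ctx0 H`, finiteness from `hU` as in `pr_HqReg_sq`; `pvec` of a real field is real) + `(Hq 1 + Hq (-1)) (0) • cBC`: the sum of the two charges at `0` is real (`B8.w_Hq_conj` / `B8.w_charge_conj`, or directly: the integrand of `q = -1` is the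
conjugate of that of `q = 1` on real fields); `conv` of the real singletons (`prs_conv_real`, `prs_eBC_real`, `prs_cBC_real`). -/
theorem prr_pc0_real (H : Ctx pm nm cT k0 kT T h) (t z : ℂ) (ht : t.im = 0) (hz : z.im = 0) (x : St (lev G ℓ j)) (hx : Inv pm nm.h0 x)
    (hU : sU pm nm T j t z x ≠ ⊤) (X : Finset (lev G ℓ j).I) (hX : X ∈ (T.step h).small pm.c) (B : (lev G ℓ j).I) (φ : G.V → ℝ) :
    (pc0 (T.step h) pm.ω pm.zn t z x.K0 X B (toC φ)).im = 0 := by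

  classical
  have hR := prs_R0_real (T.step h) pm.ω pm.zn t z x.K0 hx.real0 ht hz
  unfold pc0
  by_cases hw : WallFree (T.step h).P.g pm.zn.H0 X
  · rw [if_pos hw, Pi.add_apply, Complex.add_im]
    have h1 : ((T.step h).piece pm.ω true (R0 (T.step h) pm.ω pm.zn t z x.K0) X B (toC φ)).im = 0 := by
      unfold B8.Step.piece
      rw [if_pos rfl, Pi.add_apply, Complex.add_im, Pi.smul_apply, smul_eq_mul]
      have hloc := (pr_HqReg_sq H t z x hx hU X hw).1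
      have hH0 : ((T.step h).Hq pm.ω 0 (R0 (T.step h) pm.ω pm.zn t z x.K0) X 0).im = 0 := by
        rw [← prs_toC_zero]
        exact prs_Hq_real _ _ _ hR X 0
      have hD : ∀ i k, (DX (T.step h).P.g (B8.anchor (T.step h).P.g X)
          ((T.step h).Hq pm.ω 0 (R0 (T.step h) pm.ω pm.zn t z x.K0) X) i k).im = 0 := fun i k =>
        prr_DX_real _ _ _ (strip (nm.p0 pm.ω).h0 (T.step h).P.g X) (Hol.strip_isOpen _ _ _)
          (B8.w_zero_mem_strip H.nmOk.h0_pos _ _) hloc.hol (fun ψ => prs_Hq_real _ _ _ hR X ψ) i k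
      exact (congrArg₂ (· + ·) (prr_r3_Loc_real (T.step h).P.g X _ _ B hH0 hD φ)
        (prs_im_mul (prs_im_mul (prs_im_inv_card _) (prr_r3_pm _ _ _ hR X)) (prs_cBC_real (T.step h).P.g _ B φ))).trans (add_zero 0)
    rw [h1, zero_add]
    split_ifs with hB
    · refine prs_conv_real _ _ (fun ψ => ?_) φ
      simp only [Pi.add_apply, Pi.smul_apply, smul_eq_mul, Complex.add_im]
      exact (congrArg₂ (· + ·) (prs_im_mul (prs_half_im ht) (prs_eBC_real (T.step h).P.g B ψ))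
        (prs_im_mul hz (prs_cBC_real (T.step h).P.g _ B ψ))).trans (add_zero 0)
    · rfl
  · rw [if_neg hw]
    show ((1 / (X.card : ℂ)) * (T.step h).Hq pm.ω 0 x.K0 X 0).im = 0
    rw [← prs_toC_zero]
    exact prs_im_mul (prs_im_inv_card _) (prs_Hq_real (T.step h) pm.ω x.K0 hx.real0 X 0)

/-- helper of `L-ROW-R4`: the functions of a designation by pieces are real on the real fields as soon as the pieces of the small inputs are -/
theorem prr_real_ofPieces {D0 : ℕ} (S : B8.Step G D0 ℓ) (c : B8.Geo) (pc : Finset S.P.g.I → S.P.g.I → Fn G) (cn : Finset S.P.g.I → S.P.g.I → ℂ)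
    (hpc : ∀ X ∈ S.small c, ∀ (B : S.P.g.I) (φ : G.V → ℝ), (pc X B (toC φ)).im = 0) (Y : Finset S.P.g'.I) (b : S.P.g'.I) (φ : G.V → ℝ) :
    ((ofPieces S c pc cn).F Y b (toC φ)).im = 0 := by
  classical
  unfold ofPieces
  simp only
  rw [Finset.sum_apply, Complex.im_sum]
  refine Finset.sum_eq_zero fun X hX => ?_
  rw [Finset.sum_apply, Complex.im_sum]
  exact Finset.sum_eq_zero fun B _ => hpc X (Finset.mem_filter.1 hX).1 B φ

/-- helper of `L-ROW-R4`: the pieces of the unit sector are real on the real fields -/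
theorem prr_real_pcT (H : Ctx pm nm cT k0 kT T h) (t z : ℂ) (ht : t.im = 0) (hz : z.im = 0) (x : St (lev G ℓ j)) (hx : Inv pm nm.h0 x)
    (hU : sU pm nm T j t z x ≠ ⊤) (X : Finset (lev G ℓ j).I) (hX : X ∈ (T.step h).small pm.c) (B : (lev G ℓ j).I) (φ : G.V → ℝ) :
    (pcT (T.step h) pm.ω pm.zn t z (pm.ref G) x.K0 x.KT X B (toC φ)).im = 0 := by
  classical
  unfold pcT
  split_ifs with h1
  · have e : toC φ + toC (gF pm.ω (gaugeOf (T.step h).P.g pm.zn.H1 X)) = toC (φ + gF pm.ω (gaugeOf (T.step h).P.g pm.zn.H1 X)) := by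
      funext v
      simp [toC]
    show (pc0 (T.step h) pm.ω pm.zn t z x.K0 X B (toC φ + toC (gF pm.ω (gaugeOf (T.step h).P.g pm.zn.H1 X)))).im = 0
    rw [e]
    exact prr_pc0_real H t z ht hz x hx hU X hX B _
  · exact prs_im_mul (prs_im_inv_card _) (prs_Hq_real (T.step h) pm.ω _ hx.realT X _)

/-- **LEAF `L-ROW-R4`** (120 l.): reality of the next state.  `K0`, `KT`: `prr_Kprime_real`, `ofPieces` (finite sums), `prr_pc0_real` (`pcT` on shift-good inputs is a REAL translate of `pc0`: `toC φ + toC (gF ..) = toC (φ + gF ..)`),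
`prs_Hq_real`, `prs_a0_real`, `prs_aT_real`.   `JT`: `prr_deriv_real` for `s ↦ famT .. s Y (toC φ)`; for real `s`: `prr_Kprime_real` for `KT + s JT`, `dLin dT dJ s` (`prs_aJ_real`). -/
theorem prr_real (H : Ctx pm nm cT k0 kT T h) (t z : ℂ) (ht : t.im = 0) (hz : z.im = 0) (x : St (lev G ℓ j)) (hx : Inv pm nm.h0 x)
    (hU : sU pm nm T j t z x ≠ ⊤) :
    Act.Real (nx pm T h t z x).K0 ∧ Act.Real (nx pm T h t z x).KT ∧ Act.Real (nx pm T h t z x).JT := by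
  have hFT : ∀ Y b (φ : G.V → ℝ), ((dT (T.step h) pm.c pm.ω pm.zn t z (pm.ref G) x.K0 x.KT).F Y b (toC φ)).im = 0 := fun Y b φ =>
    prr_real_ofPieces (T.step h) pm.c _ _ (fun X hX B ψ => prr_real_pcT H t z ht hz x hx hU X hX B ψ) Y b φ
  have hFJ : ∀ Y b (φ : G.V → ℝ), ((dJ (T.step h) pm.c pm.ω (pm.ref G) x.JT).F Y b (toC φ)).im = 0 := fun Y b φ =>
    prr_real_ofPieces (T.step h) pm.c _ _
      (fun X _ B _ => prs_im_mul (prs_im_inv_card _) (prs_Hq_real (T.step h) pm.ω _ hx.realJ X _)) Y b φ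
  refine ⟨?_, ?_, ?_⟩
  · exact prr_Kprime_real (T.step h).P pm.c.r pm.c.R (T.step h).Γ x.K0 _ hx.real0
      (fun Y b φ => prr_real_ofPieces (T.step h) pm.c _ _ (fun X hX B ψ => prr_pc0_real H t z ht hz x hx hU X hX B ψ) Y b φ)
      (fun b => prs_a0_real (T.step h) pm.c pm.ω pm.zn t z x.K0 hx.real0 ht hz b)
  · exact prr_Kprime_real (T.step h).P pm.c.r pm.c.R (T.step h).Γ x.KT _ hx.realT hFT
      (fun b => prs_aT_real (T.step h) pm.c pm.ω pm.zn t z (pm.ref G) x.K0 x.KT hx.real0 hx.realT ht hz b)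
  · intro Y φ
    show (deriv (fun s : ℂ => famT (T.step h) pm.c pm.ω pm.zn t z (pm.ref G) x s Y (toC φ)) 0).im = 0
    refine prr_deriv_real _ fun s => ?_
    refine prr_Kprime_real (T.step h).P pm.c.r pm.c.R (T.step h).Γ (x.KT + (s : ℂ) • x.JT) _ ?_ ?_ ?_ Y φ
    · intro X ψ
      show (x.KT X (toC ψ) + (s : ℂ) * x.JT X (toC ψ)).im = 0
      rw [Complex.add_im, hx.realT X ψ, prs_im_mul (Complex.ofReal_im s) (hx.realJ X ψ), add_zero]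
    · intro Y' b ψ
      show ((dT (T.step h) pm.c pm.ω pm.zn t z (pm.ref G) x.K0 x.KT).F Y' b (toC ψ)
        + (s : ℂ) * (dJ (T.step h) pm.c pm.ω (pm.ref G) x.JT).F Y' b (toC ψ)).im = 0
      rw [Complex.add_im, hFT Y' b ψ, prs_im_mul (Complex.ofReal_im s) (hFJ Y' b ψ), add_zero]
    · intro b
      show ((dT (T.step h) pm.c pm.ω pm.zn t z (pm.ref G) x.K0 x.KT).a b + (s : ℂ) * (dJ (T.step h) pm.c pm.ω (pm.ref G) x.JT).a b).im = 0
      rw [Complex.add_im, prs_aT_real (T.step h) pm.c pm.ω pm.zn t z (pm.ref G) x.K0 x.KT hx.real0 hx.realT ht hz b,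
        prs_im_mul (Complex.ofReal_im s) (prs_aJ_real (T.step h) pm.c pm.ω (pm.ref G) x.JT hx.realJ b), add_zero]

/-- helper of `L-ROW-R5`: the plane pieces are even functions (all fields) -/
theorem prr_even_piece {D0 : ℕ} (S : B8.Step G D0 ℓ) (ω : ℝ) (cosOn : Bool) (K : Act S.P.g) (X : Finset S.P.g.I) (B : S.P.g.I)
    (w : G.V → ℂ) : S.piece ω cosOn K X B (-w) = S.piece ω cosOn K X B w := by
  unfold B8.Step.piece
  rw [Pi.add_apply, Pi.add_apply, B8.w_des4_Loc_congr S.P.g X _ _ _ B w (-w) (-1) (by norm_num) rfl (fun _ _ => rfl)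
    (B8.w_des4_pvec_neg S.P.g w)]
  congr 1
  split_ifs
  · rw [Pi.smul_apply, Pi.smul_apply, B8.w_cBC_neg]
  · rfl

/-- helper of `L-ROW-R5`: the centred pieces are even functions (all fields) -/
theorem prr_even_pc0 {D0 : ℕ} (S : B8.Step G D0 ℓ) (hΓ : S.Γ.PosSemidef) (ω : ℝ) (zn : Zn) (t z : ℂ) (K0 : Act S.P.g) (X : Finset S.P.g.I) (B : S.P.g.I)
    (w : G.V → ℂ) : pc0 S ω zn t z K0 X B (-w) = pc0 S ω zn t z K0 X B w := by
  classical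
  have hc : conv S.Γ ((t / 2) • eBC S.P.g B + z • cBC S.P.g (B8.Step.alpha ω) B) (-w)
      = conv S.Γ ((t / 2) • eBC S.P.g B + z • cBC S.P.g (B8.Step.alpha ω) B) w :=
    B8.w_des4_conv_neg S.Γ hΓ _ (fun w' => by simp only [Pi.add_apply, Pi.smul_apply, B8.w_eBC_neg, B8.w_cBC_neg]) w
  unfold pc0
  by_cases h1 : WallFree S.P.g zn.H0 X
  · rw [if_pos h1]
    by_cases h2 : X = {B}
    · rw [if_pos h2, Pi.add_apply, Pi.add_apply, prr_even_piece, hc]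
    · rw [if_neg h2, Pi.add_apply, Pi.add_apply, prr_even_piece]
      rfl
  · rw [if_neg h1]

/-- **LEAF `L-ROW-R5`** (150 l.): evenness of the next centred activity: copy of the field `even` of `B8.w_Kprime_cls` (`Map/WFin.lean`): `B8.w_Kprime_equiv (Tr.neg ..)` with `pk_desig_small` / `pr_ofPieces_small`, `hx.even0`;
the pieces `pc0` are even functions (ALL `z`): `Loc` is even (`B8.w_des4_pvec_neg`, see `B8.w_desig_even`), `cBC`, `eBC` are even (`B8.w_cBC_neg`, `B8.w_eBC_neg`), `conv` of an even function is even (`B8.w_des4_conv_neg`), constants. -/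
theorem prr_even (H : Ctx pm nm cT k0 kT T h) (t z : ℂ) (x : St (lev G ℓ j)) (hx : Inv pm nm.h0 x) : Act.Even nm.h0 (nx pm T h t z x).K0 := by
  classical
  intro Y w hw
  have h0 := prs_ctx0 H
  have hs : (d0 (T.step h) pm.c pm.ω pm.zn t z x.K0).Small pm.c.r (T.step h).P.g' := pk_desig_small h0 _ _
  have key := B8.w_Kprime_equiv (B8.Tr.neg (T.step h).P (T.step h).Γ h0.psd) pm.c.r pm.c.R x.K0 x.K0
    (d0 (T.step h) pm.c pm.ω pm.zn t z x.K0) (d0 (T.step h) pm.c pm.ω pm.zn t z x.K0) hs hs Y w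
    (fun X hX ζ => by
      rw [B8.w_mf_one _ rfl]
      exact hx.even0 X _ (Hol.strip_add_toC (B8.w_strip_coarse (T.step h).P nm.h0 hX hw) ζ))
    (fun Y' b _ => by
      rw [B8.w_mc_one _ rfl]
      show (ofPieces (T.step h) pm.c (pc0 (T.step h) pm.ω pm.zn t z x.K0) (cn0 (T.step h) pm.ω pm.zn t z x.K0)).F Y' b (-w)
        = (ofPieces (T.step h) pm.c (pc0 (T.step h) pm.ω pm.zn t z x.K0) (cn0 (T.step h) pm.ω pm.zn t z x.K0)).F Y' b w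
      unfold ofPieces
      simp only [Finset.sum_apply]
      exact Finset.sum_congr rfl fun X _ => Finset.sum_congr rfl fun B _ => prr_even_pc0 (T.step h) h0.psd pm.ω pm.zn t z x.K0 X B w)
    (fun b _ => rfl)
  have e := B8.w_mc_one (B8.Tr.neg (T.step h).P (T.step h).Γ h0.psd) rfl Y
  rw [e] at key
  exact key

/-- **the invariants of the next state** (glue) -/
theorem prr_inv (H : Ctx pm nm cT k0 kT T h) (μ : G.V → ℝ) (t z : ℂ) (ht : t.im = 0) (hz : z.im = 0) (x : St (lev G ℓ j)) (hx : Inv pm nm.h0 x)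
    (hU : sU pm nm T j t z x ≠ ⊤) (hK0 : actNorm (nm.p0 pm.ω) (lev G ℓ j) (T.V0 j) x.K0 ≠ ⊤)
    (hKT : actNorm (nm.pT pm.ω) (lev G ℓ j) (T.VT j) (shA x.KT μ) ≠ ⊤)
    (hd0 : (d0 (T.step h) pm.c pm.ω pm.zn t z x.K0).Ok (nm.p0 pm.ω) pm.c.col pm.c.r)
    (hdT : (shD (dT (T.step h) pm.c pm.ω pm.zn t z (pm.ref G) x.K0 x.KT) μ).Ok (nm.pT pm.ω) pm.c.col pm.c.r)
    (hJ : Act.Ok ⟨0, 0, nm.h0, 0, pm.ω⟩ pm.c.col pm.c.R (nx pm T h t z x).JT) : Inv pm nm.h0 (nx pm T h t z x) where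
  ok0 := ok_par' (H.gain0.ok pm.c.col x.K0 (ok_par hx.ok0 _ _ _) hK0 _ hd0)
  okT := by
    have h1 := H.gainT.ok pm.c.col (shA x.KT μ) (prj_shA_ok (ok_par hx.okT _ _ _) μ) hKT _ hdT
    have e : Kprime (pair h) pm.c.r pm.c.R (conv (Gm G ℓ j)) (shA x.KT μ) (shD (dT (T.step h) pm.c pm.ω pm.zn t z (pm.ref G) x.K0 x.KT) μ)
        = shA (nx pm T h t z x).KT μ := prj_Kprime_shift _ _ _ _ _ _ _
    exact ok_par' ((prj_shA_ok_iff μ).1 (e ▸ h1))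
  okJ := hJ
  real0 := (prr_real H t z ht hz x hx hU).1
  realT := (prr_real H t z ht hz x hx hU).2.1
  realJ := (prr_real H t z ht hz x hx hU).2.2
  even0 := prr_even H t z x hx
  gauge := fun Y hY κ hκ w hw => pr_gauge_step H t z x hx Y hY κ hκ w hw
  label := fun Y hY w hw => pr_label_step H t z x hx Y hY w hw

end inv

/-! ## 5. EXIT of layer A -/

/-- the three recurrences of one step in `ℝ≥0∞` -/
structure RowsAt (θ C : ℝ≥0) (U w d vJ w' d' vJ' : ℝ≥0∞) : Prop where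
  W : w' ≤ θ * w + C * U + C * (U + w) ^ 2
  D : d' ≤ θ * d + C * (U + w) + C * (U + w + d) ^ 2
  J : vJ' ≤ (θ + C * (U + w + d)) * vJ

/-- the scalars of one step: real, small, (obs:scalar-difference) -/
structure ScalAt (C : ℝ≥0) (σ : ℝ≥0∞) (a0 aT aJ : ℂ) : Prop where
  im0 : a0.im = 0
  imT : aT.im = 0
  imJ : aJ.im = 0
  le0 : ‖a0‖ ≤ 1 / 2
  leT : ‖aT‖ ≤ 1 / 2
  diff : ‖aT - a0‖ ≤ C * σ.toReal

/-- from `ℝ≥0∞` to `ℝ` for the scalars -/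
theorem prr_S_aux (CS : ℝ≥0) (σ₁ σ : ℝ≥0∞) (a0 aT : ℂ) (h1 : σ₁ ≤ σ)
    (hσ : σ ≤ ((1 / (4 * (CS + 1)) : ℝ≥0) : ℝ≥0∞))
    (h0 : (‖a0‖₊ : ℝ≥0∞) ≤ CS * σ₁) (hT : (‖aT - a0‖₊ : ℝ≥0∞) ≤ CS * σ) :
    ‖a0‖ ≤ 1 / 2 ∧ ‖aT‖ ≤ 1 / 2 ∧ ‖aT - a0‖ ≤ CS * σ.toReal := by
  have hfin : σ ≠ ⊤ := ne_top_of_le_ne_top ENNReal.coe_ne_top hσ
  have hCσ : (CS : ℝ≥0∞) * σ ≠ ⊤ := ENNReal.mul_ne_top ENNReal.coe_ne_top hfin
  have key : ∀ a : ℂ, (‖a‖₊ : ℝ≥0∞) ≤ CS * σ → ‖a‖ ≤ CS * σ.toReal := by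
    intro a ha
    have := ENNReal.toReal_mono hCσ ha
    rwa [ENNReal.toReal_mul, ENNReal.coe_toReal, ENNReal.coe_toReal, coe_nnnorm] at this
  have hσr : σ.toReal ≤ 1 / (4 * ((CS : ℝ) + 1)) := by
    have := ENNReal.toReal_mono ENNReal.coe_ne_top hσ
    rw [ENNReal.coe_toReal] at this
    push_cast at this
    exact this
  have hC0 : (0 : ℝ) ≤ CS := CS.coe_nonneg
  have hq : (CS : ℝ) * σ.toReal ≤ 1 / 4 := by
    calc (CS : ℝ) * σ.toReal ≤ CS * (1 / (4 * ((CS : ℝ) + 1))) := mul_le_mul_of_nonneg_left hσr hC0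
      _ ≤ 1 / 4 := by
        rw [mul_one_div, div_le_div_iff₀ (by positivity) (by norm_num)]
        linarith
  have e0 : ‖a0‖ ≤ CS * σ.toReal := key a0 (h0.trans (mul_le_mul' le_rfl h1))
  have eT : ‖aT - a0‖ ≤ CS * σ.toReal := key _ hT
  refine ⟨by linarith, ?_, eT⟩
  have : ‖aT‖ ≤ ‖a0‖ + ‖aT - a0‖ := by
    calc ‖aT‖ = ‖a0 + (aT - a0)‖ := by rw [add_sub_cancel]
      _ ≤ _ := norm_add_le _ _
  linarith

/-- **LEAF `L-ROW-S`** (60 l.): `I.sc`, `prs_exit_real`; `ρ := 1 / (4 (CS + 1))`; `‖aT‖ ≤ ‖a0‖ + ‖aT - a0‖`; from `ℝ≥0∞` to `ℝ`: `ENNReal.toReal_mono`, `ENNReal.toReal_mul`, `coe_nnnorm`. -/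
theorem prr_S (n : RNum) : ∃ ρ : ℝ≥0, 0 < ρ ∧
    ∀ (pm : Prm) (nm : Nm) (G : Geom) (ℓ : ℕ) (T : Tw G ℓ) (j : ℕ) (h : Ret G ℓ pm.D0 j) (β : ℝ) (μ : G.V → ℝ),
      StepIn pm nm T h n β μ → ∀ (t z : ℂ) (x : St (lev G ℓ j)), t.im = 0 → z.im = 0 → Inv pm nm.h0 x →
      sU pm nm T j t z x + sW pm nm T j x + sD pm nm T j μ x ≤ ρ → ∀ b : (lev G ℓ (j + 1)).I,
        ScalAt n.CS (sU pm nm T j t z x + sW pm nm T j x + sD pm nm T j μ x) ((d0 (T.step h) pm.c pm.ω pm.zn t z x.K0).a b)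
          ((dT (T.step h) pm.c pm.ω pm.zn t z (pm.ref G) x.K0 x.KT).a b) ((dJ (T.step h) pm.c pm.ω (pm.ref G) x.JT).a b) := by
  refine ⟨1 / (4 * (n.CS + 1)), by positivity, ?_⟩
  intro pm nm G ℓ T j h β μ I t z x ht hz hx hσ b
  obtain ⟨r0, rT, rJ⟩ := prs_exit_real (T := T) (h := h) x hx t z ht hz b
  obtain ⟨s0, sT⟩ := I.sc t z x hx b
  obtain ⟨e0, eT, ed⟩ := prr_S_aux n.CS _ _ _ _ le_self_add hσ s0 sT
  exact ⟨r0, rT, rJ, e0, eT, ed⟩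

/-- **M3, LAYER A: THE ONE-STEP THEOREM.**  Numbers `n`, geometry, norms, `L`, constants of `StepGain` are fixed; the three contraction factors are `≤ θ`; then `(C, ρ)` are uniform in the volume, the level, the state. -/
theorem prr_step (n : RNum) (c : B8.Geo) (cT : ℝ≥0) (nm : Nm) (ω : ℝ) (ℓ : ℕ) (k0 kT : KC) (θ : ℝ≥0)
    (hCd0 : n.Cd0 c ℓ ≤ k0.Cd) (hCdT : n.CdT c cT ℓ ≤ kT.Cd) (hCdp : 0 < kT.Cd) (hε0 : 0 < k0.ε0) (hεT : 0 < kT.ε0)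
    (hθW : n.NW * n.γ0 + k0.η ≤ θ) (hθD : n.ND * (n.γT + n.γr) + kT.η ≤ θ)
    (hθJ : n.CJ * gJ (geoT c cT) (nm.pT ω) ℓ kT.Cg n.Cγ n.αmax n.ηr + kT.η ≤ θ) :
    ∃ C ρ : ℝ≥0, 1 ≤ C ∧ 0 < ρ ∧
    ∀ (pm : Prm) (G : Geom) (T : Tw G ℓ) (j : ℕ) (h : Ret G ℓ pm.D0 j) (μ : G.V → ℝ), pm.c = c → pm.ω = ω →
      Ctx pm nm cT k0 kT T h → StepIn pm nm T h n kT.β μ →
      ∀ (t z : ℂ) (x : St (lev G ℓ j)), t.im = 0 → z.im = 0 → Inv pm nm.h0 x → sJ pm nm T j μ x ≠ ⊤ →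
      sU pm nm T j t z x + sW pm nm T j x + sD pm nm T j μ x ≤ ρ →
        Inv pm nm.h0 (nx pm T h t z x) ∧
        RowsAt θ C (sU pm nm T j t z x) (sW pm nm T j x) (sD pm nm T j μ x) (sJ pm nm T j μ x)
          (actNorm (nm.p0 pm.ω) (lev G ℓ (j + 1)) (T.V0 (j + 1)) (nx pm T h t z x).K0)
          (actNorm (nm.pT pm.ω) (lev G ℓ (j + 1)) (T.VT (j + 1)) (shA (nx pm T h t z x).KT μ))
          (sJ pm nm T (j + 1) μ (nx pm T h t z x)) ∧
        (d0 (T.step h) pm.c pm.ω pm.zn t z x.K0).Ok (nm.p0 pm.ω) pm.c.col pm.c.r ∧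
        (shD (dT (T.step h) pm.c pm.ω pm.zn t z (pm.ref G) x.K0 x.KT) μ).Ok (nm.pT pm.ω) pm.c.col pm.c.r ∧
        ∀ b : (lev G ℓ (j + 1)).I,
          ScalAt C (sU pm nm T j t z x + sW pm nm T j x + sD pm nm T j μ x) ((d0 (T.step h) pm.c pm.ω pm.zn t z x.K0).a b)
            ((dT (T.step h) pm.c pm.ω pm.zn t z (pm.ref G) x.K0 x.KT).a b) ((dJ (T.step h) pm.c pm.ω (pm.ref G) x.JT).a b) := by
  obtain ⟨CW, ρW, hρW, HW⟩ := prr_W n c nm ℓ k0 hCd0 hε0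
  obtain ⟨CD, ρD, hρD, HD⟩ := prr_D n c cT nm ℓ kT hCdT hεT
  obtain ⟨CJ, ρJ, hρJ, HJ⟩ := prr_J n c cT nm ℓ kT hCdT hCdp hεT
  obtain ⟨ρS, hρS, HS⟩ := prr_S n
  refine ⟨max 1 (max (max CW CD) (max CJ n.CS)), min (min ρW ρD) (min ρJ ρS), le_max_left _ _,
    lt_min (lt_min hρW hρD) (lt_min hρJ hρS), ?_⟩
  intro pm G T j h μ hc hω H I t z x ht hz hx hJf hσ
  set C : ℝ≥0 := max 1 (max (max CW CD) (max CJ n.CS)) with hC
  have hCW : (CW : ℝ≥0∞) ≤ C := by exact_mod_cast ((le_max_left CW CD).trans (le_max_left _ _)).trans (le_max_right _ _)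
  have hCD : (CD : ℝ≥0∞) ≤ C := by exact_mod_cast ((le_max_right CW CD).trans (le_max_left _ _)).trans (le_max_right _ _)
  have hCJ : (CJ : ℝ≥0∞) ≤ C := by exact_mod_cast ((le_max_left CJ n.CS).trans (le_max_right _ _)).trans (le_max_right _ _)
  have hCS : n.CS ≤ C := ((le_max_right CJ n.CS).trans (le_max_right _ _)).trans (le_max_right _ _)
  have hσW : sU pm nm T j t z x + sW pm nm T j x ≤ ρW :=
    le_self_add.trans (hσ.trans (by exact_mod_cast (min_le_left _ _).trans (min_le_left _ _)))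
  have hσD : sU pm nm T j t z x + sW pm nm T j x + sD pm nm T j μ x ≤ ρD :=
    hσ.trans (by exact_mod_cast (min_le_left _ _).trans (min_le_right _ _))
  have hσJ : sU pm nm T j t z x + sW pm nm T j x + sD pm nm T j μ x ≤ ρJ :=
    hσ.trans (by exact_mod_cast (min_le_right _ _).trans (min_le_left _ _))
  have hσS : sU pm nm T j t z x + sW pm nm T j x + sD pm nm T j μ x ≤ ρS :=
    hσ.trans (by exact_mod_cast (min_le_right _ _).trans (min_le_right _ _))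
  obtain ⟨hd0, hW⟩ := HW pm cT kT G T j h kT.β μ hc H I t z x hx hσW
  obtain ⟨hdT, hD⟩ := HD pm k0 G T j h kT.β μ hc H I t z x hx hσD
  obtain ⟨hJok, hJ⟩ := HJ pm k0 G T j h μ hc H I t z x hx hJf hσJ
  have hfin : sU pm nm T j t z x + sW pm nm T j x + sD pm nm T j μ x ≠ ⊤ := ne_top_of_le_ne_top ENNReal.coe_ne_top hσ
  have hUW : sU pm nm T j t z x + sW pm nm T j x ≠ ⊤ := ne_top_of_le_ne_top hfin le_self_add
  have hU : sU pm nm T j t z x ≠ ⊤ := ne_top_of_le_ne_top hUW le_self_add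
  have hWf : sW pm nm T j x ≠ ⊤ := ne_top_of_le_ne_top hUW le_add_self
  have hDf : sD pm nm T j μ x ≠ ⊤ := ne_top_of_le_ne_top hfin le_add_self
  have hK0 : actNorm (nm.p0 pm.ω) (lev G ℓ j) (T.V0 j) x.K0 ≠ ⊤ :=
    ne_top_of_le_ne_top (ENNReal.add_ne_top.2 ⟨ENNReal.mul_ne_top ENNReal.coe_ne_top hU, hWf⟩) (prr_K0_le I t z x)
  have hKT : actNorm (nm.pT pm.ω) (lev G ℓ j) (T.VT j) (shA x.KT μ) ≠ ⊤ :=
    ne_top_of_le_ne_top (ENNReal.add_ne_top.2 ⟨ENNReal.add_ne_top.2 ⟨ENNReal.mul_ne_top ENNReal.coe_ne_top hU, hWf⟩, hDf⟩)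
      (prr_KT_le I t z x hx)
  refine ⟨prr_inv H μ t z ht hz x hx hU hK0 hKT hd0 hdT hJok, ⟨?_, ?_, ?_⟩, hd0, hdT, fun b => ?_⟩
  · refine hW.trans (add_le_add (add_le_add (mul_le_mul' (by exact_mod_cast hθW) le_rfl) (mul_le_mul' hCW le_rfl)) (mul_le_mul' hCW le_rfl))
  · refine hD.trans (add_le_add (add_le_add (mul_le_mul' (by exact_mod_cast hθD) le_rfl) (mul_le_mul' hCD le_rfl)) (mul_le_mul' hCD le_rfl))
  · refine hJ.trans (mul_le_mul' (add_le_add ?_ (mul_le_mul' hCJ le_rfl)) le_rfl)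
    subst hc hω
    exact hθJ
  · have h1 := HS pm nm G ℓ T j h kT.β μ I t z x ht hz hx hσS b
    exact ⟨h1.im0, h1.imT, h1.imJ, h1.le0, h1.leT, h1.diff.trans (mul_le_mul_of_nonneg_right (by exact_mod_cast hCS) ENNReal.toReal_nonneg)⟩

/-- the new wall and defect sizes are bounded by the whole norms -/
theorem prr_sW_le (pm : Prm) (nm : Nm) {G : Geom} {ℓ : ℕ} (T : Tw G ℓ) (j : ℕ) (x : St (lev G ℓ j)) :
    sW pm nm T j x ≤ actNorm (nm.p0 pm.ω) (lev G ℓ j) (T.V0 j) x.K0 := prw_cut_le _ _ _ _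

theorem prr_sD_le (pm : Prm) (nm : Nm) {G : Geom} {ℓ : ℕ} (T : Tw G ℓ) (j : ℕ) (μ : G.V → ℝ) (x : St (lev G ℓ j)) :
    sD pm nm T j μ x ≤ actNorm (nm.pT pm.ω) (lev G ℓ j) (T.VT j) (shA x.KT μ) := prw_cut_le _ _ _ _

end

end Claimed.Agent.R285.F6.Pr
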