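import Claimed.Agent.R285.Obs.PairRowC
import Claimed.Agent.R285.Obs.PairDesM
import Claimed.Agent.R285.Obs.PairRegM
import Claimed.Agent.R285.Obs.PairRow

/-!
# ROW 285, unit OBS, BP-OBS-L62: THE PRODUCER OF `OneStep`      (architect helper254)   -- KEEP

1. `pro_WD` : the rows (W), (D) of `StepOut` in the ENNReal form, with `d0_ok`, `dT_ok` and the `e`-package for the label row; constants in protocol order.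
2. `pro_gJ` : the gain of the label row is `≤ 1/4`;  `pro_J` : the label row;  `pro_S` : the scalars.
3. **`pro_one : OneStmt`** (`Obs/PairRowC.lean`).
Prefix `pro_`.
-/

set_option autoImplicit false

namespace Claimed.Agent.R285.F6.Pr

open scoped BigOperators ENNReal NNReal
open MeasureTheory
open Claimed.Agent.R285 Claimed.Agent.R285.RG Claimed.Agent.R285.B4 Claimed.Agent.R285.F4a

noncomputable section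

/-! ## 1. Rows (W), (D) -/

/-- three sizes in a ball are finite -/
theorem pro_fin3 {a b c : ℝ≥0∞} {ρ : ℝ≥0} (h : a + b + c ≤ ρ) :
    (a.toNNReal : ℝ≥0∞) = a ∧ (b.toNNReal : ℝ≥0∞) = b ∧ (c.toNNReal : ℝ≥0∞) = c ∧ a.toNNReal + b.toNNReal + c.toNNReal ≤ ρ := by
  have ht : a + b + c ≠ ⊤ := ne_top_of_le_ne_top ENNReal.coe_ne_top h
  have hc : c ≠ ⊤ := (ENNReal.add_ne_top.1 ht).2
  have ha : a ≠ ⊤ := (ENNReal.add_ne_top.1 (ENNReal.add_ne_top.1 ht).1).1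
  have hb : b ≠ ⊤ := (ENNReal.add_ne_top.1 (ENNReal.add_ne_top.1 ht).1).2
  refine ⟨ENNReal.coe_toNNReal ha, ENNReal.coe_toNNReal hb, ENNReal.coe_toNNReal hc, ?_⟩
  rw [← ENNReal.coe_le_coe]
  push_cast
  rwa [ENNReal.coe_toNNReal ha, ENNReal.coe_toNNReal hb, ENNReal.coe_toNNReal hc]

/-- the radius of the rows -/
theorem pro_radius (C1 e0 eT D0 DT : ℝ≥0) (h1 : 1 ≤ C1) (he0 : 0 < e0) (heT : 0 < eT) : ∃ ρ : ℝ≥0, 0 < ρ ∧ ∀ U w d : ℝ≥0, U + w + d ≤ ρ →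
    C1 * U + w ≤ e0 ∧ D0 * (C1 * U + w) < 1 ∧ C1 * (U + w) + d ≤ eT ∧ DT * (C1 * (U + w) + d) < 1 := by
  have hC1 : 0 < C1 := lt_of_lt_of_le one_pos h1
  refine ⟨min (min e0 eT) (1 / (2 * (D0 + DT + 1))) / C1, by positivity, fun U w d h => ?_⟩
  have h2 : C1 * (U + w + d) ≤ min (min e0 eT) (1 / (2 * (D0 + DT + 1))) := by
    calc C1 * (U + w + d) ≤ C1 * (min (min e0 eT) (1 / (2 * (D0 + DT + 1))) / C1) := by gcongr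
      _ = _ := mul_div_cancel₀ _ hC1.ne'
  have h3 : C1 * (U + w) + d ≤ C1 * (U + w + d) := by
    have : d ≤ C1 * d := le_mul_of_one_le_left' h1
    calc C1 * (U + w) + d ≤ C1 * (U + w) + C1 * d := by gcongr
      _ = _ := by ring
  have h4 : C1 * U + w ≤ C1 * (U + w) + d := by
    have : w ≤ C1 * w := le_mul_of_one_le_left' h1
    calc C1 * U + w ≤ C1 * U + C1 * w + d := by
          refine le_trans ?_ le_self_add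
          gcongr
      _ = _ := by ring
  have h5 : C1 * (U + w) + d ≤ 1 / (2 * (D0 + DT + 1)) := h3.trans (h2.trans (min_le_right _ _))
  have h6 : (D0 + DT + 1) * (C1 * (U + w) + d) < 1 := by
    calc (D0 + DT + 1) * (C1 * (U + w) + d) ≤ (D0 + DT + 1) * (1 / (2 * (D0 + DT + 1))) := by gcongr
      _ = 1 / 2 := by field_simp
      _ < 1 := by norm_num
  refine ⟨h4.trans (h3.trans (h2.trans ((min_le_left _ _).trans (min_le_left _ _)))), ?_, h3.trans (h2.trans ((min_le_left _ _).trans (min_le_right _ _))), ?_⟩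
  · refine lt_of_le_of_lt ?_ h6
    have : D0 ≤ D0 + DT + 1 := by rw [add_assoc]; exact le_self_add
    gcongr
  · refine lt_of_le_of_lt ?_ h6
    have : DT ≤ D0 + DT + 1 := by rw [add_comm D0, add_assoc]; exact le_self_add
    gcongr

/-- **ROWS (W), (D)** of `StepOut`, with the admissibility of the two designations and the package `e` for the label row.
Order: `(c, H0, H1)`; `C1h`, `Cn`; `(δ, κ, κT, h0 ≥ C1h)`; `ℓ0`, `D1`; `ℓ`; `(A, AT, ω, Ctr)`, `k0`, `kT`; `C`, `ρ`.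
`hR2` = clause (b) of `prx_R2`, `hen` = second clause of `prx_lamX_energy`, `href` = (R4). -/
theorem pro_WD (c : B8.Geo) (H0 H1 : ℕ) : ∃ (C1h : ℝ≥0) (Cn : ℕ), 0 < C1h ∧ ∀ (δ κ κT : ℝ) (h0 : ℝ≥0), 0 < δ → 0 < κ → 0 < κT → C1h ≤ h0 →
    ∃ (ℓ0 D1 : ℕ), ∀ ℓ ≥ ℓ0, ∀ (A AT ω Ctr : ℝ) (k0 kT : KC), 0 < k0.ε0 → 0 < kT.ε0 → ∃ C ρ : ℝ≥0, 0 < ρ ∧
    ∀ (pm : Prm) (nm : Nm) (G : Geom) (T : Tw G ℓ) (j : ℕ) (h : Ret G ℓ pm.D0 j),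
      pm.c = c → pm.ω = ω → pm.zn.H0 = H0 → pm.zn.H1 = H1 → nm = ⟨δ, κ, κT, h0, A, AT⟩ → D1 ≤ pm.D0 → B8.k0 ≤ pm.α ^ 2 → pm.α ^ 2 ≤ 4 * B8.k0 →
      k0.η ≤ 1 / 4 → kT.η ≤ 1 / 4 → 0 ≤ Ctr →
      2 * pdtN ℓ Cn * pdtCp c k0.Cg (nm.p0 ω) pm.α 0 ≤ k0.Cd →
      2 * pdtN ℓ Cn * (pdtCp c k0.Cg (nm.pT ω) pm.α (Ctr * c.n0) + pdtK (geoT c c.cst)) ≤ kT.Cd →
      Ctx pm nm pm.c.cst k0 kT T h → ∀ (t z : ℂ) (v : G.V → ℝ) (x : St (lev G ℓ j)), Inv pm nm.h0 x →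
      actNorm (nm.pT pm.ω) (lev G ℓ j) (T.VT j) (cutA (ShiftGood (lev G ℓ j) pm.zn.H1) (shA x.KT (bg pm v)))
        ≤ actNorm (nm.p0 pm.ω) (lev G ℓ j) (T.V0 j) x.K0 →
      (∀ X : Finset (lev G ℓ j).I, ShiftGood (lev G ℓ j) pm.zn.H1 X → ∀ B ∈ X, gE G ((lev G ℓ j).sites {B}) (lamX pm (lev G ℓ j) v X) ≤ Ctr * X.card) →
      (∀ X ∈ (T.step h).small pm.c, ¬ ShiftGood (lev G ℓ j) pm.zn.H1 X →
        ∃ a : ℝ, tnorm (lev G ℓ (j + 1)) ((nest G ℓ j).cl X) (fun u => (pm.ref G u - bg pm v u) - a) < nm.h0) →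
      zP pm nm T j t z x + zW pm nm T j x + zD pm nm T v j x ≤ ρ →
      (zW pm nm T (j + 1) (next (T.step h) pm.c pm.ω pm.zn t z (pm.ref G) x)
        ≤ ((1 / 2 : ℝ≥0) : ℝ≥0∞) * zW pm nm T j x + C * zP pm nm T j t z x + C * (zP pm nm T j t z x + zW pm nm T j x) ^ 2) ∧
      (zD pm nm T v (j + 1) (next (T.step h) pm.c pm.ω pm.zn t z (pm.ref G) x)
        ≤ ((1 / 2 : ℝ≥0) : ℝ≥0∞) * zD pm nm T v j x + C * (zP pm nm T j t z x + zW pm nm T j x)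
          + C * (zP pm nm T j t z x + zW pm nm T j x + zD pm nm T v j x) ^ 2) ∧
      (d0 (T.step h) pm.c pm.ω pm.zn t z x.K0).Ok (nm.p0 pm.ω) pm.c.col pm.c.r ∧
      (shD (dT (T.step h) pm.c pm.ω pm.zn t z (pm.ref G) x.K0 x.KT) (bg pm v)).Ok (nm.pT pm.ω) pm.c.col pm.c.r ∧
      actNorm (nm.p0 pm.ω) (lev G ℓ j) (T.V0 j) x.K0 ≠ ⊤ ∧
      ∃ e : ℝ≥0, (e : ℝ≥0∞) ≤ C * (zP pm nm T j t z x + zW pm nm T j x + zD pm nm T v j x) ∧ e < kT.ε0 ∧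
        actNorm (nm.pT pm.ω) (lev G ℓ j) (T.VT j) (shA x.KT (bg pm v)) ≤ e ∧
        (shD (dT (T.step h) pm.c pm.ω pm.zn t z (pm.ref G) x.K0 x.KT) (bg pm v)).size (nm.pT pm.ω) (T.VT (j + 1)) ≤ kT.Cd * e := by
  obtain ⟨Ch0, hCh0, HW⟩ := pr_wall c H0
  obtain ⟨ChT, hChT, HD⟩ := pr_defect c c.cst H1
  obtain ⟨Cn, hCn⟩ := pdt_count c
  refine ⟨max Ch0 ChT, Cn, lt_max_of_lt_left hCh0, fun δ κ κT h0 hδ hκ hκT hh0 => ?_⟩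
  obtain ⟨ℓW, DW, HW⟩ := HW δ κ h0 hδ hκ ((le_max_left _ _).trans hh0)
  obtain ⟨ℓD, DD, HD⟩ := HD δ κT h0 hδ hκT ((le_max_right _ _).trans hh0)
  refine ⟨max ℓW ℓD, max DW DD, fun ℓ hℓ A AT ω Ctr k0 kT he0 heT => ?_⟩
  obtain ⟨Cs, hCs⟩ := B8.w_single_norm δ κ h0 hδ hκ (B8.Step.alpha ω)
  set C1 : ℝ≥0 := 1 + A.toNNReal * Cs with hC1
  set Cp0 : ℝ≥0 := (pdtCp c k0.Cg ⟨δ, κ, h0, A, ω⟩ (B8.Step.alpha ω) 0).toNNReal with hCp0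
  set CpT : ℝ≥0 := (pdtCp c k0.Cg ⟨δ, κT, h0, AT, ω⟩ (B8.Step.alpha ω) (Ctr * c.n0)).toNNReal with hCpT
  obtain ⟨CW, HW⟩ := HW ℓ ((le_max_left _ _).trans hℓ) A C1 Cp0 k0.Cnl
  obtain ⟨CD, HD⟩ := HD ℓ ((le_max_right _ _).trans hℓ) AT C1 CpT kT.Cnl
  obtain ⟨ρ, hρ, Hρ⟩ := pro_radius C1 k0.ε0 (kT.ε0 / 2) k0.Cd kT.Cd le_self_add he0 (half_pos heT)
  refine ⟨max (max CW CD) C1, ρ, hρ, ?_⟩
  intro pm nm G T j h hc hω hH0 hH1 hnm hD1 hα1 hα2 hη0 hηT hCtr hCd0 hCdT H t z v x hx hR2 hen href hball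
  subst hc hω hH0 hH1 hnm
  obtain ⟨eU, ew, ed, hsum⟩ := pro_fin3 hball
  set U : ℝ≥0 := (zP pm ⟨δ, κ, κT, h0, A, AT⟩ T j t z x).toNNReal with hU
  set w : ℝ≥0 := (zW pm ⟨δ, κ, κT, h0, A, AT⟩ T j x).toNNReal with hw
  set d : ℝ≥0 := (zD pm ⟨δ, κ, κT, h0, A, AT⟩ T v j x).toNNReal with hd
  obtain ⟨r1, r2, r3, r4⟩ := Hρ U w d hsum
  have hsingle : actNorm ((⟨δ, κ, κT, h0, A, AT⟩ : Nm).p0 pm.ω) (lev G ℓ j) (T.V0 j) (B8.single (lev G ℓ j) pm.α t z)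
      ≤ ((A.toNNReal * Cs : ℝ≥0) : ℝ≥0∞) * ((‖t‖₊ : ℝ≥0∞) + (‖z‖₊ : ℝ≥0∞)) := by
    refine (hCs A pm.ω (H.nmOk.AT_ge.trans H.nmOk.A_ge) H.ω_pos G (lev G ℓ j) (B8.torusGrid_ok _ _ _ (side_pos G ℓ j)) (T.V0 j) t z (Or.inr le_rfl)).trans
      (le_of_eq ?_)
    simp only [ENNReal.ofReal]
    push_cast
    ring
  have hp0 : pdtCp pm.c k0.Cg ((⟨δ, κ, κT, h0, A, AT⟩ : Nm).p0 pm.ω) pm.α 0 ≤ Cp0 := by
    rw [hCp0, ENNReal.coe_toNNReal (pdx_Cp_ne_top _ _ _ _ _)]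
    exact le_rfl
  have hpT : pdtCp pm.c k0.Cg ((⟨δ, κ, κT, h0, A, AT⟩ : Nm).pT pm.ω) pm.α (Ctr * pm.c.n0) ≤ CpT := by
    rw [hCpT, ENNReal.coe_toNNReal (pdx_Cp_ne_top _ _ _ _ _)]
    exact le_rfl
  have hq0 : 2 * pdtN ℓ Cn * (Cp0 : ℝ≥0∞) ≤ k0.Cd := by
    rw [hCp0, ENNReal.coe_toNNReal (pdx_Cp_ne_top _ _ _ _ _)]
    exact hCd0
  have hqT : 2 * pdtN ℓ Cn * ((CpT : ℝ≥0∞) + pdtK (geoT pm.c pm.c.cst)) ≤ kT.Cd := by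
    rw [hCpT, ENNReal.coe_toNNReal (pdx_Cp_ne_top _ _ _ _ _)]
    exact hCdT
  have D0 := pdx_des0 H x hx t z (A.toNNReal * Cs) C1 Cp0 U w Cn (hCn _ _ _ _) hsingle le_rfl hp0 hq0 eU.ge ew.ge r2
  have DT := pdx_desT H x hx t z v Ctr hCtr (A.toNNReal * Cs) C1 CpT U w d Cn (hCn _ _ _ _) hsingle le_rfl hpT hqT hR2 hen href eU.ge ew.ge ed.ge r4
  have RW := HW pm _ _ k0 kT G T j h rfl rfl rfl rfl rfl rfl ((le_max_left _ _).trans hD1) hα1 hα2 hη0 le_rfl H t z x hx U w ew.ge D0 r1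
  have RD := HD pm _ k0 kT G T j h rfl rfl rfl rfl rfl rfl ((le_max_right _ _).trans hD1) hα1 hα2 hηT le_rfl H t z (bg pm v) x hx href (U + w) d ed.ge DT
    (r3.trans (half_le_self zero_le))
  refine ⟨?_, ?_, D0.ok, DT.ok, ?_, C1 * (U + w) + d, ?_, lt_of_le_of_lt r3 (half_lt_self heT), ?_, DT.size⟩
  · refine RW.trans ?_
    rw [← eU, ← ew]
    push_cast
    gcongr <;> exact_mod_cast (le_max_left _ _).trans (le_max_left _ _)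
  · refine RD.trans ?_
    rw [← eU, ← ew, ← ed]
    push_cast
    gcongr <;> exact_mod_cast (le_max_right _ _).trans (le_max_left _ _)
  · refine ne_top_of_le_ne_top ?_ (prw_cut_split _ _ (WallFree (lev G ℓ j) pm.zn.H0) _)
    refine ne_top_of_le_ne_top ?_ (max_le_max D0.tot (le_of_eq ew.symm))
    exact (max_lt (ENNReal.mul_lt_top ENNReal.coe_lt_top ENNReal.coe_lt_top) ENNReal.coe_lt_top).ne
  · rw [← eU, ← ew, ← ed]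
    have h1 : C1 * (U + w) + d ≤ max (max CW CD) C1 * (U + w + d) := by
      have h2 : d ≤ C1 * d := le_mul_of_one_le_left' le_self_add
      calc C1 * (U + w) + d ≤ C1 * (U + w) + C1 * d := by gcongr
        _ = C1 * (U + w + d) := by ring
        _ ≤ _ := by gcongr; exact le_max_right _ _
    exact_mod_cast h1
  · refine (prw_cut_split _ _ (ShiftGood (lev G ℓ j) pm.zn.H1) _).trans (max_le ?_ ?_)
    · refine DT.sg.trans ?_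
      push_cast
      exact le_self_add
    · refine (le_of_eq ed.symm).trans ?_
      push_cast
      exact le_add_self

/-! ## 2. The label row, the scalars -/

/-- the gain of the label row -/
theorem pro_gJ (c : B8.Geo) (N : ℕ) (Cg : ℝ≥0) (Cγ αmax : ℝ) (h0 : ℝ≥0) (hh : 0 < h0) : ∃ ηr : ℝ≥0, 0 < ηr ∧ ηr < h0 ∧ ∃ ℓ0 : ℕ, ∀ ℓ ≥ ℓ0,
    ∀ p : Par, p.h0 = h0 → (N : ℝ≥0∞) * gJ c p ℓ Cg Cγ αmax ηr ≤ ((1 / 4 : ℝ≥0) : ℝ≥0∞) := by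
  set K : ℝ≥0 := (max 1 c.cst) ^ c.n0 with hK
  have hK1 : 1 ≤ K := one_le_pow₀ (le_max_left _ _)
  have hK0 : 0 < K := lt_of_lt_of_le one_pos hK1
  set E : ℝ≥0 := (4 * Cγ * Real.exp (h0 * αmax)).toNNReal with hE
  obtain ⟨ℓa, ha⟩ := prx_theta (N * Cg) (1 / 12) (by positivity)
  obtain ⟨ℓb, hb⟩ := prx_theta (N * Cg * E) (1 / 12) (by positivity)
  have hden : 0 < 24 * ((N : ℝ≥0) + 1) * K := by positivity
  refine ⟨h0 / (24 * ((N : ℝ≥0) + 1) * K), by positivity, ?_, max ℓa ℓb, fun ℓ hℓ p hp => ?_⟩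
  · refine div_lt_self hh ?_
    have h1 : (1 : ℝ≥0) ≤ (N : ℝ≥0) + 1 := le_add_self
    calc (1 : ℝ≥0) < 24 * 1 * 1 := by norm_num
      _ ≤ 24 * ((N : ℝ≥0) + 1) * K := by gcongr
  have ha' := ha ℓ ((le_max_left _ _).trans hℓ)
  have hb' := hb ℓ ((le_max_right _ _).trans hℓ)
  set L : ℝ≥0 := (2 : ℝ≥0) ^ ℓ with hL
  have hL1 : 1 ≤ L := one_le_pow₀ (by norm_num)
  have hL0 : 0 < L := lt_of_lt_of_le one_pos hL1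
  have e1 : (2 ^ ℓ : ℝ≥0∞)⁻¹ = ((L⁻¹ : ℝ≥0) : ℝ≥0∞) := by
    rw [ENNReal.coe_inv hL0.ne']
    rfl
  have e2 : ((h0 / (24 * ((N : ℝ≥0) + 1) * K) : ℝ≥0) : ℝ≥0∞) / (h0 : ℝ≥0∞) = (((24 * ((N : ℝ≥0) + 1) * K)⁻¹ : ℝ≥0) : ℝ≥0∞) := by
    rw [← ENNReal.coe_div hh.ne']
    congr 1
    field_simp
  have e3 : ENNReal.ofReal (4 * (Cγ / ((2 : ℝ) ^ ℓ) ^ 2) * Real.exp (h0 * αmax)) ≤ ((E * L⁻¹ : ℝ≥0) : ℝ≥0∞) := by
    unfold ENNReal.ofReal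
    rw [ENNReal.coe_le_coe, Real.toNNReal_le_iff_le_coe]
    push_cast
    have h1 : 4 * Cγ * Real.exp (h0 * αmax) ≤ (E : ℝ) := Real.le_coe_toNNReal _
    have hLr : (1 : ℝ) ≤ (2 : ℝ) ^ ℓ := one_le_pow₀ (by norm_num)
    have h2 : (((2 : ℝ) ^ ℓ) ^ 2)⁻¹ ≤ ((2 : ℝ) ^ ℓ)⁻¹ := by
      apply inv_anti₀ (by positivity)
      nlinarith
    have h3 : (0 : ℝ) ≤ (((2 : ℝ) ^ ℓ) ^ 2)⁻¹ := by positivity
    calc 4 * (Cγ / ((2 : ℝ) ^ ℓ) ^ 2) * Real.exp (h0 * αmax) = 4 * Cγ * Real.exp (h0 * αmax) * (((2 : ℝ) ^ ℓ) ^ 2)⁻¹ := by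
          rw [div_eq_mul_inv]; ring
      _ ≤ (E : ℝ) * (((2 : ℝ) ^ ℓ) ^ 2)⁻¹ := mul_le_mul_of_nonneg_right h1 h3
      _ ≤ (E : ℝ) * ((2 : ℝ) ^ ℓ)⁻¹ := mul_le_mul_of_nonneg_left h2 E.coe_nonneg
  have e4 : cstN c = (K : ℝ≥0∞) := by
    unfold cstN
    rw [hK]
    push_cast
    rfl
  have hmid : (N : ℝ≥0) * (2 * (24 * ((N : ℝ≥0) + 1) * K)⁻¹ * K) ≤ 1 / 12 := by
    rw [← NNReal.coe_le_coe]
    push_cast
    have hKr : (0 : ℝ) < K := by exact_mod_cast hK0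
    have hN : (0 : ℝ) ≤ N := Nat.cast_nonneg _
    have : (N : ℝ) * (2 * (24 * ((N : ℝ) + 1) * K)⁻¹ * K) = N / (12 * (N + 1)) := by
      field_simp
      ring
    rw [this, div_le_div_iff₀ (by positivity) (by norm_num)]
    nlinarith
  unfold gJ
  rw [hp, e1, e2, e4]
  calc (N : ℝ≥0∞) * (Cg * ((L⁻¹ : ℝ≥0) : ℝ≥0∞) + 2 * (((24 * ((N : ℝ≥0) + 1) * K)⁻¹ : ℝ≥0) : ℝ≥0∞) * K
          + Cg * ENNReal.ofReal (4 * (Cγ / ((2 : ℝ) ^ ℓ) ^ 2) * Real.exp (h0 * αmax)))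
      ≤ (N : ℝ≥0∞) * (Cg * ((L⁻¹ : ℝ≥0) : ℝ≥0∞) + 2 * (((24 * ((N : ℝ≥0) + 1) * K)⁻¹ : ℝ≥0) : ℝ≥0∞) * K + Cg * ((E * L⁻¹ : ℝ≥0) : ℝ≥0∞)) := by
        gcongr
    _ = ((N * Cg * L⁻¹ + N * (2 * (24 * ((N : ℝ≥0) + 1) * K)⁻¹ * K) + N * Cg * E * L⁻¹ : ℝ≥0) : ℝ≥0∞) := by
        push_cast
        ring
    _ ≤ ((1 / 12 + 1 / 12 + 1 / 12 : ℝ≥0) : ℝ≥0∞) := by
        exact_mod_cast add_le_add (add_le_add ha' hmid) hb'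
    _ = ((1 / 4 : ℝ≥0) : ℝ≥0∞) := by
        congr 1
        rw [← NNReal.coe_inj]
        push_cast
        norm_num

section rows

variable {pm : Prm} {nm : Nm} {cT : ℝ≥0} {k0 kT : KC} {G : Geom} {ℓ : ℕ} {T : Tw G ℓ} {j : ℕ} {h : Ret G ℓ pm.D0 j}

/-- **the label row** of `StepOut` and the admissibility of the next label -/
theorem pro_J (H : Ctx pm nm cT k0 kT T h) {Cγ αmax : ℝ} (hc : JChg (nm.pT pm.ω) (T.stepT h) kT.β Cγ αmax) (t z : ℂ) (v : G.V → ℝ)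
    (x : St (lev G ℓ j)) (hx : Inv pm nm.h0 x) {ηr : ℝ≥0} (hη0 : 0 < ηr) (hη : ηr < nm.h0)
    (href : ∀ X ∈ (T.step h).small pm.c, NearUnit (lev G ℓ j) 1 X → ∃ a : ℝ, tnorm (lev G ℓ j) X (fun u => (pm.ref G u - bg pm v u) - a) ≤ ηr)
    (hfin : zJ pm nm T v j x ≠ ⊤) {N : ℕ} (hN : JCount pm.c (T.step h) N) (hCd : 0 < kT.Cd)
    (hg : (N : ℝ≥0∞) * gJ (cT_geo pm cT) (nm.pT pm.ω) ℓ kT.Cg Cγ αmax ηr ≤ ((1 / 4 : ℝ≥0) : ℝ≥0∞)) (hηT : kT.η ≤ 1 / 4)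
    {e C : ℝ≥0} {σ : ℝ≥0∞} (heσ : (e : ℝ≥0∞) ≤ C * σ) (he : e < kT.ε0)
    (hKe : actNorm (nm.pT pm.ω) (lev G ℓ j) (T.VT j) (shA x.KT (bg pm v)) ≤ e)
    (hd : (shD (dT (T.step h) pm.c pm.ω pm.zn t z (pm.ref G) x.K0 x.KT) (bg pm v)).Ok (nm.pT pm.ω) pm.c.col pm.c.r)
    (hde : (shD (dT (T.step h) pm.c pm.ω pm.zn t z (pm.ref G) x.K0 x.KT) (bg pm v)).size (nm.pT pm.ω) (T.VT (j + 1)) ≤ kT.Cd * e) :
    Act.Ok ⟨0, 0, nm.h0, 0, pm.ω⟩ pm.c.col pm.c.R (next (T.step h) pm.c pm.ω pm.zn t z (pm.ref G) x).JT ∧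
    zJ pm nm T v (j + 1) (next (T.step h) pm.c pm.ω pm.zn t z (pm.ref G) x)
      ≤ (((1 / 2 : ℝ≥0) : ℝ≥0∞) + ((kT.Cnl * C * (1 + 2 * N * (max 1 cT) ^ pm.c.n0) : ℝ≥0) : ℝ≥0∞) * σ) * zJ pm nm T v j x := by
  obtain ⟨h1, h2⟩ := prj_label_ctx H hc t z (bg pm v) x hx hη0 hη href hfin hN hCd he hKe hd hde
  refine ⟨h1, h2.trans (mul_le_mul' ?_ le_rfl)⟩
  have e4 : cstN (cT_geo pm cT) = (((max 1 cT) ^ pm.c.n0 : ℝ≥0) : ℝ≥0∞) := by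
    unfold cstN
    push_cast
    rfl
  rw [e4]
  have hηT' : (kT.η : ℝ≥0∞) ≤ ((1 / 4 : ℝ≥0) : ℝ≥0∞) := by exact_mod_cast hηT
  have e5 : ((1 / 2 : ℝ≥0) : ℝ≥0∞) = ((1 / 4 : ℝ≥0) : ℝ≥0∞) + ((1 / 4 : ℝ≥0) : ℝ≥0∞) := by
    rw [← ENNReal.coe_add]
    congr 1
    rw [← NNReal.coe_inj]
    push_cast
    norm_num
  rw [e5]
  refine add_le_add (add_le_add hg hηT') ?_
  calc (kT.Cnl : ℝ≥0∞) * e * (1 + 2 * N * (((max 1 cT) ^ pm.c.n0 : ℝ≥0) : ℝ≥0∞))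
      ≤ (kT.Cnl : ℝ≥0∞) * (C * σ) * (1 + 2 * N * (((max 1 cT) ^ pm.c.n0 : ℝ≥0) : ℝ≥0∞)) := by gcongr
    _ = _ := by
      push_cast
      ring

end rows

/-- **the scalars** of `StepOut`: `sc_half`, `sc_diff` -/
theorem pro_S (c : B8.Geo) (H1 ℓ : ℕ) : ∃ C ρ : ℝ≥0, 0 < ρ ∧ ∀ (pm : Prm) (nm : Nm) (k0 kT : KC) (G : Geom) (T : Tw G ℓ) (j : ℕ) (h : Ret G ℓ pm.D0 j),
    pm.c = c → pm.zn.H1 = H1 → Ctx pm nm pm.c.cst k0 kT T h → ∀ (t z : ℂ) (v : G.V → ℝ) (x : St (lev G ℓ j)), Inv pm nm.h0 x →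
    (∀ X ∈ (T.step h).small pm.c, ¬ ShiftGood (lev G ℓ j) pm.zn.H1 X →
      ∃ a : ℝ, tnorm (lev G ℓ (j + 1)) ((nest G ℓ j).cl X) (fun u => (pm.ref G u - bg pm v u) - a) < nm.h0) →
    zP pm nm T j t z x + zW pm nm T j x + zD pm nm T v j x ≤ ρ → ∀ b : (lev G ℓ (j + 1)).I,
      (‖(d0 (T.step h) pm.c pm.ω pm.zn t z x.K0).a b‖ ≤ 1 / 2 ∧ ‖(dT (T.step h) pm.c pm.ω pm.zn t z (pm.ref G) x.K0 x.KT).a b‖ ≤ 1 / 2) ∧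
      (‖(dT (T.step h) pm.c pm.ω pm.zn t z (pm.ref G) x.K0 x.KT).a b - (d0 (T.step h) pm.c pm.ω pm.zn t z x.K0).a b‖₊ : ℝ≥0∞)
        ≤ C * (zP pm nm T j t z x + zW pm nm T j x + zD pm nm T v j x) := by
  obtain ⟨C, hC⟩ := prs_exit_bd c c.cst H1 ℓ
  refine ⟨C, 1 / (4 * (C + 1)), by positivity, ?_⟩
  intro pm nm k0 kT G T j h hc hH1 H t z v x hx href hball b
  subst hc
  obtain ⟨s0, sT⟩ := hC pm nm k0 kT G T j h x t z (bg pm v) 1 rfl hH1 H hx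
    (fun X hX hg => by
      obtain ⟨a, ha⟩ := href X hX hg
      exact RefCost.of_tnorm a ha) b
  rw [one_mul] at sT
  obtain ⟨a1, a2, -⟩ := prr_S_aux C _ _ _ _ le_self_add hball s0 sT
  exact ⟨⟨a1, a2⟩, sT⟩

/-! ## 3. `OneStmt` -/

theorem pro_omega8_pos : 0 < B8.ω8 := by
  have hk : 0 < B8.k0 := by unfold B8.k0; have := Real.pi_pos; positivity
  have hs : 0 < Real.sqrt B8.k0 := Real.sqrt_pos.2 hk
  have := Real.pi_pos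
  unfold B8.ω8
  positivity

theorem pro_alpha8 : B8.Step.alpha B8.ω8 = Real.sqrt B8.k0 := by
  have hk : 0 < B8.k0 := by unfold B8.k0; have := Real.pi_pos; positivity
  have hs : 0 < Real.sqrt B8.k0 := Real.sqrt_pos.2 hk
  unfold B8.Step.alpha B8.ω8
  have := Real.pi_pos
  field_simp

theorem pro_alpha8_sq : B8.Step.alpha B8.ω8 ^ 2 = B8.k0 := by
  have hk : 0 < B8.k0 := by unfold B8.k0; have := Real.pi_pos; positivity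
  rw [pro_alpha8, Real.sq_sqrt hk.le]

/-- **[F] Lemma 6.2 for one step, all constants** -/
theorem pro_one : OneStmt := by
  have hω := pro_omega8_pos
  have hk0 : 0 < B8.k0 := by unfold B8.k0; have := Real.pi_pos; positivity
  have hβ : 0 < Real.sqrt B8.k0 := Real.sqrt_pos.2 hk0
  have hα : 0 < B8.Step.alpha B8.ω8 := by rw [pro_alpha8]; exact hβ
  obtain ⟨Ctr, hCtr, HR2⟩ := pdm_R2All B8.ω8 hω
  obtain ⟨Cen, hCen, HEn⟩ := pdm_EnAll B8.ω8 hω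
  obtain ⟨CE, cE, vinf, hCE, hcE, -, -, -, HEta, -⟩ := prt_eta_ok
  obtain ⟨Cγ, hCγ, Hchg⟩ := prj_chg_tower
  refine ⟨Ctr, vinf, hCtr, fun o oT ε c H0 H1 hc hH0 hH1 => ?_⟩
  obtain ⟨C1h, Cn, hC1h, HWD⟩ := pro_WD c H0 H1
  obtain ⟨NJ, hNJ⟩ := prj_count c
  refine ⟨C1h, fun δ κ h0 Cg0 CgT hδ hδ1 hκ hh0 hh1 => ?_⟩
  obtain ⟨ℓ1, D1, HWD⟩ := HWD δ κ (2 * κ) h0 hδ hκ (by positivity) hh1
  obtain ⟨ℓ2, Hchg⟩ := Hchg h0 (B8.Step.alpha B8.ω8)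
  obtain ⟨ηr, hηr0, hηr, ℓ3, HgJ⟩ := pro_gJ (geoT c c.cst) NJ CgT Cγ (B8.Step.alpha B8.ω8) h0 hh0
  refine ⟨max (max ℓ1 ℓ2) (max ℓ3 1), max D1 64, fun ℓ hℓ => ?_⟩
  have hℓ1 : ℓ1 ≤ ℓ := ((le_max_left _ _).trans (le_max_left _ _)).trans hℓ
  have hℓ2 : ℓ2 ≤ ℓ := ((le_max_right _ _).trans (le_max_left _ _)).trans hℓ
  have hℓ3 : ℓ3 ≤ ℓ := ((le_max_left _ _).trans (le_max_right _ _)).trans hℓ
  have hℓ4 : 1 ≤ ℓ := ((le_max_right _ _).trans (le_max_right _ _)).trans hℓ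
  have hf0 : 2 * pdtN ℓ Cn * pdtCp c Cg0 ⟨δ, κ, h0, 0, B8.ω8⟩ (B8.Step.alpha B8.ω8) 0 ≠ ⊤ :=
    ENNReal.mul_ne_top (ENNReal.mul_ne_top (by norm_num) (pdx_N_ne_top _ _)) (pdx_Cp_ne_top _ _ _ _ _)
  have hfT : 2 * pdtN ℓ Cn * (pdtCp c Cg0 ⟨δ, 2 * κ, h0, 0, B8.ω8⟩ (B8.Step.alpha B8.ω8) (Cen * c.n0) + pdtK (geoT c c.cst)) ≠ ⊤ :=
    ENNReal.mul_ne_top (ENNReal.mul_ne_top (by norm_num) (pdx_N_ne_top _ _)) (ENNReal.add_ne_top.2 ⟨pdx_Cp_ne_top _ _ _ _ _, pdx_K_ne_top _⟩)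
  refine ⟨(2 * pdtN ℓ Cn * pdtCp c Cg0 ⟨δ, κ, h0, 0, B8.ω8⟩ (B8.Step.alpha B8.ω8) 0).toNNReal,
    max 1 (2 * pdtN ℓ Cn * (pdtCp c Cg0 ⟨δ, 2 * κ, h0, 0, B8.ω8⟩ (B8.Step.alpha B8.ω8) (Cen * c.n0) + pdtK (geoT c c.cst))).toNNReal,
    fun A qA hqA hAq hN Cnl0 ε00 CnlT ε0T hε00 hε0T => ?_⟩
  set Cd0 : ℝ≥0 := (2 * pdtN ℓ Cn * pdtCp c Cg0 ⟨δ, κ, h0, 0, B8.ω8⟩ (B8.Step.alpha B8.ω8) 0).toNNReal with hCd0
  set CdT : ℝ≥0 := max 1 (2 * pdtN ℓ Cn * (pdtCp c Cg0 ⟨δ, 2 * κ, h0, 0, B8.ω8⟩ (B8.Step.alpha B8.ω8) (Cen * c.n0)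
    + pdtK (geoT c c.cst))).toNNReal with hCdT
  set k0 : KC := ⟨Cg0, Cd0, Cnl0, ε00, 1 / 4, Real.sqrt B8.k0⟩ with hk0def
  set kT : KC := ⟨CgT, CdT, CnlT, ε0T, 1 / 4, Real.sqrt B8.k0⟩ with hkTdef
  obtain ⟨CWD, ρWD, hρWD, HWD⟩ := HWD ℓ hℓ1 A (A / qA) B8.ω8 Cen k0 kT hε00 hε0T
  obtain ⟨CS, ρS, hρS, HS⟩ := pro_S c H1 ℓ
  obtain ⟨D2, Href⟩ := prl_href_all CE cE (B8.Step.alpha B8.ω8) ηr hCE.le hcE hα hηr0
  set CJ : ℝ≥0 := CnlT * CWD * (1 + 2 * NJ * (max 1 c.cst) ^ c.n0) with hCJ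
  refine ⟨D2, max 1 (max CWD (max CS CJ)), min ρWD ρS, le_max_left _ _, lt_min hρWD hρS, fun Dsq hD1 hD2 => ?_⟩
  set C : ℝ≥0 := max 1 (max CWD (max CS CJ)) with hC
  have hCWD : (CWD : ℝ≥0∞) ≤ C := by exact_mod_cast (le_max_left CWD _).trans (le_max_right _ _)
  have hCS : (CS : ℝ≥0∞) ≤ C := by exact_mod_cast ((le_max_left CS CJ).trans (le_max_right _ _)).trans (le_max_right _ _)
  have hCJ' : (CJ : ℝ≥0∞) ≤ C := by exact_mod_cast ((le_max_right CS CJ).trans (le_max_right _ _)).trans (le_max_right _ _)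
  set pm : Prm := pmOf c H0 H1 Dsq vinf with hpm
  set nm : Nm := nmOf δ κ h0 A qA with hnm
  have hR2 : R2All pm nm o oT ℓ := HR2 ε nm o oT hN pm rfl hH1 ℓ hℓ4
  have hEn : EnAll pm ℓ Cen := HEn pm rfl hH1 ℓ hℓ4
  intro G T cl v sd j0 j h H hsd hsdd hcl hT hj0 hj hv t z x ht hz hx hJfin hball
  have hcen : 2 * (2 ^ ℓ) ^ j ∣ G.M := dvd_trans (Nat.mul_dvd_mul_left 2 (pow_dvd_pow _ (Nat.le_succ j))) H.cen
  have hL : pm.zn.H1 + pm.c.R * pm.c.n0 + 1 ≤ 2 ^ ℓ := by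
    have := H.hL
    omega
  obtain ⟨hrA, -, -, hrD⟩ := Href pm rfl hD2 G ℓ j T h H.free hℓ4 H.cen hL v (prl_etaB HEta H.free H.cen hv)
  have hrA' : ∀ X ∈ (T.step h).small pm.c, ¬ ShiftGood (lev G ℓ j) pm.zn.H1 X →
      ∃ a : ℝ, tnorm (lev G ℓ (j + 1)) ((nest G ℓ j).cl X) (fun u => (pm.ref G u - bg pm v u) - a) < nm.h0 := fun X hX hg => by
    obtain ⟨a, ha⟩ := hrA X hX hg
    exact ⟨a, ha.trans hηr⟩
  have hα2 : pm.α ^ 2 = B8.k0 := pro_alpha8_sq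
  have hq0 : 2 * pdtN ℓ Cn * pdtCp c k0.Cg (nm.p0 B8.ω8) pm.α 0 ≤ k0.Cd := by
    show _ ≤ ((Cd0 : ℝ≥0) : ℝ≥0∞)
    rw [hCd0, ENNReal.coe_toNNReal hf0]
    exact le_of_eq (by rw [pdx_Cp_congr c Cg0 (q := nm.p0 B8.ω8) (q' := ⟨δ, κ, h0, 0, B8.ω8⟩) rfl rfl]; rfl)
  have hqT : 2 * pdtN ℓ Cn * (pdtCp c k0.Cg (nm.pT B8.ω8) pm.α (Cen * c.n0) + pdtK (geoT c c.cst)) ≤ kT.Cd := by
    show _ ≤ ((CdT : ℝ≥0) : ℝ≥0∞)
    refine le_trans ?_ (ENNReal.coe_le_coe.2 (le_max_right _ _))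
    rw [ENNReal.coe_toNNReal hfT]
    exact le_of_eq (by rw [pdx_Cp_congr c Cg0 (q := nm.pT B8.ω8) (q' := ⟨δ, 2 * κ, h0, 0, B8.ω8⟩) rfl rfl]; rfl)
  obtain ⟨rW, rD, okd0, okdT, hK0fin, e, heσ, he, hKe, hde⟩ := HWD pm nm G T j h rfl rfl rfl rfl rfl ((le_max_left _ _).trans hD1)
    hα2.ge (by rw [hα2]; linarith) le_rfl le_rfl hCen hq0 hqT H t z v x hx
    (hR2 G T cl j0 hT H.free j hj (hj0.trans hj) hcen v hv x hx).1 (hEn G j H.free (hj0.trans hj) hcen v hv) hrA'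
    (hball.trans (by exact_mod_cast min_le_left _ _))
  have hchg : JChg (nm.pT pm.ω) (T.stepT h) kT.β Cγ (B8.Step.alpha B8.ω8) :=
    Hchg ℓ hℓ2 (nm.pT pm.ω) (Real.sqrt B8.k0) rfl hβ (Real.sq_sqrt hk0.le) (le_of_eq pro_alpha8.symm) le_rfl G Dsq j T h ((le_max_right _ _).trans hD1)
  obtain ⟨okJ, rJ⟩ := pro_J H hchg t z v x hx hηr0 hηr hrD hJfin (hNJ G _ ℓ (T.step h)) (lt_of_lt_of_le one_pos (le_max_left _ _))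
    (HgJ ℓ hℓ3 (nm.pT pm.ω) rfl) le_rfl heσ he hKe okdT hde
  have hS := HS pm nm k0 kT G T j h rfl rfl H t z v x hx hrA' (hball.trans (by exact_mod_cast min_le_right _ _))
  obtain ⟨sm1, sm2, sm3⟩ := pdm_small H t z x v
  have hfin3 := pro_fin3 hball
  have hU : sU pm nm T j t z x ≠ ⊤ := by
    have := hfin3.1
    exact fun h' => by rw [show zP pm nm T j t z x = ⊤ from h'] at this; exact ENNReal.coe_ne_top this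
  exact
    { inv := prr_inv H (bg pm v) t z ht hz x hx hU hK0fin (ne_top_of_le_ne_top ENNReal.coe_ne_top hKe) okd0 okdT okJ
      rowW := rW.trans (by gcongr)
      rowD := rD.trans (by gcongr)
      rowJ := rJ.trans (by gcongr; exact ((le_max_right CS CJ).trans (le_max_right _ _)).trans (le_max_right _ _))
      sc_real := fun b => prs_exit_real x hx t z ht hz b
      sc_half := fun b => (hS b).1
      sc_diff := fun b => (hS b).2.trans (by gcongr)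
      sc_off := fun b hb => prs_exit_out H x hx t z b hb
      d0_ok := okd0
      dT_ok := okdT
      dT_small := sm1
      dJ_small := sm2
      dJ_fn := sm3 }

end

end Claimed.Agent.R285.F6.Pr
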