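import Claimed.Agent.R285.Obs.PairMst3
import Claimed.Agent.R285.Obs.PairCst
import Claimed.Agent.R285.Obs.PairOne

/-!
# ROW 285, unit OBS: THE LINK of `Obs.pair_atStop`      (chief helper271)   -- KEEP
`pair_atStop_main := pmm_main (pair_row2 pcs_ctxStmt pro_one)`: master `Obs/PairMst3.lean` (helper271), chain of constants `Obs/PairRowC.lean` (helper79), `CtxStmt` `Obs/PairCst.lean` (helper241), `OneStmt` `Obs/PairOne.lean` (helper254).
-/

set_option autoImplicit false

namespace Claimed.Agent.R285.F6.Pr

theorem pair_const : PairConstStmt := pair_row2 pcs_ctxStmt pro_one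

theorem pair_atStop_main : Obs.PairAtStopStmt := pmm_main pair_const

end Claimed.Agent.R285.F6.Pr
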