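import Claimed.Agent.R285.Glue.WireDefs

/-!
# ROW 285, unit OBS, package GREEN (CLOSED, 0 sorry): [F] (obs:stream-energy) + (obs:green-constant) along ALL integers      (architect helper271; provers helper122, helper271)
Merged 16:00Z from GreenSq, GreenDefs, GreenTrig, GreenFn, GreenRiem, GreenMain, GreenTail, GreenAsy, Green (file budget); the nine parts follow with their old headers.
Exports: `Obs.unitEnergy_eq` (discrete Hodge duality), `Obs.sum_sin_sin`, `Obs.gf_lap`, `Obs.gf_center`, `Obs.tanhSum_asymp`, `Obs.unitEnergy_tanhSum`, `Obs.green_constant_all`, `Obs.green_constant`.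
-/

/-!
# ROW 285, unit OBS, package GREEN, file 1: discrete Hodge duality on the free dual square      (architect helper271)

PAPER-FREE.  Replaces [F] (obs:stream-energy).  Geometry: the vertex `(i, j)` of `square (2 n)` is the FACE `[i, i+1] × [j, j+1]` of the primal square `[0, 2n]²`;
the edge `((i, j), true)` crosses the primal bond `(i+1, j) - (i+1, j+1)`, the edge `((i, j), false)` crosses `(i, j+1) - (i+1, j+1)`.
For a primal function `f` vanishing on the boundary the ROTATED GRADIENT is `Rh f i j = f (i+1) (j+1) - f (i+1) j` (horizontal dual edges), `Rv f i j = -(f (i+1) (j+1) - f i (j+1))` (vertical).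
* `rot_orth`  : `R f ⊥` all gradients (two 1D summations by parts `abel_zero`, then the circulation of `∇ f` around a face is `0`);
* `rot_tau`   : `⟨τ, R f⟩ = f (n, n)` (telescoping along the cut);
* `potential` : `curl (R f - τ) = Δ f - δ_c = 0`, hence `2π (R f - τ) = ∇ φ`, `φ (i, j) = ∑_{i' < i} ξh i' 0 + ∑_{j' < j} ξv i j'`;
* `unitEnergy_eq` : Pythagoras.  `‖∇ φ' + 2π τ‖² = ‖2π R f‖² + ‖∇ (φ' - φ)‖²` and `‖2π R f‖² = 2π ⟨∇ φ + 2π τ, R f⟩ = 4π² f (n, n)`.
All sums are converted ONCE to sums over `Finset.range` by `sum_square_E`.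
-/

set_option autoImplicit false

namespace Claimed.Agent.R285.Obs

open scoped BigOperators
open Claimed.Agent.R285

noncomputable section

theorem sum_range_pred (m : ℕ) (a : ℕ → ℝ) :
    ∑ i ∈ Finset.range m, (if i + 1 < m then a i else 0) = ∑ i ∈ Finset.range (m - 1), a i := by
  rw [← Finset.sum_filter]
  apply Finset.sum_congr _ (fun _ _ => rfl)
  ext i
  simp only [Finset.mem_filter, Finset.mem_range]
  omega

theorem sum_square_E (m : ℕ) (A B : ℕ → ℕ → ℝ) :
    ∑ e : (square m).E, (if e.1.2 = true then A e.1.1.1 e.1.1.2 else B e.1.1.1 e.1.1.2)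
      = ∑ i ∈ Finset.range (m - 1), ∑ j ∈ Finset.range m, A i j
        + ∑ i ∈ Finset.range m, ∑ j ∈ Finset.range (m - 1), B i j := by
  have h1 : ∑ e : (square m).E, (if e.1.2 = true then A e.1.1.1 e.1.1.2 else B e.1.1.1 e.1.1.2)
      = ∑ e ∈ (Finset.univ : Finset ((Fin m × Fin m) × Bool)).filter
          (fun e => if e.2 then e.1.1.1 + 1 < m else e.1.2.1 + 1 < m),
          (if e.2 = true then A e.1.1 e.1.2 else B e.1.1 e.1.2) := by
    symm
    exact Finset.sum_subtype _ (by intro x; simp) (fun e : (Fin m × Fin m) × Bool => if e.2 = true then A e.1.1 e.1.2 else B e.1.1 e.1.2)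
  rw [h1, Finset.sum_filter, Fintype.sum_prod_type, Finset.sum_congr rfl (fun x _ => Fintype.sum_bool _)]
  simp only [if_true, Bool.false_eq_true, if_false]
  rw [Finset.sum_add_distrib, Fintype.sum_prod_type, Fintype.sum_prod_type]
  congr 1
  · rw [Fin.sum_univ_eq_sum_range (fun i => ∑ y : Fin m, if i + 1 < m then A i y else 0) m, ← sum_range_pred]
    apply Finset.sum_congr rfl
    intro i _
    rw [Fin.sum_univ_eq_sum_range (fun j => if i + 1 < m then A i j else 0) m]
    split_ifs <;> simp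
  · rw [Fin.sum_univ_eq_sum_range (fun i => ∑ y : Fin m, if (y : ℕ) + 1 < m then B i y else 0) m]
    apply Finset.sum_congr rfl
    intro i _
    rw [Fin.sum_univ_eq_sum_range (fun j => if j + 1 < m then B i j else 0) m, sum_range_pred]

def ext {m : ℕ} (φ : (square m).V → ℝ) (i j : ℕ) : ℝ :=
  if h : i < m ∧ j < m then φ (⟨i, h.1⟩, ⟨j, h.2⟩) else 0

def res (m : ℕ) (φ : ℕ → ℕ → ℝ) : (square m).V → ℝ := fun v => φ v.1 v.2

def tau (n i j : ℕ) : ℝ := if j + 1 = n ∧ n ≤ i then 1 else 0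

def enN (n : ℕ) (φ : ℕ → ℕ → ℝ) : ℝ :=
  ∑ i ∈ Finset.range (2 * n - 1), ∑ j ∈ Finset.range (2 * n), (φ (i + 1) j - φ i j) ^ 2
    + ∑ i ∈ Finset.range (2 * n), ∑ j ∈ Finset.range (2 * n - 1), (φ i (j + 1) - φ i j + 2 * Real.pi * tau n i j) ^ 2

theorem energy_res (n : ℕ) (φ : ℕ → ℕ → ℝ) :
    ∑ e, (res (2 * n) φ ((square (2 * n)).tgt e) - res (2 * n) φ ((square (2 * n)).src e)
        + 2 * Real.pi * (Glue.centerConn n e : ℝ)) ^ 2 = enN n φ := by
  unfold enN
  rw [← sum_square_E]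
  apply Finset.sum_congr rfl
  rintro ⟨⟨⟨i, j⟩, b⟩, h⟩ _
  cases b
  · simp only [square, res, Glue.centerConn, tau, Bool.false_eq_true, if_false, dif_neg, not_false_eq_true, true_and]
    split_ifs <;> simp
  · simp only [square, res, Glue.centerConn, if_true, dif_pos, Bool.true_eq_false, false_and, if_false]
    simp

theorem res_ext {m : ℕ} (φ : (square m).V → ℝ) : res m (ext φ) = φ := by
  funext v
  obtain ⟨i, j⟩ := v
  simp only [res, ext]
  rw [dif_pos ⟨i.2, j.2⟩]

theorem energy_ext (n : ℕ) (φ : (square (2 * n)).V → ℝ) :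
    ∑ e, (φ ((square (2 * n)).tgt e) - φ ((square (2 * n)).src e) + 2 * Real.pi * (Glue.centerConn n e : ℝ)) ^ 2
      = enN n (ext φ) := by
  rw [← energy_res, res_ext]

theorem abel_gen (ψ a : ℕ → ℝ) (k : ℕ) :
    ∑ i ∈ Finset.range k, (ψ (i + 1) - ψ i) * a (i + 1)
      = ∑ i ∈ Finset.range k, ψ i * (a i - a (i + 1)) + ψ k * a k - ψ 0 * a 0 := by
  induction k with
  | zero => simp
  | succ k ih => rw [Finset.sum_range_succ, Finset.sum_range_succ, ih]; ring

theorem abel_zero (m : ℕ) (ψ a : ℕ → ℝ) (h0 : a 0 = 0) (hm : a m = 0) :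
    ∑ i ∈ Finset.range (m - 1), (ψ (i + 1) - ψ i) * a (i + 1) = ∑ i ∈ Finset.range m, ψ i * (a i - a (i + 1)) := by
  cases m with
  | zero => simp
  | succ k =>
    rw [Nat.add_sub_cancel, abel_gen, Finset.sum_range_succ, h0, hm]
    ring

theorem rot_orth (m : ℕ) (f ψ : ℕ → ℕ → ℝ) (h0 : ∀ j, f 0 j = 0) (h1 : ∀ j, f m j = 0) (h2 : ∀ i, f i 0 = 0)
    (h3 : ∀ i, f i m = 0) :
    ∑ i ∈ Finset.range (m - 1), ∑ j ∈ Finset.range m, (ψ (i + 1) j - ψ i j) * (f (i + 1) (j + 1) - f (i + 1) j)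
      + ∑ i ∈ Finset.range m, ∑ j ∈ Finset.range (m - 1), (ψ i (j + 1) - ψ i j) * (-(f (i + 1) (j + 1) - f i (j + 1))) = 0 := by
  rw [Finset.sum_comm]
  have e1 : ∀ j ∈ Finset.range m, ∑ i ∈ Finset.range (m - 1), (ψ (i + 1) j - ψ i j) * (f (i + 1) (j + 1) - f (i + 1) j)
      = ∑ i ∈ Finset.range m, ψ i j * ((f i (j + 1) - f i j) - (f (i + 1) (j + 1) - f (i + 1) j)) := by
    intro j _
    exact abel_zero m (fun i => ψ i j) (fun i => f i (j + 1) - f i j) (by simp [h0]) (by simp [h1])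
  have e2 : ∀ i ∈ Finset.range m, ∑ j ∈ Finset.range (m - 1), (ψ i (j + 1) - ψ i j) * (-(f (i + 1) (j + 1) - f i (j + 1)))
      = ∑ j ∈ Finset.range m, ψ i j * (-(f (i + 1) j - f i j) - -(f (i + 1) (j + 1) - f i (j + 1))) := by
    intro i _
    exact abel_zero m (fun j => ψ i j) (fun j => -(f (i + 1) j - f i j)) (by simp [h2]) (by simp [h3])
  rw [Finset.sum_congr rfl e1, Finset.sum_congr rfl e2, Finset.sum_comm, ← Finset.sum_add_distrib]
  apply Finset.sum_eq_zero
  intro i _
  rw [← Finset.sum_add_distrib]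
  apply Finset.sum_eq_zero
  intro j _
  ring

theorem rot_tau (n : ℕ) (hn : 0 < n) (f : ℕ → ℕ → ℝ) (h1 : ∀ j, f (2 * n) j = 0) :
    ∑ i ∈ Finset.range (2 * n), ∑ j ∈ Finset.range (2 * n - 1), tau n i j * (-(f (i + 1) (j + 1) - f i (j + 1))) = f n n := by
  have e1 : ∀ i ∈ Finset.range (2 * n), ∑ j ∈ Finset.range (2 * n - 1), tau n i j * (-(f (i + 1) (j + 1) - f i (j + 1)))
      = if n ≤ i then f i n - f (i + 1) n else 0 := by
    intro i _
    rw [Finset.sum_eq_single (n - 1)]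
    · have : n - 1 + 1 = n := by omega
      simp only [tau, this, true_and]
      split_ifs <;> ring
    · intro j _ hj
      have : ¬ (j + 1 = n ∧ n ≤ i) := by omega
      simp [tau, this]
    · intro h
      exact absurd (Finset.mem_range.2 (by omega)) h
  rw [Finset.sum_congr rfl e1, ← Finset.sum_filter]
  have e2 : (Finset.range (2 * n)).filter (fun i => n ≤ i) = Finset.Ico n (2 * n) := by
    ext i
    simp only [Finset.mem_filter, Finset.mem_range, Finset.mem_Ico]
    omega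
  rw [e2, Finset.sum_Ico_eq_sum_range]
  have e3 : 2 * n - n = n := by omega
  rw [e3]
  have := Finset.sum_range_sub' (fun k => f (n + k) n) n
  simp only [Nat.add_zero] at this
  have e4 : n + n = 2 * n := by omega
  rw [e4, h1] at this
  rw [← sub_zero (f n n), ← this]
  apply Finset.sum_congr rfl
  intro k _
  rw [Nat.add_assoc]

theorem potential (m : ℕ) (ξh ξv : ℕ → ℕ → ℝ)
    (hc : ∀ i j, i + 1 < m → j + 1 < m → ξh i j + ξv (i + 1) j - ξh i (j + 1) - ξv i j = 0) :
    ∃ φ : ℕ → ℕ → ℝ, (∀ i j, i + 1 < m → j < m → φ (i + 1) j - φ i j = ξh i j) ∧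
      ∀ i j, i < m → j + 1 < m → φ i (j + 1) - φ i j = ξv i j := by
  refine ⟨fun i j => ∑ i' ∈ Finset.range i, ξh i' 0 + ∑ j' ∈ Finset.range j, ξv i j', ?_, ?_⟩
  · intro i j hi
    induction j with
    | zero => intro _; simp [Finset.sum_range_succ]
    | succ j ih =>
      intro hj
      have := ih (by omega)
      have h2 := hc i j hi hj
      simp only [Finset.sum_range_succ] at this ⊢
      linarith
  · intro i j _ _
    simp only [Finset.sum_range_succ]
    ring

/-- Pythagoras: if `∇ φ0 + 2π τ = 2π R f` then every competitor has the energy `4π² f (n, n) + ‖∇ (φ - φ0)‖²` -/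
theorem enN_split (n : ℕ) (hn : 0 < n) (f φ0 φ : ℕ → ℕ → ℝ)
    (h0 : ∀ j, f 0 j = 0) (h1 : ∀ j, f (2 * n) j = 0) (h2 : ∀ i, f i 0 = 0) (h3 : ∀ i, f i (2 * n) = 0)
    (hh : ∀ i j, i + 1 < 2 * n → j < 2 * n → φ0 (i + 1) j - φ0 i j = 2 * Real.pi * (f (i + 1) (j + 1) - f (i + 1) j))
    (hv : ∀ i j, i < 2 * n → j + 1 < 2 * n →
      φ0 i (j + 1) - φ0 i j = 2 * Real.pi * (-(f (i + 1) (j + 1) - f i (j + 1))) - 2 * Real.pi * tau n i j) :
    enN n φ = 4 * Real.pi ^ 2 * f n n
      + (∑ i ∈ Finset.range (2 * n - 1), ∑ j ∈ Finset.range (2 * n), ((φ (i + 1) j - φ0 (i + 1) j) - (φ i j - φ0 i j)) ^ 2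
        + ∑ i ∈ Finset.range (2 * n), ∑ j ∈ Finset.range (2 * n - 1), ((φ i (j + 1) - φ0 i (j + 1)) - (φ i j - φ0 i j)) ^ 2) := by
  have o1 := rot_orth (2 * n) f (fun i j => φ i j - φ0 i j) h0 h1 h2 h3
  have o2 := rot_orth (2 * n) f φ0 h0 h1 h2 h3
  have o3 := rot_tau n hn f h1
  -- horizontal summands
  have eh : ∑ i ∈ Finset.range (2 * n - 1), ∑ j ∈ Finset.range (2 * n), (φ (i + 1) j - φ i j) ^ 2
      = 2 * Real.pi * ∑ i ∈ Finset.range (2 * n - 1), ∑ j ∈ Finset.range (2 * n),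
            (φ0 (i + 1) j - φ0 i j) * (f (i + 1) (j + 1) - f (i + 1) j)
        + 4 * Real.pi * ∑ i ∈ Finset.range (2 * n - 1), ∑ j ∈ Finset.range (2 * n),
            ((φ (i + 1) j - φ0 (i + 1) j) - (φ i j - φ0 i j)) * (f (i + 1) (j + 1) - f (i + 1) j)
        + ∑ i ∈ Finset.range (2 * n - 1), ∑ j ∈ Finset.range (2 * n), ((φ (i + 1) j - φ0 (i + 1) j) - (φ i j - φ0 i j)) ^ 2 := by
    simp only [Finset.mul_sum, ← Finset.sum_add_distrib]
    apply Finset.sum_congr rfl
    intro i hi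
    apply Finset.sum_congr rfl
    intro j hj
    have hi' := Finset.mem_range.1 hi
    have hj' := Finset.mem_range.1 hj
    have e := hh i j (by omega) hj'
    have e' : φ (i + 1) j - φ i j = 2 * Real.pi * (f (i + 1) (j + 1) - f (i + 1) j)
        + ((φ (i + 1) j - φ0 (i + 1) j) - (φ i j - φ0 i j)) := by rw [← e]; ring
    rw [e', e]
    ring
  have ev : ∑ i ∈ Finset.range (2 * n), ∑ j ∈ Finset.range (2 * n - 1), (φ i (j + 1) - φ i j + 2 * Real.pi * tau n i j) ^ 2
      = 2 * Real.pi * ∑ i ∈ Finset.range (2 * n), ∑ j ∈ Finset.range (2 * n - 1),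
            (φ0 i (j + 1) - φ0 i j) * (-(f (i + 1) (j + 1) - f i (j + 1)))
        + 4 * Real.pi ^ 2 * ∑ i ∈ Finset.range (2 * n), ∑ j ∈ Finset.range (2 * n - 1),
            tau n i j * (-(f (i + 1) (j + 1) - f i (j + 1)))
        + 4 * Real.pi * ∑ i ∈ Finset.range (2 * n), ∑ j ∈ Finset.range (2 * n - 1),
            ((φ i (j + 1) - φ0 i (j + 1)) - (φ i j - φ0 i j)) * (-(f (i + 1) (j + 1) - f i (j + 1)))
        + ∑ i ∈ Finset.range (2 * n), ∑ j ∈ Finset.range (2 * n - 1), ((φ i (j + 1) - φ0 i (j + 1)) - (φ i j - φ0 i j)) ^ 2 := by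
    simp only [Finset.mul_sum, ← Finset.sum_add_distrib]
    apply Finset.sum_congr rfl
    intro i hi
    apply Finset.sum_congr rfl
    intro j hj
    have hi' := Finset.mem_range.1 hi
    have hj' := Finset.mem_range.1 hj
    have e := hv i j hi' (by omega)
    have e' : φ i (j + 1) - φ i j + 2 * Real.pi * tau n i j = 2 * Real.pi * (-(f (i + 1) (j + 1) - f i (j + 1)))
        + ((φ i (j + 1) - φ0 i (j + 1)) - (φ i j - φ0 i j)) := by linarith
    rw [e', e]
    ring
  unfold enN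
  rw [eh, ev, o3]
  linear_combination (2 * Real.pi) * o2 + (4 * Real.pi) * o1

theorem unitEnergy_eq (n : ℕ) (hn : 0 < n) (f : ℕ → ℕ → ℝ)
    (h0 : ∀ j, f 0 j = 0) (h1 : ∀ j, f (2 * n) j = 0) (h2 : ∀ i, f i 0 = 0) (h3 : ∀ i, f i (2 * n) = 0)
    (hΔ : ∀ i j, i + 1 < 2 * n → j + 1 < 2 * n →
      4 * f (i + 1) (j + 1) - f i (j + 1) - f (i + 2) (j + 1) - f (i + 1) j - f (i + 1) (j + 2)
        = if i + 1 = n ∧ j + 1 = n then 1 else 0) :
    Glue.unitEnergy n = 4 * Real.pi ^ 2 * f n n := by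
  obtain ⟨φ0, hh, hv⟩ := potential (2 * n) (fun i j => 2 * Real.pi * (f (i + 1) (j + 1) - f (i + 1) j))
    (fun i j => 2 * Real.pi * (-(f (i + 1) (j + 1) - f i (j + 1))) - 2 * Real.pi * tau n i j) (by
      intro i j hi hj
      have e := hΔ i j hi hj
      have t : tau n (i + 1) j - tau n i j = if i + 1 = n ∧ j + 1 = n then 1 else 0 := by
        unfold tau
        by_cases c1 : j + 1 = n
        · by_cases c2 : n ≤ i
          · have c3 : n ≤ i + 1 := by omega
            have c4 : ¬ (i + 1 = n) := by omega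
            simp [c1, c2, c3, c4]
          · by_cases c3 : n ≤ i + 1
            · have c4 : i + 1 = n := by omega
              simp [c1, c2, c4]
            · have c4 : ¬ (i + 1 = n) := by omega
              simp [c1, c2, c3, c4]
        · simp [c1]
      linear_combination (2 * Real.pi) * e - (2 * Real.pi) * t)
  unfold Glue.unitEnergy
  apply le_antisymm
  · refine (ciInf_le ⟨0, ?_⟩ (res (2 * n) φ0)).trans ?_
    · rintro _ ⟨φ, rfl⟩
      exact Finset.sum_nonneg fun e _ => sq_nonneg _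
    · rw [energy_res, enN_split n hn f φ0 φ0 h0 h1 h2 h3 hh hv]
      simp
  · apply le_ciInf
    intro φ
    rw [energy_ext, enN_split n hn f φ0 (ext φ) h0 h1 h2 h3 hh hv]
    have : 0 ≤ ∑ i ∈ Finset.range (2 * n - 1), ∑ j ∈ Finset.range (2 * n), ((ext φ (i + 1) j - φ0 (i + 1) j) - (ext φ i j - φ0 i j)) ^ 2
        + ∑ i ∈ Finset.range (2 * n), ∑ j ∈ Finset.range (2 * n - 1), ((ext φ i (j + 1) - φ0 i (j + 1)) - (ext φ i j - φ0 i j)) ^ 2 :=
      add_nonneg (Finset.sum_nonneg fun _ _ => Finset.sum_nonneg fun _ _ => sq_nonneg _)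
        (Finset.sum_nonneg fun _ _ => Finset.sum_nonneg fun _ _ => sq_nonneg _)
    linarith

end

end Claimed.Agent.R285.Obs

/-!
# ROW 285, unit OBS, package GREEN: definitions      (architect helper271)

PAPER-FREE, Mathlib only.  The killed Green function of the primal square `[0, 2n]²` with its pole at the centre `(n, n)`, in MIXED sine / sinh form: sine modes in `x`, explicit 1D resolvent in `y`:
`gf n x y = n⁻¹ ∑_{k < 2n} sin (π k / 2) sin (π k x / 2n) gy n α_k y`,  `α_k = 2 arsinh (sin (π k / 4n))`  (so `2 cosh α_k = 2 + 4 sin² (π k / 4n) = 4 - 2 cos (π k / 2n)`),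
`gy n α y = sinh (α min (y, n)) sinh (α (2n - max (y, n))) / (sinh α sinh (2nα))`.   The term `k = 0` vanishes (`sin 0 = 0`).
-/

set_option autoImplicit false

namespace Claimed.Agent.R285.Obs

open scoped BigOperators
open Filter Topology

noncomputable section

/-- `α_k` -/
def al (n k : ℕ) : ℝ := 2 * Real.arsinh (Real.sin (Real.pi * k / (4 * n)))

/-- the 1D resolvent with pole `n` on `(0, 2n)` -/
def gy (n : ℕ) (a : ℝ) (y : ℕ) : ℝ :=
  Real.sinh (a * (min y n : ℕ)) * Real.sinh (a * ((2 * n - max y n : ℕ) : ℝ)) / (Real.sinh a * Real.sinh (2 * n * a))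

/-- the Green function -/
def gf (n x y : ℕ) : ℝ :=
  (n : ℝ)⁻¹ * ∑ k ∈ Finset.range (2 * n), Real.sin (Real.pi * k / 2) * Real.sin (Real.pi * k * x / (2 * n)) * gy n (al n k) y

/-- its value at the pole -/
def tanhSum (n : ℕ) : ℝ :=
  (n : ℝ)⁻¹ * ∑ i ∈ Finset.range n, Real.tanh (n * al n (2 * i + 1)) / (2 * Real.sinh (al n (2 * i + 1)))

/-- the regular part of `1 / (2 sinh α)` -/
def uu (θ : ℝ) : ℝ := 1 / (Real.sin θ * Real.sqrt (1 + Real.sin θ ^ 2)) - 1 / θ

end

end Claimed.Agent.R285.Obs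

/-!
# ROW 285, unit OBS, package GREEN, leaf L-GREEN-TRIG: discrete sine orthogonality      (architect helper271)

PAPER-FREE, Mathlib only.  `sum_cos`: real part of the geometric sum of `ζ = exp (i π m / M)`, `ζ ≠ 1`, `ζ^M = (-1)^m`: `(1 - (-1)^m) / (1 - ζ)`, and `Re (2 / (1 - ζ)) = 1` for `|ζ| = 1`.
(Alternative without complex numbers: multiply by `2 sin (π m / 2M) ≠ 0` and telescope `2 sin (a/2) cos (k a) = sin ((k + 1/2) a) - sin ((k - 1/2) a)`.)
`sum_sin_sin`: `sin A sin B = (cos (A - B) - cos (A + B)) / 2`; `x - y` and `x + y` have the same parity; `0 < x + y < 2M`, `|x - y| < M`.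
-/

set_option autoImplicit false

namespace Claimed.Agent.R285.Obs

open scoped BigOperators
open Filter Topology

noncomputable section

/-- telescoping: `2 sin (a/2) ∑_{k<N} cos (k a) = sin ((N - 1/2) a) + sin (a/2)` -/
theorem sum_cos_aux (a : ℝ) (N : ℕ) :
    2 * Real.sin (a / 2) * ∑ k ∈ Finset.range N, Real.cos (k * a) = Real.sin ((N - 1 / 2) * a) + Real.sin (a / 2) := by
  induction N with
  | zero =>
    simp only [Finset.range_zero, Finset.sum_empty, mul_zero, Nat.cast_zero, zero_sub]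
    rw [show (-(1 / 2) * a : ℝ) = -(a / 2) by ring, Real.sin_neg]
    ring
  | succ N ih =>
    rw [Finset.sum_range_succ, mul_add, ih]
    have h := Real.sin_sub_sin (((N + 1 : ℕ) - 1 / 2 : ℝ) * a) ((N - 1 / 2 : ℝ) * a)
    have e1 : ((((N + 1 : ℕ) - 1 / 2 : ℝ) * a) - ((N - 1 / 2 : ℝ) * a)) / 2 = a / 2 := by
      push_cast
      ring
    have e2 : ((((N + 1 : ℕ) - 1 / 2 : ℝ) * a) + ((N - 1 / 2 : ℝ) * a)) / 2 = N * a := by
      push_cast
      ring
    rw [e1, e2] at h
    linarith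

/-- `∑_{k < M} cos (π k m / M)` for an integer `m` which is not a multiple of `2 M`: `0` for even `m`, `1` for odd `m` -/
theorem sum_cos (M : ℕ) (hM : 0 < M) (m : ℤ) (hm : ¬ (2 * (M : ℤ)) ∣ m) :
    ∑ k ∈ Finset.range M, Real.cos (Real.pi * k * m / M) = if Even m then 0 else 1 := by
  have hM' : (M : ℝ) ≠ 0 := by exact_mod_cast hM.ne'
  set a : ℝ := Real.pi * m / M with ha
  have hsin : Real.sin (a / 2) ≠ 0 := by
    intro h0
    obtain ⟨n, hn⟩ := Real.sin_eq_zero_iff.1 h0
    apply hm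
    refine ⟨n, ?_⟩
    have hpi := Real.pi_ne_zero
    have h1 : (n : ℝ) * Real.pi = Real.pi * m / M / 2 := hn
    have h2 : (m : ℝ) = 2 * M * n := by
      field_simp at h1
      linarith
    exact_mod_cast h2
  have e : ∀ k ∈ Finset.range M, Real.cos (Real.pi * k * m / M) = Real.cos (k * a) := by
    intro k _
    congr 1
    rw [ha]
    ring
  rw [Finset.sum_congr rfl e]
  have h := sum_cos_aux a M
  have e3 : ((M : ℝ) - 1 / 2) * a = m * Real.pi - a / 2 := by
    rw [ha]
    field_simp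
  rw [e3, Real.sin_sub, Real.sin_int_mul_pi, Real.cos_int_mul_pi] at h
  split_ifs with hev
  · rw [hev.neg_one_zpow] at h
    have : 2 * Real.sin (a / 2) * ∑ k ∈ Finset.range M, Real.cos (k * a) = 0 := by linarith
    rcases mul_eq_zero.1 this with h1 | h1
    · exact absurd (by linarith) hsin
    · exact h1
  · rw [(Int.not_even_iff_odd.1 hev).neg_one_zpow] at h
    have : Real.sin (a / 2) * (∑ k ∈ Finset.range M, Real.cos (k * a) - 1) = 0 := by linarith
    rcases mul_eq_zero.1 this with h1 | h1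
    · exact absurd h1 hsin
    · linarith

/-- discrete sine orthogonality -/
theorem sum_sin_sin (M : ℕ) (x y : ℕ) (hx : 0 < x) (hxM : x < M) (hy : 0 < y) (hyM : y < M) :
    ∑ k ∈ Finset.range M, Real.sin (Real.pi * k * x / M) * Real.sin (Real.pi * k * y / M) = if x = y then (M : ℝ) / 2 else 0 := by
  have hM : 0 < M := lt_trans hx hxM
  have e : ∀ k ∈ Finset.range M, Real.sin (Real.pi * k * x / M) * Real.sin (Real.pi * k * y / M)
      = (Real.cos (Real.pi * k * ((x : ℤ) - y : ℤ) / M) - Real.cos (Real.pi * k * ((x : ℤ) + y : ℤ) / M)) / 2 := by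
    intro k _
    have e1 : Real.pi * k * (((x : ℤ) - y : ℤ) : ℝ) / M = Real.pi * k * x / M - Real.pi * k * y / M := by
      push_cast
      ring
    have e2 : Real.pi * k * (((x : ℤ) + y : ℤ) : ℝ) / M = Real.pi * k * x / M + Real.pi * k * y / M := by
      push_cast
      ring
    rw [e1, e2, Real.cos_sub, Real.cos_add]
    ring
  rw [Finset.sum_congr rfl e, ← Finset.sum_div, Finset.sum_sub_distrib]
  have h2 : ¬ (2 * (M : ℤ)) ∣ ((x : ℤ) + y) := by
    intro hd
    have h3 := Int.le_of_dvd (by omega) hd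
    omega
  by_cases hxy : x = y
  · subst hxy
    rw [sum_cos M hM _ h2, if_pos ⟨(x : ℤ), rfl⟩, if_pos rfl]
    simp
  · have h1 : ¬ (2 * (M : ℤ)) ∣ ((x : ℤ) - y) := by
      intro hd
      obtain ⟨c, hc⟩ := hd
      have hne : (x : ℤ) - y ≠ 0 := by omega
      have hc0 : c ≠ 0 := by
        rintro rfl
        simp at hc
        omega
      rcases lt_or_gt_of_ne hc0 with hneg | hpos
      · nlinarith
      · nlinarith
    have hpar : Even ((x : ℤ) - y) ↔ Even ((x : ℤ) + y) := by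
      constructor
      · intro h
        have : (x : ℤ) + y = (x - y) + 2 * y := by ring
        rw [this]
        exact h.add (even_two_mul _)
      · intro h
        have : (x : ℤ) - y = (x + y) - 2 * y := by ring
        rw [this]
        exact h.sub (even_two_mul _)
    rw [sum_cos M hM _ h2, sum_cos M hM _ h1, if_neg hxy]
    simp only [hpar]
    simp

end

end Claimed.Agent.R285.Obs

/-!
# ROW 285, unit OBS, package GREEN, leaf L-GREEN-FN: `gf` solves the killed Poisson equation with a unit source at the centre      (architect helper271)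

PAPER-FREE.  `gf_lap`: termwise, `sin (a (x+1)) + sin (a (x-1)) = 2 cos a sin (a x)` with `a = π k / 2n`, so
`4 F(x,y) - F(x-1,y) - F(x+1,y) - F(x,y-1) - F(x,y+1) = sin (a x) [(4 - 2 cos a) g(y) - g(y-1) - g(y+1)] = sin (a x) [y = n]` by `cosh_al`, `gy_eq` (for `0 < k`; the term `k = 0` is `0`);
then `n⁻¹ ∑_k sin (π k / 2) sin (π k x / 2n) = [x = n]` = `sum_sin_sin (2n) x n` (write `π k / 2 = π k n / (2n)`).
-/

set_option autoImplicit false

namespace Claimed.Agent.R285.Obs

open scoped BigOperators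
open Filter Topology

noncomputable section

theorem al_pos (n k : ℕ) (hk : 0 < k) (hkn : k < 2 * n) : 0 < al n k := by
  have hn : (0 : ℝ) < n := by
    have : 0 < n := by omega
    exact_mod_cast this
  have hk' : (0 : ℝ) < k := by exact_mod_cast hk
  have hkn' : (k : ℝ) < 2 * n := by exact_mod_cast hkn
  have h1 : 0 < Real.pi * k / (4 * n) := by positivity
  have h2 : Real.pi * k / (4 * n) < Real.pi := by
    rw [div_lt_iff₀ (by positivity)]
    have := Real.pi_pos
    nlinarith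
  unfold al
  have := Real.arsinh_pos_iff.2 (Real.sin_pos_of_pos_of_lt_pi h1 h2)
  linarith

/-- `2 cosh α_k = 4 - 2 cos (π k / 2n)` -/
theorem cosh_al (n k : ℕ) (hn : 0 < n) : 2 * Real.cosh (al n k) = 4 - 2 * Real.cos (Real.pi * k / (2 * n)) := by
  unfold al
  rw [Real.cosh_two_mul, Real.cosh_sq, Real.sinh_arsinh,
    show Real.pi * k / (2 * n) = 2 * (Real.pi * k / (4 * n)) by ring, Real.cos_two_mul]
  have := Real.sin_sq_add_cos_sq (Real.pi * k / (4 * n))
  nlinarith

theorem gy_aux (a t : ℝ) : 2 * Real.cosh a * Real.sinh (a * (t + 1)) - Real.sinh (a * t) - Real.sinh (a * (t + 2)) = 0 := by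
  rw [show a * (t + 2) = a * (t + 1) + a by ring, show a * t = a * (t + 1) - a by ring, Real.sinh_add, Real.sinh_sub]
  ring

/-- the 1D resolvent equation: `sinh (a (y+1)) + sinh (a (y-1)) = 2 cosh a sinh (a y)`; at the pole `sinh ((n+1) a) - sinh ((n-1) a) = 2 cosh (n a) sinh a` -/
theorem gy_eq (n : ℕ) (hn : 0 < n) (a : ℝ) (ha : 0 < a) (y : ℕ) (hy : y + 1 < 2 * n) :
    2 * Real.cosh a * gy n a (y + 1) - gy n a y - gy n a (y + 2) = if y + 1 = n then 1 else 0 := by
  have hn' : (0 : ℝ) < n := by exact_mod_cast hn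
  have hs1 : Real.sinh a ≠ 0 := (Real.sinh_pos_iff.2 ha).ne'
  have hs2 : Real.sinh (2 * n * a) ≠ 0 := (Real.sinh_pos_iff.2 (by positivity)).ne'
  have hD : Real.sinh a * Real.sinh (2 * n * a) ≠ 0 := mul_ne_zero hs1 hs2
  unfold gy
  rcases lt_trichotomy (y + 1) n with h | h | h
  · rw [if_neg h.ne, min_eq_left (by omega : y + 1 ≤ n), min_eq_left (by omega : y ≤ n),
      min_eq_left (by omega : y + 2 ≤ n), max_eq_right (by omega : y + 1 ≤ n),
      max_eq_right (by omega : y ≤ n), max_eq_right (by omega : y + 2 ≤ n)]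
    have := gy_aux a y
    push_cast
    rw [← mul_div_assoc, ← sub_div, ← sub_div, div_eq_zero_iff]
    left
    linear_combination Real.sinh (a * ((2 * n - n : ℕ) : ℝ)) * this
  · rw [if_pos h, min_eq_left (by omega : y + 1 ≤ n), min_eq_left (by omega : y ≤ n),
      min_eq_right (by omega : n ≤ y + 2), max_eq_right (by omega : y + 1 ≤ n),
      max_eq_right (by omega : y ≤ n), max_eq_left (by omega : n ≤ y + 2)]
    have e1 : ((2 * n - n : ℕ) : ℝ) = y + 1 := by
      have : 2 * n - n = y + 1 := by omega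
      rw [this]
      push_cast
      ring
    have e2 : ((2 * n - (y + 2) : ℕ) : ℝ) = y := by
      have : 2 * n - (y + 2) = y := by omega
      rw [this]
    have e3 : (n : ℝ) = y + 1 := by
      rw [← h]
      push_cast
      ring
    rw [e1, e2]
    push_cast
    rw [e3]
    rw [e3] at hD
    rw [← mul_div_assoc, ← sub_div, ← sub_div, div_eq_one_iff_eq hD]
    have h1 : Real.sinh (2 * ((y : ℝ) + 1) * a) = 2 * Real.sinh (a * (y + 1)) * Real.cosh (a * (y + 1)) := by
      rw [show 2 * ((y : ℝ) + 1) * a = 2 * (a * (y + 1)) by ring, Real.sinh_two_mul]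
    have h2 : Real.sinh (a * (y : ℝ)) = Real.sinh (a * (y + 1)) * Real.cosh a - Real.cosh (a * (y + 1)) * Real.sinh a := by
      rw [show a * (y : ℝ) = a * (y + 1) - a by ring, Real.sinh_sub]
    rw [h1, h2]
    ring
  · rw [if_neg h.ne', min_eq_right (by omega : n ≤ y + 1), min_eq_right (by omega : n ≤ y),
      min_eq_right (by omega : n ≤ y + 2), max_eq_left (by omega : n ≤ y + 1),
      max_eq_left (by omega : n ≤ y), max_eq_left (by omega : n ≤ y + 2)]
    obtain ⟨z, hz⟩ : ∃ z, 2 * n = y + 2 + z := ⟨2 * n - (y + 2), by omega⟩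
    have e1 : ((2 * n - (y + 1) : ℕ) : ℝ) = z + 1 := by
      have : 2 * n - (y + 1) = z + 1 := by omega
      rw [this]
      push_cast
      ring
    have e2 : ((2 * n - y : ℕ) : ℝ) = z + 2 := by
      have : 2 * n - y = z + 2 := by omega
      rw [this]
      push_cast
      ring
    have e3 : ((2 * n - (y + 2) : ℕ) : ℝ) = z := by
      have : 2 * n - (y + 2) = z := by omega
      rw [this]
    rw [e1, e2, e3]
    have := gy_aux a z
    rw [← mul_div_assoc, ← sub_div, ← sub_div, div_eq_zero_iff]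
    left
    linear_combination Real.sinh (a * (n : ℝ)) * this

theorem gf_zero_left (n y : ℕ) : gf n 0 y = 0 := by
  unfold gf
  simp

theorem gf_right (n y : ℕ) : gf n (2 * n) y = 0 := by
  unfold gf
  rcases Nat.eq_zero_or_pos n with rfl | hn
  · simp
  · have hn' : (n : ℝ) ≠ 0 := by exact_mod_cast hn.ne'
    rw [Finset.sum_eq_zero, mul_zero]
    intro k _
    have : Real.pi * k * ((2 * n : ℕ) : ℝ) / (2 * n) = k * Real.pi := by
      push_cast
      field_simp
    rw [this, Real.sin_nat_mul_pi]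
    ring

theorem gf_zero_bot (n x : ℕ) : gf n x 0 = 0 := by
  unfold gf gy
  simp

theorem gf_top (n x : ℕ) : gf n x (2 * n) = 0 := by
  unfold gf gy
  have : max (2 * n) n = 2 * n := max_eq_left (by omega)
  simp [this]

/-- the killed Poisson equation -/
theorem gf_lap (n : ℕ) (hn : 0 < n) (i j : ℕ) (hi : i + 1 < 2 * n) (hj : j + 1 < 2 * n) :
    4 * gf n (i + 1) (j + 1) - gf n i (j + 1) - gf n (i + 2) (j + 1) - gf n (i + 1) j - gf n (i + 1) (j + 2)
      = if i + 1 = n ∧ j + 1 = n then 1 else 0 := by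
  have hn' : (n : ℝ) ≠ 0 := by exact_mod_cast hn.ne'
  unfold gf
  rw [← mul_assoc, mul_comm 4 (n : ℝ)⁻¹, mul_assoc, ← mul_sub, ← mul_sub, ← mul_sub, ← mul_sub, Finset.mul_sum,
    ← Finset.sum_sub_distrib, ← Finset.sum_sub_distrib, ← Finset.sum_sub_distrib, ← Finset.sum_sub_distrib]
  have key : ∀ k ∈ Finset.range (2 * n),
      4 * (Real.sin (Real.pi * k / 2) * Real.sin (Real.pi * k * ((i + 1 : ℕ) : ℝ) / (2 * n)) * gy n (al n k) (j + 1))
        - Real.sin (Real.pi * k / 2) * Real.sin (Real.pi * k * (i : ℝ) / (2 * n)) * gy n (al n k) (j + 1)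
        - Real.sin (Real.pi * k / 2) * Real.sin (Real.pi * k * ((i + 2 : ℕ) : ℝ) / (2 * n)) * gy n (al n k) (j + 1)
        - Real.sin (Real.pi * k / 2) * Real.sin (Real.pi * k * ((i + 1 : ℕ) : ℝ) / (2 * n)) * gy n (al n k) j
        - Real.sin (Real.pi * k / 2) * Real.sin (Real.pi * k * ((i + 1 : ℕ) : ℝ) / (2 * n)) * gy n (al n k) (j + 2)
      = (if j + 1 = n then 1 else 0) *
        (Real.sin (Real.pi * k * ((i + 1 : ℕ) : ℝ) / ((2 * n : ℕ) : ℝ)) * Real.sin (Real.pi * k * (n : ℝ) / ((2 * n : ℕ) : ℝ))) := by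
    intro k hk
    have hk2 : k < 2 * n := Finset.mem_range.1 hk
    have e0 : Real.pi * k * (n : ℝ) / ((2 * n : ℕ) : ℝ) = Real.pi * k / 2 := by
      push_cast
      field_simp
    rw [e0]
    rcases Nat.eq_zero_or_pos k with rfl | hk0
    · simp
    · set b : ℝ := Real.pi * k / (2 * n) with hb
      have e1 : Real.pi * k * ((i + 1 : ℕ) : ℝ) / (2 * n) = b * (i + 1) := by
        rw [hb]; push_cast; ring
      have e2 : Real.pi * k * (i : ℝ) / (2 * n) = b * (i + 1) - b := by
        rw [hb]; ring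
      have e3 : Real.pi * k * ((i + 2 : ℕ) : ℝ) / (2 * n) = b * (i + 1) + b := by
        rw [hb]; push_cast; ring
      have e4 : Real.pi * k * ((i + 1 : ℕ) : ℝ) / ((2 * n : ℕ) : ℝ) = b * (i + 1) := by
        rw [hb]; push_cast; ring
      rw [e1, e2, e3, e4, Real.sin_sub, Real.sin_add]
      have h1 := cosh_al n k hn
      have h2 := gy_eq n hn (al n k) (al_pos n k hk0 hk2) j hj
      rw [← hb] at h1
      rw [← h2]
      have h3 : Real.cos b = 2 - Real.cosh (al n k) := by linarith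
      rw [h3]
      ring
  rw [Finset.sum_congr rfl key, ← Finset.mul_sum,
    sum_sin_sin (2 * n) (i + 1) n (by omega) hi hn (by omega)]
  by_cases h1 : i + 1 = n <;> by_cases h2 : j + 1 = n <;> simp [h1, h2]
  field_simp

theorem sum_range_two_mul (f : ℕ → ℝ) (n : ℕ) :
    ∑ k ∈ Finset.range (2 * n), f k = ∑ i ∈ Finset.range n, (f (2 * i) + f (2 * i + 1)) := by
  induction n with
  | zero => simp
  | succ n ih =>
    rw [show 2 * (n + 1) = 2 * n + 1 + 1 by ring, Finset.sum_range_succ, Finset.sum_range_succ, ih,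
      Finset.sum_range_succ]
    ring

/-- the value at the pole: only odd `k` contribute; `sinh² (nα) / sinh (2nα) = tanh (nα) / 2` -/
theorem gf_center (n : ℕ) (hn : 0 < n) : gf n n n = tanhSum n := by
  have hn' : (n : ℝ) ≠ 0 := by exact_mod_cast hn.ne'
  have hn0 : (0 : ℝ) < n := by exact_mod_cast hn
  unfold gf tanhSum
  congr 1
  rw [sum_range_two_mul]
  refine Finset.sum_congr rfl fun i hi => ?_
  have hi' : i < n := Finset.mem_range.1 hi
  have e0 : Real.sin (Real.pi * ((2 * i : ℕ) : ℝ) / 2) = 0 := by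
    rw [show Real.pi * ((2 * i : ℕ) : ℝ) / 2 = i * Real.pi by push_cast; ring, Real.sin_nat_mul_pi]
  rw [e0, zero_mul, zero_mul, zero_add]
  have e1 : Real.pi * ((2 * i + 1 : ℕ) : ℝ) * (n : ℝ) / (2 * n) = Real.pi * ((2 * i + 1 : ℕ) : ℝ) / 2 := by
    field_simp
  rw [e1]
  have e2 : Real.sin (Real.pi * ((2 * i + 1 : ℕ) : ℝ) / 2) * Real.sin (Real.pi * ((2 * i + 1 : ℕ) : ℝ) / 2) = 1 := by
    have h1 : Real.cos (Real.pi * ((2 * i + 1 : ℕ) : ℝ) / 2) = 0 := by
      rw [Real.cos_eq_zero_iff]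
      exact ⟨i, by push_cast; ring⟩
    have := Real.sin_sq_add_cos_sq (Real.pi * ((2 * i + 1 : ℕ) : ℝ) / 2)
    rw [h1] at this
    nlinarith
  rw [e2, one_mul]
  set α : ℝ := al n (2 * i + 1) with hα
  have hαpos : 0 < α := al_pos n (2 * i + 1) (by omega) (by omega)
  unfold gy
  rw [min_self, max_self]
  have e3 : ((2 * n - n : ℕ) : ℝ) = n := by
    have : 2 * n - n = n := by omega
    rw [this]
  rw [e3, show 2 * (n : ℝ) * α = 2 * (α * n) by ring, Real.sinh_two_mul, Real.tanh_eq_sinh_div_cosh,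
    show (n : ℝ) * α = α * n by ring]
  have h1 : Real.sinh α ≠ 0 := (Real.sinh_pos_iff.2 hαpos).ne'
  have h2 : Real.sinh (α * n) ≠ 0 := (Real.sinh_pos_iff.2 (by positivity)).ne'
  have h3 : Real.cosh (α * n) ≠ 0 := (Real.cosh_pos _).ne'
  field_simp

end

end Claimed.Agent.R285.Obs

/-!
# ROW 285, unit OBS, package GREEN, leaf L-GREEN-RIEM: odd harmonic sums, midpoint Riemann sums      (architect helper271)

PAPER-FREE, Mathlib only.  `odd_harmonic`: `∑_{i<n} 1/(2i+1) = H_{2n} - H_n / 2`, `Real.tendsto_harmonic_sub_log`; limit `log 2 + γ/2`.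
`midpoint_riemann`: uniform continuity on the compact `[0,1]`; `∫_0^1 = ∑_i ∫_{i/n}^{(i+1)/n}` (`intervalIntegral.sum_integral_adjacent_intervals`);
on a cell `|∫ w - w(mid)/n| ≤ ε/n` (`intervalIntegral.norm_integral_le_of_norm_le_const` for `w - w(mid)`).
-/

set_option autoImplicit false

namespace Claimed.Agent.R285.Obs

open scoped BigOperators
open Filter Topology

noncomputable section

theorem odd_harmonic_aux (n : ℕ) : ((harmonic (2 * n) : ℚ) : ℝ)
    = ∑ i ∈ Finset.range n, 1 / ((2 * i + 1 : ℕ) : ℝ) + ((harmonic n : ℚ) : ℝ) / 2 := by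
  induction n with
  | zero => simp
  | succ n ih =>
    rw [show 2 * (n + 1) = 2 * n + 1 + 1 by ring, harmonic_succ, harmonic_succ, harmonic_succ,
      Finset.sum_range_succ]
    set S := ∑ i ∈ Finset.range n, 1 / ((2 * i + 1 : ℕ) : ℝ) with hS
    push_cast
    rw [ih]
    have h1 : (2 * (n : ℝ) + 1 + 1) ≠ 0 := by positivity
    have h2 : ((n : ℝ) + 1) ≠ 0 := by positivity
    field_simp
    ring

/-- odd harmonic sums -/
theorem odd_harmonic : ∃ c : ℝ,
    Tendsto (fun n : ℕ => ∑ i ∈ Finset.range n, 1 / ((2 * i + 1 : ℕ) : ℝ) - Real.log n / 2) atTop (𝓝 c) := by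
  refine ⟨Real.eulerMascheroniConstant - Real.eulerMascheroniConstant / 2 + Real.log 2, ?_⟩
  have h := Real.tendsto_harmonic_sub_log
  have h2 : Tendsto (fun n : ℕ => 2 * n) atTop atTop :=
    tendsto_id.const_mul_atTop' (by norm_num)
  have h3 := ((h.comp h2).sub (h.div_const 2)).add_const (Real.log 2)
  refine h3.congr' ?_
  filter_upwards [eventually_gt_atTop 0] with n hn
  have hn' : (n : ℝ) ≠ 0 := by exact_mod_cast hn.ne'
  simp only [Function.comp]
  rw [odd_harmonic_aux]
  push_cast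
  rw [Real.log_mul (by norm_num) hn']
  ring

/-- midpoint Riemann sums of a continuous function -/
theorem midpoint_riemann (w : ℝ → ℝ) (hw : ContinuousOn w (Set.Icc 0 1)) :
    Tendsto (fun n : ℕ => (n : ℝ)⁻¹ * ∑ i ∈ Finset.range n, w (((2 * i + 1 : ℕ) : ℝ) / (2 * n))) atTop (𝓝 (∫ x in (0 : ℝ)..1, w x)) := by
  rw [Metric.tendsto_atTop]
  intro ε hε
  have huc : UniformContinuousOn w (Set.Icc 0 1) := isCompact_Icc.uniformContinuousOn_of_continuous hw
  obtain ⟨δ, hδ, hδw⟩ := Metric.uniformContinuousOn_iff.1 huc (ε / 2) (half_pos hε)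
  obtain ⟨N, hN⟩ := exists_nat_gt (1 / δ)
  refine ⟨N + 1, fun n hn => ?_⟩
  have hn0 : 0 < n := by omega
  have hnR : (0 : ℝ) < n := by exact_mod_cast hn0
  have hnδ : 1 / (n : ℝ) < δ := by
    have h1 : 1 / δ < n := lt_of_lt_of_le hN (by exact_mod_cast (by omega : N ≤ n))
    rw [div_lt_iff₀ hnR]
    rw [div_lt_iff₀ hδ] at h1
    linarith
  set a : ℕ → ℝ := fun i => (i : ℝ) / n with ha
  have hcell : ∀ i < n, Set.uIcc (a i) (a (i + 1)) ⊆ Set.Icc 0 1 := by
    intro i hi
    have h1 : a i ≤ a (i + 1) := by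
      simp only [ha]
      push_cast
      gcongr
      linarith
    rw [Set.uIcc_of_le h1]
    refine Set.Icc_subset_Icc (by positivity) ?_
    simp only [ha]
    rw [div_le_one hnR]
    exact_mod_cast hi
  have hint : ∀ i < n, IntervalIntegrable w MeasureTheory.volume (a i) (a (i + 1)) := fun i hi =>
    (hw.mono (hcell i hi)).intervalIntegrable
  have hsum := intervalIntegral.sum_integral_adjacent_intervals hint
  have ha0 : a 0 = 0 := by simp [ha]
  have han : a n = 1 := by simp only [ha]; exact div_self hnR.ne'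
  rw [ha0, han] at hsum
  rw [← hsum, Finset.mul_sum, dist_eq_norm, ← Finset.sum_sub_distrib]
  have hterm : ∀ i ∈ Finset.range n,
      ‖(n : ℝ)⁻¹ * w (((2 * i + 1 : ℕ) : ℝ) / (2 * n)) - ∫ x in a i..a (i + 1), w x‖ ≤ ε / 2 * (n : ℝ)⁻¹ := by
    intro i hi
    have hi' : i < n := Finset.mem_range.1 hi
    set c : ℝ := w (((2 * i + 1 : ℕ) : ℝ) / (2 * n)) with hc
    have hlen : a (i + 1) - a i = (n : ℝ)⁻¹ := by
      simp only [ha]
      push_cast
      field_simp
      ring
    have e1 : (n : ℝ)⁻¹ * c - ∫ x in a i..a (i + 1), w x = -∫ x in a i..a (i + 1), (w x - c) := by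
      rw [intervalIntegral.integral_sub (hint i hi') intervalIntegrable_const, intervalIntegral.integral_const,
        hlen, smul_eq_mul]
      ring
    rw [e1, norm_neg]
    have hle : a i ≤ a (i + 1) := by linarith [inv_pos.2 hnR]
    have hb := intervalIntegral.norm_integral_le_of_norm_le_const (a := a i) (b := a (i + 1))
      (f := fun x => w x - c) (C := ε / 2) ?_
    · rwa [hlen, abs_of_pos (inv_pos.2 hnR)] at hb
    · intro x hx
      rw [Set.uIoc_of_le hle] at hx
      have hxI : x ∈ Set.Icc (0 : ℝ) 1 := hcell i hi' (by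
        rw [Set.uIcc_of_le hle]
        exact ⟨hx.1.le, hx.2⟩)
      have hmid1 : a i ≤ ((2 * i + 1 : ℕ) : ℝ) / (2 * n) := by
        simp only [ha]
        rw [div_le_div_iff₀ hnR (by positivity)]
        push_cast
        nlinarith
      have hmid2 : ((2 * i + 1 : ℕ) : ℝ) / (2 * n) ≤ a (i + 1) := by
        simp only [ha]
        rw [div_le_div_iff₀ (by positivity) hnR]
        push_cast
        nlinarith
      have hmI : ((2 * i + 1 : ℕ) : ℝ) / (2 * n) ∈ Set.Icc (0 : ℝ) 1 := hcell i hi' (by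
        rw [Set.uIcc_of_le hle]
        exact ⟨hmid1, hmid2⟩)
      have hd : dist x (((2 * i + 1 : ℕ) : ℝ) / (2 * n)) < δ := by
        rw [Real.dist_eq, abs_lt]
        have : a (i + 1) - a i < δ := by
          rw [hlen, ← one_div]
          exact hnδ
        constructor <;> linarith [hx.1, hx.2]
      have := hδw x hxI _ hmI hd
      rw [dist_eq_norm] at this
      exact this.le
  calc ‖∑ i ∈ Finset.range n, ((n : ℝ)⁻¹ * w (((2 * i + 1 : ℕ) : ℝ) / (2 * n)) - ∫ x in a i..a (i + 1), w x)‖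
      ≤ ∑ i ∈ Finset.range n, ‖(n : ℝ)⁻¹ * w (((2 * i + 1 : ℕ) : ℝ) / (2 * n)) - ∫ x in a i..a (i + 1), w x‖ :=
        norm_sum_le _ _
    _ ≤ ∑ i ∈ Finset.range n, ε / 2 * (n : ℝ)⁻¹ := Finset.sum_le_sum hterm
    _ = ε / 2 := by
        rw [Finset.sum_const, Finset.card_range, nsmul_eq_mul]
        field_simp
    _ < ε := half_lt_self hε

end

end Claimed.Agent.R285.Obs

/-!
# ROW 285, unit OBS, package GREEN, leaf L-GREEN-MAIN: the main sum      (architect helper271)

PAPER-FREE.  `θ_i = π (2i+1) / (4n)` = midpoints of the `n` cells of `[0, π/2]`;  `sinh α = 2 sin θ √(1 + sin² θ)` (`sinh (2x) = 2 sinh x cosh x`, `cosh (arsinh s) = √(1 + s²)`).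
`n⁻¹ ∑_{i<n} 1 / (2 sinh α_i) = n⁻¹ ∑ (1/4) (uu θ_i + 1/θ_i) = (1/4) n⁻¹ ∑ uu θ_i + (1/π) ∑_{i<n} 1/(2i+1)`;
`midpoint_riemann` for `w x = uu (π x / 2)`, `odd_harmonic`.   `uu 0 = 0` in Lean (`1/0 = 0`), continuity at `0` from `uu_bound`.
`uu_bound`: `uu θ = (θ - sin θ √(1 + sin² θ)) / (θ sin θ √(..))`, `|θ - sin θ| ≤ θ³` (e.g. `Real.sin_gt_sub_cube` for `θ ≤ 1`, or crude bounds), `0 ≤ √(1 + s²) - 1 ≤ s²/2`, `sin θ ≥ 2θ/π` (`Real.mul_le_sin`).
-/

set_option autoImplicit false

namespace Claimed.Agent.R285.Obs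

open scoped BigOperators
open Filter Topology

noncomputable section

theorem uu_zero : uu 0 = 0 := by
  simp [uu]

theorem uu_bound_aux {θ : ℝ} (h0 : 0 < θ) (h1 : θ ≤ Real.pi / 2) : |uu θ| ≤ Real.pi / 2 * θ := by
  set t : ℝ := Real.sin θ with ht
  set r : ℝ := Real.sqrt (1 + t ^ 2) with hr
  have hpi := Real.pi_pos
  have hjor : 2 / Real.pi * θ ≤ t := Real.mul_le_sin h0.le h1
  have htpos : 0 < t := lt_of_lt_of_le (by positivity) hjor
  have htle : t ≤ θ := Real.sin_le h0.le
  have hr1 : 1 ≤ r := Real.one_le_sqrt.2 (by nlinarith [sq_nonneg t])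
  have hr2 : r ≤ 1 + t ^ 2 / 2 := by
    rw [hr, Real.sqrt_le_iff]
    constructor
    · positivity
    · nlinarith [sq_nonneg (t ^ 2)]
  have hcube : θ - t ≤ θ ^ 3 := by
    have := Real.sin_gt_sub_cube h0
    have h3 : 0 ≤ θ ^ 3 := by positivity
    rw [← ht] at this
    linarith
  have ht3 : t ^ 3 ≤ θ ^ 3 := pow_le_pow_left₀ htpos.le htle 3
  have hnum : |θ - t * r| ≤ θ ^ 3 := by
    rw [abs_le]
    constructor
    · have : t * r ≤ t * (1 + t ^ 2 / 2) := mul_le_mul_of_nonneg_left hr2 htpos.le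
      have h3 : 0 ≤ t ^ 3 := by positivity
      nlinarith
    · have : t * 1 ≤ t * r := mul_le_mul_of_nonneg_left hr1 htpos.le
      linarith
  have hden : 0 < θ * (t * r) := by positivity
  have e : uu θ = (θ - t * r) / (θ * (t * r)) := by
    unfold uu
    rw [← ht, ← hr]
    have h2 : t * r ≠ 0 := by positivity
    field_simp
  rw [e, abs_div, abs_of_pos hden, div_le_iff₀ hden]
  refine hnum.trans ?_
  have h4 : θ ≤ Real.pi / 2 * t := by
    have := mul_le_mul_of_nonneg_left hjor (by positivity : (0 : ℝ) ≤ Real.pi / 2)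
    have e2 : Real.pi / 2 * (2 / Real.pi * θ) = θ := by field_simp
    linarith
  have h5 : θ ≤ Real.pi / 2 * (t * r) := by
    have : t * 1 ≤ t * r := mul_le_mul_of_nonneg_left hr1 htpos.le
    nlinarith
  calc θ ^ 3 = θ ^ 2 * θ := by ring
    _ ≤ θ ^ 2 * (Real.pi / 2 * (t * r)) := mul_le_mul_of_nonneg_left h5 (by positivity)
    _ = Real.pi / 2 * θ * (θ * (t * r)) := by ring

/-- `|θ - sin θ √(1 + sin² θ)| ≤ θ³`, `sin θ ≥ 2θ/π` -/
theorem uu_bound : ∃ C : ℝ, ∀ θ ∈ Set.Icc (0 : ℝ) (Real.pi / 2), |uu θ| ≤ C * θ := by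
  refine ⟨Real.pi / 2, fun θ hθ => ?_⟩
  rcases hθ.1.eq_or_lt with h | h
  · rw [← h, uu_zero]
    simp
  · exact uu_bound_aux h hθ.2

theorem uu_continuousOn : ContinuousOn uu (Set.Icc 0 (Real.pi / 2)) := by
  intro θ hθ
  rcases hθ.1.eq_or_lt with h | h
  · rw [← h]
    unfold ContinuousWithinAt
    rw [uu_zero]
    refine squeeze_zero_norm' (a := fun x => Real.pi / 2 * x) ?_ ?_
    · filter_upwards [self_mem_nhdsWithin] with x hx
      rcases hx.1.eq_or_lt with h' | h'
      · rw [← h', uu_zero]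
        simp
      · exact uu_bound_aux h' hx.2
    · have : Tendsto (fun x : ℝ => Real.pi / 2 * x) (𝓝 0) (𝓝 (Real.pi / 2 * 0)) :=
        (continuous_const.mul continuous_id).tendsto 0
      rw [mul_zero] at this
      exact this.mono_left nhdsWithin_le_nhds
  · have hpi := Real.pi_pos
    have hs : 0 < Real.sin θ := Real.sin_pos_of_pos_of_lt_pi h (by linarith [hθ.2])
    have hq : 0 < Real.sqrt (1 + Real.sin θ ^ 2) := Real.sqrt_pos.2 (by positivity)
    have : ContinuousAt uu θ := by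
      unfold uu
      refine ContinuousAt.sub (ContinuousAt.div continuousAt_const ?_ (mul_pos hs hq).ne')
        (continuousAt_const.div continuousAt_id h.ne')
      exact (Real.continuous_sin.mul
        (Real.continuous_sqrt.comp (continuous_const.add (Real.continuous_sin.pow 2)))).continuousAt
    exact this.continuousWithinAt

/-- `sinh α = 2 sin θ √(1 + sin² θ)` -/
theorem sinh_al (n k : ℕ) : Real.sinh (al n k)
    = 2 * Real.sin (Real.pi * k / (4 * n)) * Real.sqrt (1 + Real.sin (Real.pi * k / (4 * n)) ^ 2) := by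
  unfold al
  rw [Real.sinh_two_mul, Real.sinh_arsinh, Real.cosh_arsinh]

/-- the main sum -/
theorem main_sum : ∃ c : ℝ, Tendsto (fun n : ℕ =>
    (n : ℝ)⁻¹ * ∑ i ∈ Finset.range n, 1 / (2 * Real.sinh (al n (2 * i + 1))) - Real.log n / (2 * Real.pi)) atTop (𝓝 c) := by
  obtain ⟨c₀, hc₀⟩ := odd_harmonic
  have hpi := Real.pi_pos
  have hw : ContinuousOn (fun x : ℝ => uu (Real.pi * x / 2)) (Set.Icc 0 1) := by
    refine uu_continuousOn.comp (by fun_prop) fun x hx => ⟨?_, ?_⟩
    · have := hx.1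
      positivity
    · have := hx.2
      nlinarith
  have h1 := midpoint_riemann _ hw
  refine ⟨1 / 4 * (∫ x in (0 : ℝ)..1, uu (Real.pi * x / 2)) + 1 / Real.pi * c₀, ?_⟩
  refine ((h1.const_mul (1 / 4)).add (hc₀.const_mul (1 / Real.pi))).congr' ?_
  filter_upwards [eventually_gt_atTop 0] with n hn
  have hn' : (0 : ℝ) < n := by exact_mod_cast hn
  have key : ∀ i ∈ Finset.range n, 1 / (2 * Real.sinh (al n (2 * i + 1)))
      = 1 / 4 * uu (Real.pi * (((2 * i + 1 : ℕ) : ℝ) / (2 * n)) / 2)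
        + (n : ℝ) * (1 / Real.pi * (1 / ((2 * i + 1 : ℕ) : ℝ))) := by
    intro i _
    rw [sinh_al]
    have e : Real.pi * (((2 * i + 1 : ℕ) : ℝ) / (2 * n)) / 2 = Real.pi * ((2 * i + 1 : ℕ) : ℝ) / (4 * n) := by
      field_simp
      ring
    rw [e]
    set θ : ℝ := Real.pi * ((2 * i + 1 : ℕ) : ℝ) / (4 * n) with hθ
    have hk : (0 : ℝ) < ((2 * i + 1 : ℕ) : ℝ) := by positivity
    have e2 : (n : ℝ) * (1 / Real.pi * (1 / ((2 * i + 1 : ℕ) : ℝ))) = 1 / 4 * (1 / θ) := by
      rw [hθ]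
      field_simp
    rw [e2]
    unfold uu
    rw [mul_sub, sub_add_cancel, one_div, one_div, one_div, ← mul_inv]
    congr 1
    ring
  rw [Finset.sum_congr rfl key, Finset.sum_add_distrib, ← Finset.mul_sum, ← Finset.mul_sum, ← Finset.mul_sum]
  field_simp
  ring

end

end Claimed.Agent.R285.Obs

/-!
# ROW 285, unit OBS, package GREEN, leaf L-GREEN-TAIL: the exponentially small sum      (architect helper271)

PAPER-FREE.  Tannery = `tendsto_tsum_of_dominated_convergence` for `f n i = [i < n] (1 - tanh (n α_i)) / (2 n sinh α_i)`, `α_i = al n (2i+1)`: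
`α_i ≥ (2i+1)/(2n)` (`al_lower`), `sinh α ≥ α`, `1 - tanh x ≤ 2 e^{-2x}`, so `0 ≤ f n i ≤ 2 e^{-(2i+1)}`; termwise limit `(1 - tanh (π k / 2)) / (π k)`, `k = 2i+1`.
`al_limit`: `arsinh ∘ sin` has derivative `1` at `0`.
-/

set_option autoImplicit false

namespace Claimed.Agent.R285.Obs

open scoped BigOperators
open Filter Topology

noncomputable section

theorem half_le_arsinh {t : ℝ} (h0 : 0 ≤ t) (h1 : t ≤ 1) : t / 2 ≤ Real.arsinh t := by
  have h2 : 1 + t ≤ t + Real.sqrt (1 + t ^ 2) := by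
    have : 1 ≤ Real.sqrt (1 + t ^ 2) := Real.one_le_sqrt.2 (by nlinarith [sq_nonneg t])
    linarith
  have h3 : Real.log (1 + t) ≤ Real.arsinh t := Real.log_le_log (by linarith) h2
  have h4 := Real.one_sub_inv_le_log_of_pos (by linarith : (0 : ℝ) < 1 + t)
  have h5 : t / 2 ≤ 1 - (1 + t)⁻¹ := by
    have hp : (0 : ℝ) < 1 + t := by linarith
    rw [div_le_iff₀ (by norm_num : (0 : ℝ) < 2), sub_mul, le_sub_iff_add_le, ← le_sub_iff_add_le', inv_mul_le_iff₀ hp]
    nlinarith
  linarith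

/-- `arsinh s ≥ s / 2` on `[0, 1]` and Jordan's inequality -/
theorem al_lower (n k : ℕ) (hn : 0 < n) (hk : k ≤ 2 * n) : (k : ℝ) / (2 * n) ≤ al n k := by
  have hn' : (0 : ℝ) < n := by exact_mod_cast hn
  have hk' : (k : ℝ) ≤ 2 * n := by exact_mod_cast hk
  have hpi := Real.pi_pos
  have hθ0 : 0 ≤ Real.pi * k / (4 * n) := by positivity
  have hθ1 : Real.pi * k / (4 * n) ≤ Real.pi / 2 := by
    rw [div_le_div_iff₀ (by positivity) (by norm_num)]
    nlinarith
  have hjor := Real.mul_le_sin hθ0 hθ1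
  have e : 2 / Real.pi * (Real.pi * k / (4 * n)) = (k : ℝ) / (2 * n) := by
    field_simp
    ring
  rw [e] at hjor
  have h0 : 0 ≤ (k : ℝ) / (2 * n) := by positivity
  have h1 : (k : ℝ) / (2 * n) ≤ 1 := by
    rw [div_le_one (by positivity)]
    exact hk'
  have h2 := half_le_arsinh h0 h1
  have h3 := Real.arsinh_le_arsinh.2 hjor
  unfold al
  linarith

theorem tendsto_nat_mul_of_hasDerivAt {g : ℝ → ℝ} {d : ℝ} (hg : HasDerivAt g d 0) (h0 : g 0 = 0) (c : ℝ) :
    Tendsto (fun n : ℕ => (n : ℝ) * g (c / n)) atTop (𝓝 (d * c)) := by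
  rcases eq_or_ne c 0 with rfl | hc
  · simp [h0]
  · have h1 := hg.tendsto_slope_zero
    have h2 : Tendsto (fun n : ℕ => c / (n : ℝ)) atTop (𝓝[≠] 0) := by
      refine tendsto_nhdsWithin_iff.2 ⟨tendsto_const_div_atTop_nhds_zero_nat c, ?_⟩
      filter_upwards [eventually_gt_atTop 0] with n hn
      have : (n : ℝ) ≠ 0 := by exact_mod_cast hn.ne'
      exact div_ne_zero hc this
    have h3 := (h1.comp h2).mul_const c
    refine h3.congr' ?_
    filter_upwards [eventually_gt_atTop 0] with n hn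
    have hn' : (n : ℝ) ≠ 0 := by exact_mod_cast hn.ne'
    simp only [Function.comp, zero_add, h0, sub_zero, smul_eq_mul]
    field_simp

theorem hasDerivAt_arsinh_sin : HasDerivAt (fun x : ℝ => Real.arsinh (Real.sin x)) 1 0 := by
  have h := (Real.hasDerivAt_arsinh (Real.sin 0)).comp 0 (Real.hasDerivAt_sin 0)
  have e : (Real.sqrt (1 + Real.sin 0 ^ 2))⁻¹ * Real.cos 0 = 1 := by simp
  rw [e] at h
  exact h

theorem continuous_tanh_aux : Continuous Real.tanh := by
  have : Real.tanh = fun x => Real.sinh x / Real.cosh x := funext Real.tanh_eq_sinh_div_cosh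
  rw [this]
  exact Real.continuous_sinh.div Real.continuous_cosh fun x => (Real.cosh_pos x).ne'

/-- `n α_k → π k / 2` -/
theorem al_limit (k : ℕ) : Tendsto (fun n : ℕ => (n : ℝ) * al n k) atTop (𝓝 (Real.pi * k / 2)) := by
  have h := (tendsto_nat_mul_of_hasDerivAt hasDerivAt_arsinh_sin (by simp) (Real.pi * k / 4)).const_mul 2
  have e : 2 * (1 * (Real.pi * k / 4)) = Real.pi * k / 2 := by ring
  rw [e] at h
  refine h.congr fun n => ?_
  unfold al
  rw [show Real.pi * k / 4 / (n : ℝ) = Real.pi * k / (4 * n) by rw [div_div]]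
  ring

/-- `n sinh α_k → π k / 2` -/
theorem sinh_al_limit (k : ℕ) : Tendsto (fun n : ℕ => (n : ℝ) * Real.sinh (al n k)) atTop (𝓝 (Real.pi * k / 2)) := by
  have hd : HasDerivAt (fun x : ℝ => Real.sinh (2 * Real.arsinh (Real.sin x))) 2 0 := by
    have h1 := hasDerivAt_arsinh_sin.const_mul 2
    have h2 := (Real.hasDerivAt_sinh (2 * Real.arsinh (Real.sin 0))).comp 0 h1
    have e : Real.cosh (2 * Real.arsinh (Real.sin 0)) * (2 * 1) = 2 := by simp
    rw [e] at h2
    exact h2
  have h := tendsto_nat_mul_of_hasDerivAt hd (by simp) (Real.pi * k / 4)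
  have e : 2 * (Real.pi * k / 4) = Real.pi * k / 2 := by ring
  rw [e] at h
  refine h.congr fun n => ?_
  unfold al
  rw [show Real.pi * k / 4 / (n : ℝ) = Real.pi * k / (4 * n) by rw [div_div]]

theorem one_sub_tanh_le (x : ℝ) : 1 - Real.tanh x ≤ 2 * Real.exp (-(2 * x)) := by
  have hc : 0 < Real.cosh x := Real.cosh_pos x
  have e : 1 - Real.tanh x = Real.exp (-x) / Real.cosh x := by
    rw [Real.tanh_eq_sinh_div_cosh, ← Real.cosh_sub_sinh]
    field_simp
  rw [e, div_le_iff₀ hc, Real.cosh_eq]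
  have h1 : Real.exp (-(2 * x)) * Real.exp x = Real.exp (-x) := by
    rw [← Real.exp_add]
    congr 1
    ring
  have h2 : 0 < Real.exp (-(2 * x)) * Real.exp (-x) := by positivity
  nlinarith

/-- the exponentially small sum (Tannery) -/
theorem tail_sum : ∃ c : ℝ, Tendsto (fun n : ℕ =>
    (n : ℝ)⁻¹ * ∑ i ∈ Finset.range n, (1 - Real.tanh (n * al n (2 * i + 1))) / (2 * Real.sinh (al n (2 * i + 1)))) atTop (𝓝 c) := by
  set f : ℕ → ℕ → ℝ := fun n i => if i < n then
    (1 - Real.tanh (n * al n (2 * i + 1))) / (2 * ((n : ℝ) * Real.sinh (al n (2 * i + 1)))) else 0 with hf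
  set g : ℕ → ℝ := fun i => (1 - Real.tanh (Real.pi * ((2 * i + 1 : ℕ) : ℝ) / 2)) / (2 * (Real.pi * ((2 * i + 1 : ℕ) : ℝ) / 2))
    with hg
  set bound : ℕ → ℝ := fun i => 2 * Real.exp (-1) * Real.exp (-2) ^ i with hbound
  have hsum : Summable bound :=
    (summable_geometric_of_lt_one (Real.exp_pos _).le (by rw [Real.exp_lt_one_iff]; norm_num)).mul_left _
  have hlim : ∀ i, Tendsto (fun n => f n i) atTop (𝓝 (g i)) := by
    intro i
    have h1 := al_limit (2 * i + 1)
    have h2 := sinh_al_limit (2 * i + 1)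
    have hne : 2 * (Real.pi * ((2 * i + 1 : ℕ) : ℝ) / 2) ≠ 0 := by
      have := Real.pi_pos
      positivity
    have h3 : Tendsto (fun n : ℕ => (1 - Real.tanh (n * al n (2 * i + 1))) / (2 * ((n : ℝ) * Real.sinh (al n (2 * i + 1)))))
        atTop (𝓝 (g i)) :=
      (tendsto_const_nhds.sub ((continuous_tanh_aux.tendsto _).comp h1)).div (h2.const_mul 2) hne
    refine h3.congr' ?_
    filter_upwards [eventually_gt_atTop i] with n hn
    simp only [hf, if_pos hn]
  have hbd : ∀ᶠ n in atTop, ∀ i, ‖f n i‖ ≤ bound i := by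
    refine Eventually.of_forall fun n i => ?_
    simp only [hf]
    split_ifs with hin
    · have hn : 0 < n := by omega
      have hn' : (0 : ℝ) < n := by exact_mod_cast hn
      set α : ℝ := al n (2 * i + 1) with hα
      have hlow : ((2 * i + 1 : ℕ) : ℝ) / (2 * n) ≤ α := al_lower n (2 * i + 1) hn (by omega)
      have hk1 : (1 : ℝ) ≤ ((2 * i + 1 : ℕ) : ℝ) := by
        push_cast
        have : (0 : ℝ) ≤ i := Nat.cast_nonneg i
        linarith
      have hαpos : 0 < α := lt_of_lt_of_le (by positivity) hlow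
      have hnα : ((2 * i + 1 : ℕ) : ℝ) / 2 ≤ n * α := by
        have := mul_le_mul_of_nonneg_left hlow hn'.le
        have e : (n : ℝ) * (((2 * i + 1 : ℕ) : ℝ) / (2 * n)) = ((2 * i + 1 : ℕ) : ℝ) / 2 := by field_simp
        linarith
      have hsinh : α ≤ Real.sinh α := Real.self_le_sinh_iff.2 hαpos.le
      have hden : 1 ≤ 2 * ((n : ℝ) * Real.sinh α) := by
        have := mul_le_mul_of_nonneg_left hsinh hn'.le
        linarith
      have hnum0 : 0 ≤ 1 - Real.tanh (n * α) := by
        have := Real.tanh_lt_one (n * α)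
        linarith
      have hnum : 1 - Real.tanh (n * α) ≤ bound i := by
        refine (one_sub_tanh_le _).trans ?_
        simp only [hbound]
        rw [mul_assoc, ← Real.exp_nat_mul, ← Real.exp_add]
        refine mul_le_mul_of_nonneg_left (Real.exp_le_exp.2 ?_) (by norm_num)
        push_cast at hnα
        linarith
      rw [Real.norm_eq_abs, abs_of_nonneg (div_nonneg hnum0 (by linarith))]
      exact (div_le_self hnum0 hden).trans hnum
    · simp only [norm_zero, hbound]
      positivity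
  refine ⟨∑' i, g i, ?_⟩
  refine (tendsto_tsum_of_dominated_convergence hsum hlim hbd).congr fun n => ?_
  rw [tsum_eq_sum (s := Finset.range n) (fun i hi => by
    simp only [hf]
    rw [if_neg (by simpa using hi)]), Finset.mul_sum]
  refine Finset.sum_congr rfl fun i hi => ?_
  simp only [hf, if_pos (Finset.mem_range.1 hi)]
  rw [div_eq_mul_inv, div_eq_mul_inv, mul_inv, mul_inv, mul_inv]
  ring

end

end Claimed.Agent.R285.Obs

/-!
# ROW 285, unit OBS, package GREEN: `tanhSum n - log n / (2π)` converges      (architect helper271)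
`tanhSum n = n⁻¹ ∑_{i<n} 1 / (2 sinh α_i)  -  n⁻¹ ∑_{i<n} (1 - tanh (n α_i)) / (2 sinh α_i)`.
-/

set_option autoImplicit false

namespace Claimed.Agent.R285.Obs

open scoped BigOperators
open Filter Topology

noncomputable section

/-- **the asymptotics of the Green function at the centre** -/
theorem tanhSum_asymp : ∃ c : ℝ, Tendsto (fun n : ℕ => tanhSum n - Real.log n / (2 * Real.pi)) atTop (𝓝 c) := by
  obtain ⟨c1, h1⟩ := main_sum
  obtain ⟨c2, h2⟩ := tail_sum
  refine ⟨c1 - c2, (h1.sub h2).congr fun n => ?_⟩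
  unfold tanhSum
  have : ∀ i ∈ Finset.range n, Real.tanh (n * al n (2 * i + 1)) / (2 * Real.sinh (al n (2 * i + 1)))
      = 1 / (2 * Real.sinh (al n (2 * i + 1))) - (1 - Real.tanh (n * al n (2 * i + 1))) / (2 * Real.sinh (al n (2 * i + 1))) := by
    intro i _
    ring
  rw [Finset.sum_congr rfl this, Finset.sum_sub_distrib]
  ring

end

end Claimed.Agent.R285.Obs

/-!
# ROW 285, unit OBS, package GREEN, assembly: [F] (obs:green-constant) along ALL integers      (architect helper271)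
-/

set_option autoImplicit false

namespace Claimed.Agent.R285.Obs

open Filter Topology

/-- `g_n = 4π² G_n (0,0)` in closed form -/
theorem unitEnergy_tanhSum (n : ℕ) (hn : 0 < n) : Glue.unitEnergy n = 4 * Real.pi ^ 2 * tanhSum n := by
  rw [← gf_center n hn]
  exact unitEnergy_eq n hn (gf n) (gf_zero_left n) (gf_right n) (gf_zero_bot n) (gf_top n) (gf_lap n hn)

/-- **(obs:green-constant)** along ALL integers -/
theorem green_constant_all : ∃ cG : ℝ,
    Tendsto (fun n : ℕ => Glue.unitEnergy n - 2 * Real.pi * Real.log n) atTop (𝓝 cG) := by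
  obtain ⟨c, hc⟩ := tanhSum_asymp
  refine ⟨4 * Real.pi ^ 2 * c, ?_⟩
  have h := hc.const_mul (4 * Real.pi ^ 2)
  refine h.congr' ?_
  filter_upwards [eventually_gt_atTop 0] with n hn
  rw [unitEnergy_tanhSum n hn]
  have hpi := Real.pi_ne_zero
  field_simp
  ring

/-- the statement of `Glue.green_constant` -/
theorem green_constant (L : ℕ) (hL : 2 ≤ L) : ∃ cG : ℝ,
    Tendsto (fun N : ℕ => Glue.unitEnergy (L ^ N) - 2 * Real.pi * Real.log L * N) atTop (𝓝 cG) := by
  obtain ⟨cG, h⟩ := green_constant_all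
  refine ⟨cG, ?_⟩
  have h1 : Tendsto (fun N : ℕ => L ^ N) atTop atTop := tendsto_pow_atTop_atTop_of_one_lt (by omega)
  refine (h.comp h1).congr fun N => ?_
  simp only [Function.comp]
  rw [Nat.cast_pow, Real.log_pow]
  ring

end Claimed.Agent.R285.Obs
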