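import Claimed.Agent.R285.Glue.WireDefs
import Claimed.Agent.R285.Base.Flow
import Claimed.Agent.R285.Asm.RawSys
import Claimed.Agent.R285.Obs.Green
import Claimed.Agent.R285.Read.F23

/-!
# ROW 285, unit OBS: the export of [F] Proposition 6.1 as an inequality between SEQUENCES, and its consequence `Consec`      (owner helper271)
(merged 15:40Z from CenterDefs, CenterFlow, Rough, CenterSeq: file budget)

## 1. Definitions (no sorry)
`StepIneq` is P6.1 for ONE observation side, CONDITIONAL on bounds of the plane history, which enters only through three real sequences (stage `k` = absolute index `j0 + k`):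
`u k` = norm of the plane state, `r k` = norm of the UNBALANCED plane remainder `𝓡`, `t k` = the unbalanced gradient coefficient.
It is instantiated in raw coordinates (`RawCenterOK`, against `Asm.RawSys`) and in normal coordinates (`CenterOK`, against `Flow.Hist`).
`SeqDyn` is what is needed from the dynamics ([F] L5.5, P5.1).
## 2. `center_rough_proof : Rough L` (PROVED from `F23.center_rough`, `F23.centerMag_pos`, `Obs.green_constant`)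
## 3. Leaf L-OBS-SEQ: `center_seq : StepIneq + SeqDyn + Rough ⟹ Consec` (the statement of `Glue.center_consecutive`)
PAPER-FREE: pure analysis of sequences.  Choice `d_N = ⌈log_L N / 20⌉`, `D_N = L^{d_N} ∈ [N^{1/20}, L N^{1/20}]`, stop `j' = N - d_N`, `i = j' - j0 N`, `t_N := t N i`,
`ε_N :=` the left-hand side of `StepIneq` without the absolute value (and `0` for the finitely many bad `N`).  Then, for large `N`:
* `ν := κo.C cvl = O(1/N)`: split the convolution at `j0 + k = N/2`: late part `≤ (A/N) / (1 - θ)` (`late`), early part `≤ θ^{j' - N/2} ct / (1 - θ)` (`tube`), entry term `θ^i ε`;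
* `ν2 := κo.C r N i = O(1/N²)` (`late`), so `D⁴ν² + ν/D + D²ν2 = O(N^{-21/20})`: summable (`Real.summable_nat_rpow_inv` or comparison with `N^{-(1 + 1/20)}`);
* `lab := Ce s^{Ce} θ^i D² exp (κo.C ∑_{k<i} cvl)`: `∑_{k<i} cvl u k ≤ (ε + ∑_{k<i} u k) / (1 - θ)`, `∑_{k<i} u k ≤ δ N ct + η N` (`tube` below `δN`, `vanish` above), `i ≥ N (1 - δ)`
  (`entry` + `side`: `j0 N = O(log N)`), so `lab ≤ e^{-c N}` with `c = -log θ / 2`, against `Q_n ≥ e^{-ηN}` (`Rough`): `lab / min Q ≤ e^{-cN/2}`, summable and eventually `≤ κo.c`;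
* `cut := Ce L^{2(N+1)} e^{-ce s²}`, `s ≥ c N`: `≤ e^{-c' N²}`; `M_n = Q_n e^{-g_n/16π}`, `g_n = 2π log n + O(1)` (`Obs.green_constant_all`), so `M_{L^N} ≥ e^{-CN}`;
* `|t_N - 1/(2 log L N)| ≤ |t N i - 1/(2 log L j')| + d_N / (2 log L j' N) = O(log N / N²)` (`grad`).
-/

set_option autoImplicit false

namespace Claimed.Agent.R285.F6

open scoped BigOperators
open Filter Topology Claims.C0459
open Claimed.Agent.R285 Claimed.Agent.R285.Flow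

noncomputable section

/-! ## 1. Definitions -/

/-- the constants of the observable, fixed together with the map constants (before the entry) -/
structure ObsC where
  C : ℝ
  /-- radius of the tube and all smallness thresholds -/
  c : ℝ
  θ : ℝ
  hC : 1 ≤ C
  hc : 0 < c
  hθ0 : 0 < θ
  hθ : θ < 1

/-- geometric convolution: the solution of `w_{k+1} ≤ θ w_k + u_k` started at `ρe` -/
def cvl (θ ρe : ℝ) (u : ℕ → ℝ) (i : ℕ) : ℝ := θ ^ i * ρe + ∑ k ∈ Finset.range (i + 1), θ ^ (i - k) * u k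

/-- `Q_n = M_n e^{g_n / 2a}`, `a = 8π` -/
def Qc (n : ℕ) : ℝ := centerMag xyCritical n * Real.exp (Glue.unitEnergy n / (16 * Real.pi))

/-- **[F] Proposition 6.1** for one observation side `s` (entry index `j0`, `q R₀ s = L^{j0}`; entry size `ε`; entry constants `Ce`, `ce`, `P0`).
Target `N`, stop `j' = j0 + i < N`, `D = L^{N - j'}`.  `ν` bounds `U + w + d` at the stop (recurrences (obs:wall-recurrence), (obs:defect-recurrence));
`ν2` bounds `‖𝓡_{j'}‖`; `lab` bounds `D² ‖J_{j'}‖ D_ex` ((obs:label-stop), (obs:scalar-log-bound)); `cut` = cutoff loss (obs:cutoff-relative). -/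
def StepIneq (L : ℕ) (κo : ObsC) (Ce ce : ℝ) (P0 : ℕ) (ε : ℝ) (s j0 : ℕ) (u r t : ℕ → ℝ) : Prop :=
  ∀ N i : ℕ, j0 + i < N → κo.C ≤ (L : ℝ) ^ (N - (j0 + i)) → Ce * ((s * P0 : ℕ) : ℝ) ≤ (L : ℝ) ^ N →
    (∀ k ≤ i, u k < κo.c) →
    0 < centerMag xyCritical (L ^ N) → 0 < centerMag xyCritical (L ^ (N + 1)) →
    ∀ D ν ν2 lab cut : ℝ, D = (L : ℝ) ^ (N - (j0 + i)) →
    κo.C * cvl κo.θ ε u i ≤ ν →
    κo.C * r i ≤ ν2 →
    Ce * (s : ℝ) ^ Ce * κo.θ ^ i * D ^ 2 * Real.exp (κo.C * ∑ k ∈ Finset.range i, cvl κo.θ ε u k) ≤ lab →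
    Ce * ((L : ℝ) ^ (N + 1)) ^ 2 * Real.exp (-ce * (s : ℝ) ^ 2) ≤ cut →
    D ^ 2 * ν ≤ κo.c →
    lab ≤ κo.c * min (Qc (L ^ N)) (Qc (L ^ (N + 1))) →
    cut ≤ κo.c * min (centerMag xyCritical (L ^ N)) (centerMag xyCritical (L ^ (N + 1))) →
    |Real.log (centerMag xyCritical (L ^ (N + 1))) - Real.log (centerMag xyCritical (L ^ N))
        + (1 - t i) / (16 * Real.pi) * (Glue.unitEnergy (L ^ (N + 1)) - Glue.unitEnergy (L ^ N))|
      ≤ κo.C * (D ^ 4 * ν ^ 2 + ν / D + D ^ 2 * ν2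
          + lab / min (Qc (L ^ N)) (Qc (L ^ (N + 1)))
          + cut / min (centerMag xyCritical (L ^ N)) (centerMag xyCritical (L ^ (N + 1))))

/-- what OBS needs from DYN ([F] L5.5 `trj:vanishing`, P5.1 `trj:trajectory`) about the critical plane histories.
`s N`, `j0 N` = observation side and entry index of the epoch of `N` (`s ≍ N`); `u N k`, `r N k`, `t N k` as in `StepIneq`; `ct` = radius of the tube. -/
structure SeqDyn (L : ℕ) (ct : ℝ) (s j0 : ℕ → ℕ) (u r t : ℕ → ℕ → ℝ) : Prop where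
  side : ∃ c C : ℝ, 0 < c ∧ ∀ᶠ N : ℕ in atTop, c * N ≤ s N ∧ (s N : ℝ) ≤ C * N
  entry : ∃ q0 : ℕ, ∀ᶠ N : ℕ in atTop, q0 * s N = L ^ j0 N
  u_nonneg : ∀ N k, 0 ≤ u N k
  /-- every plane state through `j ≤ N` stays in the tube -/
  tube : ∀ᶠ N in atTop, ∀ k, j0 N + k ≤ N → u N k < ct
  /-- (trj:vanishing-ranges) -/
  vanish : ∀ δ > (0 : ℝ), ∀ ε > (0 : ℝ), ∀ᶠ N : ℕ in atTop, ∀ k, δ * N ≤ (j0 N + k : ℕ) → j0 N + k ≤ N → u N k ≤ ε
  /-- (trj:unbalanced-conclusion), sizes -/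
  late : ∃ A : ℝ, ∀ᶠ N : ℕ in atTop, ∀ k, (N : ℝ) / 2 ≤ (j0 N + k : ℕ) → j0 N + k ≤ N →
    u N k ≤ A / N ∧ r N k ≤ A / (N : ℝ) ^ 2
  /-- (trj:unbalanced-conclusion), the gradient coefficient -/
  grad : ∃ A : ℝ, ∀ᶠ N : ℕ in atTop, ∀ k, (N : ℝ) / 2 ≤ (j0 N + k : ℕ) → j0 N + k ≤ N →
    |t N k - 1 / (2 * Real.log L * ((j0 N + k : ℕ) : ℝ))| ≤ A * Real.log N / (N : ℝ) ^ 2

/-- the rough centre asymptotics `M_n = n^{-1/8 + o(1)}` with positivity (used for (obs:cutoff-relative) and the lower bound of `c_ex`) -/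
def Rough (L : ℕ) : Prop := ∀ ε > (0 : ℝ), ∀ᶠ N : ℕ in atTop,
  0 < centerMag xyCritical (L ^ N) ∧ Real.exp (-ε * N) ≤ Qc (L ^ N)

/-- the statement of `Glue.center_consecutive` for a given `L` -/
def Consec (L : ℕ) : Prop := ∃ (t ε : ℕ → ℝ) (C : ℝ), Summable ε ∧
  (∀ᶠ N : ℕ in atTop, |t N - 1 / (2 * Real.log L * (N : ℝ))| ≤ C * Real.log N / (N : ℝ) ^ 2) ∧
  ∀ᶠ N : ℕ in atTop,
    Real.log (centerMag xyCritical (L ^ (N + 1))) - Real.log (centerMag xyCritical (L ^ N))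
      = -((1 - t N) / (16 * Real.pi)) * (Glue.unitEnergy (L ^ (N + 1)) - Glue.unitEnergy (L ^ N)) + ε N

/-- **[F] P6.1 against `Asm.RawSys`** (raw coordinates `(t, z, R)`): producer = construction side (unit OBS, L6.2 + s6.2-6.3) -/
def RawCenterOK (K : Asm.RawK) (κo : ObsC) (κe : EntC) (ε : ℝ) (s : ℕ) (S : Asm.RawSys) : Prop :=
  StepIneq K.L κo κe.C κe.c κe.P0 ε s S.F.j0 (fun k => ‖S.pl xyCritical (S.F.j0 + k)‖)
    (fun k => ‖(S.pl xyCritical (S.F.j0 + k)).2.2‖) (fun k => ((S.pl xyCritical (S.F.j0 + k)).1).re)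

/-- **[F] P6.1 against `Flow.Hist`** (normal coordinates): `𝓡 = Q + 𝓡^g (u)`, so `‖𝓡‖ ≤ C (‖Q‖ + ‖Y‖²)`; the constant goes into `κo.C` -/
def CenterOK (κ : MapC) (κo : ObsC) (κe : EntC) (ρe : ℝ) (s : ℕ) (H : Hist) : Prop :=
  StepIneq κ.L κo κe.C κe.c κe.P0 ρe s H.j0 (fun k => ‖H.st xyCritical k‖)
    (fun k => ‖(H.st xyCritical k).2.2‖ + ‖H.st xyCritical k‖ ^ 2)
    (fun k => ((H.sc (H.j0 + k) (H.st xyCritical k)).1).re)

end

/-! ## 2. The rough asymptotics -/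

theorem center_rough_proof (L : ℕ) (hL : 2 ≤ L) : Rough L := by
  have hL1 : (1 : ℝ) < L := by exact_mod_cast (by omega : 1 < L)
  have hlogL : 0 < Real.log L := Real.log_pos hL1
  have hpos : ∀ n, 0 < centerMag xyCritical n := F23.centerMag_pos _ xy_critical_pos
  have hpow : Tendsto (fun N : ℕ => L ^ N) atTop atTop := tendsto_pow_atTop_atTop_of_one_lt (by omega)
  have h1 : Tendsto (fun N : ℕ => Real.log (centerMag xyCritical (L ^ N)) / Real.log ((L ^ N : ℕ) : ℝ)) atTop (𝓝 (-(1 / 8))) :=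
    F23.center_rough.comp hpow
  obtain ⟨cG, h2⟩ := Obs.green_constant L hL
  have hN : Tendsto (fun N : ℕ => ((N : ℝ))⁻¹) atTop (𝓝 0) := tendsto_inv_atTop_zero.comp tendsto_natCast_atTop_atTop
  have h3 : Tendsto (fun N : ℕ => (Glue.unitEnergy (L ^ N) - 2 * Real.pi * Real.log L * N) * ((N : ℝ))⁻¹ / (16 * Real.pi)) atTop (𝓝 0) := by
    have := (h2.mul hN).div_const (16 * Real.pi)
    simpa using this
  have h4 : Tendsto (fun N : ℕ => Real.log (Qc (L ^ N)) / N) atTop (𝓝 0) := by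
    have h5 := ((h1.mul_const (Real.log L)).add h3).add_const (Real.log L / 8)
    have e0 : -(1 / 8) * Real.log L + 0 + Real.log L / 8 = 0 := by ring
    rw [e0] at h5
    refine h5.congr' ?_
    filter_upwards [eventually_gt_atTop 0] with N hN0
    have hNr : (0 : ℝ) < N := by exact_mod_cast hN0
    have hpi := Real.pi_pos
    unfold Qc
    rw [Real.log_mul (hpos _).ne' (Real.exp_pos _).ne', Real.log_exp, Nat.cast_pow, Real.log_pow]
    field_simp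
    ring
  intro ε hε
  have h6 : ∀ᶠ N : ℕ in atTop, -ε < Real.log (Qc (L ^ N)) / N :=
    h4.eventually (lt_mem_nhds (by linarith))
  filter_upwards [h6, eventually_gt_atTop 0] with N hN1 hN0
  refine ⟨hpos _, ?_⟩
  have hNr : (0 : ℝ) < N := by exact_mod_cast hN0
  have hQ : 0 < Qc (L ^ N) := mul_pos (hpos _) (Real.exp_pos _)
  rw [lt_div_iff₀ hNr] at hN1
  rw [← Real.exp_log hQ]
  exact Real.exp_le_exp.2 hN1.le

/-! ## 3. Leaf L-OBS-SEQ -/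

/-! ### toolbox for the geometric convolution (helper271, proved) -/

theorem cvl_zero (θ ρ : ℝ) (u : ℕ → ℝ) : cvl θ ρ u 0 = ρ + u 0 := by
  simp [cvl]

theorem cvl_succ (θ ρ : ℝ) (u : ℕ → ℝ) (k : ℕ) : cvl θ ρ u (k + 1) = θ * cvl θ ρ u k + u (k + 1) := by
  unfold cvl
  rw [Finset.sum_range_succ _ (k + 1), Nat.sub_self, pow_zero, one_mul, mul_add, Finset.mul_sum]
  have : ∀ l ∈ Finset.range (k + 1), θ ^ (k + 1 - l) * u l = θ * (θ ^ (k - l) * u l) := by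
    intro l hl
    have hl' := Finset.mem_range.1 hl
    have e : k + 1 - l = (k - l) + 1 := by omega
    rw [e, pow_succ]
    ring
  rw [Finset.sum_congr rfl this, pow_succ]
  ring

theorem cvl_nonneg {θ ρ : ℝ} {u : ℕ → ℝ} (hθ : 0 ≤ θ) (hρ : 0 ≤ ρ) (hu : ∀ k, 0 ≤ u k) (k : ℕ) : 0 ≤ cvl θ ρ u k := by
  unfold cvl
  exact add_nonneg (mul_nonneg (pow_nonneg hθ _) hρ)
    (Finset.sum_nonneg fun l _ => mul_nonneg (pow_nonneg hθ _) (hu l))

theorem sum_cvl_le {θ ρ : ℝ} {u : ℕ → ℝ} (hθ0 : 0 ≤ θ) (hθ : θ < 1) (hρ : 0 ≤ ρ) (hu : ∀ k, 0 ≤ u k) (i : ℕ) :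
    ∑ k ∈ Finset.range i, cvl θ ρ u k ≤ (ρ + ∑ k ∈ Finset.range (i + 1), u k) / (1 - θ) := by
  have h1 : 0 < 1 - θ := by linarith
  rw [le_div_iff₀ h1]
  have key : ∑ k ∈ Finset.range i, cvl θ ρ u (k + 1)
      = θ * ∑ k ∈ Finset.range i, cvl θ ρ u k + ∑ k ∈ Finset.range i, u (k + 1) := by
    rw [Finset.mul_sum, ← Finset.sum_add_distrib]
    exact Finset.sum_congr rfl fun k _ => cvl_succ θ ρ u k
  have e1 : ∑ k ∈ Finset.range (i + 1), cvl θ ρ u k = ∑ k ∈ Finset.range i, cvl θ ρ u (k + 1) + cvl θ ρ u 0 :=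
    Finset.sum_range_succ' _ _
  have e2 : ∑ k ∈ Finset.range (i + 1), cvl θ ρ u k = ∑ k ∈ Finset.range i, cvl θ ρ u k + cvl θ ρ u i :=
    Finset.sum_range_succ _ _
  have e3 : ∑ k ∈ Finset.range (i + 1), u k = ∑ k ∈ Finset.range i, u (k + 1) + u 0 := Finset.sum_range_succ' _ _
  have h2 := cvl_nonneg hθ0 hρ hu i
  rw [cvl_zero] at e1
  nlinarith

theorem geom_le {θ : ℝ} (hθ0 : 0 ≤ θ) (hθ : θ < 1) (n : ℕ) : ∑ m ∈ Finset.range n, θ ^ m ≤ 1 / (1 - θ) := by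
  have h1 : 0 < 1 - θ := by linarith
  rw [le_div_iff₀ h1]
  have := geom_sum_mul θ n
  have h2 : 0 ≤ θ ^ n := pow_nonneg hθ0 n
  nlinarith

theorem cvl_le_split {θ ρ : ℝ} {u : ℕ → ℝ} (hθ0 : 0 ≤ θ) (hθ : θ < 1) (hρ : 0 ≤ ρ) (i m0 : ℕ) (a c : ℝ)
    (ha : 0 ≤ a) (hc : 0 ≤ c) (hm : m0 ≤ i) (h : ∀ k ≤ i, u k ≤ a ∨ (u k ≤ c ∧ m0 ≤ i - k)) :
    cvl θ ρ u i ≤ a / (1 - θ) + (((i : ℝ) + 1) * c + ρ) * θ ^ m0 := by
  unfold cvl
  have h1 : ∀ k ∈ Finset.range (i + 1), θ ^ (i - k) * u k ≤ θ ^ (i - k) * a + c * θ ^ m0 := by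
    intro k hk
    have hk' : k ≤ i := by have := Finset.mem_range.1 hk; omega
    have hp : 0 ≤ θ ^ (i - k) := pow_nonneg hθ0 _
    have hp0 : 0 ≤ θ ^ m0 := pow_nonneg hθ0 _
    rcases h k hk' with h2 | ⟨h2, h3⟩
    · have := mul_le_mul_of_nonneg_left h2 hp
      nlinarith [mul_nonneg hc hp0]
    · have h4 : θ ^ (i - k) ≤ θ ^ m0 := pow_le_pow_of_le_one hθ0 hθ.le h3
      have h5 := mul_le_mul_of_nonneg_left h2 hp
      have h6 := mul_le_mul_of_nonneg_left h4 hc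
      nlinarith [mul_nonneg hp ha]
  have h2 := Finset.sum_le_sum h1
  rw [Finset.sum_add_distrib, ← Finset.sum_mul, Finset.sum_const, Finset.card_range, nsmul_eq_mul] at h2
  have h3 : ∑ k ∈ Finset.range (i + 1), θ ^ (i - k) = ∑ m ∈ Finset.range (i + 1), θ ^ m := by
    have := Finset.sum_range_reflect (fun m => θ ^ m) (i + 1)
    rw [← this]
    apply Finset.sum_congr rfl
    intro k hk
    have := Finset.mem_range.1 hk
    congr 1
  have h4 := geom_le hθ0 hθ (i + 1)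
  have h5 : θ ^ i ≤ θ ^ m0 := pow_le_pow_of_le_one hθ0 hθ.le hm
  have h6 := mul_le_mul_of_nonneg_right h5 hρ
  have h7 : (∑ k ∈ Finset.range (i + 1), θ ^ (i - k)) * a ≤ a / (1 - θ) := by
    rw [h3]
    calc _ ≤ 1 / (1 - θ) * a := mul_le_mul_of_nonneg_right h4 ha
      _ = a / (1 - θ) := by ring
  push_cast at h2
  nlinarith

/-! ### proof of L-OBS-SEQ (helper41) -/

theorem cs_cvl_succ (θ ρ : ℝ) (u : ℕ → ℝ) (i : ℕ) : cvl θ ρ u (i + 1) = θ * cvl θ ρ u i + u (i + 1) := by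
  unfold cvl
  rw [Finset.sum_range_succ _ (i + 1), Nat.sub_self, pow_zero, one_mul, mul_add, Finset.mul_sum, pow_succ]
  have : ∀ k ∈ Finset.range (i + 1), θ ^ (i + 1 - k) * u k = θ * (θ ^ (i - k) * u k) := by
    intro k hk
    have hk' : k ≤ i := Nat.lt_succ_iff.mp (Finset.mem_range.mp hk)
    rw [Nat.succ_sub hk', pow_succ]; ring
  rw [Finset.sum_congr rfl this]
  ring

theorem cs_cvl_zero (θ ρ : ℝ) (u : ℕ → ℝ) : cvl θ ρ u 0 = ρ + u 0 := by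
  simp [cvl]

theorem cs_cvl_nonneg {θ ρ : ℝ} {u : ℕ → ℝ} (hθ : 0 ≤ θ) (hρ : 0 ≤ ρ) (hu : ∀ k, 0 ≤ u k) (i : ℕ) :
    0 ≤ cvl θ ρ u i := by
  unfold cvl
  have : 0 ≤ ∑ k ∈ Finset.range (i + 1), θ ^ (i - k) * u k :=
    Finset.sum_nonneg fun k _ => mul_nonneg (pow_nonneg hθ _) (hu k)
  have h2 : 0 ≤ θ ^ i * ρ := mul_nonneg (pow_nonneg hθ _) hρ
  linarith

theorem cs_cvl_ge {θ ρ : ℝ} {u : ℕ → ℝ} (hθ : 0 ≤ θ) (hρ : 0 ≤ ρ) (hu : ∀ k, 0 ≤ u k) (i : ℕ) :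
    u i ≤ cvl θ ρ u i := by
  cases i with
  | zero => rw [cs_cvl_zero]; linarith
  | succ i =>
    rw [cs_cvl_succ]
    have := mul_nonneg hθ (cs_cvl_nonneg hθ hρ hu i)
    linarith

theorem cs_cvl_sum (θ ρ : ℝ) (u : ℕ → ℝ) (i : ℕ) :
    (1 - θ) * ∑ k ∈ Finset.range i, cvl θ ρ u k = ρ + ∑ k ∈ Finset.range (i + 1), u k - cvl θ ρ u i := by
  induction i with
  | zero => simp [cs_cvl_zero]
  | succ i ih =>
    rw [Finset.sum_range_succ, mul_add, ih, Finset.sum_range_succ _ (i + 1), cs_cvl_succ]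
    ring

theorem cs_cvl_sum_le {θ ρ : ℝ} {u : ℕ → ℝ} (hθ : 0 ≤ θ) (hθ1 : θ < 1) (hρ : 0 ≤ ρ) (hu : ∀ k, 0 ≤ u k) (i : ℕ) :
    ∑ k ∈ Finset.range i, cvl θ ρ u k ≤ (ρ + ∑ k ∈ Finset.range i, u k) / (1 - θ) := by
  have h1 : 0 < 1 - θ := by linarith
  rw [le_div_iff₀ h1, mul_comm, cs_cvl_sum, Finset.sum_range_succ]
  have := cs_cvl_ge hθ hρ hu i
  linarith

theorem cs_geom_le {θ : ℝ} (hθ : 0 ≤ θ) (hθ1 : θ < 1) (i : ℕ) :
    ∑ k ∈ Finset.range (i + 1), θ ^ (i - k) ≤ 1 / (1 - θ) := by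
  have h1 : 0 < 1 - θ := by linarith
  have e : ∑ k ∈ Finset.range (i + 1), θ ^ (i - k) = ∑ k ∈ Finset.range (i + 1), θ ^ k := by
    have := Finset.sum_range_reflect (fun k => θ ^ k) (i + 1)
    rw [← this]
    apply Finset.sum_congr rfl
    intro k _
    congr 1
  rw [e, le_div_iff₀ h1, mul_comm, mul_neg_geom_sum]
  have := pow_nonneg hθ (i + 1)
  linarith

theorem cs_cvl_le {θ ρ : ℝ} {u : ℕ → ℝ} (hθ : 0 ≤ θ) (hθ1 : θ < 1) (i : ℕ) (a b : ℝ) (ha : 0 ≤ a)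
    (h : ∀ k ≤ i, θ ^ (i - k) * u k ≤ θ ^ (i - k) * a + b) :
    cvl θ ρ u i ≤ θ ^ i * ρ + a / (1 - θ) + (i + 1) * b := by
  unfold cvl
  have h1 : ∑ k ∈ Finset.range (i + 1), θ ^ (i - k) * u k ≤ ∑ k ∈ Finset.range (i + 1), (θ ^ (i - k) * a + b) :=
    Finset.sum_le_sum fun k hk => h k (Nat.lt_succ_iff.mp (Finset.mem_range.mp hk))
  rw [Finset.sum_add_distrib, ← Finset.sum_mul, Finset.sum_const, Finset.card_range, nsmul_eq_mul] at h1
  have h2 := mul_le_mul_of_nonneg_right (cs_geom_le hθ hθ1 i) ha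
  have e : 1 / (1 - θ) * a = a / (1 - θ) := by ring
  rw [e] at h2
  push_cast at h1
  linarith

/-- the number of stages between the stop and the target -/
def csd (L N : ℕ) : ℕ := Nat.clog (L ^ 20) N

/-- `N^{1/20}` -/
noncomputable def csw (N : ℕ) : ℝ := (N : ℝ) ^ ((1 : ℝ) / 20)

theorem csw_pow (N : ℕ) : csw N ^ 20 = N := by
  unfold csw
  rw [← Real.rpow_natCast, ← Real.rpow_mul (Nat.cast_nonneg N)]
  norm_num

theorem csw_nonneg (N : ℕ) : 0 ≤ csw N := Real.rpow_nonneg (Nat.cast_nonneg N) _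

theorem one_le_csw {N : ℕ} (hN : 1 ≤ N) : 1 ≤ csw N :=
  Real.one_le_rpow (by exact_mod_cast hN) (by norm_num)

theorem csw_pow21 (N : ℕ) : csw N ^ 21 = (N : ℝ) ^ ((21 : ℝ) / 20) := by
  unfold csw
  rw [← Real.rpow_natCast, ← Real.rpow_mul (Nat.cast_nonneg N)]
  norm_num

theorem csw_tendsto : Tendsto csw atTop atTop :=
  (tendsto_rpow_atTop (by norm_num : (0 : ℝ) < 1 / 20)).comp tendsto_natCast_atTop_atTop

theorem cs_one_lt_B {L : ℕ} (hL : 2 ≤ L) : 1 < L ^ 20 :=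
  Nat.one_lt_pow (by norm_num) (by omega)

theorem csw_le_D {L : ℕ} (hL : 2 ≤ L) (N : ℕ) : csw N ≤ (L : ℝ) ^ csd L N := by
  have h1 : N ≤ (L ^ 20) ^ csd L N := Nat.le_pow_clog (cs_one_lt_B hL) N
  have h2 : (N : ℝ) ≤ ((L : ℝ) ^ csd L N) ^ 20 := by
    have : ((N : ℕ) : ℝ) ≤ (((L ^ 20) ^ csd L N : ℕ) : ℝ) := by exact_mod_cast h1
    push_cast at this
    rw [← pow_mul, mul_comm, pow_mul] at this
    exact this
  rw [← csw_pow] at h2
  exact (pow_le_pow_iff_left₀ (csw_nonneg N) (by positivity) (by norm_num)).1 h2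

theorem cs_D_le {L : ℕ} (hL : 2 ≤ L) {N : ℕ} (hN : 2 ≤ N) : (L : ℝ) ^ csd L N ≤ L * csw N := by
  have h1 : (L ^ 20) ^ (csd L N).pred < N := Nat.pow_pred_clog_lt_self (cs_one_lt_B hL) (by omega)
  have hd : 0 < csd L N := Nat.clog_pos (cs_one_lt_B hL) hN
  have h2 : ((L : ℝ) ^ csd L N) ^ 20 ≤ ((L : ℝ) * csw N) ^ 20 := by
    rw [mul_pow, csw_pow]
    have h3 : (((L ^ 20) ^ (csd L N).pred : ℕ) : ℝ) ≤ (N : ℝ) := by exact_mod_cast h1.le
    push_cast at h3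
    have e : ((L : ℝ) ^ csd L N) ^ 20 = (L : ℝ) ^ 20 * ((L : ℝ) ^ 20) ^ (csd L N).pred := by
      have e1 : (csd L N).pred + 1 = csd L N := Nat.succ_pred_eq_of_pos hd
      rw [← pow_succ', e1, ← pow_mul, ← pow_mul, mul_comm]
    rw [e]
    exact mul_le_mul_of_nonneg_left h3 (by positivity)
  exact (pow_le_pow_iff_left₀ (by positivity) (mul_nonneg (Nat.cast_nonneg L) (csw_nonneg N)) (by norm_num)).1 h2

theorem cs_d_pos {L : ℕ} (hL : 2 ≤ L) {N : ℕ} (hN : 2 ≤ N) : 1 ≤ csd L N :=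
  Nat.clog_pos (cs_one_lt_B hL) hN

theorem cs_d_le_log {L : ℕ} (hL : 2 ≤ L) {N : ℕ} (hN : 2 ≤ N) : (csd L N : ℝ) ≤ 1 + Real.log N := by
  have h1 : (L ^ 20) ^ (csd L N).pred < N := Nat.pow_pred_clog_lt_self (cs_one_lt_B hL) (by omega)
  have hd : 0 < csd L N := Nat.clog_pos (cs_one_lt_B hL) hN
  have h2 : 2 ^ (csd L N).pred ≤ (L ^ 20) ^ (csd L N).pred := by
    apply Nat.pow_le_pow_left
    calc 2 ≤ L := hL
      _ = L ^ 1 := (pow_one L).symm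
      _ ≤ L ^ 20 := Nat.pow_le_pow_right (by omega) (by norm_num)
  have h2' : 4 ^ (csd L N).pred ≤ (L ^ 20) ^ (csd L N).pred := by
    apply Nat.pow_le_pow_left
    calc 4 = 2 ^ 2 := by norm_num
      _ ≤ L ^ 2 := Nat.pow_le_pow_left hL 2
      _ ≤ L ^ 20 := Nat.pow_le_pow_right (by omega) (by norm_num)
  have h3 : ((4 : ℝ)) ^ (csd L N).pred ≤ (N : ℝ) := by
    have : ((4 ^ (csd L N).pred : ℕ) : ℝ) ≤ (N : ℝ) := by exact_mod_cast (h2'.trans h1.le)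
    push_cast at this
    exact this
  have h4 := Real.log_le_log (by positivity) h3
  rw [Real.log_pow] at h4
  have h5 : (1 : ℝ) ≤ Real.log 4 := by
    rw [Real.le_log_iff_exp_le (by norm_num)]
    have := Real.exp_one_lt_d9
    linarith
  have h6 : ((csd L N).pred : ℝ) = (csd L N : ℝ) - 1 := by
    have : csd L N = (csd L N).pred + 1 := (Nat.succ_pred_eq_of_pos hd).symm
    have h7 : (csd L N : ℝ) = ((csd L N).pred : ℝ) + 1 := by exact_mod_cast this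
    linarith
  have h8 : (0 : ℝ) ≤ ((csd L N).pred : ℝ) := Nat.cast_nonneg _
  nlinarith

theorem cs_ev (p a K : ℝ) (ha : 0 < a) : ∀ᶠ N : ℕ in atTop, K * (N : ℝ) ^ p * Real.exp (-a * N) ≤ 1 := by
  have h := (tendsto_rpow_mul_exp_neg_mul_atTop_nhds_zero p a ha).const_mul K
  rw [mul_zero] at h
  have h2 := h.comp tendsto_natCast_atTop_atTop
  filter_upwards [h2.eventually_le_const (zero_lt_one)] with N hN
  simp only [Function.comp] at hN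
  rw [mul_assoc]
  exact hN

theorem cs_log_ev (K c : ℝ) (hc : 0 < c) : ∀ᶠ N : ℕ in atTop, K * (1 + Real.log N) ≤ c * N := by
  have hK : 0 < |K| + 1 := by positivity
  have h1 := (Real.isLittleO_log_id_atTop.bound (div_pos hc (mul_pos two_pos hK))).natCast_atTop
  filter_upwards [h1, eventually_ge_atTop 1, eventually_ge_atTop ⌈2 * (|K| + 1) / c⌉₊] with N hN hN1 hN2
  simp only [id, Real.norm_eq_abs] at hN
  have hN0 : (1 : ℝ) ≤ (N : ℝ) := by exact_mod_cast hN1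
  have hl : 0 ≤ Real.log N := Real.log_nonneg hN0
  rw [abs_of_nonneg hl, abs_of_nonneg (by linarith : (0 : ℝ) ≤ (N : ℝ))] at hN
  have h3 : 2 * (|K| + 1) / c ≤ N := (Nat.le_ceil _).trans (by exact_mod_cast hN2)
  rw [div_le_iff₀ hc] at h3
  have h4 : (|K| + 1) * Real.log N ≤ c / 2 * N := by
    calc (|K| + 1) * Real.log N ≤ (|K| + 1) * (c / (2 * (|K| + 1)) * N) := mul_le_mul_of_nonneg_left hN hK.le
      _ = c / 2 * N := by field_simp
  have h5 : K * (1 + Real.log N) ≤ (|K| + 1) * (1 + Real.log N) :=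
    mul_le_mul_of_nonneg_right (by linarith [le_abs_self K]) (by linarith)
  nlinarith

theorem cs_quad_ev (a b c : ℝ) (hc : 0 < c) : ∀ᶠ N : ℕ in atTop, a * N + b ≤ c * (N : ℝ) ^ 2 := by
  filter_upwards [eventually_ge_atTop 1, eventually_ge_atTop ⌈(|a| + |b|) / c⌉₊] with N hN1 hN2
  have hN0 : (1 : ℝ) ≤ (N : ℝ) := by exact_mod_cast hN1
  have h3 : (|a| + |b|) / c ≤ N := (Nat.le_ceil _).trans (by exact_mod_cast hN2)
  rw [div_le_iff₀ hc] at h3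
  have h4 : a * N + b ≤ (|a| + |b|) * N := by
    have := le_abs_self a
    have := le_abs_self b
    have := abs_nonneg b
    nlinarith
  nlinarith

theorem cs_pow_eq_exp {θ : ℝ} (hθ : 0 < θ) (m : ℕ) : θ ^ m = Real.exp (-(-Real.log θ) * m) := by
  rw [neg_neg, mul_comm, Real.exp_nat_mul, Real.exp_log hθ]

theorem cs_pow_le_exp {θ : ℝ} (hθ : 0 < θ) (hθ1 : θ < 1) (m : ℕ) (x : ℝ) (hx : x ≤ m) :
    θ ^ m ≤ Real.exp (-(-Real.log θ) * x) := by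
  rw [cs_pow_eq_exp hθ]
  apply Real.exp_le_exp.2
  have : 0 < -Real.log θ := by
    have := Real.log_neg hθ hθ1
    linarith
  nlinarith

/-- the convolution at the stop is `O(1/N)` -/
theorem cs_nu {θ ρ ct A : ℝ} {u : ℕ → ℝ} (hθ : 0 < θ) (hθ1 : θ < 1) (hρ : 0 ≤ ρ) (hct : 0 ≤ ct) (hA : 0 ≤ A)
    (hu : ∀ k, 0 ≤ u k) (N i j0 d : ℕ) (hN : 1 ≤ N) (hsum : j0 + i + d = N) (hjd : ((j0 + d : ℕ) : ℝ) ≤ (N : ℝ) / 8)
    (htube : ∀ k ≤ i, u k ≤ ct) (hlate : ∀ k ≤ i, (N : ℝ) / 2 ≤ ((j0 + k : ℕ) : ℝ) → u k ≤ A / N) :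
    cvl θ ρ u i ≤ A / (1 - θ) / N + (ρ + ((N : ℝ) + 1) * ct) * Real.exp (-(-Real.log θ) * (3 / 8 * N)) := by
  have hN0 : (0 : ℝ) < (N : ℝ) := by exact_mod_cast hN
  set E := Real.exp (-(-Real.log θ) * (3 / 8 * N)) with hE
  have hE0 : 0 < E := Real.exp_pos _
  have hsumR : (j0 : ℝ) + i + d = N := by exact_mod_cast hsum
  push_cast at hjd
  have key := cs_cvl_le (ρ := ρ) (u := u) hθ.le hθ1 i (A / N) (ct * E) (by positivity) (fun k hk => by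
    have hp : 0 ≤ θ ^ (i - k) := pow_nonneg hθ.le _
    by_cases hc : (N : ℝ) / 2 ≤ ((j0 + k : ℕ) : ℝ)
    · have := mul_le_mul_of_nonneg_left (hlate k hk hc) hp
      have h2 : 0 ≤ ct * E := by positivity
      linarith
    · push Not at hc
      push_cast at hc
      have hik : ((i - k : ℕ) : ℝ) = (i : ℝ) - k := by push_cast [Nat.cast_sub hk]; ring
      have h1 : θ ^ (i - k) ≤ E := cs_pow_le_exp hθ hθ1 _ _ (by rw [hik]; linarith)
      have h2 : θ ^ (i - k) * u k ≤ E * ct := mul_le_mul h1 (htube k hk) (hu k) hE0.le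
      have h3 : 0 ≤ θ ^ (i - k) * (A / N) := by positivity
      linarith)
  have h1 : θ ^ i ≤ E := cs_pow_le_exp hθ hθ1 _ _ (by linarith)
  have h2 : θ ^ i * ρ ≤ E * ρ := mul_le_mul_of_nonneg_right h1 hρ
  have h3 : ((i : ℝ) + 1) * (ct * E) ≤ ((N : ℝ) + 1) * (ct * E) := by
    apply mul_le_mul_of_nonneg_right _ (by positivity)
    have : (0 : ℝ) ≤ (j0 : ℝ) := Nat.cast_nonneg _
    have : (0 : ℝ) ≤ (d : ℝ) := Nat.cast_nonneg _
    linarith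
  have e : A / N / (1 - θ) = A / (1 - θ) / N := by ring
  rw [e] at key
  calc cvl θ ρ u i ≤ θ ^ i * ρ + A / (1 - θ) / N + ((i : ℝ) + 1) * (ct * E) := key
    _ ≤ E * ρ + A / (1 - θ) / N + ((N : ℝ) + 1) * (ct * E) := by linarith
    _ = _ := by ring

/-- the sum of the plane norms before the stop is `o(N)` -/
theorem cs_sum_u {ct e x : ℝ} {u : ℕ → ℝ} (hct : 0 ≤ ct) (he : 0 ≤ e) (hx : 0 ≤ x) (i : ℕ)
    (htube : ∀ k < i, u k ≤ ct) (hvan : ∀ k < i, x ≤ (k : ℝ) → u k ≤ e) :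
    ∑ k ∈ Finset.range i, u k ≤ i * e + ct * (x + 1) := by
  classical
  have h1 : ∀ k ∈ Finset.range i, u k ≤ e + (if (k : ℝ) < x then ct else 0) := by
    intro k hk
    have hk' := Finset.mem_range.mp hk
    by_cases hc : (k : ℝ) < x
    · rw [if_pos hc]; linarith [htube k hk']
    · rw [if_neg hc]; linarith [hvan k hk' (not_lt.mp hc)]
  refine (Finset.sum_le_sum h1).trans ?_
  rw [Finset.sum_add_distrib, Finset.sum_const, Finset.card_range, nsmul_eq_mul, ← Finset.sum_filter,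
    Finset.sum_const, nsmul_eq_mul]
  have hcard : ((Finset.filter (fun k : ℕ => (k : ℝ) < x) (Finset.range i)).card : ℝ) ≤ x + 1 := by
    have hsub : Finset.filter (fun k : ℕ => (k : ℝ) < x) (Finset.range i) ⊆ Finset.range ⌈x⌉₊ := by
      intro k hk
      rw [Finset.mem_filter] at hk
      rw [Finset.mem_range]
      exact Nat.lt_ceil.mpr hk.2
    have h2 := Finset.card_le_card hsub
    rw [Finset.card_range] at h2
    have h3 : ((Finset.filter (fun k : ℕ => (k : ℝ) < x) (Finset.range i)).card : ℝ) ≤ (⌈x⌉₊ : ℝ) := by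
      exact_mod_cast h2
    exact h3.trans (Nat.ceil_lt_add_one hx).le
  have := mul_le_mul_of_nonneg_right hcard hct
  linarith

theorem cs_pow_div {w : ℝ} (hw : 1 ≤ w) {a b c : ℕ} (h : a + c ≤ b) : w ^ a / w ^ b ≤ 1 / w ^ c := by
  have hw0 : 0 < w := by linarith
  rw [div_le_div_iff₀ (pow_pos hw0 _) (pow_pos hw0 _), ← pow_add, one_mul]
  exact pow_le_pow_right₀ hw h

/-- the three polynomial error terms are `O(N^{-21/20})` -/
theorem cs_poly {w D ν ν2 Lr K K' : ℝ} (hw : 1 ≤ w) (hD1 : w ≤ D) (hD2 : D ≤ Lr * w) (hν0 : 0 ≤ ν)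
    (hν : ν ≤ K / w ^ 20) (hν2 : ν2 ≤ K' / w ^ 40) (hK' : 0 ≤ K') :
    D ^ 4 * ν ^ 2 + ν / D + D ^ 2 * ν2 ≤ (Lr ^ 4 * K ^ 2 + K + Lr ^ 2 * K') * (1 / w ^ 21) ∧
      D ^ 2 * ν ≤ Lr ^ 2 * K * (1 / w) := by
  have hw0 : 0 < w := by linarith
  have hD0 : 0 < D := by linarith
  have hK : 0 ≤ K := by
    have := hν0.trans hν
    rcases le_or_gt 0 K with h | h
    · exact h
    · exact absurd this (not_le.mpr (div_neg_of_neg_of_pos h (pow_pos hw0 _)))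
  have hLr : 0 ≤ Lr := by
    by_contra hcon
    push Not at hcon
    have : Lr * w < 0 := mul_neg_of_neg_of_pos hcon hw0
    linarith
  have t1 : D ^ 4 * ν ^ 2 ≤ Lr ^ 4 * K ^ 2 * (1 / w ^ 21) := by
    calc D ^ 4 * ν ^ 2 ≤ (Lr * w) ^ 4 * (K / w ^ 20) ^ 2 :=
          mul_le_mul (pow_le_pow_left₀ hD0.le hD2 4) (pow_le_pow_left₀ hν0 hν 2) (by positivity) (by positivity)
      _ = Lr ^ 4 * K ^ 2 * (w ^ 4 / w ^ 40) := by
          rw [mul_pow, div_pow, ← pow_mul]; ring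
      _ ≤ _ := mul_le_mul_of_nonneg_left (cs_pow_div hw (by norm_num)) (by positivity)
  have t2 : ν / D ≤ K * (1 / w ^ 21) := by
    calc ν / D ≤ (K / w ^ 20) / w := div_le_div₀ (by positivity) hν hw0 hD1
      _ = K * (1 / w ^ 21) := by rw [pow_succ w 20]; field_simp
  have t3 : D ^ 2 * ν2 ≤ Lr ^ 2 * K' * (1 / w ^ 21) := by
    calc D ^ 2 * ν2 ≤ D ^ 2 * (K' / w ^ 40) := mul_le_mul_of_nonneg_left hν2 (by positivity)
      _ ≤ (Lr * w) ^ 2 * (K' / w ^ 40) :=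
          mul_le_mul_of_nonneg_right (pow_le_pow_left₀ hD0.le hD2 2) (by positivity)
      _ = Lr ^ 2 * K' * (w ^ 2 / w ^ 40) := by rw [mul_pow]; ring
      _ ≤ _ := mul_le_mul_of_nonneg_left (cs_pow_div hw (by norm_num)) (by positivity)
  constructor
  · linarith
  · calc D ^ 2 * ν ≤ (Lr * w) ^ 2 * (K / w ^ 20) :=
          mul_le_mul (pow_le_pow_left₀ hD0.le hD2 2) hν hν0 (by positivity)
      _ = Lr ^ 2 * K * (w ^ 2 / w ^ 20) := by rw [mul_pow]; ring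
      _ ≤ Lr ^ 2 * K * (1 / w ^ 1) := mul_le_mul_of_nonneg_left (cs_pow_div hw (by norm_num)) (by positivity)
      _ = _ := by rw [pow_one]

/-- the label term -/
theorem cs_lab_le {θ C ct ρ Ce Cs e δ Lr w D lam : ℝ} {u : ℕ → ℝ} (hθ : 0 < θ) (hθ1 : θ < 1) (hlam : lam = -Real.log θ)
    (hC : 0 ≤ C) (hct : 0 ≤ ct) (hρ : 0 ≤ ρ) (hCe : 0 ≤ Ce) (hCs : 0 ≤ Cs) (he : 0 ≤ e) (hδ : 0 ≤ δ)
    (hu : ∀ k, 0 ≤ u k) (N i sN : ℕ) (hN : 1 ≤ N) (hs : (sN : ℝ) ≤ Cs * N) (hi1 : 7 / 8 * (N : ℝ) ≤ i) (hi2 : i ≤ N)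
    (hw : 1 ≤ w) (hwN : w ^ 20 = N) (hD0 : 0 ≤ D) (hD : D ≤ Lr * w)
    (htube : ∀ k < i, u k ≤ ct) (hvan : ∀ k < i, δ * N ≤ (k : ℝ) → u k ≤ e)
    (h1 : C / (1 - θ) * e = lam / 8) (h2 : C / (1 - θ) * (ct * δ) = lam / 8) :
    Ce * (sN : ℝ) ^ Ce * θ ^ i * D ^ 2 * Real.exp (C * ∑ k ∈ Finset.range i, cvl θ ρ u k) ≤
      (Ce * Cs ^ Ce * Lr ^ 2 * Real.exp (C / (1 - θ) * (ρ + ct))) * (N : ℝ) ^ (Ce + 1) * Real.exp (-lam * (5 / 8 * N)) := by
  have hN0 : (0 : ℝ) < (N : ℝ) := by exact_mod_cast hN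
  have h1θ : 0 < 1 - θ := by linarith
  have hΓ : 0 ≤ C / (1 - θ) := by positivity
  have a1 : (sN : ℝ) ^ Ce ≤ Cs ^ Ce * (N : ℝ) ^ Ce := by
    rw [← Real.mul_rpow hCs hN0.le]
    exact Real.rpow_le_rpow (Nat.cast_nonneg _) hs hCe
  have a2 : θ ^ i ≤ Real.exp (-lam * (7 / 8 * N)) := by
    rw [hlam]; exact cs_pow_le_exp hθ hθ1 _ _ hi1
  have a3 : D ^ 2 ≤ Lr ^ 2 * N := by
    calc D ^ 2 ≤ (Lr * w) ^ 2 := pow_le_pow_left₀ hD0 hD 2
      _ = Lr ^ 2 * w ^ 2 := mul_pow _ _ _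
      _ ≤ Lr ^ 2 * w ^ 20 := mul_le_mul_of_nonneg_left (pow_le_pow_right₀ hw (by norm_num)) (by positivity)
      _ = _ := by rw [hwN]
  have a4 : C * ∑ k ∈ Finset.range i, cvl θ ρ u k ≤ C / (1 - θ) * (ρ + ct) + lam * (1 / 4 * N) := by
    have b1 := cs_cvl_sum_le hθ.le hθ1 hρ hu i
    have b2 := cs_sum_u hct he (mul_nonneg hδ hN0.le) i htube hvan
    have hiN : (i : ℝ) ≤ N := by exact_mod_cast hi2
    have b3 : ∑ k ∈ Finset.range i, u k ≤ N * e + ct * (δ * N + 1) := by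
      have := mul_le_mul_of_nonneg_right hiN he
      linarith
    calc C * ∑ k ∈ Finset.range i, cvl θ ρ u k ≤ C * ((ρ + ∑ k ∈ Finset.range i, u k) / (1 - θ)) :=
          mul_le_mul_of_nonneg_left b1 hC
      _ = C / (1 - θ) * (ρ + ∑ k ∈ Finset.range i, u k) := by ring
      _ ≤ C / (1 - θ) * (ρ + (N * e + ct * (δ * N + 1))) := mul_le_mul_of_nonneg_left (by linarith) hΓ
      _ = C / (1 - θ) * (ρ + ct) + (C / (1 - θ) * e + C / (1 - θ) * (ct * δ)) * N := by ring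
      _ = _ := by rw [h1, h2]; ring
  have a5 := Real.exp_le_exp.2 a4
  rw [Real.exp_add] at a5
  have hrp : (N : ℝ) ^ (Ce + 1) = (N : ℝ) ^ Ce * N := Real.rpow_add_one hN0.ne' Ce
  have hNCe : 0 ≤ (N : ℝ) ^ Ce := Real.rpow_nonneg hN0.le _
  have hCsCe : 0 ≤ Cs ^ Ce := Real.rpow_nonneg hCs _
  have hsCe : 0 ≤ (sN : ℝ) ^ Ce := Real.rpow_nonneg (Nat.cast_nonneg _) _
  have eexp : Real.exp (-lam * (7 / 8 * N)) * Real.exp (lam * (1 / 4 * N)) = Real.exp (-lam * (5 / 8 * N)) := by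
    rw [← Real.exp_add]; congr 1; ring
  calc Ce * (sN : ℝ) ^ Ce * θ ^ i * D ^ 2 * Real.exp (C * ∑ k ∈ Finset.range i, cvl θ ρ u k)
      ≤ Ce * (Cs ^ Ce * (N : ℝ) ^ Ce) * Real.exp (-lam * (7 / 8 * N)) * (Lr ^ 2 * N) *
          (Real.exp (C / (1 - θ) * (ρ + ct)) * Real.exp (lam * (1 / 4 * N))) := by
        gcongr
    _ = (Ce * Cs ^ Ce * Lr ^ 2 * Real.exp (C / (1 - θ) * (ρ + ct))) * ((N : ℝ) ^ Ce * N) *
          (Real.exp (-lam * (7 / 8 * N)) * Real.exp (lam * (1 / 4 * N))) := by ring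
    _ = _ := by rw [eexp, hrp]

/-- the cutoff term -/
theorem cs_cut_le {Ce ce cs Lr a1 c3 m : ℝ} (hCe : 0 < Ce) (hce : 0 ≤ ce) (hcs : 0 ≤ cs) (hL : 0 < Lr) (N sN : ℕ)
    (hs : cs * N ≤ sN) (hm : Real.exp (-(a1 * ((N : ℝ) + 1) + c3)) ≤ m)
    (hq : (2 * Real.log Lr + a1 + 1) * N + (Real.log Ce + 2 * Real.log Lr + a1 + c3) ≤ ce * cs ^ 2 * (N : ℝ) ^ 2) :
    Ce * (Lr ^ (N + 1)) ^ 2 * Real.exp (-ce * (sN : ℝ) ^ 2) / m ≤ Real.exp (-(N : ℝ)) := by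
  have hN0 : (0 : ℝ) ≤ (N : ℝ) := Nat.cast_nonneg _
  have e1 : Ce = Real.exp (Real.log Ce) := (Real.exp_log hCe).symm
  have e2 : (Lr ^ (N + 1)) ^ 2 = Real.exp (2 * (((N : ℝ) + 1) * Real.log Lr)) := by
    rw [← pow_mul, mul_comm (N + 1) 2, pow_mul, ← Real.exp_log (pow_pos hL 2), Real.log_pow, ← Real.exp_nat_mul]
    congr 1; push_cast; ring
  have e3 : Real.exp (-ce * (sN : ℝ) ^ 2) ≤ Real.exp (-ce * (cs * N) ^ 2) := by
    apply Real.exp_le_exp.2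
    have : (cs * N) ^ 2 ≤ (sN : ℝ) ^ 2 := pow_le_pow_left₀ (by positivity) hs 2
    nlinarith
  have hm0 : 0 < Real.exp (-(a1 * ((N : ℝ) + 1) + c3)) := Real.exp_pos _
  have hcut0 : 0 ≤ Ce * (Lr ^ (N + 1)) ^ 2 * Real.exp (-ce * (sN : ℝ) ^ 2) := by positivity
  calc Ce * (Lr ^ (N + 1)) ^ 2 * Real.exp (-ce * (sN : ℝ) ^ 2) / m
      ≤ Ce * (Lr ^ (N + 1)) ^ 2 * Real.exp (-ce * (sN : ℝ) ^ 2) / Real.exp (-(a1 * ((N : ℝ) + 1) + c3)) :=
        div_le_div_of_nonneg_left hcut0 hm0 hm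
    _ ≤ Ce * (Lr ^ (N + 1)) ^ 2 * Real.exp (-ce * (cs * N) ^ 2) / Real.exp (-(a1 * ((N : ℝ) + 1) + c3)) := by
        gcongr
    _ = Real.exp (Real.log Ce + 2 * (((N : ℝ) + 1) * Real.log Lr) + -ce * (cs * N) ^ 2
          - -(a1 * ((N : ℝ) + 1) + c3)) := by
        rw [Real.exp_sub, Real.exp_add, Real.exp_add, ← e1, ← e2]
    _ ≤ Real.exp (-(N : ℝ)) := by
        apply Real.exp_le_exp.2
        nlinarith

/-- lower bound of the magnetisation from the rough asymptotics and the Green constant -/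
theorem cs_M_ge {M Q G η ℓ cG x : ℝ} (hQ : Q = M * Real.exp (G / (16 * Real.pi))) (h1 : Real.exp (-η * x) ≤ Q)
    (h2 : G ≤ 2 * Real.pi * ℓ * x + cG + 1) :
    Real.exp (-((η + ℓ / 8) * x + (|cG| + 1) / (16 * Real.pi))) ≤ M := by
  have hpi := Real.pi_pos
  have e : M = Q * Real.exp (-(G / (16 * Real.pi))) := by
    rw [hQ, mul_assoc, ← Real.exp_add]; simp
  rw [e]
  have h3 : G / (16 * Real.pi) ≤ ℓ / 8 * x + (|cG| + 1) / (16 * Real.pi) := by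
    have : ℓ / 8 * x + (|cG| + 1) / (16 * Real.pi) = (2 * Real.pi * ℓ * x + |cG| + 1) / (16 * Real.pi) := by
      field_simp; ring
    rw [this]
    apply div_le_div_of_nonneg_right _ (by positivity)
    linarith [le_abs_self cG]
  calc Real.exp (-((η + ℓ / 8) * x + (|cG| + 1) / (16 * Real.pi)))
      = Real.exp (-η * x) * Real.exp (-(ℓ / 8 * x + (|cG| + 1) / (16 * Real.pi))) := by
        rw [← Real.exp_add]; congr 1; ring
    _ ≤ Q * Real.exp (-(G / (16 * Real.pi))) :=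
        mul_le_mul h1 (Real.exp_le_exp.2 (by linarith)) (Real.exp_pos _).le ((Real.exp_pos _).le.trans h1)

/-- the gradient coefficient at the stop -/
theorem cs_t_le {τ ℓ A x y d : ℝ} (hℓ : 0 < ℓ) (hx : 0 < x) (hlog : 1 ≤ Real.log x) (hy : y = x - d) (hd0 : 0 ≤ d)
    (hd1 : d ≤ 1 + Real.log x) (hd2 : d ≤ x / 8) (h : |τ - 1 / (2 * ℓ * y)| ≤ A * Real.log x / x ^ 2) :
    |τ - 1 / (2 * ℓ * x)| ≤ (|A| + 2 / ℓ) * Real.log x / x ^ 2 := by
  have hy0 : x / 2 ≤ y := by rw [hy]; linarith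
  have hy1 : 0 < y := by linarith
  have e : 1 / (2 * ℓ * y) - 1 / (2 * ℓ * x) = d / (2 * ℓ * y * x) := by
    have : d = x - y := by rw [hy]; ring
    rw [this]; field_simp
  have h1 : |1 / (2 * ℓ * y) - 1 / (2 * ℓ * x)| ≤ 2 / ℓ * Real.log x / x ^ 2 := by
    rw [e, abs_of_nonneg (by positivity)]
    calc d / (2 * ℓ * y * x) ≤ (2 * Real.log x) / (2 * ℓ * (x / 2) * x) := by
          apply div_le_div₀ (by linarith) (by linarith) (by positivity)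
          gcongr
      _ = 2 / ℓ * Real.log x / x ^ 2 := by field_simp
  have h2 : A * Real.log x / x ^ 2 ≤ |A| * Real.log x / x ^ 2 := by
    apply div_le_div_of_nonneg_right _ (by positivity)
    exact mul_le_mul_of_nonneg_right (le_abs_self A) (by linarith)
  calc |τ - 1 / (2 * ℓ * x)| = |(τ - 1 / (2 * ℓ * y)) + (1 / (2 * ℓ * y) - 1 / (2 * ℓ * x))| := by congr 1; ring
    _ ≤ |τ - 1 / (2 * ℓ * y)| + |1 / (2 * ℓ * y) - 1 / (2 * ℓ * x)| := abs_add_le _ _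
    _ ≤ |A| * Real.log x / x ^ 2 + 2 / ℓ * Real.log x / x ^ 2 := by linarith
    _ = _ := by ring

theorem cs_j0_ev {L : ℕ} (hL : 2 ≤ L) {s j0 : ℕ → ℕ} {Cs : ℝ} {q0 : ℕ}
    (hside : ∀ᶠ N : ℕ in atTop, (s N : ℝ) ≤ Cs * N) (hentry : ∀ᶠ N : ℕ in atTop, q0 * s N = L ^ j0 N) :
    ∀ᶠ N : ℕ in atTop, ((j0 N + csd L N : ℕ) : ℝ) ≤ (N : ℝ) / 8 := by
  set K : ℝ := |(q0 : ℝ) * Cs| + 1 with hK
  have hK1 : 1 ≤ K := by rw [hK]; linarith [abs_nonneg ((q0 : ℝ) * Cs)]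
  have hlK : 0 ≤ Real.log K := Real.log_nonneg hK1
  filter_upwards [hside, hentry, eventually_ge_atTop 2, cs_log_ev (2 * (Real.log K + 1) + 1) (1 / 8) (by norm_num)]
    with N h1 h2 hN h3
  have hN0 : (2 : ℝ) ≤ (N : ℝ) := by exact_mod_cast hN
  have hlN : 0 ≤ Real.log N := Real.log_nonneg (by linarith)
  have hd := cs_d_le_log hL hN
  have a1 : (2 : ℝ) ^ j0 N ≤ K * N := by
    have b1 : ((q0 * s N : ℕ) : ℝ) = ((L ^ j0 N : ℕ) : ℝ) := by rw [h2]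
    push_cast at b1
    have b2 : (2 : ℝ) ^ j0 N ≤ (L : ℝ) ^ j0 N := pow_le_pow_left₀ (by norm_num) (by exact_mod_cast hL) _
    have b3 : (q0 : ℝ) * (s N : ℝ) ≤ (q0 : ℝ) * (Cs * N) := mul_le_mul_of_nonneg_left h1 (Nat.cast_nonneg _)
    have b4 : (q0 : ℝ) * (Cs * N) ≤ K * N := by
      rw [← mul_assoc]
      apply mul_le_mul_of_nonneg_right _ (by linarith)
      rw [hK]; linarith [le_abs_self ((q0 : ℝ) * Cs)]
    linarith
  have a2 := Real.log_le_log (by positivity) a1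
  rw [Real.log_pow, Real.log_mul (by linarith) (by linarith)] at a2
  have hl2 : (1 : ℝ) / 2 ≤ Real.log 2 := by
    have := Real.log_two_gt_d9
    linarith
  have hj : (0 : ℝ) ≤ (j0 N : ℝ) := Nat.cast_nonneg _
  have a3 : (j0 N : ℝ) ≤ 2 * (Real.log K + Real.log N) := by nlinarith
  push_cast
  have a4 : 2 * (Real.log K + Real.log N) ≤ 2 * (Real.log K + 1) * (1 + Real.log N) := by nlinarith
  have e : (2 * (Real.log K + 1) + 1) * (1 + Real.log N) = 2 * (Real.log K + 1) * (1 + Real.log N) + (1 + Real.log N) := by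
    ring
  rw [e] at h3
  linarith

theorem cs_fix_poly {θ C ct ρ A Lr w D : ℝ} {u r : ℕ → ℝ} (hθ : 0 < θ) (hθ1 : θ < 1) (hC : 0 < C) (hct : 0 < ct)
    (hρ : 0 ≤ ρ) (hA : 0 ≤ A) (hu : ∀ k, 0 ≤ u k) (N i j0 d : ℕ) (hN : 1 ≤ N) (hsum : j0 + i + d = N)
    (hjd : ((j0 + d : ℕ) : ℝ) ≤ (N : ℝ) / 8) (htube : ∀ k ≤ i, u k ≤ ct)
    (hlate : ∀ k ≤ i, (N : ℝ) / 2 ≤ ((j0 + k : ℕ) : ℝ) → u k ≤ A / N ∧ r k ≤ A / (N : ℝ) ^ 2)
    (hw : 1 ≤ w) (hwN : w ^ 20 = N) (hD1 : w ≤ D) (hD2 : D ≤ Lr * w)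
    (hw2 : Lr ^ 2 * (C * (A / (1 - θ) + 1)) / ct ≤ w)
    (h14 : (ρ + 2 * ct) * (N : ℝ) ^ (2 : ℝ) * Real.exp (-(3 / 8 * (-Real.log θ)) * N) ≤ 1) :
    D ^ 4 * (C * cvl θ ρ u i) ^ 2 + (C * cvl θ ρ u i) / D + D ^ 2 * (C * r i) ≤
      (Lr ^ 4 * (C * (A / (1 - θ) + 1)) ^ 2 + C * (A / (1 - θ) + 1) + Lr ^ 2 * (C * A)) * (1 / w ^ 21) ∧
    D ^ 2 * (C * cvl θ ρ u i) ≤ ct := by
  have hNpos : (0 : ℝ) < (N : ℝ) := by exact_mod_cast hN
  have hN1 : (1 : ℝ) ≤ (N : ℝ) := by exact_mod_cast hN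
  have hsumR : (j0 : ℝ) + i + d = N := by exact_mod_cast hsum
  have hjdR : (j0 : ℝ) + d ≤ (N : ℝ) / 8 := by exact_mod_cast hjd
  have hcv0 : 0 ≤ cvl θ ρ u i := cs_cvl_nonneg hθ.le hρ hu i
  have hcv := cs_nu hθ hθ1 hρ hct.le hA hu N i j0 d hN hsum hjd htube (fun k hk h => (hlate k hk h).1)
  have hE : (ρ + ((N : ℝ) + 1) * ct) * Real.exp (-(-Real.log θ) * (3 / 8 * N)) ≤ 1 / N := by
    have e1 : Real.exp (-(-Real.log θ) * (3 / 8 * N)) = Real.exp (-(3 / 8 * (-Real.log θ)) * N) := by congr 1; ring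
    rw [e1]
    have hE0 := Real.exp_pos (-(3 / 8 * (-Real.log θ)) * N)
    rw [Real.rpow_two] at h14
    rw [le_div_iff₀ hNpos]
    have h1 : ρ + ((N : ℝ) + 1) * ct ≤ (ρ + 2 * ct) * N := by
      have a1 : ρ ≤ ρ * N := le_mul_of_one_le_right hρ hN1
      have a2 : ((N : ℝ) + 1) * ct ≤ (2 * N) * ct := mul_le_mul_of_nonneg_right (by linarith) hct.le
      linarith
    calc (ρ + ((N : ℝ) + 1) * ct) * Real.exp (-(3 / 8 * (-Real.log θ)) * N) * N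
        ≤ ((ρ + 2 * ct) * N) * Real.exp (-(3 / 8 * (-Real.log θ)) * N) * N := by gcongr
      _ = (ρ + 2 * ct) * (N : ℝ) ^ 2 * Real.exp (-(3 / 8 * (-Real.log θ)) * N) := by ring
      _ ≤ 1 := h14
  have hν : C * cvl θ ρ u i ≤ C * (A / (1 - θ) + 1) / w ^ 20 := by
    rw [hwN, mul_div_assoc]
    apply mul_le_mul_of_nonneg_left _ hC.le
    rw [add_div]
    linarith
  have hν2 : C * r i ≤ C * A / w ^ 40 := by
    have e1 : w ^ 40 = (N : ℝ) ^ 2 := by rw [← hwN, ← pow_mul]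
    rw [e1, mul_div_assoc]
    apply mul_le_mul_of_nonneg_left _ hC.le
    have hh : (N : ℝ) / 2 ≤ ((j0 + i : ℕ) : ℝ) := by push_cast; linarith
    exact (hlate i le_rfl hh).2
  obtain ⟨hp1, hp2⟩ := cs_poly hw hD1 hD2 (mul_nonneg hC.le hcv0) hν hν2 (mul_nonneg hC.le hA)
  refine ⟨hp1, hp2.trans ?_⟩
  rw [div_le_iff₀ hct] at hw2
  rw [mul_one_div, div_le_iff₀ (by linarith)]
  linarith

theorem cs_fix_lab {lab K2 lam p Q1 Q2 x : ℝ} (h0 : 0 ≤ lab) (h : lab ≤ K2 * p * Real.exp (-lam * (5 / 8 * x)))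
    (hQ1 : Real.exp (-(lam / 8) * x) ≤ Q1) (hQ2 : Real.exp (-(lam / 8) * (x + 1)) ≤ Q2) (hlam : 0 ≤ lam)
    (h15 : K2 * Real.exp (lam / 8) * p * Real.exp (-(lam / 4) * x) ≤ 1) :
    lab / min Q1 Q2 ≤ Real.exp (x * (-(lam / 4))) := by
  have hq0 : 0 < Real.exp (-(lam / 8) * (x + 1)) := Real.exp_pos _
  have hq : Real.exp (-(lam / 8) * (x + 1)) ≤ min Q1 Q2 := by
    apply le_min _ hQ2
    refine le_trans (Real.exp_le_exp.2 ?_) hQ1
    nlinarith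
  calc lab / min Q1 Q2 ≤ lab / Real.exp (-(lam / 8) * (x + 1)) := div_le_div_of_nonneg_left h0 hq0 hq
    _ ≤ K2 * p * Real.exp (-lam * (5 / 8 * x)) / Real.exp (-(lam / 8) * (x + 1)) :=
        div_le_div_of_nonneg_right h hq0.le
    _ = (K2 * Real.exp (lam / 8) * p * Real.exp (-(lam / 4) * x)) * Real.exp (x * (-(lam / 4))) := by
        rw [mul_div_assoc, ← Real.exp_sub]
        have e : -lam * (5 / 8 * x) - -(lam / 8) * (x + 1) = lam / 8 + (-(lam / 4) * x + x * (-(lam / 4))) := by ring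
        rw [e, Real.exp_add, Real.exp_add]; ring
    _ ≤ 1 * Real.exp (x * (-(lam / 4))) := mul_le_mul_of_nonneg_right h15 (Real.exp_pos _).le
    _ = _ := one_mul _

theorem cs_fixed (L : ℕ) (hL : 2 ≤ L) (κo : ObsC) (Ce ce : ℝ) (hCe : 1 ≤ Ce) (hce : 0 < ce) (P0 : ℕ) (ε : ℝ) (hε : 0 < ε)
    (sN j0 : ℕ) (u r t : ℕ → ℝ) (N : ℕ) (hS : StepIneq L κo Ce ce P0 ε sN j0 u r t)
    (cs Cs A cG e' δ lam Kν K5 K2 a1 c3 : ℝ) (hcs : 0 < cs) (he' : 0 ≤ e') (hδ : 0 ≤ δ) (hA : 0 ≤ A)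
    (hlam : lam = -Real.log κo.θ)
    (hKν : Kν = κo.C * (A / (1 - κo.θ) + 1))
    (hK5 : K5 = (L : ℝ) ^ 4 * Kν ^ 2 + Kν + (L : ℝ) ^ 2 * (κo.C * A))
    (hK2 : K2 = Ce * Cs ^ Ce * (L : ℝ) ^ 2 * Real.exp (κo.C / (1 - κo.θ) * (ε + κo.c)))
    (ha1 : a1 = lam / 8 + Real.log L / 8) (hc3 : c3 = (|cG| + 1) / (16 * Real.pi))
    (hΓe : κo.C / (1 - κo.θ) * e' = lam / 8) (hΓδ : κo.C / (1 - κo.θ) * (κo.c * δ) = lam / 8)
    (hu : ∀ k, 0 ≤ u k)
    (hside : cs * N ≤ sN ∧ (sN : ℝ) ≤ Cs * N)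
    (htube : ∀ k, j0 + k ≤ N → u k < κo.c)
    (hvan : ∀ k, δ * N ≤ ((j0 + k : ℕ) : ℝ) → j0 + k ≤ N → u k ≤ e')
    (hlate : ∀ k, (N : ℝ) / 2 ≤ ((j0 + k : ℕ) : ℝ) → j0 + k ≤ N → u k ≤ A / N ∧ r k ≤ A / (N : ℝ) ^ 2)
    (hjd : ((j0 + csd L N : ℕ) : ℝ) ≤ (N : ℝ) / 8)
    (hR1 : 0 < centerMag xyCritical (L ^ N) ∧ Real.exp (-(lam / 8) * N) ≤ Qc (L ^ N))
    (hR2 : 0 < centerMag xyCritical (L ^ (N + 1)) ∧ Real.exp (-(lam / 8) * ((N + 1 : ℕ) : ℝ)) ≤ Qc (L ^ (N + 1)))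
    (hG1 : Glue.unitEnergy (L ^ N) ≤ 2 * Real.pi * Real.log L * N + cG + 1)
    (hG2 : Glue.unitEnergy (L ^ (N + 1)) ≤ 2 * Real.pi * Real.log L * ((N + 1 : ℕ) : ℝ) + cG + 1)
    (hN : 2 ≤ N) (hw1 : κo.C ≤ csw N) (hw2 : (L : ℝ) ^ 2 * Kν / κo.c ≤ csw N)
    (hc : Ce * Cs * P0 * (N : ℝ) ^ (1 : ℝ) * Real.exp (-Real.log 2 * N) ≤ 1)
    (h14 : (ε + 2 * κo.c) * (N : ℝ) ^ (2 : ℝ) * Real.exp (-(3 / 8 * lam) * N) ≤ 1)
    (h15 : K2 * Real.exp (lam / 8) * (N : ℝ) ^ (Ce + 1) * Real.exp (-(lam / 4) * N) ≤ 1)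
    (h15' : 1 / κo.c * (N : ℝ) ^ (0 : ℝ) * Real.exp (-(lam / 4) * N) ≤ 1)
    (h16' : 1 / κo.c * (N : ℝ) ^ (0 : ℝ) * Real.exp (-1 * N) ≤ 1)
    (hq : (2 * Real.log L + a1 + 1) * N + (Real.log Ce + 2 * Real.log L + a1 + c3) ≤ ce * cs ^ 2 * (N : ℝ) ^ 2) :
    |Real.log (centerMag xyCritical (L ^ (N + 1))) - Real.log (centerMag xyCritical (L ^ N))
        + (1 - t (N - csd L N - j0)) / (16 * Real.pi) * (Glue.unitEnergy (L ^ (N + 1)) - Glue.unitEnergy (L ^ N))|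
      ≤ κo.C * (K5 * ((N : ℝ) ^ ((21 : ℝ) / 20))⁻¹ + Real.exp ((N : ℝ) * (-(lam / 4))) + Real.exp (-(N : ℝ))) := by
  obtain ⟨C, ct, θ, hC, hct, hθ0, hθ1⟩ := κo
  simp only at *
  have hC0 : 0 < C := by linarith
  have hCe0 : 0 < Ce := by linarith
  have hlam0 : 0 < lam := by
    have := Real.log_neg hθ0 hθ1
    rw [hlam]; linarith
  have hLr2 : (2 : ℝ) ≤ (L : ℝ) := by exact_mod_cast hL
  have hLr0 : (0 : ℝ) < (L : ℝ) := by linarith
  have hℓ0 : 0 < Real.log L := Real.log_pos (by linarith)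
  have hN1 : 1 ≤ N := by omega
  have hN0 : (2 : ℝ) ≤ (N : ℝ) := by exact_mod_cast hN
  have hNpos : (0 : ℝ) < (N : ℝ) := by linarith
  obtain ⟨d, hd⟩ : ∃ d, d = csd L N := ⟨_, rfl⟩
  obtain ⟨w, hwdef⟩ : ∃ w, w = csw N := ⟨_, rfl⟩
  obtain ⟨D, hDdef⟩ : ∃ D, D = (L : ℝ) ^ d := ⟨_, rfl⟩
  rw [← hd] at hjd ⊢
  rw [← hwdef] at hw1 hw2
  obtain ⟨i, hi⟩ : ∃ i, i = N - d - j0 := ⟨_, rfl⟩
  rw [← hi]
  have hd1 : 1 ≤ d := by rw [hd]; exact cs_d_pos hL hN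
  have hw : 1 ≤ w := by rw [hwdef]; exact one_le_csw hN1
  have hwN : w ^ 20 = N := by rw [hwdef]; exact csw_pow N
  have hw21 : 1 / w ^ 21 = ((N : ℝ) ^ ((21 : ℝ) / 20))⁻¹ := by rw [hwdef, csw_pow21, one_div]
  have hD1 : w ≤ D := by rw [hwdef, hDdef, hd]; exact csw_le_D hL N
  have hD2 : D ≤ (L : ℝ) * w := by rw [hwdef, hDdef, hd]; exact cs_D_le hL hN
  have hD0 : 0 < D := by linarith
  have hjdR : (j0 : ℝ) + d ≤ (N : ℝ) / 8 := by exact_mod_cast hjd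
  have hle : j0 + d ≤ N := by
    have : ((j0 + d : ℕ) : ℝ) ≤ (N : ℝ) := by linarith
    exact_mod_cast this
  have hsum : j0 + i + d = N := by omega
  have hsub : N - (j0 + i) = d := by omega
  have hsumR : (j0 : ℝ) + i + d = N := by exact_mod_cast hsum
  have hi1 : 7 / 8 * (N : ℝ) ≤ i := by linarith
  have hi2 : i ≤ N := by omega
  have hCs0 : 0 ≤ Cs := by
    have h1 : cs * N ≤ Cs * N := hside.1.trans hside.2
    have h2 : cs ≤ Cs := le_of_mul_le_mul_right h1 hNpos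
    linarith
  -- polynomial terms
  obtain ⟨hp1, hp2⟩ := cs_fix_poly (Lr := (L : ℝ)) (r := r) hθ0 hθ1 hC0 hct hε.le hA hu N i j0 d hN1 hsum hjd
    (fun k hk => (htube k (by omega)).le) (fun k hk h => hlate k h (by omega)) hw hwN hD1 hD2
    (by rw [← hKν]; exact hw2) (by rw [← hlam]; exact h14)
  rw [← hKν, ← hK5, hw21] at hp1
  -- the label
  have hlab := cs_lab_le (Lr := (L : ℝ)) (Ce := Ce) hθ0 hθ1 hlam hC0.le hct.le hε.le hCe0.le hCs0 he' hδ hu N i sN hN1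
    hside.2 hi1 hi2 hw hwN hD0.le hD2 (fun k hk => (htube k (by omega)).le)
    (fun k hk h => hvan k (by
      push_cast
      have : (0 : ℝ) ≤ (j0 : ℝ) := Nat.cast_nonneg _
      linarith) (by omega)) hΓe hΓδ
  rw [← hK2] at hlab
  obtain ⟨lab, hlabdef⟩ : ∃ lab, lab = Ce * (sN : ℝ) ^ Ce * θ ^ i * D ^ 2 *
      Real.exp (C * ∑ k ∈ Finset.range i, cvl θ ε u k) := ⟨_, rfl⟩
  rw [← hlabdef] at hlab
  have hlab0 : 0 ≤ lab := by
    rw [hlabdef]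
    have : 0 ≤ (sN : ℝ) ^ Ce := Real.rpow_nonneg (Nat.cast_nonneg _) _
    positivity
  have hR2' : Real.exp (-(lam / 8) * ((N : ℝ) + 1)) ≤ Qc (L ^ (N + 1)) := by
    have := hR2.2
    push_cast at this
    exact this
  have hlabQ := cs_fix_lab hlab0 hlab hR1.2 hR2' hlam0.le h15
  have hQpos : 0 < min (Qc (L ^ N)) (Qc (L ^ (N + 1))) :=
    lt_min ((Real.exp_pos _).trans_le hR1.2) ((Real.exp_pos _).trans_le hR2')
  have hg : lab ≤ ct * min (Qc (L ^ N)) (Qc (L ^ (N + 1))) := by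
    rw [← div_le_iff₀ hQpos]
    refine hlabQ.trans ?_
    rw [Real.rpow_zero, mul_one, one_div, inv_mul_le_iff₀ hct, mul_one] at h15'
    have e : (N : ℝ) * (-(lam / 4)) = -(lam / 4) * N := by ring
    rw [e]; exact h15'
  -- the cutoff
  have ha10 : 0 ≤ a1 := by rw [ha1]; positivity
  have hM1 : Real.exp (-(a1 * ((N : ℝ) + 1) + c3)) ≤ centerMag xyCritical (L ^ N) := by
    have h := cs_M_ge (M := centerMag xyCritical (L ^ N)) (Q := Qc (L ^ N)) (G := Glue.unitEnergy (L ^ N))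
      (η := lam / 8) (ℓ := Real.log L) (cG := cG) (x := (N : ℝ)) rfl hR1.2 hG1
    rw [← ha1, ← hc3] at h
    refine le_trans (Real.exp_le_exp.2 ?_) h
    have : a1 * (N : ℝ) ≤ a1 * ((N : ℝ) + 1) := mul_le_mul_of_nonneg_left (by linarith) ha10
    linarith
  have hM2 : Real.exp (-(a1 * ((N : ℝ) + 1) + c3)) ≤ centerMag xyCritical (L ^ (N + 1)) := by
    have hG2' : Glue.unitEnergy (L ^ (N + 1)) ≤ 2 * Real.pi * Real.log L * ((N : ℝ) + 1) + cG + 1 := by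
      have := hG2
      push_cast at this
      exact this
    have h := cs_M_ge (M := centerMag xyCritical (L ^ (N + 1))) (Q := Qc (L ^ (N + 1)))
      (G := Glue.unitEnergy (L ^ (N + 1))) (η := lam / 8) (ℓ := Real.log L) (cG := cG) (x := (N : ℝ) + 1) rfl hR2' hG2'
    rw [← ha1, ← hc3] at h
    exact h
  have hcutM := cs_cut_le (m := min (centerMag xyCritical (L ^ N)) (centerMag xyCritical (L ^ (N + 1))))
    hCe0 hce.le hcs.le hLr0 N sN hside.1 (le_min hM1 hM2) hq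
  obtain ⟨cut, hcutdef⟩ : ∃ cut, cut = Ce * ((L : ℝ) ^ (N + 1)) ^ 2 * Real.exp (-ce * (sN : ℝ) ^ 2) := ⟨_, rfl⟩
  rw [← hcutdef] at hcutM
  have hMpos : 0 < min (centerMag xyCritical (L ^ N)) (centerMag xyCritical (L ^ (N + 1))) := lt_min hR1.1 hR2.1
  have hh : cut ≤ ct * min (centerMag xyCritical (L ^ N)) (centerMag xyCritical (L ^ (N + 1))) := by
    rw [← div_le_iff₀ hMpos]
    refine hcutM.trans ?_
    rw [Real.rpow_zero, mul_one, one_div, inv_mul_le_iff₀ hct, mul_one] at h16'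
    have e : -(N : ℝ) = -1 * N := by ring
    rw [e]; exact h16'
  -- the size condition
  have hc' : Ce * ((sN * P0 : ℕ) : ℝ) ≤ (L : ℝ) ^ N := by
    rw [Real.rpow_one] at hc
    have e1 : Real.exp (-Real.log 2 * N) = ((2 : ℝ) ^ N)⁻¹ := by
      rw [neg_mul, Real.exp_neg, mul_comm, Real.exp_nat_mul, Real.exp_log (by norm_num)]
    rw [e1, ← div_eq_mul_inv, div_le_one (by positivity)] at hc
    have h2 : (2 : ℝ) ^ N ≤ (L : ℝ) ^ N := pow_le_pow_left₀ (by norm_num) hLr2 N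
    have h3 : Ce * ((sN * P0 : ℕ) : ℝ) ≤ Ce * Cs * P0 * N := by
      push_cast
      have : (sN : ℝ) * P0 ≤ (Cs * N) * P0 := mul_le_mul_of_nonneg_right hside.2 (Nat.cast_nonneg _)
      have := mul_le_mul_of_nonneg_left this hCe0.le
      linarith
    linarith
  have key := hS N i (by omega) (by rw [hsub, ← hDdef]; linarith) hc' (fun k hk => htube k (by omega)) hR1.1 hR2.1
    D (C * cvl θ ε u i) (C * r i) lab cut (by rw [hsub, hDdef]) le_rfl le_rfl (by rw [hlabdef]) (by rw [hcutdef])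
    hp2 hg hh
  refine key.trans ?_
  apply mul_le_mul_of_nonneg_left _ hC0.le
  linarith

/-- **the sequence form of [F] P6.1 + P5.1 ⟹ (6.2) with a summable error** -/
theorem center_seq (L : ℕ) (hL : 2 ≤ L) (κo : ObsC) (Ce ce : ℝ) (hCe : 1 ≤ Ce) (hce : 0 < ce) (P0 : ℕ) (ε : ℝ) (hε : 0 < ε)
    (s j0 : ℕ → ℕ) (u r t : ℕ → ℕ → ℝ)
    (hS : ∀ᶠ N in atTop, StepIneq L κo Ce ce P0 ε (s N) (j0 N) (u N) (r N) (t N))
    (hD : SeqDyn L κo.c s j0 u r t) (hR : Rough L) : Consec L := by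
  obtain ⟨cs, Cs, hcs, hside⟩ := hD.side
  obtain ⟨q0, hentry⟩ := hD.entry
  obtain ⟨A1, hlate⟩ := hD.late
  obtain ⟨A2, hgrad⟩ := hD.grad
  obtain ⟨cG, hG⟩ := Obs.green_constant L hL
  have hu := hD.u_nonneg
  have hC := κo.hC
  have hct := κo.hc
  have hθ0 := κo.hθ0
  have hθ1 := κo.hθ
  -- constants
  obtain ⟨lam, hlam⟩ : ∃ lam : ℝ, lam = -Real.log κo.θ := ⟨_, rfl⟩
  have hlam0 : 0 < lam := by
    have := Real.log_neg hθ0 hθ1
    rw [hlam]; linarith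
  have h1θ : 0 < 1 - κo.θ := by linarith
  have hC0 : 0 < κo.C := by linarith
  have hΓ0 : 0 < κo.C / (1 - κo.θ) := by positivity
  obtain ⟨e', he'⟩ : ∃ e' : ℝ, e' = lam / (8 * (κo.C / (1 - κo.θ))) := ⟨_, rfl⟩
  have he'0 : 0 < e' := by rw [he']; positivity
  obtain ⟨δ, hδ⟩ : ∃ δ : ℝ, δ = lam / (8 * (κo.C / (1 - κo.θ)) * κo.c) := ⟨_, rfl⟩
  have hδ0 : 0 < δ := by rw [hδ]; positivity
  have hΓe : κo.C / (1 - κo.θ) * e' = lam / 8 := by rw [he']; field_simp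
  have hΓδ : κo.C / (1 - κo.θ) * (κo.c * δ) = lam / 8 := by rw [hδ]; field_simp
  have hLr2 : (2 : ℝ) ≤ (L : ℝ) := by exact_mod_cast hL
  have hℓ0 : 0 < Real.log L := Real.log_pos (by linarith)
  obtain ⟨Kν, hKν⟩ : ∃ Kν : ℝ, Kν = κo.C * (|A1| / (1 - κo.θ) + 1) := ⟨_, rfl⟩
  obtain ⟨K5, hK5⟩ : ∃ K5 : ℝ, K5 = (L : ℝ) ^ 4 * Kν ^ 2 + Kν + (L : ℝ) ^ 2 * (κo.C * |A1|) := ⟨_, rfl⟩
  obtain ⟨K2, hK2⟩ : ∃ K2 : ℝ, K2 = Ce * Cs ^ Ce * (L : ℝ) ^ 2 * Real.exp (κo.C / (1 - κo.θ) * (ε + κo.c)) := ⟨_, rfl⟩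
  obtain ⟨a1, ha1⟩ : ∃ a1 : ℝ, a1 = lam / 8 + Real.log L / 8 := ⟨_, rfl⟩
  obtain ⟨c3, hc3⟩ : ∃ c3 : ℝ, c3 = (|cG| + 1) / (16 * Real.pi) := ⟨_, rfl⟩
  have hbs : Summable fun N : ℕ => κo.C * (K5 * ((N : ℝ) ^ ((21 : ℝ) / 20))⁻¹ + Real.exp ((N : ℝ) * (-(lam / 4)))
      + Real.exp (-(N : ℝ))) := by
    have s1 : Summable fun N : ℕ => ((N : ℝ) ^ ((21 : ℝ) / 20))⁻¹ := Real.summable_nat_rpow_inv.2 (by norm_num)
    have s2 : Summable fun N : ℕ => Real.exp ((N : ℝ) * (-(lam / 4))) :=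
      Real.summable_exp_nat_mul_iff.2 (by linarith)
    have s3 : Summable fun N : ℕ => Real.exp (-(N : ℝ)) := Real.summable_exp_neg_nat
    exact (((s1.mul_left K5).add s2).add s3).mul_left κo.C
  have hjd := cs_j0_ev hL (hside.mono fun N h => h.2) hentry
  refine ⟨fun N => t N (N - csd L N - j0 N),
    fun N => Real.log (centerMag xyCritical (L ^ (N + 1))) - Real.log (centerMag xyCritical (L ^ N))
      + (1 - t N (N - csd L N - j0 N)) / (16 * Real.pi) * (Glue.unitEnergy (L ^ (N + 1)) - Glue.unitEnergy (L ^ N)),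
    |A2| + 2 / Real.log L, ?_, ?_, ?_⟩
  · refine Summable.of_norm_bounded_eventually_nat hbs ?_
    have hR1 := hR (lam / 8) (by positivity)
    have hR2 := (tendsto_add_atTop_nat 1).eventually hR1
    have hG1 : ∀ᶠ N : ℕ in atTop, Glue.unitEnergy (L ^ N) ≤ 2 * Real.pi * Real.log L * N + cG + 1 := by
      filter_upwards [hG.eventually_le_const (lt_add_one cG)] with N hN
      linarith
    have hG2 := (tendsto_add_atTop_nat 1).eventually hG1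
    filter_upwards [hS, hside, hD.tube, hD.vanish δ hδ0 e' he'0, hlate, hjd, hR1, hR2, hG1, hG2, eventually_ge_atTop 2,
       csw_tendsto.eventually_ge_atTop κo.C, csw_tendsto.eventually_ge_atTop ((L : ℝ) ^ 2 * Kν / κo.c),
       cs_ev 1 (Real.log 2) (Ce * Cs * P0) (Real.log_pos one_lt_two),
       cs_ev 2 (3 / 8 * lam) (ε + 2 * κo.c) (by positivity),
       cs_ev (Ce + 1) (lam / 4) (K2 * Real.exp (lam / 8)) (by positivity),
       cs_ev 0 (lam / 4) (1 / κo.c) (by positivity),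
       cs_ev 0 1 (1 / κo.c) one_pos,
       cs_quad_ev (2 * Real.log L + a1 + 1) (Real.log Ce + 2 * Real.log L + a1 + c3) (ce * cs ^ 2) (by positivity)]
      with N hS hside htube hvan hlate hjd hR1 hR2 hG1 hG2 hN hw1 hw2 hc hν14 hl15 hl15' hc16' hq
    rw [Real.norm_eq_abs]
    have hNpos : (0 : ℝ) < (N : ℝ) := by
      have : (2 : ℝ) ≤ (N : ℝ) := by exact_mod_cast hN
      linarith
    exact cs_fixed L hL κo Ce ce hCe hce P0 ε hε (s N) (j0 N) (u N) (r N) (t N) N hS cs Cs |A1| cG e' δ lam Kν K5 K2 a1 c3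
      hcs he'0.le hδ0.le (abs_nonneg _) hlam hKν hK5 hK2 ha1 hc3 hΓe hΓδ (hu N) hside htube hvan
      (fun k h1 h2 => ⟨((hlate k h1 h2).1).trans (div_le_div_of_nonneg_right (le_abs_self A1) hNpos.le),
        ((hlate k h1 h2).2).trans (div_le_div_of_nonneg_right (le_abs_self A1) (by positivity))⟩)
      hjd hR1 hR2 hG1 hG2 hN hw1 hw2 hc hν14 hl15 hl15' hc16' hq
  · -- the gradient coefficient
    filter_upwards [hgrad, hjd, eventually_ge_atTop 3] with N h1 h2 hN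
    have hN2 : 2 ≤ N := by omega
    have hN0 : (3 : ℝ) ≤ (N : ℝ) := by exact_mod_cast hN
    have hd := cs_d_le_log hL hN2
    push_cast at h2
    have hj0 : (0 : ℝ) ≤ (j0 N : ℝ) := Nat.cast_nonneg _
    have hdn : (0 : ℝ) ≤ (csd L N : ℝ) := Nat.cast_nonneg _
    have hle : j0 N + csd L N ≤ N := by
      have : ((j0 N + csd L N : ℕ) : ℝ) ≤ (N : ℝ) := by push_cast; linarith
      exact_mod_cast this
    have hsum : j0 N + (N - csd L N - j0 N) = N - csd L N := by omega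
    have hsumR : ((j0 N + (N - csd L N - j0 N) : ℕ) : ℝ) = (N : ℝ) - csd L N := by
      rw [hsum, Nat.cast_sub (by omega)]
    have h3 := h1 (N - csd L N - j0 N) (by rw [hsumR]; linarith) (by omega)
    rw [hsumR] at h3
    have hlog : 1 ≤ Real.log N := by
      rw [Real.le_log_iff_exp_le (by linarith)]
      have := Real.exp_one_lt_d9
      linarith
    exact cs_t_le hℓ0 (by linarith) hlog rfl hdn hd (by linarith) h3
  · exact Eventually.of_forall fun N => by ring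
end Claimed.Agent.R285.F6
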