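import Claimed.Agent.R285.Obs.PairGeo

/-!
# ROW 285, unit OBS: from the paired history at the stop (vocabulary `F6.Pr`, total field) to `F6.Stop` (vocabulary `F6.Sq`)      (chief helper271)   -- KEEP

`Pr.AtStop` = EVERYTHING which the blocks of `Obs.pair_stop` (COPY/Inv, EST, REC, STOP) have to deliver in ONE centred free square at the stop `j'`, on an ARBITRARY grid `g` of terminal blocks and an arbitrary grid `cl` of cells.
`Pr.AtPair` = the copies between the two squares.   `Pr.stop_of_atStop` : `AtStop` (twice) + `AtPair` ⟹ `F6.Stop`.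
NO CASTS: the structures are stated for a VARIABLE grid.  The history lives on `Pr.lev Q.G ℓ j'`, `F6.Stop` on `Q.g`; these grids are EQUAL (`sq_g_eq_lev`, `sq_c_eq`) but not by `rfl`.  Recipe for the assembly of `pair_stop`:
prove `∀ g, g = Pr.lev G ℓ j' → ∀ cl, cl = torusGrid G sd _ → ∃ x : St g, AtStop .. g cl .. x ..` by `subst`, then instantiate `g := Q.g`, `cl := Q.c`.
-/

set_option autoImplicit false

namespace Claimed.Agent.R285.F6.Pr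

open scoped BigOperators ENNReal NNReal
open MeasureTheory
open Claimed.Agent.R285 Claimed.Agent.R285.RG Claimed.Agent.R285.B4 Claimed.Agent.R285.F4a

noncomputable section

/-! ## 1. The grids of `F6.Sq` are whole-block grids -/

theorem grid_ext_val {G : Geom} {g g' : Grid G} (hm : g.m = g'.m) (hn : g.n = g'.n)
    (hb : ∀ i, ((g.blk1 i : Fin g.n) : ℕ) = ((g'.blk1 i : Fin g'.n) : ℕ)) : g = g' := by
  obtain ⟨m, n, b⟩ := g
  obtain ⟨m', n', b'⟩ := g'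
  simp only at hm hn
  subst hm hn
  congr 1
  funext i
  exact Fin.ext (hb i)

theorem sq_m_dvd (Q : Sq) : Q.m ∣ Q.G.M := ⟨2 * Q.D, by show 2 * (Q.D * Q.m) = Q.m * (2 * Q.D); ring⟩

theorem sq_s_dvd (Q : Sq) : Q.s ∣ Q.G.M := ⟨2 * (Q.D * Q.r), by show 2 * (Q.D * (Q.r * Q.s)) = Q.s * (2 * (Q.D * Q.r)); ring⟩

theorem sq_g_eq (Q : Sq) (h : Q.m ∣ Q.G.M) : Q.g = torusGrid Q.G Q.m h := by
  refine grid_ext_val rfl ?_ fun i => rfl
  show 2 * Q.D = 2 * (Q.D * Q.m) / Q.m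
  rw [← Nat.mul_assoc, Nat.mul_div_cancel _ Q.m_pos]

theorem sq_c_eq (Q : Sq) (h : Q.s ∣ Q.G.M) : Q.c = torusGrid Q.G Q.s h := by
  refine grid_ext_val rfl ?_ fun i => rfl
  show 2 * (Q.D * Q.r) = 2 * (Q.D * (Q.r * Q.s)) / Q.s
  have e : 2 * (Q.D * (Q.r * Q.s)) = 2 * (Q.D * Q.r) * Q.s := by ring
  rw [e, Nat.mul_div_cancel _ Q.hs]

theorem sq_g_eq_lev (Q : Sq) (ℓ j : ℕ) (hm : Q.m = (2 ^ ℓ) ^ j) : Q.g = lev Q.G ℓ j := by
  have hs : side Q.G ℓ j = Q.m := by rw [side_eq (hm ▸ sq_m_dvd Q), hm]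
  refine grid_ext_val hs.symm ?_ fun i => ?_
  · show 2 * Q.D = 2 * (Q.D * Q.m) / side Q.G ℓ j
    rw [hs, ← Nat.mul_assoc, Nat.mul_div_cancel _ Q.m_pos]
  · show (i : ℕ) / Q.m = (i : ℕ) / side Q.G ℓ j
    rw [hs]

/-! ## 2. What is known at the stop -/

/-- the background `μ = v_n / α` -/
def muOf {G : Geom} (α : ℝ) (v : G.V → ℝ) : G.V → ℝ := fun y => v y / α

/-- **one centred free square at the stop.**  `x = (K0, KT, JT)` (unit sector in the TOTAL field), `Γ` terminal covariance, `V` regulator of the norm `fx`, `v` the co-closed branch, `Rm` the copy of the plane remainder.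
`t, z, ν, ν2, vJ, Dex, cex` as in `F6.Stop`. -/
structure AtStop {G : Geom} (fx : Fix) (b : ℝ) (g cl : Grid G) (col : ℕ) (x : St g) (Γ : Matrix G.V G.V ℝ) (V : Extra g) (v : G.V → ℝ) (Rm : Act g)
    (t z ν ν2 vJ Dex cex : ℝ) : Prop where
  term : IsTerminal G Fam.entry g.m Γ
  obs : IsObs fx.o cl g V
  K0_ok : Act.Ok fx.p col RR x.K0
  KT_ok : Act.Ok fx.p col RR (shA x.KT (muOf fx.α v))
  JT_ok : Act.Ok fx.p col RR (shA x.JT (muOf fx.α v))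
  K0_real : Act.Real x.K0
  KT_real : Act.Real (shA x.KT (muOf fx.α v))
  JT_real : Act.Real (shA x.JT (muOf fx.α v))
  K0_even : Act.Even fx.p.h0 x.K0
  K0_bd : actNorm fx.p g V x.K0 ≤ ENNReal.ofReal ν
  KT_bd : actNorm fx.p g V (shA x.KT (muOf fx.α v)) ≤ ENNReal.ofReal ν
  JT_bd : actNorm fx.p g V (shA x.JT (muOf fx.α v)) ≤ ENNReal.ofReal vJ
  coclosed : ∀ f : G.V → ℝ, ∑ e : G.V × Bool, etaE (G.M / 2) v e * (f (stp e.1 e.2) - f e.1) = 0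
  /-- L6.2 (i) -/
  plane : ∀ X, WallFree g fx.H0 X → ∀ w ∈ strip fx.p.h0 g X, x.K0 X w = B8.single g fx.α (t : ℂ) (z : ℂ) X w + Rm X w
  Rm_bd : ∀ X, WallFree g fx.H0 X → ENNReal.ofReal (fx.p.A ^ X.card) * fnSize fx.p g V X (Rm X) ≤ ENNReal.ofReal ν2
  /-- L6.2 (ii), total field: the gauge identity -/
  gauge : ∀ X, ShiftGood g fx.H1 X → ∀ w ∈ strip fx.p.h0 g X, x.KT X w = x.K0 X (w + toC (gF fx.p.ω (gaugeOf g fx.H1 X)))
  /-- (obs:extraction-identity) -/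
  ident : ∀ i0 : cl.I, Phat b cl i0 (tauU cl) (fun _ => 1) / Phat b cl i0 0 (fun _ => 1)
    = Real.exp (-Glue.unitEnergy (G.M / 2) / (2 * fx.o.a)) * Dex
      * ((cex * (F6.term fx.p.ω Γ (ZA g RR (shA x.KT (muOf fx.α v)))).re
          + (F6.term fx.p.ω Γ (ZA1 g RR (shA x.KT (muOf fx.α v)) (shA x.JT (muOf fx.α v)))).re)
        / (F6.term fx.p.ω Γ (ZA g RR x.K0)).re)

/-- **the two squares**: centred embedding, exact copies (total field, no translation) on the supports which are wall-free in the smaller square -/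
structure AtPair {G₀ G₁ : Geom} (fx : Fix) (g₀ : Grid G₀) (g₁ : Grid G₁) (col : ℕ) (E : GEmb g₀ g₁) (x₀ : St g₀) (x₁ : St g₁) : Prop where
  ok : E.Ok
  s_val : ∀ v, ((E.s v).1 : ℕ) = (v.1 : ℕ) + (G₁.M / 2 - G₀.M / 2) ∧ ((E.s v).2 : ℕ) = (v.2 : ℕ) + (G₁.M / 2 - G₀.M / 2)
  e_val : ∀ a, ((E.e a).1 : ℕ) = (a.1 : ℕ) + (g₁.n / 2 - g₀.n / 2) ∧ ((E.e a).2 : ℕ) = (a.2 : ℕ) + (g₁.n / 2 - g₀.n / 2)
  K0 : ∀ X, WallFree g₀ fx.H0 X → CopyX E fx.p.h0 col 0 x₀.K0 x₁.K0 X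
  KT : ∀ X, WallFree g₀ fx.H0 X → CopyX E fx.p.h0 col 0 x₀.KT x₁.KT X

/-! ## 3. The conversion -/

theorem sq_half_M (Q : Sq) : Q.G.M / 2 = Q.n := Nat.mul_div_cancel_left _ (by norm_num : 0 < 2)

theorem sq_half_n (Q : Sq) : Q.g.n / 2 = Q.D := Nat.mul_div_cancel_left _ (by norm_num : 0 < 2)

theorem sq_std (Q : Sq) : Std Q.g where
  pos := Q.m_pos
  card := by show 2 * (Q.D * Q.m) = 2 * Q.D * Q.m; ring
  blk := fun _ => rfl

theorem sq_pair_m (P : SqPair) : P.Q1.m = P.Q0.m := by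
  unfold Sq.m
  rw [P.hr, P.hs]

theorem single_eq_b8 {G : Geom} (g : Grid G) (α t z : ℝ) : F6.single g α t z = B8.single g α (t : ℂ) (z : ℂ) := by
  funext X
  unfold F6.single B8.single
  refine Finset.sum_congr rfl fun B _ => ?_
  push_cast
  rfl

/-- the data carried by one square -/
def sqData (fx : Fix) (Q : Sq) (col : ℕ) (x : St Q.g) (Γ : Matrix Q.G.V Q.G.V ℝ) (V : Extra Q.g) (v : Q.G.V → ℝ) (Rm : Act Q.g) : SqData Q :=
  ⟨Γ, V, x.K0, shA x.KT (muOf fx.α v), shA x.JT (muOf fx.α v), Rm, v, fun X => muOf fx.α v + gF fx.p.ω (gaugeOf Q.g fx.H1 X), col⟩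

theorem sq_shiftGood (Q : Sq) (H : ℕ) (X : Finset Q.g.I) (hX : Q.ShiftGood H X) : ShiftGood Q.g H X := by
  unfold ShiftGood
  rw [sq_half_n]
  exact hX

theorem sq_gaugeOf (Q : Sq) (H : ℕ) (X : Finset Q.g.I) (hX : Q.ShiftGood H X) : IsGaugeR Q.g H X (gaugeOf Q.g H X) := by
  have hex := prg_gauge_exists rfl Q.g (sq_std Q) ⟨Q.D, rfl⟩ H X (sq_shiftGood Q H X hX)
  unfold gaugeOf
  rw [dif_pos hex]
  exact hex.choose_spec

theorem sqData_ok (fx : Fix) (b : ℝ) (Q : Sq) (col : ℕ) (t z ν ν2 vJ Dex cex : ℝ)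
    (hα : 0 < fx.α) (hω : fx.p.ω = 2 * Real.pi / fx.α) (hcol : 4 * col ≤ Q.m) (hm : 2 ≤ Q.m)
    (x : St Q.g) (Γ : Matrix Q.G.V Q.G.V ℝ) (V : Extra Q.g) (v : Q.G.V → ℝ) (Rm : Act Q.g)
    (h : AtStop fx b Q.g Q.c col x Γ V v Rm t z ν ν2 vJ Dex cex) :
    (sqData fx Q col x Γ V v Rm).Ok fx t z ν ν2 vJ where
  term := h.term
  obs := h.obs
  col := hcol
  m_ge := hm
  K0_ok := h.K0_ok
  Kt_ok := h.KT_ok
  J_ok := h.JT_ok
  K0_real := h.K0_real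
  Kt_real := h.KT_real
  J_real := h.JT_real
  K0_even := h.K0_even
  K0_bd := h.K0_bd
  Kt_bd := h.KT_bd
  J_bd := h.JT_bd
  coclosed := by
    have := h.coclosed
    rw [sq_half_M] at this
    exact this
  lift := by
    intro X hX e he h1 h2
    have hg := sq_gaugeOf Q fx.H1 X hX e he h1 h2
    rw [sq_half_M] at hg
    have hg' : ((gaugeOf Q.g fx.H1 X (stp e.1 e.2) : ℤ) : ℝ) - ((gaugeOf Q.g fx.H1 X e.1 : ℤ) : ℝ) = ((tauE Q.n e : ℤ) : ℝ) := by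
      exact_mod_cast hg
    show (muOf fx.α v + gF fx.p.ω (gaugeOf Q.g fx.H1 X)) (stp e.1 e.2) - (muOf fx.α v + gF fx.p.ω (gaugeOf Q.g fx.H1 X)) e.1 = etaE Q.n v e / fx.α
    simp only [Pi.add_apply, muOf, gF, etaE]
    rw [hω, ← hg']
    field_simp
    ring
  plane := by
    intro X hX w hw
    rw [single_eq_b8]
    exact h.plane X hX w hw
  Rm_bd := h.Rm_bd
  shift := by
    intro X hX w hw
    show x.KT X (w + toC (muOf fx.α v)) = x.K0 X (w + toC (muOf fx.α v + gF fx.p.ω (gaugeOf Q.g fx.H1 X)))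
    rw [h.gauge X (sq_shiftGood Q fx.H1 X hX) _ (Hol.strip_add_toC hw _), Hol.toC_add, add_assoc]

/-! ### transport of the strip along an embedding -/

theorem dir_natAbs (i : Fin 4) : (dir i).1.natAbs + (dir i).2.natAbs ≤ 1 := by
  fin_cases i <;> simp [dir]

theorem dl_congr_box {α : Type} [AddGroup α] (l : List (Fin 4)) (f f' : ℤ × ℤ → α) (x x' : ℤ × ℤ) :
    ∀ k : ℕ, (∀ y : ℤ × ℤ, y.1.natAbs + y.2.natAbs ≤ k + l.length → f (x + y) = f' (x' + y)) →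
      ∀ y : ℤ × ℤ, y.1.natAbs + y.2.natAbs ≤ k → Hol.dl l f (x + y) = Hol.dl l f' (x' + y) := by
  induction l with
  | nil => intro k h y hy; exact h y (by simpa using hy)
  | cons i l ih =>
    intro k h y hy
    have h' := ih (k + 1) (fun y hy => h y (by rw [List.length_cons]; omega))
    simp only [Hol.dl_cons, dif]
    have hd := dir_natAbs i
    have e1 := h' (y + dir i) (by
      have a1 := Int.natAbs_add_le y.1 (dir i).1
      have a2 := Int.natAbs_add_le y.2 (dir i).2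
      simp only [Prod.fst_add, Prod.snd_add]
      omega)
    have e2 := h' y (by omega)
    rw [add_assoc, add_assoc, e1, e2]

theorem difs_congr_box {α : Type} [AddGroup α] {r : ℕ} (a : Fin r → Fin 4) (f f' : ℤ × ℤ → α) (x x' : ℤ × ℤ)
    (h : ∀ y : ℤ × ℤ, y.1.natAbs + y.2.natAbs ≤ r → f (x + y) = f' (x' + y)) : difs a f x = difs a f' x' := by
  have := dl_congr_box (List.ofFn a) f f' x x' 0 (fun y hy => h y (by simpa using hy)) 0 (by simp)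
  simpa [Hol.difs_eq_dl] using this

theorem inBox_of_wallFree {G : Geom} (hG : G.bc = BC.free) (g : Grid G) (hg : Std g) (hm : 2 ≤ g.m) (H : ℕ) (hH : 3 ≤ H)
    (X : Finset g.I) (hX : WallFree g H X) (v : G.V) (hv : v ∈ g.Dm X) (y : ℤ × ℤ) (hy : y.1.natAbs + y.2.natAbs ≤ 2) :
    InBox G (G.ι v + y) := by
  obtain ⟨a, ha, hav⟩ := (prg_mem_Dm g X v).1 hv
  obtain ⟨w1, w2, w3, w4⟩ := hX a ha
  obtain ⟨d1, d2, d3, d4⟩ := prg_idist_le hG g hav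
  have b1 : (((g.blk v).1 : Fin g.n) : ℕ) = (v.1 : ℕ) / g.m := hg.blk v.1
  have b2 : (((g.blk v).2 : Fin g.n) : ℕ) = (v.2 : ℕ) / g.m := hg.blk v.2
  rw [b1] at d1 d2
  rw [b2] at d3 d4
  have key : ∀ i : ℕ, 1 ≤ i / g.m → i / g.m + 2 ≤ g.n → 2 ≤ i ∧ i + 2 < G.M := by
    intro i h1 h2
    have e1 : g.m * (i / g.m) ≤ i := Nat.mul_div_le i g.m
    have e2 : i < g.m * (i / g.m) + g.m := by
      have := Nat.lt_mul_div_succ i hg.pos
      rw [Nat.mul_add, Nat.mul_one] at this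
      exact this
    have e3 : g.m * 1 ≤ g.m * (i / g.m) := Nat.mul_le_mul_left _ h1
    have e4 : g.m * (i / g.m + 2) ≤ g.m * g.n := Nat.mul_le_mul_left _ h2
    have e5 : G.M = g.m * g.n := by rw [hg.card, Nat.mul_comm]
    rw [Nat.mul_add] at e4
    constructor
    · omega
    · omega
  obtain ⟨k1, k2⟩ := key (v.1 : ℕ) (by omega) (by omega)
  obtain ⟨k3, k4⟩ := key (v.2 : ℕ) (by omega) (by omega)
  unfold InBox
  simp only [Geom.ι, Prod.fst_add, Prod.snd_add]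
  omega

theorem tnorm_emb_le {G₀ G₁ : Geom} {g₀ : Grid G₀} {g₁ : Grid G₁} (E : GEmb g₀ g₁) (hE : E.Ok) (hG : G₀.bc = BC.free) (hg : Std g₀)
    (hm : 2 ≤ g₀.m) (H : ℕ) (hH : 3 ≤ H) (X : Finset g₀.I) (hX : WallFree g₀ H X) (f : G₁.V → ℝ) :
    tnorm g₀ X (fun v => f (E.s v)) ≤ tnorm g₁ (X.map E.e) f := by
  rw [Hol.tnorm_le_iff]
  intro v hv
  obtain ⟨a, ha, hav⟩ := (prg_mem_Dm g₀ X v).1 hv
  have hv1 : E.s v ∈ g₁.Dm (X.map E.e) :=
    (prg_mem_Dm g₁ _ _).2 ⟨E.e a, Finset.mem_map_of_mem _ ha, by rw [hE.blk, hE.dist]; exact hav⟩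
  obtain ⟨s0, s1, s2⟩ := Hol.tnorm_spec g₁ (X.map E.e) f (E.s v) hv1
  have hl : ∀ y : ℤ × ℤ, y.1.natAbs + y.2.natAbs ≤ 2 →
      G₀.lift (fun v => f (E.s v)) (G₀.ι v + y) = G₁.lift f (G₁.ι (E.s v) + y) := by
    intro y hy
    show f (E.s (G₀.π (G₀.ι v + y))) = f (G₁.π (G₁.ι (E.s v) + y))
    rw [hE.lat v y (inBox_of_wallFree hG g₀ hg hm H hH X hX v hv y hy)]
  refine ⟨s0, fun a => ?_, fun a => ?_⟩
  · rw [difs_congr_box a _ (G₁.lift f) (G₀.ι v) (G₁.ι (E.s v)) (fun y hy => hl y (by omega)), ← hE.side]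
    exact s1 a
  · rw [difs_congr_box a _ (G₁.lift f) (G₀.ι v) (G₁.ι (E.s v)) hl, ← hE.side]
    exact s2 a

theorem strip_emb {G₀ G₁ : Geom} {g₀ : Grid G₀} {g₁ : Grid G₁} (E : GEmb g₀ g₁) (hE : E.Ok) (hG : G₀.bc = BC.free) (hg : Std g₀)
    (hm : 2 ≤ g₀.m) (H : ℕ) (hH : 3 ≤ H) (X : Finset g₀.I) (hX : WallFree g₀ H X) (h0 : ℝ≥0) (w : G₁.V → ℂ)
    (hw : w ∈ strip h0 g₁ (X.map E.e)) : (fun x => w (E.s x)) ∈ strip h0 g₀ X :=
  (tnorm_emb_le E hE hG hg hm H hH X hX (fun v => (w v).im)).trans_lt hw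

/-- **`L-OBS-CONV`** (proved, helper208).  Data: `d_n := ⟨Γ_n, V_n, x_n.K0, shA x_n.KT μ_n, shA x_n.JT μ_n, Rm_n, v_n, fun X => μ_n + gF ω (gaugeOf Q_n.g H1 X), col⟩`, `μ_n = muOf α v_n`.
* zones: `Pr.WallFree Q.g H X ↔ Q.WallFree H X`, `Pr.InRect Q.g = Q.InRect` by `Iff.rfl` / `rfl` (`Q.g.n = 2 * Q.D` by `rfl`); `Q.g.n / 2 = Q.D`, `Q.G.M / 2 = Q.n` (`Nat.mul_div_cancel_left`);
* `plane`: `F6.single Q.g α t z = B8.single Q.g α t z` (`push_cast`);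
* `lift`: `prg_gauge_exists` (`Std Q.g`: `rfl`-facts; `2 ∣ Q.g.n`) gives `IsGaugeR Q.g H1 X (gaugeOf ..)` (`dif_pos`, `choose_spec`); `∇ (v/α + ω κ) = (∇ v + 2π τ)/α` because `ω = 2π/α`;
* `shift`: `Kt X w = KT X (w + μ) = K0 X (w + μ + ω κ)` (`gauge` at `w + toC μ`, which lies in the same strip: real translation; `toC` is additive);
* `copy0`, `copyt`: `X.image P.eI = X.map E.e` (`e_val`), `E.s = P.eV` (`s_val`); apply `CopyX` with `z₁ := w (+ toC μ₁)`, `z₀ := z₁ ∘ E.s`; `Agree` is `rfl`-like (`μ = 0`);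
  `z₀ ∈ strip h0 Q0.g X`: `tnorm` only sees the stencils of `D_m (X)`, which stay in the box for a wall-free `X` (`H0 ≥ 3`): `GEmb.Ok.lat`, `GEmb.Ok.blk`, `GEmb.Ok.dist`; compare `TermC.lean` `tc_sc_*`, `tc8_*`, `TermCL.tcl_iota_eV`;
* `id0`, `id1` = `AtStop.ident Q.i0`. -/
theorem stop_of_atStop (fx : Fix) (b : ℝ) (P : SqPair) (col : ℕ) (t z ν ν2 vJ Dex cex : ℝ)
    (hα : 0 < fx.α) (hω : fx.p.ω = 2 * Real.pi / fx.α) (hH0 : 3 ≤ fx.H0) (hH1 : 2 ≤ fx.H1) (hcol : 4 * col ≤ P.Q0.m) (hm : 2 ≤ P.Q0.m)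
    (x₀ : St P.Q0.g) (x₁ : St P.Q1.g) (Γ₀ : Matrix P.Q0.G.V P.Q0.G.V ℝ) (Γ₁ : Matrix P.Q1.G.V P.Q1.G.V ℝ) (V₀ : Extra P.Q0.g) (V₁ : Extra P.Q1.g)
    (v₀ : P.Q0.G.V → ℝ) (v₁ : P.Q1.G.V → ℝ) (Rm₀ : Act P.Q0.g) (Rm₁ : Act P.Q1.g) (E : GEmb P.Q0.g P.Q1.g)
    (h₀ : AtStop fx b P.Q0.g P.Q0.c col x₀ Γ₀ V₀ v₀ Rm₀ t z ν ν2 vJ Dex cex)
    (h₁ : AtStop fx b P.Q1.g P.Q1.c col x₁ Γ₁ V₁ v₁ Rm₁ t z ν ν2 vJ Dex cex)
    (hp : AtPair fx P.Q0.g P.Q1.g col E x₀ x₁) (hDex : 0 < Dex) :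
    Nonempty (Stop fx b P t z ν ν2 vJ Dex cex) := by
  have hs : ∀ v, E.s v = P.eV v := by
    intro v
    obtain ⟨a1, a2⟩ := hp.s_val v
    rw [sq_half_M, sq_half_M] at a1 a2
    exact Prod.ext (Fin.ext a1) (Fin.ext a2)
  have he : ∀ a, E.e a = P.eI a := by
    intro a
    obtain ⟨a1, a2⟩ := hp.e_val a
    rw [sq_half_n, sq_half_n] at a1 a2
    exact Prod.ext (Fin.ext a1) (Fin.ext a2)
  have hmap : ∀ X : Finset P.Q0.g.I, X.image P.eI = X.map E.e := by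
    intro X
    rw [Finset.map_eq_image]
    exact Finset.image_congr fun a _ => (he a).symm
  have hm1 := sq_pair_m P
  refine ⟨⟨sqData fx P.Q0 col x₀ Γ₀ V₀ v₀ Rm₀, sqData fx P.Q1 col x₁ Γ₁ V₁ v₁ Rm₁,
    sqData_ok fx b P.Q0 col t z ν ν2 vJ Dex cex hα hω hcol hm x₀ Γ₀ V₀ v₀ Rm₀ h₀,
    sqData_ok fx b P.Q1 col t z ν ν2 vJ Dex cex hα hω (hm1 ▸ hcol) (hm1 ▸ hm) x₁ Γ₁ V₁ v₁ Rm₁ h₁,
    ⟨?_, ?_⟩, hDex, ?_, ?_⟩⟩
  · intro X hX w hw
    rw [hmap] at hw ⊢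
    have hz := strip_emb E hp.ok rfl (sq_std P.Q0) hm fx.H0 hH0 X hX fx.p.h0 w hw
    have := hp.K0 X hX _ hz w hw (fun v _ => by simp)
    simp only [hs] at this
    exact this.symm
  · intro X hX w hw
    rw [hmap] at hw ⊢
    have hw' := Hol.strip_add_toC hw (muOf fx.α v₁)
    have hz := strip_emb E hp.ok rfl (sq_std P.Q0) hm fx.H0 hH0 X hX fx.p.h0 _ hw'
    have := hp.KT X hX _ hz _ hw' (fun v _ => by simp)
    show x₁.KT (X.map E.e) (w + toC (muOf fx.α v₁)) = x₀.KT X ((fun x => w (P.eV x) + (((v₁ (P.eV x) - v₀ x) / fx.α : ℝ) : ℂ)) + toC (muOf fx.α v₀))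
    rw [← this]
    congr 1
    funext x
    simp only [Pi.add_apply, toC, muOf, hs]
    push_cast
    ring
  · have := h₀.ident P.Q0.i0
    rw [sq_half_M] at this
    exact this
  · have := h₁.ident P.Q1.i0
    rw [sq_half_M] at this
    exact this

end

end Claimed.Agent.R285.F6.Pr
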