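import Claimed.Agent.R285.Asm.ConcDefs
import Claimed.Agent.R285.Obs.CenterFlow
import Claimed.Agent.R285.Obs.PairConv
import Claimed.Agent.R285.F4a.Map

/-!
# ROW 285, unit OBS: DEFINITIONS of the top contracts (moved from `Obs/PairTop.lean` on request of helper79, so that the proof files of `pair_atStop` sit BELOW `PairTop.lean`)      (chief helper271)   -- KEEP
No sorry.  `GeoFit`, `ObsPair`, `parT`, `SqHyp`, `EntQ`, `EntAll`, `TowAll`, `THist`, `THist.Ok`, and THE TARGET of the blocks as a `Prop`: `PairAtStopStmt`.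
-/

set_option autoImplicit false

namespace Claimed.Agent.R285.Obs

open scoped BigOperators ENNReal NNReal
open MeasureTheory Filter Topology
open Claimed.Agent.R285 Claimed.Agent.R285.RG Claimed.Agent.R285.B4 Claimed.Agent.R285.B8 Claimed.Agent.R285.F4a Claimed.Agent.R285.F6
open Claimed.Agent.R285.Flow Claimed.Agent.R285.B10 Claims.C0459

noncomputable section

/-! ## 1. Parameters -/

/-- the geometry is that of [B] s4, s8 (`Asm.geo8` satisfies this by `rfl`) -/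
structure GeoFit (c : Geo) : Prop where
  ok : c.Ok
  R : c.R = RR
  r : c.r = r0
  ρ : c.ρ = pp + 1
  col : c.col = 1
  sepV : c.sepV = 2 * pp + 8

/-- the two observation regulators -/
structure ObsPair (o oT : ObsPar) : Prop where
  a : o.a = k0
  aT : oT.a = k0
  h : o.hstar < oT.hstar
  p1 : oT.p1 = o.p1

/-- the weaker norm of the unit sector -/
def parT (p : Par) (qA : ℝ) : Par := ⟨p.δ, 2 * p.κ, p.h0, p.A / qA, p.ω⟩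

/-- the hypotheses of [F] P4.1 with the constants of `c`, in ALL volumes (tori and free squares) with clearance `≥ D1`; = the conclusion of `F4a.local_map_hyp` -/
def SqHyp (c : Geo) (δ κ : ℝ) (o : ObsPar) (ℓ D1 : ℕ) : Prop :=
  ∀ (h0 : ℝ≥0) (A ω : ℝ) (D0 : ℕ), D1 ≤ D0 → ∀ (G : Geom) (P : Pair G D0 ℓ) (cl : Grid G), Whole cl → Nonempty (Nest cl P.g) →
    ∀ (Vf : Extra P.g) (Vc : Extra P.g'), IsObs o cl P.g Vf → IsObs o cl P.g' Vc →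
      StepHyp ⟨δ, κ, h0, A, ω⟩ (pp + 1) r0 RR c.n0 c.Ck c.ck c.cst P (RG.shell G Fam.entry P.g.m P.g'.m) Vf Vc

/-- constants of ENTRY which are known at P13 (`Asm.EntK`) -/
structure EntQ where
  c0E : ℕ
  cmk : ℕ
  /-- the entry size `C e^{-c R}` -/
  ε : ℝ
  CR : ℝ
  cR : ℝ

/-- **ENTRY in all volumes**, for the side `2^ks` and the entry parameter `R = 2^kR`: centred sector in the norm `(p, o)`, unit sector in the norm `(pT, oT)` -/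
structure EntAll (D : F4b.EntryData) (p pT : Par) (o oT : ObsPar) (E : EntQ) (kq kR ks : ℕ) : Prop where
  cR_pos : 0 < E.cR
  cst : ((D.Cst (2 ^ ks) (2 ^ kq * 2 ^ kR * 2 ^ ks)).card ≤ E.CR ∧
    {(0, 0), (-1, 0), (0, -1), (-1, -1)} ⊆ D.Cst (2 ^ ks) (2 ^ kq * 2 ^ kR * 2 ^ ks))
  bulk : ∀ 𝒱 : F4b.Vol, 𝒱.Adm (2 ^ kq) (2 ^ kR) (2 ^ ks) → F4b.BulkOK D xyCritical k0 p o (E.cR / ((2 : ℝ) ^ ks) ^ 2) E.ε 𝒱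
  unit : ∀ 𝒱 : F4b.Vol, 𝒱.Adm (2 ^ kq) (2 ^ kR) (2 ^ ks) → 𝒱.G.bc = BC.free → E.cmk * (2 ^ ks * (2 ^ kR) ^ 5) ≤ 𝒱.G.M →
    F4b.UnitOK D xyCritical k0 pT oT E.ε (E.CR * ((2 : ℝ) ^ ks) ^ E.CR) 𝒱
  copy : ∀ 𝒱 𝒱' : F4b.Vol, 𝒱.Adm (2 ^ kq) (2 ^ kR) (2 ^ ks) → 𝒱'.Adm (2 ^ kq) (2 ^ kR) (2 ^ ks) →
    F4b.CopyOK D xyCritical p.h0 E.c0E (E.cR / ((2 : ℝ) ^ ks) ^ 2) (E.cmk * (2 ^ ks * (2 ^ kR) ^ 5)) 𝒱 𝒱'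

/-- TOWER on the tori, for the side `sd` -/
structure TowAll (K : Cfg) (𝓡 : Reg K.s) (o : ObsPar) (sd j0 : ℕ) : Prop where
  tower : K.TowerOK 𝓡 j0
  obs : ∀ h j, j0 ≤ j → j ≤ h → IsObs o (𝓡.gs h) (K.s.lev h j) (𝓡.V h j)
  cells : ∀ h, j0 ≤ h → ∀ hd : sd ∣ (K.s.T h).M, 𝓡.gs h = torusGrid (K.s.T h) sd hd

/-- **what OBS needs from MAP** (a part of `B8.Sys8` / `Pack.Sys8`: projections `ops`, `raw`, `tor.Ψ_bd`, `copy`), so that OBS does not depend on the shape of `Sys8` -/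
structure MapIn (K : Cfg) (𝓡 : Reg K.s) (j0 : ℕ) (hA : 0 < K.p.A) (κr : RawC) (o : K.Ops 𝓡) : Prop where
  ops : K.OpsOK 𝓡 j0 o
  raw : RawOK κr (K.raw 𝓡 hA j0 o)
  Ψ_bd : ∀ j h, j0 ≤ j → j < h → ∀ X ∈ Metric.ball (0 : (ℂ × ℂ) × K.To 𝓡 j h) κr.ρ, ‖K.Psi 𝓡 j h X‖ ≤ κr.θ * ‖X.2‖ + κr.C * ‖X‖ ^ 2
  /-- **copying**: a torus remainder which is a copy of the plane remainder has the plane scalars, and stays a copy -/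
  copy : ∀ j h, j0 ≤ j → ∀ (hj : j < h) (hm : 𝓡.hmin ≤ h), ∀ (x : ℂ × ℂ × K.Pl 𝓡 j) (a : K.To 𝓡 j h), ‖x‖ < κr.ρ → ‖a‖ < κr.ρ →
    EqOn K.p.h0 (cutW K.c0 (K.toAct 𝓡 a)) (K.plAct 𝓡 x.2.2 ⟨h, hj, hm⟩) →
    (K.PhiT 𝓡 h j hj (x.1, x.2.1, K.toAct 𝓡 a)).1 = (K.Phi 𝓡 j x).1 ∧ (K.PhiT 𝓡 h j hj (x.1, x.2.1, K.toAct 𝓡 a)).2.1 = (K.Phi 𝓡 j x).2.1 ∧
    EqOn K.p.h0 (K.toAct 𝓡 (K.Psi 𝓡 j h ((x.1, x.2.1), a))) (K.PhiT 𝓡 h j hj (x.1, x.2.1, K.toAct 𝓡 a)).2.2 ∧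
    ∀ hj' : j + 1 < h, EqOn K.p.h0 (cutW K.c0 (K.toAct 𝓡 (K.Psi 𝓡 j h ((x.1, x.2.1), a)))) (K.plAct 𝓡 (K.Phi 𝓡 j x).2.2 ⟨h, hj', hm⟩)

/-! ## 2. The plane history on one big torus -/

/-- a history `(t_j, z_j, R_j)` (absolute index) on the torus `h` -/
structure THist (K : Cfg) (h : ℕ) where
  t : ℕ → ℝ
  z : ℕ → ℝ
  R : ∀ j, Act (K.s.lev h j)

/-- the history starts at the entry activity `E0`, follows the EXACT weak map of the torus `h` for `i` steps (no `cutW`); `u k`, `r k` bound the plane state and the plane remainder at the stage `j0 + k` -/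
structure THist.Ok {K : Cfg} {h : ℕ} (H : THist K h) (𝓡 : Reg K.s) (j0 i : ℕ) (E0 : Act (K.s.lev h j0)) (u r : ℕ → ℝ) : Prop where
  lt : j0 + i < h
  t0 : H.t j0 = 0
  z0 : H.z j0 = 0
  R0 : EqOn K.p.h0 (H.R j0) E0
  adm : ∀ k ≤ i, Adm K.p K.c (𝓡.gs h) (H.R (j0 + k))
  fin : ∀ k ≤ i, actNorm K.p (K.s.lev h (j0 + k)) (𝓡.V h (j0 + k)) (H.R (j0 + k)) ≠ ⊤
  step : ∀ k, ∀ hk : k < i,
    (K.PhiT 𝓡 h (j0 + k) (by omega) ((H.t (j0 + k) : ℂ), (H.z (j0 + k) : ℂ), H.R (j0 + k))).1 = (H.t (j0 + k + 1) : ℂ) ∧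
    (K.PhiT 𝓡 h (j0 + k) (by omega) ((H.t (j0 + k) : ℂ), (H.z (j0 + k) : ℂ), H.R (j0 + k))).2.1 = (H.z (j0 + k + 1) : ℂ) ∧
    EqOn K.p.h0 (K.PhiT 𝓡 h (j0 + k) (by omega) ((H.t (j0 + k) : ℂ), (H.z (j0 + k) : ℂ), H.R (j0 + k))).2.2 (H.R (j0 + k + 1))
  bd : ∀ k ≤ i, |H.t (j0 + k)| ≤ u k ∧ |H.z (j0 + k)| ≤ u k ∧ r k ≤ u k ∧
    actNorm K.p (K.s.lev h (j0 + k)) (𝓡.V h (j0 + k)) (cutW K.c0 (H.R (j0 + k))) ≤ ENNReal.ofReal (r k)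

/-! ## 3. The target of the blocks -/

/-- **(A1) [F] Lemma 6.2 iterated + (obs:extraction-identity), in the vocabulary `F6.Pr`** (architect helper79; blocks COPY, EST, REG, KER, REC, STOP).
Order of the constants: `(o, oT)`; `δ`; `κ`; geometry `c`, padding `c0`; `h₀ ≥ h0min`, the loss `qA` of the weight, the zone constants `H0, H1`; `L = 2^ℓ`; `A`; the clearances; then `θ, C, cs`;
then ENTRY, the side, the torus history, the two centred free squares `G₀ ⊂ G₁` of sides `2 n₀`, `2 L n₀`, `L^{j'} ∣ n₀`, `j' = j0 + i`.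
The grids are VARIABLES (`subst` them first): `g_n = Pr.lev G_n ℓ j'`, `cl_n` = cells of side `2^ks`.
`ν = C cvl θ ε u i` solves (obs:wall-recurrence), (obs:defect-recurrence); `vJ Dex` solves (obs:label-recurrence), (obs:scalar-log-bound). -/
def PairAtStopStmt : Prop := ∀ (o oT : ObsPar), ObsPair o oT →
    ∃ δ0 > (0 : ℝ), ∀ δ ∈ Set.Ioc 0 δ0, ∃ κ0 > (0 : ℝ), ∀ κ ∈ Set.Ioc 0 κ0, ∀ (c : Geo) (c0 : ℕ), GeoFit c → 2 * (c.ρ + 4) ≤ c0 →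
    ∃ (h0min : ℝ≥0) (qA : ℝ) (H0 H1 : ℕ), 1 ≤ qA ∧ 3 ≤ H0 ∧ 3 ≤ H1 ∧ ∀ h0 ≥ h0min, ∃ ℓ0 : ℕ, 2 ≤ ℓ0 ∧ ∀ ℓ ≥ ℓ0, ∃ A0 : ℝ, ∀ A ≥ A0,
    ∀ (D0 : ℕ) (hD : 0 < D0) (D1R : ℕ), SqHyp c δ κ o ℓ D1R → SqHyp c δ (2 * κ) oT ℓ D1R →
    ∃ θ C cs : ℝ, 0 < θ ∧ θ < 1 ∧ 1 ≤ C ∧ 0 < cs ∧
    ∀ (D : F4b.EntryData) (E : EntQ) (kq kR ks j0 : ℕ), E.c0E ≤ c0 →
      EntAll D ⟨δ, κ, h0, A, ω8⟩ (parT ⟨δ, κ, h0, A, ω8⟩ qA) o oT E kq kR ks → 2 ^ kq * 2 ^ kR * 2 ^ ks = (2 ^ ℓ) ^ j0 → 1 ≤ j0 →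
    ∀ (𝓡 : Reg (cfg8 c δ κ h0 A c0 ℓ D0 hD).s), TowAll (cfg8 c δ κ h0 A c0 ℓ D0 hD) 𝓡 o (2 ^ ks) j0 →
    ∀ (h i : ℕ) (H : THist (cfg8 c δ κ h0 A c0 ℓ D0 hD) h) (u r : ℕ → ℝ),
      H.Ok 𝓡 j0 i (Asm.entAct (cfg8 c δ κ h0 A c0 ℓ D0 hD).s D (2 ^ ks) h j0 xyCritical) u r →
      0 ≤ E.ε → E.ε ≤ cs → (∀ k ≤ i, u k < cs) →
    ∀ (G₀ G₁ : Geom) (n₀ : ℕ), G₀.bc = BC.free → G₁.bc = BC.free → G₀.M = 2 * n₀ → G₁.M = 2 * (2 ^ ℓ * n₀) →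
      (2 ^ ℓ) ^ (j0 + i) ∣ n₀ → C * (((2 ^ ℓ) ^ (j0 + i) : ℕ) : ℝ) ≤ n₀ →
      2 ^ ks * (2 ^ kR) ^ 5 ≤ 2 * n₀ → E.cmk * (2 ^ ks * (2 ^ kR) ^ 5) ≤ 2 * n₀ → 2 * G₁.M ≤ D0 * (2 ^ ℓ) ^ h → G₁.M ∣ D0 * (2 ^ ℓ) ^ h →
    ∀ (g₀ cl₀ : Grid G₀) (g₁ cl₁ : Grid G₁), g₀ = Pr.lev G₀ ℓ (j0 + i) → g₁ = Pr.lev G₁ ℓ (j0 + i) →
      (∃ hd, cl₀ = torusGrid G₀ (2 ^ ks) hd) → (∃ hd, cl₁ = torusGrid G₁ (2 ^ ks) hd) →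
    ∃ vJ Dex cex : ℝ, 0 ≤ vJ ∧ 0 < Dex ∧
      (∃ (x₀ : Pr.St g₀) (x₁ : Pr.St g₁) (Γ₀ : Matrix G₀.V G₀.V ℝ) (Γ₁ : Matrix G₁.V G₁.V ℝ) (V₀ : Extra g₀) (V₁ : Extra g₁)
        (v₀ : G₀.V → ℝ) (v₁ : G₁.V → ℝ) (Rm₀ : Act g₀) (Rm₁ : Act g₁) (Em : Pr.GEmb g₀ g₁),
        Pr.AtStop ⟨parT ⟨δ, κ, h0, A, ω8⟩ qA, oT, H0, H1⟩ xyCritical g₀ cl₀ 1 x₀ Γ₀ V₀ v₀ Rm₀
          (H.t (j0 + i)) (H.z (j0 + i)) (C * cvl θ E.ε u i) (r i) vJ Dex cex ∧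
        Pr.AtStop ⟨parT ⟨δ, κ, h0, A, ω8⟩ qA, oT, H0, H1⟩ xyCritical g₁ cl₁ 1 x₁ Γ₁ V₁ v₁ Rm₁
          (H.t (j0 + i)) (H.z (j0 + i)) (C * cvl θ E.ε u i) (r i) vJ Dex cex ∧
        Pr.AtPair ⟨parT ⟨δ, κ, h0, A, ω8⟩ qA, oT, H0, H1⟩ g₀ g₁ 1 Em x₀ x₁) ∧
      vJ * Dex ≤ E.CR * ((2 : ℝ) ^ ks) ^ E.CR * θ ^ i * Real.exp (C * ∑ k ∈ Finset.range i, cvl θ E.ε u k)

end

end Claimed.Agent.R285.Obs
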