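import Claimed.Agent.R285.Obs.TermC

/-!
# ROW 285, unit OBS: from the stopped representation to [F] Proposition 6.1 for one pair of squares      (chief helper271)   -- KEEP

Moved here from `Read/F6.lean` (16:25Z): the top contract of OBS (`Obs/PairTop.lean`) is consumed by `Asm/Concrete.lean`, which lies BELOW `Read/F6.lean`; so these two statements must not live in `Read/F6.lean`.
* `Obs.consecutive_of_stop` = leaf L-OBS-ALG (#14226): PROVED by helper41 (pure algebra from `Obs.terminal_energy`, `Obs/TermC.lean`).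
* `Obs.cutoff_absolute` (helper271): (obs:cutoff-relative) before division by `M_n`.
-/

set_option autoImplicit false

namespace Claimed.Agent.R285.Obs

open scoped BigOperators ENNReal NNReal
open MeasureTheory ProbabilityTheory Filter Topology
open Claimed.Agent.R285 Claimed.Agent.R285.RG Claimed.Agent.R285.B4 Claimed.Agent.R285.F4a Claimed.Agent.R285.F6 Claims.C0459

noncomputable section

/-! ### algebra of the stopped identity (L-OBS-ALG, helper41) -/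

theorem stopalg_log_le {x : ℝ} (hx : |x| ≤ 1 / 2) : |Real.log (1 + x)| ≤ 2 * |x| := by
  obtain ⟨h1, h2⟩ := abs_le.mp hx
  have hpos : 0 < 1 + x := by linarith
  rw [abs_le]
  constructor
  · -- log (1+x) ≥ 1 - 1/(1+x) = x/(1+x) ≥ -2|x|
    have h3 := Real.one_sub_inv_le_log_of_pos hpos
    have h4 : -(2 * |x|) ≤ 1 - (1 + x)⁻¹ := by
      have e : 1 - (1 + x)⁻¹ = x / (1 + x) := by field_simp; ring
      rw [e, le_div_iff₀ hpos]
      rcases le_or_gt 0 x with h | h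
      · rw [abs_of_nonneg h]; nlinarith
      · rw [abs_of_neg h]; nlinarith
    linarith
  · have h3 := Real.log_le_sub_one_of_pos hpos
    have := le_abs_self x
    have := abs_nonneg x
    linarith

/-- one size: `c_ex D_ex = Q_n (T^0_n / T^τ_n) (1 + x_n)` with `|x_n| ≤ ε_c + 2 C ε_J` -/
theorem stopalg_one {a g M Mh Dex cex T0 Tt Td C X εc εJ : ℝ} (hDex : 0 < Dex) (hM : 0 < M)
    (id : Mh = Real.exp (-g / (2 * a)) * Dex * ((cex * Tt + Td) / T0)) (hT0 : 1 / 2 ≤ T0) (hTt : 1 / 2 ≤ Tt)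
    (hTd : |Td| ≤ C * X) (hX : 0 ≤ X) (hc : |Mh - M| ≤ εc * M) (hJ : X * Dex ≤ εJ * (M * Real.exp (g / (2 * a)))) :
    ∃ x : ℝ, |x| ≤ εc + 2 * |C| * εJ ∧ cex * Dex = M * Real.exp (g / (2 * a)) * (T0 / Tt) * (1 + x) := by
  have hT00 : 0 < T0 := by linarith
  have hTt0 : 0 < Tt := by linarith
  set Q := M * Real.exp (g / (2 * a)) with hQ
  have hQ0 : 0 < Q := mul_pos hM (Real.exp_pos _)
  have hee : Real.exp (-g / (2 * a)) * Real.exp (g / (2 * a)) = 1 := by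
    rw [← Real.exp_add]; simp [neg_div]
  refine ⟨(Mh - M) / M - Td * Dex / (Q * T0), ?_, ?_⟩
  · have h1 : |(Mh - M) / M| ≤ εc := by
      rw [abs_div, abs_of_pos hM, div_le_iff₀ hM]; exact hc
    have h2 : |Td * Dex / (Q * T0)| ≤ 2 * |C| * εJ := by
      rw [abs_div, abs_mul, abs_of_pos hDex, abs_of_pos (mul_pos hQ0 hT00), div_le_iff₀ (mul_pos hQ0 hT00)]
      have h3 : |Td| ≤ |C| * X := hTd.trans (mul_le_mul_of_nonneg_right (le_abs_self C) hX)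
      have hεJ : 0 ≤ εJ * Q := (mul_nonneg hX hDex.le).trans hJ
      calc |Td| * Dex ≤ |C| * X * Dex := mul_le_mul_of_nonneg_right h3 hDex.le
        _ = |C| * (X * Dex) := by ring
        _ ≤ |C| * (εJ * Q) := mul_le_mul_of_nonneg_left hJ (abs_nonneg C)
        _ ≤ |C| * (εJ * Q) * (2 * T0) := le_mul_of_one_le_right (mul_nonneg (abs_nonneg C) hεJ) (by linarith)
        _ = 2 * |C| * εJ * (Q * T0) := by ring
    calc |(Mh - M) / M - Td * Dex / (Q * T0)| ≤ |(Mh - M) / M| + |Td * Dex / (Q * T0)| := abs_sub _ _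
      _ ≤ _ := add_le_add h1 h2
  · have h1 : Mh * Real.exp (g / (2 * a)) * T0 = Dex * (cex * Tt + Td) := by
      rw [id]
      calc Real.exp (-g / (2 * a)) * Dex * ((cex * Tt + Td) / T0) * Real.exp (g / (2 * a)) * T0
          = (Real.exp (-g / (2 * a)) * Real.exp (g / (2 * a))) * Dex * (cex * Tt + Td) * (T0 / T0) := by ring
        _ = _ := by rw [hee, div_self hT00.ne']; ring
    have h2 : Q * (T0 / Tt) * (1 + ((Mh - M) / M - Td * Dex / (Q * T0))) * Tt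
        = Mh * Real.exp (g / (2 * a)) * T0 - Td * Dex := by
      rw [hQ]
      have := Real.exp_pos (g / (2 * a))
      field_simp
      ring
    have h3 : cex * Dex * Tt = Q * (T0 / Tt) * (1 + ((Mh - M) / M - Td * Dex / (Q * T0))) * Tt := by
      rw [h2, h1]; ring
    exact mul_right_cancel₀ hTt0.ne' h3

theorem stopalg_main {a g0 g1 M0 M1 Mh0 Mh1 Dex cex T00 Tt0 Td0 T01 Tt1 Td1 t C E X εc εJ : ℝ}
    (hDex : 0 < Dex) (hM0 : 0 < M0) (hM1 : 0 < M1)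
    (id0 : Mh0 = Real.exp (-g0 / (2 * a)) * Dex * ((cex * Tt0 + Td0) / T00))
    (id1 : Mh1 = Real.exp (-g1 / (2 * a)) * Dex * ((cex * Tt1 + Td1) / T01))
    (hT00 : 1 / 2 ≤ T00) (hTt0 : 1 / 2 ≤ Tt0) (hT01 : 1 / 2 ≤ T01) (hTt1 : 1 / 2 ≤ Tt1)
    (hTd0 : |Td0| ≤ C * X) (hTd1 : |Td1| ≤ C * X) (hX : 0 ≤ X)
    (hΔ : |(Real.log (Tt1 / T01) - Real.log (Tt0 / T00)) - t / (2 * a) * (g1 - g0)| ≤ E)
    (hc0 : |Mh0 - M0| ≤ εc * M0) (hc1 : |Mh1 - M1| ≤ εc * M1)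
    (hJ0 : X * Dex ≤ εJ * (M0 * Real.exp (g0 / (2 * a)))) (hJ1 : X * Dex ≤ εJ * (M1 * Real.exp (g1 / (2 * a))))
    (hsmall : εc + 2 * |C| * εJ ≤ 1 / 2) :
    |Real.log M1 - Real.log M0 + (1 - t) / (2 * a) * (g1 - g0)| ≤ E + 4 * (εc + 2 * |C| * εJ) := by
  obtain ⟨x0, hx0, e0⟩ := stopalg_one hDex hM0 id0 hT00 hTt0 hTd0 hX hc0 hJ0
  obtain ⟨x1, hx1, e1⟩ := stopalg_one hDex hM1 id1 hT01 hTt1 hTd1 hX hc1 hJ1
  have p0 : 0 < 1 + x0 := by have := (abs_le.mp (hx0.trans hsmall)).1; linarith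
  have p1 : 0 < 1 + x1 := by have := (abs_le.mp (hx1.trans hsmall)).1; linarith
  have q00 : 0 < T00 := by linarith
  have qt0 : 0 < Tt0 := by linarith
  have q01 : 0 < T01 := by linarith
  have qt1 : 0 < Tt1 := by linarith
  have l0 : Real.log (cex * Dex) = Real.log M0 + g0 / (2 * a) + (Real.log T00 - Real.log Tt0) + Real.log (1 + x0) := by
    rw [e0, Real.log_mul (by positivity) p0.ne', Real.log_mul (by positivity) (by positivity),
      Real.log_mul hM0.ne' (Real.exp_pos _).ne', Real.log_exp, Real.log_div q00.ne' qt0.ne']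
  have l1 : Real.log (cex * Dex) = Real.log M1 + g1 / (2 * a) + (Real.log T01 - Real.log Tt1) + Real.log (1 + x1) := by
    rw [e1, Real.log_mul (by positivity) p1.ne', Real.log_mul (by positivity) (by positivity),
      Real.log_mul hM1.ne' (Real.exp_pos _).ne', Real.log_exp, Real.log_div q01.ne' qt1.ne']
  rw [Real.log_div qt1.ne' q01.ne', Real.log_div qt0.ne' q00.ne'] at hΔ
  have b0 := stopalg_log_le (hx0.trans hsmall)
  have b1 := stopalg_log_le (hx1.trans hsmall)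
  have key : Real.log M1 - Real.log M0 + (1 - t) / (2 * a) * (g1 - g0)
      = ((Real.log Tt1 - Real.log T01 - (Real.log Tt0 - Real.log T00)) - t / (2 * a) * (g1 - g0))
        + (Real.log (1 + x0) - Real.log (1 + x1)) := by
    have := l0.symm.trans l1
    have e : (1 - t) / (2 * a) * (g1 - g0) = g1 / (2 * a) - g0 / (2 * a) - t / (2 * a) * (g1 - g0) := by ring
    rw [e]
    linarith
  rw [key]
  calc _ ≤ |(Real.log Tt1 - Real.log T01 - (Real.log Tt0 - Real.log T00)) - t / (2 * a) * (g1 - g0)|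
        + |Real.log (1 + x0) - Real.log (1 + x1)| := abs_add_le _ _
    _ ≤ E + (|Real.log (1 + x0)| + |Real.log (1 + x1)|) := add_le_add hΔ (abs_sub _ _)
    _ ≤ _ := by linarith

/-- **Proposition 6.1 from the stopped representation**, deterministic form of (obs:cutoff-relative)-(obs:after-cancellation) + (obs:terminal-energy).
`εc` = relative cutoff loss; `εJ` = relative size of the surviving label: `D² ‖J‖ D_ex ≤ εJ Q_n`, `Q_n = M_n e^{g_n/2a}`.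
PURE ALGEBRA from `terminal_energy`: `c_ex T^τ_n = Q̂_n T^0_n / D_ex - \dot T_n`, the same `c_ex` for both `n`. -/
theorem consecutive_of_stop (o : ObsPar) : ∃ δ0 > (0 : ℝ), ∀ δ ∈ Set.Ioc 0 δ0, ∃ κ0 > (0 : ℝ), ∀ κ ∈ Set.Ioc 0 κ0, ∀ h0 > (0 : ℝ≥0),
    ∀ H0 H1 ℓ : ℕ, 3 ≤ H0 → 3 ≤ H1 → ∃ A0 : ℝ, ∀ A ≥ A0, ∃ (C c1 : ℝ) (D1 : ℕ), 0 < c1 ∧
    ∀ P : SqPair, P.Q1.D = 2 ^ ℓ * P.Q0.D → D1 ≤ P.Q0.D → ∀ b t z ν ν2 vJ Dex cex : ℝ,
    Stop ⟨⟨δ, κ, h0, A, 2 * Real.pi / Real.sqrt o.a⟩, o, H0, H1⟩ b P t z ν ν2 vJ Dex cex →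
      |t| ≤ ν → 0 ≤ ν2 → ν2 ≤ ν → 0 ≤ vJ → (P.Q0.D : ℝ) ^ 2 * ν ≤ c1 →
      ∀ εc εJ : ℝ, εc ≤ c1 → εJ ≤ c1 →
      0 < centerMag b P.Q0.n → 0 < centerMag b P.Q1.n →
      |P.Q0.Mhat b - centerMag b P.Q0.n| ≤ εc * centerMag b P.Q0.n →
      |P.Q1.Mhat b - centerMag b P.Q1.n| ≤ εc * centerMag b P.Q1.n →
      (P.Q0.D : ℝ) ^ 2 * vJ * Dex ≤ εJ * (centerMag b P.Q0.n * Real.exp (Glue.unitEnergy P.Q0.n / (2 * o.a))) →
      (P.Q0.D : ℝ) ^ 2 * vJ * Dex ≤ εJ * (centerMag b P.Q1.n * Real.exp (Glue.unitEnergy P.Q1.n / (2 * o.a))) →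
      |Real.log (centerMag b P.Q1.n) - Real.log (centerMag b P.Q0.n)
          + (1 - t) / (2 * o.a) * (Glue.unitEnergy P.Q1.n - Glue.unitEnergy P.Q0.n)|
        ≤ C * ((P.Q0.D : ℝ) ^ 4 * ν ^ 2 + ν / P.Q0.D + (P.Q0.D : ℝ) ^ 2 * ν2 + εc + εJ) := by
  obtain ⟨δ0, hδ0, H⟩ := terminal_energy o
  refine ⟨δ0, hδ0, fun δ hδ => ?_⟩
  obtain ⟨κ0, hκ0, H⟩ := H δ hδ
  refine ⟨κ0, hκ0, fun κ hκ h0 hh0 H0 H1 ℓ hH0 hH1 => ?_⟩
  obtain ⟨A0, H⟩ := H κ hκ h0 hh0 H0 H1 ℓ hH0 hH1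
  refine ⟨A0, fun A hA => ?_⟩
  obtain ⟨C, c1, D1, hc1, H⟩ := H A hA
  have hCa : 0 < 4 * (1 + 2 * |C|) := by positivity
  refine ⟨8 * (|C| + 1), min c1 (1 / (4 * (1 + 2 * |C|))), D1, lt_min hc1 (by positivity), ?_⟩
  intro P hP hD b t z ν ν2 vJ Dex cex S ht hν2 hν2' hvJ hDν εc εJ hεc hεJ hM0 hM1 hc0 hc1' hJ0 hJ1
  obtain ⟨⟨t1, t2, t3, t4⟩, -, ⟨t7, t8⟩, t9⟩ := H P hP hD S.ok0.m_ge b t z ν ν2 vJ Dex cex S ht hν2 hν2' hvJ
    (hDν.trans (min_le_left _ _))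
  have hX : 0 ≤ (P.Q0.D : ℝ) ^ 2 * vJ := by positivity
  have hεc0 : 0 ≤ εc := by
    have := (abs_nonneg _).trans hc0
    by_contra hcon
    push Not at hcon
    have : εc * centerMag b P.Q0.n < 0 := mul_neg_of_neg_of_pos hcon hM0
    linarith
  have hεJ0 : 0 ≤ εJ := by
    have h1 : 0 ≤ (P.Q0.D : ℝ) ^ 2 * vJ * Dex := mul_nonneg hX S.Dex_pos.le
    have h2 := h1.trans hJ0
    by_contra hcon
    push Not at hcon
    have : εJ * (centerMag b P.Q0.n * Real.exp (Glue.unitEnergy P.Q0.n / (2 * o.a))) < 0 :=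
      mul_neg_of_neg_of_pos hcon (mul_pos hM0 (Real.exp_pos _))
    linarith
  have hc2 : ∀ e : ℝ, e ≤ min c1 (1 / (4 * (1 + 2 * |C|))) → e * (4 * (1 + 2 * |C|)) ≤ 1 := by
    intro e he
    have := he.trans (min_le_right _ _)
    rwa [le_div_iff₀ hCa] at this
  have hsmall : εc + 2 * |C| * εJ ≤ 1 / 2 := by
    have h1 := hc2 εc hεc
    have h2 := hc2 εJ hεJ
    have h3 := abs_nonneg C
    have h4 : εc ≤ εc * (1 + 2 * |C|) := le_mul_of_one_le_right hεc0 (by linarith)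
    have h5 : 2 * |C| * εJ ≤ εJ * (1 + 2 * |C|) := by nlinarith
    linarith
  have key := stopalg_main (a := o.a) S.Dex_pos hM0 hM1 S.id0 S.id1 t1 t2 t3 t4
    (by rw [mul_assoc] at t7; exact t7) (by rw [mul_assoc] at t8; exact t8) hX t9 hc0 hc1' hJ0 hJ1 hsmall
  refine key.trans ?_
  have hν0 : 0 ≤ ν := (abs_nonneg t).trans ht
  have hE0 : 0 ≤ (P.Q0.D : ℝ) ^ 4 * ν ^ 2 + ν / P.Q0.D + (P.Q0.D : ℝ) ^ 2 * ν2 := by positivity
  have h1 : C * ((P.Q0.D : ℝ) ^ 4 * ν ^ 2 + ν / P.Q0.D + (P.Q0.D : ℝ) ^ 2 * ν2)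
      ≤ 8 * (|C| + 1) * ((P.Q0.D : ℝ) ^ 4 * ν ^ 2 + ν / P.Q0.D + (P.Q0.D : ℝ) ^ 2 * ν2) :=
    mul_le_mul_of_nonneg_right (by linarith [le_abs_self C, abs_nonneg C]) hE0
  have h2 : 4 * (εc + 2 * |C| * εJ) ≤ 8 * (|C| + 1) * (εc + εJ) := by
    have := abs_nonneg C
    nlinarith [mul_nonneg this hεc0, mul_nonneg this hεJ0]
  calc _ ≤ 8 * (|C| + 1) * ((P.Q0.D : ℝ) ^ 4 * ν ^ 2 + ν / P.Q0.D + (P.Q0.D : ℝ) ^ 2 * ν2)
        + 8 * (|C| + 1) * (εc + εJ) := add_le_add h1 h2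
    _ = _ := by ring

/-- algebra of (obs:cutoff-relative) -/
theorem cutabs_alg {P0 Pt H0 Ht M e : ℝ} (hP0 : 0 < P0) (hM : Pt = M * P0) (hM0 : 0 ≤ M) (hM1 : M ≤ 1)
    (h1 : |Pt - Ht| ≤ e * P0) (h2 : |P0 - H0| ≤ e * P0) (he : e ≤ 1 / 8) : |Ht / H0 - M| ≤ 8 * e := by
  have he0 : 0 ≤ e := by
    have := (abs_nonneg _).trans h1
    by_contra hcon
    push Not at hcon
    nlinarith
  obtain ⟨a1, a2⟩ := abs_le.mp h1
  obtain ⟨b1, b2⟩ := abs_le.mp h2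
  have hH0 : 7 / 8 * P0 ≤ H0 := by nlinarith
  have hH0pos : 0 < H0 := by nlinarith
  have e1 : Ht / H0 - M = (Ht - M * H0) / H0 := by field_simp
  rw [e1, abs_div, abs_of_pos hH0pos, div_le_iff₀ hH0pos]
  have e2 : Ht - M * H0 = -(Pt - Ht) + M * (P0 - H0) := by rw [hM]; ring
  have h3 : |Ht - M * H0| ≤ 2 * (e * P0) := by
    rw [e2]
    refine (abs_add_le _ _).trans ?_
    rw [abs_neg, abs_mul, abs_of_nonneg hM0]
    have : M * |P0 - H0| ≤ 1 * (e * P0) := mul_le_mul hM1 h2 (abs_nonneg _) zero_le_one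
    linarith
  have h4 : 2 * (e * P0) ≤ 8 * e * H0 := by nlinarith [mul_nonneg he0 hP0.le]
  exact h3.trans h4

/-- a shifted sector is positive and at most the centred one (full graph, one pin) -/
theorem cutabs_Zs {G : Geom} {c : Grid G} (hc : Whole c) (b : ℝ) (hb : 0 < b) (v0 : (Top.full c).graph.V)
    (τ : (Top.full c).graph.E → ℤ) :
    0 < (Top.full c).graph.Zs b {v0} τ 0 (fun _ => 1) ∧
      (Top.full c).graph.Zs b {v0} τ 0 (fun _ => 1) ≤ (Top.full c).graph.Zs b {v0} 0 0 (fun _ => 1) := by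
  have hP := fl_full_proper hc v0
  have hS : ((HLaw.plain (Top.full c).graph {v0}).sys b).Ok := fl_plain_ok _ _ b hb
  have h0 : (Top.full c).graph.Zs b {v0} 0 0 (fun _ => 1) = ((HLaw.plain (Top.full c).graph {v0}).sys b).w 0 := by
    rw [hgraph_Zs_eq, HLaw.Z_eq_w _ hP]
    exact congrArg _ (fl_amb_zero _ _ b)
  rw [h0, hgraph_Zs_eq, HLaw.Z_eq_w _ hP]
  exact ⟨Rsd.cs_w_pos hS _, lsys_le_centred _ hS _⟩

theorem cutabs_card (Q : Sq) : (((Top.full Q.c).faces.card : ℕ) : ℝ) ≤ 8 * (Q.n : ℝ) ^ 2 := by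
  have h1 : (Top.full Q.c).faces.card ≤ Fintype.card (Face Q.c) := Finset.card_le_univ _
  have h2 : Fintype.card (Face Q.c) = (2 * (Q.D * Q.r)) * (2 * (Q.D * Q.r)) * 2 := by
    show Fintype.card ((Fin (2 * (Q.D * Q.r)) × Fin (2 * (Q.D * Q.r))) × Bool) = _
    simp
  have h3 : Q.D * Q.r ≤ Q.n := by
    show Q.D * Q.r ≤ Q.D * (Q.r * Q.s)
    exact Nat.mul_le_mul_left _ (Nat.le_mul_of_pos_right _ Q.hs)
  have h4 : (Top.full Q.c).faces.card ≤ 8 * Q.n ^ 2 := by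
    rw [h2] at h1
    have h5 : (Q.D * Q.r) * (Q.D * Q.r) ≤ Q.n * Q.n := Nat.mul_le_mul h3 h3
    calc (Top.full Q.c).faces.card ≤ 2 * (Q.D * Q.r) * (2 * (Q.D * Q.r)) * 2 := h1
      _ = 8 * ((Q.D * Q.r) * (Q.D * Q.r)) := by ring
      _ ≤ 8 * (Q.n * Q.n) := Nat.mul_le_mul_left _ h5
      _ = 8 * Q.n ^ 2 := by ring
  exact_mod_cast h4

/-- **LEAF `L-OBS-CUTABS`** (paper-free, ~250 l.): (obs:cutoff-relative) before division by `M_n`.
PLAN.  `(C₀, cc)` from `F4a.cutoff_loss b1`; take `C := 64 (|C₀| + 1)`, the same `cc`.  Fix `Q`, `b`; `c := Q.c`, `i0 := Q.i0`, `τ := tauU c`; `Whole Q.c` = `Obs.tc_c_whole` (`Obs/TermC.lean`).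
Put `P^σ := Pint b c i0 σ 1`, `\hat P^σ := Phat b c i0 σ 1` (`σ ∈ {τ, 0}`), `e := C₀ * faces.card * exp (-cc s²)`.
(1) `F4a.Pint_one` (both sectors, any `v0`) + `F4a.centerMag_eq` (`G.M = 2 n` by `rfl`, `c.m = Q.s ∣ Q.n`): `M := centerMag b Q.n = P^τ / P^0`, and `0 < P^0` (`Pint_one`: positive constant times `Zs .. 0 .. 1 > 0`;
    or: `P^0 = ∫ Zobs > 0`; or from `0 < M` (`F23.centerMag_pos`) and `P^0 ≥ 0`, `P^0 ≠ 0` because `M ≠ 0` is a quotient by `P^0`).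
(2) `cutoff_loss` with `F = 1` (measurable, periodic, `|1| ≤ 1`) in the two sectors: `|P^σ - \hat P^σ| ≤ e P^0`.
(3) `0 < M ≤ 1`: `M = Z^τ / Z^0` is a shifted-to-centred ratio: `Base/Height.lean` `lsys_le_centred` through `HLaw.Z_eq_w` (`ok_of_isEmpty`; compare `Sec.ratioL_le_one`, and the proof of `F23.Phi_pos'`).
(4) `faces.card ≤ 2 (c.n)² = 8 (D r)² ≤ 8 n²` (`Top.full`, `Finset.card_filter_le`, `Fintype.card_prod`), so `e ≤ C n² exp (-cc s²) / 8 ≤ 1/8`.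
(5) `\hat M - M = ((\hat P^τ - P^τ) - M (\hat P^0 - P^0)) / \hat P^0`, `\hat P^0 ≥ (1 - e) P^0`: `|\hat M - M| ≤ e (1 + M) / (1 - e) ≤ 4 e`. -/
theorem cutoff_absolute (b1 : ℝ) : ∃ (C cc : ℝ), 0 < cc ∧ ∀ (Q : Sq) (b : ℝ), 0 < b → b ≤ b1 →
    C * (Q.n : ℝ) ^ 2 * Real.exp (-cc * (Q.s : ℝ) ^ 2) ≤ 1 →
    |Q.Mhat b - centerMag b Q.n| ≤ C * (Q.n : ℝ) ^ 2 * Real.exp (-cc * (Q.s : ℝ) ^ 2) := by
  obtain ⟨C0, cc, hcc, hL⟩ := F4a.cutoff_loss b1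
  refine ⟨64 * (|C0| + 1), cc, hcc, fun Q b hb hb1 hsm => ?_⟩
  have hc := tc_c_whole Q
  have hP0 := fl_P0_pos hc Q.i0 b hb
  have hZ := cutabs_Zs hc b hb (flV0 Q.c) ((Top.full Q.c).econn (tauU Q.c))
  have hZ0 := (cutabs_Zs hc b hb (flV0 Q.c) 0).1
  have hK : (0 : ℝ) < (2 * Real.pi) ^ ((Fintype.card Q.c.I : ℝ) / 2) := Real.rpow_pos_of_pos (by positivity) _
  have hMeq : centerMag b Q.n = (Top.full Q.c).graph.ratio b {flV0 Q.c} ((Top.full Q.c).econn (tauU Q.c)) :=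
    F4a.centerMag_eq b Q.n Q.n_pos rfl rfl hc (Dvd.intro_left (Q.D * Q.r) (by
      show Q.D * Q.r * Q.s = Q.D * (Q.r * Q.s)
      ring)) (flV0 Q.c)
  have hM0 : 0 ≤ centerMag b Q.n := by
    rw [hMeq]
    exact (div_pos hZ.1 hZ0).le
  have hM1 : centerMag b Q.n ≤ 1 := by
    rw [hMeq]
    exact (div_le_one hZ0).2 hZ.2
  have hPt : Pint b Q.c Q.i0 (tauU Q.c) (fun _ => 1) = centerMag b Q.n * Pint b Q.c Q.i0 0 (fun _ => 1) := by
    rw [hMeq, fl_P0_eq hc Q.i0 b hb, Pint_one b hb hc Q.i0 (flV0 Q.c) (tauU Q.c)]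
    unfold HGraph.ratio
    field_simp
  have hper : Per Q.c (fun _ => (1 : ℝ)) := fun _ => rfl
  have hone : ∀ y : Q.c.I → ℝ, |(fun _ => (1 : ℝ)) y| ≤ 1 := fun _ => by simp
  set E : ℝ := (|C0| + 1) * (8 * (Q.n : ℝ) ^ 2) * Real.exp (-cc * (Q.s : ℝ) ^ 2) with hE
  have hle : C0 * ((Top.full Q.c).faces.card : ℝ) * Real.exp (-cc * ((Q.c.m : ℕ) : ℝ) ^ 2) ≤ E := by
    rw [hE]
    refine mul_le_mul_of_nonneg_right ?_ (Real.exp_pos _).le
    have h1 := cutabs_card Q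
    have h2 : (0 : ℝ) ≤ ((Top.full Q.c).faces.card : ℝ) := Nat.cast_nonneg _
    calc C0 * ((Top.full Q.c).faces.card : ℝ) ≤ (|C0| + 1) * ((Top.full Q.c).faces.card : ℝ) :=
          mul_le_mul_of_nonneg_right (by linarith [le_abs_self C0]) h2
      _ ≤ _ := mul_le_mul_of_nonneg_left h1 (by positivity)
  have h1 := (hL Q.G Q.c hc Q.i0 b hb hb1 (tauU Q.c) (fun _ => 1) measurable_const hper hone).trans hle
  have h2 := (hL Q.G Q.c hc Q.i0 b hb hb1 0 (fun _ => 1) measurable_const hper hone).trans hle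
  rw [div_le_iff₀ hP0] at h1 h2
  have hE8 : 64 * (|C0| + 1) * (Q.n : ℝ) ^ 2 * Real.exp (-cc * (Q.s : ℝ) ^ 2) = 8 * E := by
    rw [hE]; ring
  rw [hE8] at hsm ⊢
  exact cutabs_alg hP0 hPt hM0 hM1 h1 h2 (by linarith)

end

end Claimed.Agent.R285.Obs
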