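import Claimed.Agent.R285.Asm.EntSp
import Claimed.Agent.R285.Obs.StopAlg
import Claimed.Agent.R285.Obs.PairTD
import Claimed.Agent.R285.Obs.PairLink
import Claimed.Agent.R285.Map.PackA

/-!
# ROW 285, unit OBS: THE TOP CONTRACT `Obs.obs_chain` (consumer: `Asm/Concrete.lean`, helper27) and its three parts      (chief helper271)   -- KEEP

`obs_chain` = [F] Proposition 6.1 for the concrete system, ONE chain theorem in the order of the parameter protocol P0-P14 of `Asm/ConcDefs.lean`.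
It is cut into
 (A) `pair_stop`     : [F] Lemma 6.2 iterated + the stopped identity: entries + plane history on ONE big torus  ⟹  `F6.Stop` for the pair of squares `(L^N, L^{N+1})`      (architect helper79);
 (B) `thist_of_sys`  : the plane history of the concrete system, seen on one big torus (`MapIn.copy`, `TorOK.Ψ_bd`, `RawOK.real`, `EntSp.ent_space_*`)                      (leaf L-OBS-THIST);
 (C) `obs_chain`     : bookkeeping from (A), (B), `Obs.consecutive_of_stop oT`, `Obs.cutoff_absolute`                                                                       (leaf L-OBS-CHAIN).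

## TWO NORMS
plane + centred sector: `p = (δ, κ, h₀, A, ω₈)`, regulator `o`;   unit sector, label, everything at the stop: `parT p qA = (δ, 2κ, h₀, A / qA, ω₈)`, regulator `oT` (`o.hstar < oT.hstar`, same `a`, `p₁`).
Reason: (obs:defect-recurrence) is forced by CENTRED activities translated by a local lift `λ_X`; `U (φ + λ) ≤ 2 U (φ) + 2 U (λ)`, `openE (y + y_λ) ≤ (1 + e) openE (y) + (1 + 1/e) openE (y_λ)`, `U (λ), openE (y_λ) ≤ C |X|`: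
`‖K (· + λ)‖_{parT p qA, oT} ≤ ‖K‖_{p, o}` with `qA = e^{C}`.
ENTRY (`F4b.initialization`) is instantiated twice by the assembly: `BulkOK` at `(p, o)`, `UnitOK` at `(parT p qA, oT)`; `ε` := the larger bound.
## THE THRESHOLD `n0`, THE KERNEL CONSTANTS, THE COST `cst` ARE SHARED with the plane map (`c : B8.Geo`): the designations on wall-free supports must be the plane ones (`B8.Step.small c`).
So the hypotheses of [F] P4.1 on the squares (`F4a.StepHyp` with the constants of `c`) are HYPOTHESES here (`SqHyp`); producer: TOWER (`F4a.local_map_hyp` has exactly this shape).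
-/

set_option autoImplicit false

namespace Claimed.Agent.R285.Obs

open scoped BigOperators ENNReal NNReal
open MeasureTheory Filter Topology
open Claimed.Agent.R285 Claimed.Agent.R285.RG Claimed.Agent.R285.B4 Claimed.Agent.R285.B8 Claimed.Agent.R285.F4a Claimed.Agent.R285.F6
open Claimed.Agent.R285.Flow Claimed.Agent.R285.B10 Claims.C0459

noncomputable section

/-! ## 3. (A): Lemma 6.2 iterated, and the stopped identity -/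

/-- **(A1)** = `PairAtStopStmt` (`Obs/PairTD.lean`); LINKED: master `Pr.pmm_main` (`Obs/PairMst3.lean`), constants `Pr.pair_const` (`Obs/PairLink.lean`). -/
theorem pair_atStop : PairAtStopStmt := Pr.pair_atStop_main

/-- **(A) = (A1) + the conversion `Pr.stop_of_atStop`** (`Obs/PairConv.lean`): `F6.Stop` for an aligned pair of squares. -/
theorem pair_stop (o oT : ObsPar) (hoo : ObsPair o oT) :
    ∃ δ0 > (0 : ℝ), ∀ δ ∈ Set.Ioc 0 δ0, ∃ κ0 > (0 : ℝ), ∀ κ ∈ Set.Ioc 0 κ0, ∀ (c : Geo) (c0 : ℕ), GeoFit c → 2 * (c.ρ + 4) ≤ c0 →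
    ∃ (h0min : ℝ≥0) (qA : ℝ) (H0 H1 : ℕ), 1 ≤ qA ∧ 3 ≤ H0 ∧ 3 ≤ H1 ∧ ∀ h0 ≥ h0min, ∃ ℓ0 : ℕ, ∀ ℓ ≥ ℓ0, ∃ A0 : ℝ, ∀ A ≥ A0,
    ∀ (D0 : ℕ) (hD : 0 < D0) (D1R : ℕ), SqHyp c δ κ o ℓ D1R → SqHyp c δ (2 * κ) oT ℓ D1R →
    ∃ θ C cs : ℝ, 0 < θ ∧ θ < 1 ∧ 1 ≤ C ∧ 0 < cs ∧
    ∀ (D : F4b.EntryData) (E : EntQ) (kq kR ks j0 : ℕ), E.c0E ≤ c0 →
      EntAll D ⟨δ, κ, h0, A, ω8⟩ (parT ⟨δ, κ, h0, A, ω8⟩ qA) o oT E kq kR ks → 2 ^ kq * 2 ^ kR * 2 ^ ks = (2 ^ ℓ) ^ j0 → 1 ≤ j0 →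
    ∀ (𝓡 : Reg (cfg8 c δ κ h0 A c0 ℓ D0 hD).s), TowAll (cfg8 c δ κ h0 A c0 ℓ D0 hD) 𝓡 o (2 ^ ks) j0 →
    ∀ (h i : ℕ) (H : THist (cfg8 c δ κ h0 A c0 ℓ D0 hD) h) (u r : ℕ → ℝ),
      H.Ok 𝓡 j0 i (Asm.entAct (cfg8 c δ κ h0 A c0 ℓ D0 hD).s D (2 ^ ks) h j0 xyCritical) u r →
      0 ≤ E.ε → E.ε ≤ cs → (∀ k ≤ i, u k < cs) →
    ∀ P : SqPair, P.Q0.s = 2 ^ ks → P.Q0.m = (2 ^ ℓ) ^ (j0 + i) → P.Q1.D = 2 ^ ℓ * P.Q0.D → C ≤ P.Q0.D →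
      2 ^ ks * (2 ^ kR) ^ 5 ≤ 2 * P.Q0.n → E.cmk * (2 ^ ks * (2 ^ kR) ^ 5) ≤ 2 * P.Q0.n → 4 * P.Q1.n ≤ D0 * (2 ^ ℓ) ^ h →
      2 * P.Q1.n ∣ D0 * (2 ^ ℓ) ^ h →
    ∃ vJ Dex cex : ℝ, 0 ≤ vJ ∧
      Nonempty (Stop ⟨parT ⟨δ, κ, h0, A, ω8⟩ qA, oT, H0, H1⟩ xyCritical P (H.t (j0 + i)) (H.z (j0 + i)) (C * cvl θ E.ε u i) (r i) vJ Dex cex) ∧
      vJ * Dex ≤ E.CR * ((2 : ℝ) ^ ks) ^ E.CR * θ ^ i * Real.exp (C * ∑ k ∈ Finset.range i, cvl θ E.ε u k) := by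
  obtain ⟨δ0, hδ0, F⟩ := pair_atStop o oT hoo
  refine ⟨δ0, hδ0, fun δ hδ => ?_⟩
  obtain ⟨κ0, hκ0, F⟩ := F δ hδ
  refine ⟨κ0, hκ0, fun κ hκ c c0 hc hc0 => ?_⟩
  obtain ⟨h0min, qA, H0, H1, hqA, hH0, hH1, F⟩ := F κ hκ c c0 hc hc0
  refine ⟨h0min, qA, H0, H1, hqA, hH0, hH1, fun h0 hh0 => ?_⟩
  obtain ⟨ℓ0, hℓ0, F⟩ := F h0 hh0
  refine ⟨ℓ0, fun ℓ hℓ => ?_⟩
  obtain ⟨A0, F⟩ := F ℓ hℓ
  refine ⟨A0, fun A hA D0 hD D1R hs1 hs2 => ?_⟩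
  obtain ⟨θ, C, cs, hθ0, hθ1, hC, hcs, F⟩ := F A hA D0 hD D1R hs1 hs2
  refine ⟨θ, C, cs, hθ0, hθ1, hC, hcs, ?_⟩
  intro D E kq kR ks j0 hE hent hside hj0 𝓡 htow h i H u r hH hε0 hε hu P hPs hPm hPD hCD hsz1 hsz2 hbig hdvd
  have hm1 : P.Q1.m = (2 ^ ℓ) ^ (j0 + i) := by
    rw [← hPm]; unfold Sq.m; rw [P.hr, P.hs]
  have hn1 : P.Q1.n = 2 ^ ℓ * P.Q0.n := by
    unfold Sq.n; rw [hPD, hm1, hPm, Nat.mul_assoc]
  have hL4 : 4 ≤ 2 ^ ℓ := by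
    calc 4 = 2 ^ 2 := by norm_num
      _ ≤ 2 ^ ℓ := Nat.pow_le_pow_right (by norm_num) (hℓ0.trans hℓ)
  have hm4 : 4 ≤ P.Q0.m := by
    rw [hPm]
    calc 4 ≤ 2 ^ ℓ := hL4
      _ = (2 ^ ℓ) ^ 1 := (pow_one _).symm
      _ ≤ (2 ^ ℓ) ^ (j0 + i) := Nat.pow_le_pow_right (by positivity) (by omega)
  obtain ⟨vJ, Dex, cex, hvJ, hDex, ⟨x₀, x₁, Γ₀, Γ₁, V₀, V₁, v₀, v₁, Rm₀, Rm₁, Em, a₀, a₁, ap⟩, hlab⟩ :=
    F D E kq kR ks j0 hE hent hside hj0 𝓡 htow h i H u r hH hε0 hε hu P.Q0.G P.Q1.G P.Q0.n rfl rfl rfl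
      (by show 2 * P.Q1.n = _; rw [hn1])
      (by rw [← hPm]; exact Dvd.intro_left _ rfl)
      (by
        rw [← hPm]
        show C * ((P.Q0.m : ℕ) : ℝ) ≤ ((P.Q0.D * P.Q0.m : ℕ) : ℝ)
        push_cast
        exact mul_le_mul_of_nonneg_right hCD (Nat.cast_nonneg _))
      hsz1 hsz2
      (by show 2 * (2 * P.Q1.n) ≤ _; omega) hdvd
      P.Q0.g P.Q0.c P.Q1.g P.Q1.c (Pr.sq_g_eq_lev P.Q0 ℓ _ hPm) (Pr.sq_g_eq_lev P.Q1 ℓ _ hm1)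
      ⟨hPs ▸ Pr.sq_s_dvd P.Q0, by
        have := Pr.sq_c_eq P.Q0 (Pr.sq_s_dvd P.Q0)
        rw [this]; congr 1⟩
      ⟨(P.hs.trans hPs) ▸ Pr.sq_s_dvd P.Q1, by
        have := Pr.sq_c_eq P.Q1 (Pr.sq_s_dvd P.Q1)
        rw [this]; congr 1; exact P.hs.trans hPs⟩
  have hα : 0 < Real.sqrt oT.a := Real.sqrt_pos.2 oT.a_pos
  refine ⟨vJ, Dex, cex, hvJ, Pr.stop_of_atStop _ _ P 1 _ _ _ _ _ _ _ hα ?_ hH0 (show 2 ≤ H1 by omega) (by omega) (by omega)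
    x₀ x₁ Γ₀ Γ₁ V₀ V₁ v₀ v₁ Rm₀ Rm₁ Em a₀ a₁ ap hDex, hlab⟩
  show ω8 = 2 * Real.pi / Real.sqrt oT.a
  rw [hoo.aT]; rfl

/-! ## 4. (B): the history of the concrete system on one big torus -/

/-- a complex number fixed by the conjugation is its real part -/
theorem th_re_of_conj {z : ℂ} (h : starRingEnd ℂ z = z) : ((z.re : ℝ) : ℂ) = z :=
  (Complex.conj_eq_iff_real.1 h).elim fun r hr => by rw [hr, Complex.ofReal_re]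

/-- the invariant of the induction -/
theorem th_invariant (κr : RawC) (cB : ℝ) (_hcB0 : 0 < cB) (hcBρ : cB < κr.ρ) (hcBθ : κr.θ * cB + κr.C * cB ^ 2 ≤ cB)
    (K : Cfg) (𝓡 : Reg K.s) (hA : 0 < K.p.A) (D : F4b.EntryData) (o : ObsPar)
    (rr ε : ℝ) (sd j0 c0' big : ℕ) (ops : K.Ops 𝓡) (rd : Asm.Rd K 𝓡) (hrr : 0 < rr)
    (hE : EntSp.EntIn K 𝓡 D xyCritical k0 o rr ε sd j0 c0' big) (hS : MapIn K 𝓡 j0 hA κr ops) (hε : ε ≤ cB)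
    (h i : ℕ) (hi : j0 + i < h) (hm : 𝓡.hmin ≤ h)
    (hpl : ∀ k ≤ i, ‖(Asm.concSys K 𝓡 hA j0 ops D sd rd).pl xyCritical (j0 + k)‖ < cB) :
    ∀ k, k ≤ i →
      ‖(Asm.concSys K 𝓡 hA j0 ops D sd rd).tr xyCritical h (j0 + k)‖ ≤ cB ∧
      (∀ hk : j0 + k < h, EqOn K.p.h0 (cutW K.c0 (K.toAct 𝓡 ((Asm.concSys K 𝓡 hA j0 ops D sd rd).tr xyCritical h (j0 + k))))
        (K.plAct 𝓡 ((Asm.concSys K 𝓡 hA j0 ops D sd rd).pl xyCritical (j0 + k)).2.2 ⟨h, hk, hm⟩)) ∧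
      (K.raw 𝓡 hA j0 ops).K (j0 + k) ((Asm.concSys K 𝓡 hA j0 ops D sd rd).pl xyCritical (j0 + k))
        = (Asm.concSys K 𝓡 hA j0 ops D sd rd).pl xyCritical (j0 + k) := by
  have hb : ((xyCritical : ℝ) : ℂ) ∈ Metric.ball ((xyCritical : ℝ) : ℂ) rr := Metric.mem_ball_self hrr
  intro k
  induction k with
  | zero =>
    intro _
    have e1 : (Asm.concSys K 𝓡 hA j0 ops D sd rd).pl xyCritical (j0 + 0)
        = (0, 0, K.plMk 𝓡 j0 fun i => cutW K.c0 (Asm.entAct K.s D sd i.1 j0 xyCritical)) :=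
      congrFun (gc_pl_le (K.raw 𝓡 hA j0 ops) (Asm.concSys K 𝓡 hA j0 ops D sd rd).eK (j := j0) le_rfl) _
    have e2 : (Asm.concSys K 𝓡 hA j0 ops D sd rd).tr xyCritical h (j0 + 0)
        = K.toMk 𝓡 j0 h (Asm.entAct K.s D sd h j0 xyCritical) := by
      have := congrFun (gc_tr_le (K.raw 𝓡 hA j0 ops) (Asm.concSys K 𝓡 hA j0 ops D sd rd).tor
        (Asm.concSys K 𝓡 hA j0 ops D sd rd).eK (Asm.concSys K 𝓡 hA j0 ops D sd rd).T0 h (j := j0) le_rfl) ((xyCritical : ℝ) : ℂ)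
      refine this.trans ?_
      show (if 𝓡.hmin ≤ h then K.toMk 𝓡 j0 h (Asm.entAct K.s D sd h j0 xyCritical) else 0) = _
      rw [if_pos hm]
    refine ⟨?_, ?_, ?_⟩
    · rw [e2]
      exact ((EntSp.ent_space_torus hE (by omega) hm).2.1 _ hb).trans hε
    · intro hk
      rw [e2, e1]
      exact EntSp.ent_space_copy hE ops hS.ops hk hm hb
    · rw [e1]
      show (starRingEnd ℂ (0 : ℂ), starRingEnd ℂ (0 : ℂ), ops.cj j0 _) = _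
      rw [map_zero, (EntSp.ent_space_plane hE ops hS.ops).2.2.1 xyCritical hb]
  | succ k ih =>
    intro hk
    obtain ⟨ih1, ih2, ih3⟩ := ih (by omega)
    have hx := hpl k (by omega)
    have hxρ : ‖(Asm.concSys K 𝓡 hA j0 ops D sd rd).pl xyCritical (j0 + k)‖ < κr.ρ := hx.trans hcBρ
    have haρ : ‖(Asm.concSys K 𝓡 hA j0 ops D sd rd).tr xyCritical h (j0 + k)‖ < κr.ρ := lt_of_le_of_lt ih1 hcBρ
    have e1 : (Asm.concSys K 𝓡 hA j0 ops D sd rd).pl xyCritical (j0 + (k + 1))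
        = K.Phi 𝓡 (j0 + k) ((Asm.concSys K 𝓡 hA j0 ops D sd rd).pl xyCritical (j0 + k)) :=
      gc_pl_succ (K.raw 𝓡 hA j0 ops) (Asm.concSys K 𝓡 hA j0 ops D sd rd).eK (j := j0 + k) (Nat.le_add_right _ _) _
    have e2 : (Asm.concSys K 𝓡 hA j0 ops D sd rd).tr xyCritical h (j0 + (k + 1))
        = K.Psi 𝓡 (j0 + k) h ((((Asm.concSys K 𝓡 hA j0 ops D sd rd).pl xyCritical (j0 + k)).1,
            ((Asm.concSys K 𝓡 hA j0 ops D sd rd).pl xyCritical (j0 + k)).2.1),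
            (Asm.concSys K 𝓡 hA j0 ops D sd rd).tr xyCritical h (j0 + k)) :=
      gc_tr_succ (K.raw 𝓡 hA j0 ops) (Asm.concSys K 𝓡 hA j0 ops D sd rd).tor
        (Asm.concSys K 𝓡 hA j0 ops D sd rd).eK (Asm.concSys K 𝓡 hA j0 ops D sd rd).T0 h (j := j0 + k) (Nat.le_add_right _ _) _
    have hjk : j0 + k < h := by omega
    refine ⟨?_, ?_, ?_⟩
    · rw [e2]
      set x := (Asm.concSys K 𝓡 hA j0 ops D sd rd).pl xyCritical (j0 + k) with hxdef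
      set a := (Asm.concSys K 𝓡 hA j0 ops D sd rd).tr xyCritical h (j0 + k) with hadef
      have hX : ‖(((x.1, x.2.1), a) : (ℂ × ℂ) × K.To 𝓡 (j0 + k) h)‖ ≤ cB := by
        rw [Prod.norm_def, Prod.norm_def]
        refine max_le (max_le ?_ ?_) ih1
        · exact (norm_fst_le x).trans hx.le
        · exact ((norm_fst_le x.2).trans (norm_snd_le x)).trans hx.le
      have h1 := hS.Ψ_bd (j0 + k) h (Nat.le_add_right _ _) hjk ((x.1, x.2.1), a) (by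
        rw [Metric.mem_ball, dist_zero_right]; exact lt_of_le_of_lt hX hcBρ)
      refine h1.trans (le_trans ?_ hcBθ)
      have h2 : κr.θ * ‖a‖ ≤ κr.θ * cB := mul_le_mul_of_nonneg_left ih1 κr.hθ0.le
      have h3 : κr.C * ‖(((x.1, x.2.1), a) : (ℂ × ℂ) × K.To 𝓡 (j0 + k) h)‖ ^ 2 ≤ κr.C * cB ^ 2 :=
        mul_le_mul_of_nonneg_left (pow_le_pow_left₀ (norm_nonneg _) hX 2) (by linarith [κr.hC])
      exact add_le_add h2 h3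
    · intro hk'
      rw [e2, e1]
      exact (hS.copy (j0 + k) h (Nat.le_add_right _ _) hjk hm _ _ hxρ haρ (ih2 hjk)).2.2.2 hk'
    · rw [e1]
      have h1 := hS.raw.real (j0 + k) (Nat.le_add_right _ _) ((Asm.concSys K 𝓡 hA j0 ops D sd rd).pl xyCritical (j0 + k))
        (mem_ball_zero_iff.2 hxρ)
      rw [ih3] at h1
      exact h1.symm

/-- **(B), LEAF `L-OBS-THIST`** (paper-free, ~300 l.).  `cB` depends on the raw constants only: `cB := min (κr.ρ) ((1 - κr.θ) / (2 κr.C))` or smaller.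
`S := Asm.concSys K 𝓡 hA j0 ops D sd rd`, `b := xyCritical`.  Take `H.t j := ((S.pl b j).1).re`, `H.z j := ((S.pl b j).2.1).re`, `H.R j := K.toAct 𝓡 (S.tr b h j)`.
By induction on `k ≤ i` (unfold `B10.pl`, `B10.tr` at `j0 + k + 1 > j0`; at `k = 0`: `pl = eK j0`, `tr = T0 j0 h`, `if_pos hm`):
 (1) `‖S.tr b h (j0 + k)‖ < cB'` from `MapIn.Ψ_bd` (`θ a + C max (u, a)² ≤ a₀`), start `EntSp.ent_space_torus` (`≤ ε`);
 (2) `EqOn (cutW c0 (toAct (tr ..))) (plAct (pl ..).2.2 ⟨h, _, hm⟩)` from `MapIn.copy` (4th clause), start `EntSp.ent_space_copy`;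
 (3) `step` = `MapIn.copy` (clauses 1-3);
 (4) reality `F.K j (pl b j) = pl b j` from `RawOK.real`, start `EntSp.ent_space_plane` (3rd clause), so the scalars are real;
 (5) `adm`, `fin`: every element of `K.To` has an admissible activity of finite norm (`Base/Spaces.lean`: `actSp_*`; `Map/PackA.lean`);
 (6) `bd`: `actNorm` only sees the strips, so (2) reduces it to the component `⟨h, _, hm⟩` of the plane remainder, whose norm is `≤ ‖(pl b j).2.2‖` (`EntSp.esp_bulk_ev`, `Map/PackA.lean` `pk_plAct_spec`). -/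
theorem thist_of_sys (κr : RawC) : ∃ cB > (0 : ℝ), ∀ (K : Cfg) (𝓡 : Reg K.s) (hA : 0 < K.p.A) (D : F4b.EntryData) (o : ObsPar)
    (rr ε : ℝ) (sd j0 c0' big : ℕ) (ops : K.Ops 𝓡) (rd : Asm.Rd K 𝓡), 0 < rr →
    EntSp.EntIn K 𝓡 D xyCritical k0 o rr ε sd j0 c0' big → MapIn K 𝓡 j0 hA κr ops → ε ≤ cB →
    ∀ h i : ℕ, j0 + i < h → 𝓡.hmin ≤ h → (∀ k ≤ i, ‖(Asm.concSys K 𝓡 hA j0 ops D sd rd).pl xyCritical (j0 + k)‖ < cB) →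
    ∃ H : THist K h, H.Ok 𝓡 j0 i (Asm.entAct K.s D sd h j0 xyCritical)
        (fun k => ‖(Asm.concSys K 𝓡 hA j0 ops D sd rd).pl xyCritical (j0 + k)‖)
        (fun k => ‖((Asm.concSys K 𝓡 hA j0 ops D sd rd).pl xyCritical (j0 + k)).2.2‖) ∧
      ∀ k ≤ i, H.t (j0 + k) = (((Asm.concSys K 𝓡 hA j0 ops D sd rd).pl xyCritical (j0 + k)).1).re := by
  obtain ⟨cB, hcBdef⟩ : ∃ c : ℝ, c = min (κr.ρ / 2) ((1 - κr.θ) / (2 * κr.C)) := ⟨_, rfl⟩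
  have hC : 0 < κr.C := by linarith [κr.hC]
  have hcB0 : 0 < cB := by
    rw [hcBdef]
    exact lt_min (half_pos κr.hρ) (div_pos (by linarith [κr.hθ]) (by linarith))
  have hcBρ : cB < κr.ρ := by
    rw [hcBdef]
    exact lt_of_le_of_lt (min_le_left _ _) (half_lt_self κr.hρ)
  have hcBθ : κr.θ * cB + κr.C * cB ^ 2 ≤ cB := by
    have h1 : cB ≤ (1 - κr.θ) / (2 * κr.C) := by rw [hcBdef]; exact min_le_right _ _
    rw [le_div_iff₀ (by positivity)] at h1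
    have h2 : cB * (cB * (2 * κr.C)) ≤ cB * (1 - κr.θ) := mul_le_mul_of_nonneg_left h1 hcB0.le
    have h3 : κr.θ * cB ≤ 1 * cB := mul_le_mul_of_nonneg_right κr.hθ.le hcB0.le
    nlinarith [h2, h3]
  refine ⟨cB, hcB0, ?_⟩
  intro K 𝓡 hA D o rr ε sd j0 c0' big ops rd hrr hE hS hε h i hi hm hpl
  have inv := th_invariant κr cB hcB0 hcBρ hcBθ K 𝓡 hA D o rr ε sd j0 c0' big ops rd hrr hE hS hε h i hi hm hpl
  have hb : ((xyCritical : ℝ) : ℂ) ∈ Metric.ball ((xyCritical : ℝ) : ℂ) rr := Metric.mem_ball_self hrr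
  have e0 : (Asm.concSys K 𝓡 hA j0 ops D sd rd).pl xyCritical j0
      = (0, 0, K.plMk 𝓡 j0 fun i => cutW K.c0 (Asm.entAct K.s D sd i.1 j0 xyCritical)) :=
    congrFun (gc_pl_le (K.raw 𝓡 hA j0 ops) (Asm.concSys K 𝓡 hA j0 ops D sd rd).eK (j := j0) le_rfl) _
  have e0' : (Asm.concSys K 𝓡 hA j0 ops D sd rd).tr xyCritical h j0
      = K.toMk 𝓡 j0 h (Asm.entAct K.s D sd h j0 xyCritical) := by
    have := congrFun (gc_tr_le (K.raw 𝓡 hA j0 ops) (Asm.concSys K 𝓡 hA j0 ops D sd rd).tor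
      (Asm.concSys K 𝓡 hA j0 ops D sd rd).eK (Asm.concSys K 𝓡 hA j0 ops D sd rd).T0 h (j := j0) le_rfl) ((xyCritical : ℝ) : ℂ)
    refine this.trans ?_
    show (if 𝓡.hmin ≤ h then K.toMk 𝓡 j0 h (Asm.entAct K.s D sd h j0 xyCritical) else 0) = _
    rw [if_pos hm]
  have hre : ∀ k ≤ i, (((((Asm.concSys K 𝓡 hA j0 ops D sd rd).pl xyCritical (j0 + k)).1).re : ℝ) : ℂ)
        = ((Asm.concSys K 𝓡 hA j0 ops D sd rd).pl xyCritical (j0 + k)).1 ∧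
      (((((Asm.concSys K 𝓡 hA j0 ops D sd rd).pl xyCritical (j0 + k)).2.1).re : ℝ) : ℂ)
        = ((Asm.concSys K 𝓡 hA j0 ops D sd rd).pl xyCritical (j0 + k)).2.1 := fun k hk =>
    ⟨th_re_of_conj (congrArg Prod.fst (inv k hk).2.2), th_re_of_conj (congrArg (fun y => y.2.1) (inv k hk).2.2)⟩
  refine ⟨⟨fun j => (((Asm.concSys K 𝓡 hA j0 ops D sd rd).pl xyCritical j).1).re,
    fun j => (((Asm.concSys K 𝓡 hA j0 ops D sd rd).pl xyCritical j).2.1).re,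
    fun j => K.toAct 𝓡 ((Asm.concSys K 𝓡 hA j0 ops D sd rd).tr xyCritical h j)⟩, ?_, fun k _ => rfl⟩
  refine ⟨hi, ?_, ?_, ?_, ?_, ?_, ?_, ?_⟩
  · show (((Asm.concSys K 𝓡 hA j0 ops D sd rd).pl xyCritical j0).1).re = 0
    rw [e0]; rfl
  · show (((Asm.concSys K 𝓡 hA j0 ops D sd rd).pl xyCritical j0).2.1).re = 0
    rw [e0]; rfl
  · show EqOn K.p.h0 (K.toAct 𝓡 ((Asm.concSys K 𝓡 hA j0 ops D sd rd).tr xyCritical h j0)) _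
    rw [e0']
    exact (EntSp.ent_space_torus hE (by omega) hm).2.2 _ hb
  · intro k _
    exact (Pack.pk_toAct_spec K 𝓡 hA _).1
  · intro k _
    show actNorm K.p (K.s.lev h (j0 + k)) (𝓡.V h (j0 + k)) (K.toAct 𝓡 ((Asm.concSys K 𝓡 hA j0 ops D sd rd).tr xyCritical h (j0 + k))) ≠ ⊤
    exact ne_of_eq_of_ne (Pack.pk_toAct_spec K 𝓡 hA _).2.2 ENNReal.ofReal_ne_top
  · intro k hk
    obtain ⟨i1, i2, _⟩ := inv k hk.le
    have hjk : j0 + k < h := by omega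
    have hxρ : ‖(Asm.concSys K 𝓡 hA j0 ops D sd rd).pl xyCritical (j0 + k)‖ < κr.ρ := (hpl k hk.le).trans hcBρ
    have haρ : ‖(Asm.concSys K 𝓡 hA j0 ops D sd rd).tr xyCritical h (j0 + k)‖ < κr.ρ := lt_of_le_of_lt i1 hcBρ
    have e1 : (Asm.concSys K 𝓡 hA j0 ops D sd rd).pl xyCritical (j0 + k + 1)
        = K.Phi 𝓡 (j0 + k) ((Asm.concSys K 𝓡 hA j0 ops D sd rd).pl xyCritical (j0 + k)) :=
      gc_pl_succ (K.raw 𝓡 hA j0 ops) (Asm.concSys K 𝓡 hA j0 ops D sd rd).eK (j := j0 + k) (Nat.le_add_right _ _) _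
    have e2 : (Asm.concSys K 𝓡 hA j0 ops D sd rd).tr xyCritical h (j0 + k + 1)
        = K.Psi 𝓡 (j0 + k) h ((((Asm.concSys K 𝓡 hA j0 ops D sd rd).pl xyCritical (j0 + k)).1,
            ((Asm.concSys K 𝓡 hA j0 ops D sd rd).pl xyCritical (j0 + k)).2.1),
            (Asm.concSys K 𝓡 hA j0 ops D sd rd).tr xyCritical h (j0 + k)) :=
      gc_tr_succ (K.raw 𝓡 hA j0 ops) (Asm.concSys K 𝓡 hA j0 ops D sd rd).tor
        (Asm.concSys K 𝓡 hA j0 ops D sd rd).eK (Asm.concSys K 𝓡 hA j0 ops D sd rd).T0 h (j := j0 + k) (Nat.le_add_right _ _) _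
    have hc := hS.copy (j0 + k) h (Nat.le_add_right _ _) hjk hm _ _ hxρ haρ (i2 hjk)
    have r1 := hre k hk.le
    have r2 : (((((Asm.concSys K 𝓡 hA j0 ops D sd rd).pl xyCritical (j0 + k + 1)).1).re : ℝ) : ℂ)
        = ((Asm.concSys K 𝓡 hA j0 ops D sd rd).pl xyCritical (j0 + k + 1)).1 ∧
      (((((Asm.concSys K 𝓡 hA j0 ops D sd rd).pl xyCritical (j0 + k + 1)).2.1).re : ℝ) : ℂ)
        = ((Asm.concSys K 𝓡 hA j0 ops D sd rd).pl xyCritical (j0 + k + 1)).2.1 := hre (k + 1) hk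
    show (K.PhiT 𝓡 h (j0 + k) _ ((((((Asm.concSys K 𝓡 hA j0 ops D sd rd).pl xyCritical (j0 + k)).1).re : ℝ) : ℂ),
          (((((Asm.concSys K 𝓡 hA j0 ops D sd rd).pl xyCritical (j0 + k)).2.1).re : ℝ) : ℂ),
          K.toAct 𝓡 ((Asm.concSys K 𝓡 hA j0 ops D sd rd).tr xyCritical h (j0 + k)))).1
        = (((((Asm.concSys K 𝓡 hA j0 ops D sd rd).pl xyCritical (j0 + k + 1)).1).re : ℝ) : ℂ) ∧
      (K.PhiT 𝓡 h (j0 + k) _ ((((((Asm.concSys K 𝓡 hA j0 ops D sd rd).pl xyCritical (j0 + k)).1).re : ℝ) : ℂ),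
          (((((Asm.concSys K 𝓡 hA j0 ops D sd rd).pl xyCritical (j0 + k)).2.1).re : ℝ) : ℂ),
          K.toAct 𝓡 ((Asm.concSys K 𝓡 hA j0 ops D sd rd).tr xyCritical h (j0 + k)))).2.1
        = (((((Asm.concSys K 𝓡 hA j0 ops D sd rd).pl xyCritical (j0 + k + 1)).2.1).re : ℝ) : ℂ) ∧
      EqOn K.p.h0 (K.PhiT 𝓡 h (j0 + k) _ ((((((Asm.concSys K 𝓡 hA j0 ops D sd rd).pl xyCritical (j0 + k)).1).re : ℝ) : ℂ),
          (((((Asm.concSys K 𝓡 hA j0 ops D sd rd).pl xyCritical (j0 + k)).2.1).re : ℝ) : ℂ),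
          K.toAct 𝓡 ((Asm.concSys K 𝓡 hA j0 ops D sd rd).tr xyCritical h (j0 + k)))).2.2
        (K.toAct 𝓡 ((Asm.concSys K 𝓡 hA j0 ops D sd rd).tr xyCritical h (j0 + k + 1)))
    rw [r1.1, r1.2, r2.1, r2.2, e1, e2]
    exact ⟨hc.1, hc.2.1, EntSp.esp_eqOn_symm hc.2.2.1⟩
  · intro k hk
    obtain ⟨_, i2, _⟩ := inv k hk
    have hjk : j0 + k < h := by omega
    refine ⟨?_, ?_, ?_, ?_⟩
    · exact (Complex.abs_re_le_norm _).trans (norm_fst_le _)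
    · exact (Complex.abs_re_le_norm _).trans ((norm_fst_le _).trans (norm_snd_le _))
    · exact (norm_snd_le _).trans (norm_snd_le _)
    · show actNorm K.p (K.s.lev h (j0 + k)) (𝓡.V h (j0 + k))
        (cutW K.c0 (K.toAct 𝓡 ((Asm.concSys K 𝓡 hA j0 ops D sd rd).tr xyCritical h (j0 + k)))) ≤ _
      rw [Pack.pk_actNorm_congr K.p _ _ (i2 hjk)]
      exact (Pack.pk_plAct_spec K 𝓡 hA _).2.2.2.2 ⟨h, hjk, hm⟩

/-! ## 5. (C): the top contract -/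

/-- **everything which is known about one side at P14** (`Asm.SideOK` with the two norms) -/
structure ObsSide (X : Asm.Fixed) (oT : ObsPar) (qA : ℝ) (E : EntQ) (κr : RawC) (kR ks j0 : ℕ)
    (ops : X.K.Ops (X.reg (2 ^ ks) ((2 ^ kR) ^ 5))) : Prop where
  side : 2 ^ X.kq * 2 ^ kR * 2 ^ ks = X.K.s.L ^ j0
  tower : X.K.TowerOK (X.reg (2 ^ ks) ((2 ^ kR) ^ 5)) j0
  obs : ∀ h j, j0 ≤ j → j ≤ h →
    IsObs X.o ((X.reg (2 ^ ks) ((2 ^ kR) ^ 5)).gs h) (X.K.s.lev h j) ((X.reg (2 ^ ks) ((2 ^ kR) ^ 5)).V h j)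
  map : MapIn X.K (X.reg (2 ^ ks) ((2 ^ kR) ^ 5)) j0 X.hA κr ops
  ent : EntAll X.D X.K.p (parT X.K.p qA) X.o oT E X.kq kR ks

/-! ### helpers of `L-OBS-CHAIN` (helper166), prefix `oc_` -/

/-- `M_n ≤ 1` on an aligned square (lines of `cutoff_absolute`) -/
theorem oc_centerMag_le_one (Q : Sq) (b : ℝ) (hb : 0 < b) : centerMag b Q.n ≤ 1 := by
  have hc := tc_c_whole Q
  have hZ := cutabs_Zs hc b hb (flV0 Q.c) ((Top.full Q.c).econn (tauU Q.c))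
  have hZ0 := (cutabs_Zs hc b hb (flV0 Q.c) 0).1
  have hMeq : centerMag b Q.n = (Top.full Q.c).graph.ratio b {flV0 Q.c} ((Top.full Q.c).econn (tauU Q.c)) :=
    F4a.centerMag_eq b Q.n Q.n_pos rfl rfl hc (Dvd.intro_left (Q.D * Q.r) (by
      show Q.D * Q.r * Q.s = Q.D * (Q.r * Q.s)
      ring)) (flV0 Q.c)
  rw [hMeq]
  exact (div_le_one hZ0).2 hZ.2

theorem oc_dvd (ℓ D0 N : ℕ) (hℓ : 1 ≤ ℓ) : 2 * (2 ^ ℓ) ^ (N + 1) ∣ D0 * (2 ^ ℓ) ^ (N + 2) := by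
  obtain ⟨ℓ', rfl⟩ : ∃ ℓ', ℓ = ℓ' + 1 := ⟨ℓ - 1, by omega⟩
  exact ⟨D0 * 2 ^ ℓ', by ring⟩

/-- monotonicity of the cutoff loss in all constants -/
theorem oc_cut_le {Cc Ce x y cc ce s : ℝ} (h1 : Cc ≤ Ce) (h2 : 0 ≤ Ce) (hx : 0 ≤ x) (hxy : x ≤ y) (hc : ce ≤ cc) :
    Cc * x ^ 2 * Real.exp (-cc * s ^ 2) ≤ Ce * y ^ 2 * Real.exp (-ce * s ^ 2) := by
  have e1 : Real.exp (-cc * s ^ 2) ≤ Real.exp (-ce * s ^ 2) := by
    apply Real.exp_le_exp.2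
    nlinarith [sq_nonneg s]
  have e2 : x ^ 2 ≤ y ^ 2 := pow_le_pow_left₀ hx hxy 2
  have e0 := Real.exp_pos (-cc * s ^ 2)
  calc Cc * x ^ 2 * Real.exp (-cc * s ^ 2) ≤ Ce * x ^ 2 * Real.exp (-cc * s ^ 2) :=
        mul_le_mul_of_nonneg_right (mul_le_mul_of_nonneg_right h1 (sq_nonneg x)) e0.le
    _ ≤ Ce * y ^ 2 * Real.exp (-cc * s ^ 2) :=
        mul_le_mul_of_nonneg_right (mul_le_mul_of_nonneg_left e2 h2) e0.le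
    _ ≤ Ce * y ^ 2 * Real.exp (-ce * s ^ 2) :=
        mul_le_mul_of_nonneg_left e1 (mul_nonneg h2 (sq_nonneg y))

/-- monotonicity of the label bound in all constants -/
theorem oc_lab_le {CR Ce s θ D C κC Sg w : ℝ} (i : ℕ) (h1 : CR ≤ Ce) (h2 : 0 ≤ Ce) (hs : 1 ≤ s) (hθ : 0 ≤ θ) (hC : C ≤ κC) (hSg : 0 ≤ Sg)
    (hw : w ≤ CR * s ^ CR * θ ^ i * Real.exp (C * Sg)) :
    D ^ 2 * w ≤ Ce * s ^ Ce * θ ^ i * D ^ 2 * Real.exp (κC * Sg) := by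
  have hs0 : 0 < s := by linarith
  have e1 : s ^ CR ≤ s ^ Ce := Real.rpow_le_rpow_of_exponent_le hs h1
  have e0 : 0 < s ^ CR := Real.rpow_pos_of_pos hs0 _
  have e2 : CR * s ^ CR ≤ Ce * s ^ Ce :=
    (mul_le_mul_of_nonneg_right h1 e0.le).trans (mul_le_mul_of_nonneg_left e1 h2)
  have e3 : Real.exp (C * Sg) ≤ Real.exp (κC * Sg) := Real.exp_le_exp.2 (mul_le_mul_of_nonneg_right hC hSg)
  have e4 : 0 ≤ θ ^ i := pow_nonneg hθ i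
  have e5 : 0 ≤ Ce * s ^ Ce := mul_nonneg h2 (e0.le.trans e1)
  have e6 : CR * s ^ CR * θ ^ i * Real.exp (C * Sg) ≤ Ce * s ^ Ce * θ ^ i * Real.exp (κC * Sg) :=
    calc CR * s ^ CR * θ ^ i * Real.exp (C * Sg) ≤ Ce * s ^ Ce * θ ^ i * Real.exp (C * Sg) :=
          mul_le_mul_of_nonneg_right (mul_le_mul_of_nonneg_right e2 e4) (Real.exp_pos _).le
      _ ≤ Ce * s ^ Ce * θ ^ i * Real.exp (κC * Sg) := mul_le_mul_of_nonneg_left e3 (mul_nonneg e5 e4)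
  calc D ^ 2 * w ≤ D ^ 2 * (Ce * s ^ Ce * θ ^ i * Real.exp (κC * Sg)) :=
        mul_le_mul_of_nonneg_left (hw.trans e6) (sq_nonneg D)
    _ = _ := by ring

/-- monotonicity of the final bound in `(C, ν, ν2)` -/
theorem oc_fin_le {Cs κC D ν' ν ν2' ν2 a b : ℝ} (hC : Cs ≤ κC) (hκ : 0 ≤ κC) (hD : 0 < D) (h0 : 0 ≤ ν') (h1 : ν' ≤ ν) (h2 : 0 ≤ ν2')
    (h3 : ν2' ≤ ν2) (ha : 0 ≤ a) (hb : 0 ≤ b) :
    Cs * (D ^ 4 * ν' ^ 2 + ν' / D + D ^ 2 * ν2' + a + b) ≤ κC * (D ^ 4 * ν ^ 2 + ν / D + D ^ 2 * ν2 + b + a) := by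
  have e1 : ν' ^ 2 ≤ ν ^ 2 := pow_le_pow_left₀ h0 h1 2
  have e2 : ν' / D ≤ ν / D := div_le_div_of_nonneg_right h1 hD.le
  have e3 : D ^ 4 * ν' ^ 2 ≤ D ^ 4 * ν ^ 2 := mul_le_mul_of_nonneg_left e1 (by positivity)
  have e4 : D ^ 2 * ν2' ≤ D ^ 2 * ν2 := mul_le_mul_of_nonneg_left h3 (by positivity)
  have e5 : 0 ≤ D ^ 4 * ν' ^ 2 + ν' / D + D ^ 2 * ν2' + a + b := by positivity
  calc Cs * (D ^ 4 * ν' ^ 2 + ν' / D + D ^ 2 * ν2' + a + b) ≤ κC * (D ^ 4 * ν' ^ 2 + ν' / D + D ^ 2 * ν2' + a + b) :=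
        mul_le_mul_of_nonneg_right hC e5
    _ ≤ _ := mul_le_mul_of_nonneg_left (by linarith) hκ

/-- **the analytic half of `obs_chain`**: `StepIneq` from the tails of `consecutive_of_stop` (`hS`), `cutoff_absolute` (`hcut`) and of (A) + (B) (`hA`) -/
theorem oc_step (fx : Fix) (a : ℝ) (ha : a = k0) (ℓ q ks j0 P0 cmk D1 : ℕ) (hside : q * 2 ^ ks = (2 ^ ℓ) ^ j0)
    (θ C cAB Cs c1 Cc cc CR ε : ℝ) (u r t : ℕ → ℝ) (hC1 : 1 ≤ C) (hε : 0 ≤ ε) (hu0 : ∀ k, 0 ≤ u k) (hr0 : ∀ k, 0 ≤ r k)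
    (hS : ∀ P : SqPair, P.Q1.D = 2 ^ ℓ * P.Q0.D → D1 ≤ P.Q0.D → ∀ b t z ν ν2 vJ Dex cex : ℝ,
      Stop fx b P t z ν ν2 vJ Dex cex →
      |t| ≤ ν → 0 ≤ ν2 → ν2 ≤ ν → 0 ≤ vJ → (P.Q0.D : ℝ) ^ 2 * ν ≤ c1 →
      ∀ εc εJ : ℝ, εc ≤ c1 → εJ ≤ c1 →
      0 < centerMag b P.Q0.n → 0 < centerMag b P.Q1.n →
      |P.Q0.Mhat b - centerMag b P.Q0.n| ≤ εc * centerMag b P.Q0.n →
      |P.Q1.Mhat b - centerMag b P.Q1.n| ≤ εc * centerMag b P.Q1.n →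
      (P.Q0.D : ℝ) ^ 2 * vJ * Dex ≤ εJ * (centerMag b P.Q0.n * Real.exp (Glue.unitEnergy P.Q0.n / (2 * a))) →
      (P.Q0.D : ℝ) ^ 2 * vJ * Dex ≤ εJ * (centerMag b P.Q1.n * Real.exp (Glue.unitEnergy P.Q1.n / (2 * a))) →
      |Real.log (centerMag b P.Q1.n) - Real.log (centerMag b P.Q0.n)
          + (1 - t) / (2 * a) * (Glue.unitEnergy P.Q1.n - Glue.unitEnergy P.Q0.n)|
        ≤ Cs * ((P.Q0.D : ℝ) ^ 4 * ν ^ 2 + ν / P.Q0.D + (P.Q0.D : ℝ) ^ 2 * ν2 + εc + εJ))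
    (hcut : ∀ (Q : Sq) (b : ℝ), 0 < b → b ≤ xyCritical →
      Cc * (Q.n : ℝ) ^ 2 * Real.exp (-cc * (Q.s : ℝ) ^ 2) ≤ 1 →
      |Q.Mhat b - centerMag b Q.n| ≤ Cc * (Q.n : ℝ) ^ 2 * Real.exp (-cc * (Q.s : ℝ) ^ 2))
    (hA : ∀ N i : ℕ, j0 + i < N → (∀ k ≤ i, u k < cAB) → 2 ^ ks * P0 ≤ (2 ^ ℓ) ^ N →
      ∀ P : SqPair, P.Q0.s = 2 ^ ks → P.Q0.m = (2 ^ ℓ) ^ (j0 + i) → P.Q1.D = 2 ^ ℓ * P.Q0.D → C ≤ P.Q0.D →
        2 ^ ks * P0 ≤ 2 * P.Q0.n → cmk * (2 ^ ks * P0) ≤ 2 * P.Q0.n → P.Q1.n = (2 ^ ℓ) ^ (N + 1) →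
      ∃ z vJ Dex cex : ℝ, 0 ≤ vJ ∧ |t i| ≤ u i ∧ r i ≤ u i ∧
        Nonempty (Stop fx xyCritical P (t i) z (C * cvl θ ε u i) (r i) vJ Dex cex) ∧
        vJ * Dex ≤ CR * ((2 : ℝ) ^ ks) ^ CR * θ ^ i * Real.exp (C * ∑ k ∈ Finset.range i, cvl θ ε u k))
    (κo : ObsC) (Ce ce : ℝ) (hθ : κo.θ = θ) (hκC : C ≤ κo.C) (hκCs : Cs ≤ κo.C) (hκD : (D1 : ℝ) ≤ κo.C)
    (hκc : κo.c ≤ cAB) (hκc1 : κo.c ≤ c1) (hκ1 : κo.c ≤ 1)
    (hCR : CR ≤ Ce) (hCc : Cc ≤ Ce) (hcmk : (cmk : ℝ) ≤ Ce) (hCe1 : 1 ≤ Ce) (hce : ce ≤ cc) :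
    StepIneq (2 ^ ℓ) κo Ce ce P0 ε (2 ^ ks) j0 u r t := by
  intro N i hN hCD hCeN hu hM0 hM1 D ν ν2 lab cut hD hν hν2 hlab hcutl hDν hlabs hcuts
  subst hθ
  have hθ0 : 0 ≤ κo.θ := κo.hθ0.le
  have hκC0 : 0 ≤ κo.C := by linarith [κo.hC]
  have hLpos : 0 < 2 ^ ℓ := by positivity
  have hqpos : 0 < q := by
    rcases Nat.eq_zero_or_pos q with h | h
    · rw [h, zero_mul] at hside
      exact absurd hside.symm (by positivity)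
    · exact h
  -- the pair of squares
  let P : SqPair := ⟨⟨(2 ^ ℓ) ^ (N - (j0 + i)), q * (2 ^ ℓ) ^ i, 2 ^ ks, by positivity, by positivity, by positivity⟩,
    ⟨(2 ^ ℓ) ^ (N + 1 - (j0 + i)), q * (2 ^ ℓ) ^ i, 2 ^ ks, by positivity, by positivity, by positivity⟩, rfl, rfl,
    Nat.pow_le_pow_right hLpos (by omega)⟩
  have hPs : P.Q0.s = 2 ^ ks := rfl
  have hPs1 : P.Q1.s = 2 ^ ks := rfl
  have hPm : P.Q0.m = (2 ^ ℓ) ^ (j0 + i) := by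
    show q * (2 ^ ℓ) ^ i * 2 ^ ks = (2 ^ ℓ) ^ (j0 + i)
    rw [pow_add, ← hside]; ring
  have hPn0 : P.Q0.n = (2 ^ ℓ) ^ N := by
    show (2 ^ ℓ) ^ (N - (j0 + i)) * P.Q0.m = (2 ^ ℓ) ^ N
    rw [hPm, ← pow_add]; congr 1; omega
  have hPn1 : P.Q1.n = (2 ^ ℓ) ^ (N + 1) := by
    show (2 ^ ℓ) ^ (N + 1 - (j0 + i)) * P.Q0.m = (2 ^ ℓ) ^ (N + 1)
    rw [hPm, ← pow_add]; congr 1; omega
  have hPD : P.Q1.D = 2 ^ ℓ * P.Q0.D := by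
    show (2 ^ ℓ) ^ (N + 1 - (j0 + i)) = 2 ^ ℓ * (2 ^ ℓ) ^ (N - (j0 + i))
    rw [← pow_succ']; congr 1; omega
  have hPDr : (P.Q0.D : ℝ) = D := by
    rw [hD]
    show (((2 ^ ℓ) ^ (N - (j0 + i)) : ℕ) : ℝ) = _
    push_cast; rfl
  have hDpos : 0 < D := by rw [← hPDr]; exact_mod_cast P.Q0.hD
  -- sizes
  have hsz : ((2 ^ ks * P0 : ℕ) : ℝ) ≤ (((2 ^ ℓ) ^ N : ℕ) : ℝ) := by
    have h1 : (0 : ℝ) ≤ ((2 ^ ks * P0 : ℕ) : ℝ) := Nat.cast_nonneg _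
    have h2 : ((2 ^ ks * P0 : ℕ) : ℝ) ≤ Ce * ((2 ^ ks * P0 : ℕ) : ℝ) := le_mul_of_one_le_left h1 hCe1
    refine h2.trans (hCeN.trans (le_of_eq ?_))
    push_cast; rfl
  have hszN : 2 ^ ks * P0 ≤ (2 ^ ℓ) ^ N := by exact_mod_cast hsz
  have hsz2 : ((cmk * (2 ^ ks * P0) : ℕ) : ℝ) ≤ (((2 ^ ℓ) ^ N : ℕ) : ℝ) := by
    have h1 : (0 : ℝ) ≤ ((2 ^ ks * P0 : ℕ) : ℝ) := Nat.cast_nonneg _
    have h2 : ((cmk * (2 ^ ks * P0) : ℕ) : ℝ) ≤ Ce * ((2 ^ ks * P0 : ℕ) : ℝ) := by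
      rw [Nat.cast_mul]
      exact mul_le_mul_of_nonneg_right hcmk h1
    refine h2.trans (hCeN.trans (le_of_eq ?_))
    push_cast; rfl
  have hszN2 : cmk * (2 ^ ks * P0) ≤ (2 ^ ℓ) ^ N := by exact_mod_cast hsz2
  obtain ⟨z, vJ, Dex, cex, hvJ, ht, hru, ⟨S⟩, hvD⟩ := hA N i hN (fun k hk => (hu k hk).trans_le hκc) hszN P hPs hPm hPD
    (by rw [hPDr, hD]; exact hκC.trans hCD) (by rw [hPn0]; omega) (by rw [hPn0]; omega) hPn1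
  -- the convolution
  have hcv0 : ∀ k, 0 ≤ cvl κo.θ ε u k := cs_cvl_nonneg hθ0 hε hu0
  have hcvi : u i ≤ cvl κo.θ ε u i := cs_cvl_ge hθ0 hε hu0 i
  have hν' : u i ≤ C * cvl κo.θ ε u i := hcvi.trans (le_mul_of_one_le_left (hcv0 i) hC1)
  have hν'ν : C * cvl κo.θ ε u i ≤ ν := (mul_le_mul_of_nonneg_right hκC (hcv0 i)).trans hν
  have hν'0 : 0 ≤ C * cvl κo.θ ε u i := (hu0 i).trans hν'
  have hν2' : r i ≤ ν2 := (le_mul_of_one_le_left (hr0 i) κo.hC).trans hν2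
  have hSg : 0 ≤ ∑ k ∈ Finset.range i, cvl κo.θ ε u k := Finset.sum_nonneg fun k _ => hcv0 k
  -- the two minima
  set M0 := centerMag xyCritical ((2 ^ ℓ) ^ N) with hM0d
  set M1 := centerMag xyCritical ((2 ^ ℓ) ^ (N + 1)) with hM1d
  have hb := xy_critical_pos
  have hM0le : M0 ≤ 1 := by rw [hM0d, ← hPn0]; exact oc_centerMag_le_one P.Q0 _ hb
  have hmM : 0 < min M0 M1 := lt_min hM0 hM1
  have hQ0 : 0 < Qc ((2 ^ ℓ) ^ N) := mul_pos hM0 (Real.exp_pos _)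
  have hQ1 : 0 < Qc ((2 ^ ℓ) ^ (N + 1)) := mul_pos hM1 (Real.exp_pos _)
  have hmQ : 0 < min (Qc ((2 ^ ℓ) ^ N)) (Qc ((2 ^ ℓ) ^ (N + 1))) := lt_min hQ0 hQ1
  have hCe0 : 0 ≤ Ce := by linarith
  have hcut0 : 0 ≤ cut := le_trans (by positivity) hcutl
  have hs1 : (1 : ℝ) ≤ ((2 ^ ks : ℕ) : ℝ) := by exact_mod_cast Nat.one_le_two_pow
  have hlab0 : 0 ≤ lab := by
    refine le_trans ?_ hlab
    have : 0 ≤ ((2 ^ ks : ℕ) : ℝ) ^ Ce := Real.rpow_nonneg (by linarith) _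
    have h2 := pow_nonneg hθ0 i
    positivity
  have hεc0 : 0 ≤ cut / min M0 M1 := div_nonneg hcut0 hmM.le
  have hεJ0 : 0 ≤ lab / min (Qc ((2 ^ ℓ) ^ N)) (Qc ((2 ^ ℓ) ^ (N + 1))) := div_nonneg hlab0 hmQ.le
  have hεc : cut / min M0 M1 ≤ κo.c := (div_le_iff₀ hmM).2 hcuts
  have hεJ : lab / min (Qc ((2 ^ ℓ) ^ N)) (Qc ((2 ^ ℓ) ^ (N + 1))) ≤ κo.c := (div_le_iff₀ hmQ).2 hlabs
  have hcut1 : cut ≤ 1 := by
    refine hcuts.trans ?_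
    have h1 : min M0 M1 ≤ 1 := (min_le_left _ _).trans hM0le
    calc κo.c * min M0 M1 ≤ 1 * 1 := mul_le_mul hκ1 h1 hmM.le zero_le_one
      _ = 1 := one_mul 1
  have hLr : (1 : ℝ) ≤ ((2 ^ ℓ : ℕ) : ℝ) := by exact_mod_cast Nat.one_le_two_pow
  -- the cutoff losses
  have hB0 : Cc * (P.Q0.n : ℝ) ^ 2 * Real.exp (-cc * (P.Q0.s : ℝ) ^ 2) ≤ cut := by
    refine le_trans ?_ hcutl
    rw [hPn0, hPs]
    refine oc_cut_le hCc hCe0 (Nat.cast_nonneg _) ?_ hce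
    rw [Nat.cast_pow]
    exact pow_le_pow_right₀ hLr (Nat.le_succ N)
  have hB1 : Cc * (P.Q1.n : ℝ) ^ 2 * Real.exp (-cc * (P.Q1.s : ℝ) ^ 2) ≤ cut := by
    refine le_trans ?_ hcutl
    rw [hPn1, hPs1]
    refine oc_cut_le hCc hCe0 (Nat.cast_nonneg _) ?_ hce
    rw [Nat.cast_pow]
  have hcM : cut = cut / min M0 M1 * min M0 M1 := (div_mul_cancel₀ _ hmM.ne').symm
  have hc0 : |P.Q0.Mhat xyCritical - centerMag xyCritical P.Q0.n| ≤ cut / min M0 M1 * centerMag xyCritical P.Q0.n := by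
    refine (hcut P.Q0 _ hb le_rfl (hB0.trans hcut1)).trans (hB0.trans ?_)
    rw [hPn0]
    calc cut = cut / min M0 M1 * min M0 M1 := hcM
      _ ≤ _ := mul_le_mul_of_nonneg_left (min_le_left _ _) hεc0
  have hc1 : |P.Q1.Mhat xyCritical - centerMag xyCritical P.Q1.n| ≤ cut / min M0 M1 * centerMag xyCritical P.Q1.n := by
    refine (hcut P.Q1 _ hb le_rfl (hB1.trans hcut1)).trans (hB1.trans ?_)
    rw [hPn1]
    calc cut = cut / min M0 M1 * min M0 M1 := hcM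
      _ ≤ _ := mul_le_mul_of_nonneg_left (min_le_right _ _) hεc0
  -- the label
  have h2a : 2 * a = 16 * Real.pi := by rw [ha]; unfold k0; ring
  have hJ : (P.Q0.D : ℝ) ^ 2 * vJ * Dex ≤ lab := by
    refine le_trans ?_ hlab
    rw [hPDr, mul_assoc]
    refine oc_lab_le i hCR hCe0 hs1 hθ0 hκC hSg ?_
    refine hvD.trans (le_of_eq ?_)
    push_cast; rfl
  have hlQ : lab = lab / min (Qc ((2 ^ ℓ) ^ N)) (Qc ((2 ^ ℓ) ^ (N + 1))) * min (Qc ((2 ^ ℓ) ^ N)) (Qc ((2 ^ ℓ) ^ (N + 1))) :=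
    (div_mul_cancel₀ _ hmQ.ne').symm
  have hJ0 : (P.Q0.D : ℝ) ^ 2 * vJ * Dex ≤ lab / min (Qc ((2 ^ ℓ) ^ N)) (Qc ((2 ^ ℓ) ^ (N + 1)))
      * (centerMag xyCritical P.Q0.n * Real.exp (Glue.unitEnergy P.Q0.n / (2 * a))) := by
    refine hJ.trans ?_
    rw [hPn0, h2a]
    calc lab = _ := hlQ
      _ ≤ _ := mul_le_mul_of_nonneg_left (min_le_left _ _) hεJ0
  have hJ1 : (P.Q0.D : ℝ) ^ 2 * vJ * Dex ≤ lab / min (Qc ((2 ^ ℓ) ^ N)) (Qc ((2 ^ ℓ) ^ (N + 1)))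
      * (centerMag xyCritical P.Q1.n * Real.exp (Glue.unitEnergy P.Q1.n / (2 * a))) := by
    refine hJ.trans ?_
    rw [hPn1, h2a]
    calc lab = _ := hlQ
      _ ≤ _ := mul_le_mul_of_nonneg_left (min_le_right _ _) hεJ0
  have key := hS P hPD (by
      have : (D1 : ℝ) ≤ (P.Q0.D : ℝ) := by rw [hPDr, hD]; exact hκD.trans hCD
      exact_mod_cast this) xyCritical (t i) z (C * cvl κo.θ ε u i) (r i) vJ Dex cex S (ht.trans hν') (hr0 i) (hru.trans hν') hvJ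
    (by
      rw [hPDr]
      exact ((mul_le_mul_of_nonneg_left hν'ν (sq_nonneg D)).trans hDν).trans hκc1)
    (cut / min M0 M1) (lab / min (Qc ((2 ^ ℓ) ^ N)) (Qc ((2 ^ ℓ) ^ (N + 1)))) (hεc.trans hκc1) (hεJ.trans hκc1)
    (by rw [hPn0]; exact hM0) (by rw [hPn1]; exact hM1) hc0 hc1 hJ0 hJ1
  rw [hPn0, hPn1, h2a, hPDr] at key
  exact key.trans (oc_fin_le hκCs hκC0 hDpos hν'0 hν'ν (hr0 i) hν2' hεc0 hεJ0)

/-- **THE TOP CONTRACT OF OBS = [F] Proposition 6.1 for the concrete system**, in the order of the protocol: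
P2 `(o, oT)`; P3 `δ ≤ δ0`; P4 `κ ≤ κ0`; P5 `c`, `c0`; P6 `h₀ ≥ h0min`, and `qA`; P7 `ℓ ≥ ℓ0`; P8 `A ≥ A0` (so `A / qA ≥ 1` can be had: `A0 ≥ qA`), `D0`;
TOWER on the squares (`SqHyp`, twice); P9 `κr`; P10 `κo`; P13 `E, kR`: `Ce, ce, k0`; P14 the side.
**LEAF `L-OBS-CHAIN`** (paper-free bookkeeping, ~300 l.): PLAN.
Constants: from `pair_stop o oT` and `consecutive_of_stop oT` take `δ0 := min`, `κ0 := min κ0A (κ0S / 2)`; `h0min, qA, H0, H1` from (A) (and `h0min > 0`: take `max h0min 1`); `ℓ0` from (A), `≥ 2`;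
`A0 := max A0A (qA * max A0S 1)`; `θ, C, cs` from (A); `Cs, c1, D1` from `consecutive_of_stop` at `(δ, 2κ, h0, H0, H1, ℓ, A / qA)`; `cB` from (B); `(Cc, cc)` from `cutoff_absolute xyCritical`.
`κo := ⟨max (max C (max Cs D1)) 1 * 3, min (min cs cB) (min c1 1) / .., θ⟩`;  `Ce := max (max E.CR (max Cc E.cmk)) 1`, `ce := cc`, `k0 := 1`.
Given `N, i`: `h := N + 2`; `P := ⟨⟨L^(N-j'), L^j' / s, s⟩, ⟨L^(N+1-j'), L^j' / s, s⟩⟩`, `j' = j0 + i` (`P.Q0.n = L^N`, `P.Q1.n = L^(N+1)`, `P.Q0.m = L^j'`);  `EntIn` by `EntSp.entIn_mk`;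
(B) gives `H`; (A) gives `Stop`; `Stop` is monotone in `ν` only through `consecutive_of_stop`, which is applied with `ν' := C cvl θ ε u i ≤ ν`, `ν2' := r i ≤ ν2`, and its bound is monotone in `(ν, ν2)`;
`εc := cut / min M`, `εJ := lab / min Q` (`Qc`; `o.a = k0 = 8π`: `2 * oT.a = 16 π`); `cutoff_absolute` needs `Cc n² e^{-cc s²} ≤ 1`: from `cut ≤ κo.c min M`, `M ≤ 1` (`Obs.centerMag_le_one`). -/
theorem obs_chain (o oT : ObsPar) (hoo : ObsPair o oT) :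
    ∃ δ0 > (0 : ℝ), ∀ δ ∈ Set.Ioc 0 δ0, ∃ κ0 > (0 : ℝ), ∀ κ ∈ Set.Ioc 0 κ0, ∀ (c : Geo) (c0 : ℕ), GeoFit c → 2 * (c.ρ + 4) ≤ c0 →
    ∃ (h0min : ℝ≥0) (qA : ℝ), 1 ≤ qA ∧ ∀ h0 ≥ h0min, ∃ ℓ0 : ℕ, ∀ ℓ ≥ ℓ0, ∃ A0 : ℝ, qA ≤ A0 ∧ ∀ A ≥ A0,
    ∀ (D0 : ℕ) (hD : 0 < D0) (D1R : ℕ), 2 ≤ D0 → SqHyp c δ κ o ℓ D1R → SqHyp c δ (2 * κ) oT ℓ D1R →
    ∀ κr : RawC, ∃ κo : ObsC, ∀ (E : EntQ) (kR : ℕ), E.c0E ≤ c0 → ∃ (Ce ce : ℝ) (k0 : ℕ), 0 < ce ∧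
    ∀ (X : Asm.Fixed), X.K = cfg8 c δ κ h0 A c0 ℓ D0 hD → X.o = o →
    ∀ (K : Asm.RawK) (κe : EntC), K.L = 2 ^ ℓ → κe.q0 = 2 ^ X.kq * 2 ^ kR → κe.P0 = (2 ^ kR) ^ 5 → Ce ≤ κe.C → κe.c ≤ ce →
    ∀ (ks j0 : ℕ) (ops : X.K.Ops (X.reg (2 ^ ks) ((2 ^ kR) ^ 5))) (rd : Asm.Rd X.K (X.reg (2 ^ ks) ((2 ^ kR) ^ 5))), k0 ≤ ks →
      ObsSide X oT qA E κr kR ks j0 ops → 0 ≤ E.ε → E.ε ≤ κo.c →
      RawCenterOK K κo κe E.ε (2 ^ ks) (X.sys (2 ^ ks) ((2 ^ kR) ^ 5) j0 ops rd) := by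
  obtain ⟨δ0A, hδ0A, HA⟩ := pair_stop o oT hoo
  obtain ⟨δ0S, hδ0S, HS⟩ := consecutive_of_stop oT
  obtain ⟨Cc, cc, hcc, Hcut⟩ := cutoff_absolute xyCritical
  refine ⟨min δ0A δ0S, lt_min hδ0A hδ0S, fun δ hδ => ?_⟩
  obtain ⟨κ0A, hκ0A, HA⟩ := HA δ ⟨hδ.1, hδ.2.trans (min_le_left _ _)⟩
  obtain ⟨κ0S, hκ0S, HS⟩ := HS δ ⟨hδ.1, hδ.2.trans (min_le_right _ _)⟩
  refine ⟨min κ0A (κ0S / 2), lt_min hκ0A (by positivity), fun κ hκ c c0 hc hc0 => ?_⟩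
  obtain ⟨h0A, qA, H0, H1, hqA, hH0, hH1, HA⟩ := HA κ ⟨hκ.1, hκ.2.trans (min_le_left _ _)⟩ c c0 hc hc0
  have HS := HS (2 * κ) ⟨by linarith [hκ.1], by have := hκ.2.trans (min_le_right _ _); linarith⟩
  refine ⟨max h0A 1, qA, hqA, fun h0 hh0 => ?_⟩
  obtain ⟨ℓ0A, HA⟩ := HA h0 ((le_max_left _ _).trans hh0)
  have hh0pos : (0 : ℝ≥0) < h0 := lt_of_lt_of_le one_pos ((le_max_right _ _).trans hh0)
  refine ⟨max ℓ0A 1, fun ℓ hℓ => ?_⟩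
  have hℓ1 : 1 ≤ ℓ := (le_max_right _ _).trans hℓ
  obtain ⟨A0A, HA⟩ := HA ℓ ((le_max_left _ _).trans hℓ)
  obtain ⟨A0S, HS⟩ := HS h0 hh0pos H0 H1 ℓ hH0 hH1
  have hqA0 : 0 < qA := by linarith
  refine ⟨max (max A0A (qA * A0S)) qA, le_max_right _ _, fun A hA D0 hD D1R hD2 hsq hsqT κr => ?_⟩
  obtain ⟨θ, C, cs, hθ0, hθ1, hC1, hcs, HA⟩ := HA A (((le_max_left _ _).trans (le_max_left _ _)).trans hA) D0 hD D1R hsq hsqT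
  obtain ⟨Cs, c1, D1, hc1, HS⟩ := HS (A / qA) (by
    rw [ge_iff_le, le_div_iff₀ hqA0, mul_comm]
    exact ((le_max_right _ _).trans (le_max_left _ _)).trans hA)
  obtain ⟨cB, hcB, HB⟩ := thist_of_sys κr
  have hfx : (⟨⟨δ, 2 * κ, h0, A / qA, 2 * Real.pi / Real.sqrt oT.a⟩, oT, H0, H1⟩ : Fix)
      = ⟨parT ⟨δ, κ, h0, A, ω8⟩ qA, oT, H0, H1⟩ := by
    unfold parT ω8
    rw [hoo.aT]
  rw [hfx] at HS
  refine ⟨⟨max (max C Cs) (max D1 1), min (min cs cB) (min c1 1), θ, (le_max_right _ _).trans (le_max_right _ _),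
    lt_min (lt_min hcs hcB) (lt_min hc1 one_pos), hθ0, hθ1⟩, fun E kR hEc0 => ?_⟩
  refine ⟨max (max E.CR Cc) (max E.cmk 1), cc, 1, hcc, ?_⟩
  intro X hXK hXo K κe hKL hq0 hP0 hCe hce ks j0 ops rd hks hsd hε0 hε
  obtain ⟨XK, XhA, Xo, XD, Xkq⟩ := X
  dsimp only at hXK hXo
  subst hXK
  subst hXo
  have hside : 2 ^ Xkq * 2 ^ kR * 2 ^ ks = (2 ^ ℓ) ^ j0 := hsd.side
  have hj0 : 1 ≤ j0 := by
    rcases Nat.eq_zero_or_pos j0 with h | h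
    · rw [h, pow_zero] at hside
      have h1 : 2 ^ 1 ≤ 2 ^ ks := Nat.pow_le_pow_right (by norm_num) hks
      have h2 : 0 < 2 ^ Xkq * 2 ^ kR := by positivity
      have h3 : 2 ^ ks ≤ 2 ^ Xkq * 2 ^ kR * 2 ^ ks := Nat.le_mul_of_pos_left _ h2
      omega
    · exact h
  have hcells : ∀ h, ∀ hd : 2 ^ ks ∣ ((cfg8 c δ κ h0 A c0 ℓ D0 hD).s.T h).M,
      (Asm.obsReg (cfg8 c δ κ h0 A c0 ℓ D0 hD).s Xo (2 ^ ks) ((2 ^ kR) ^ 5)).gs h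
        = torusGrid ((cfg8 c δ κ h0 A c0 ℓ D0 hD).s.T h) (2 ^ ks) hd := fun h hd => dif_pos hd
  have hEnt : EntSp.EntIn (cfg8 c δ κ h0 A c0 ℓ D0 hD) (Asm.obsReg (cfg8 c δ κ h0 A c0 ℓ D0 hD).s Xo (2 ^ ks) ((2 ^ kR) ^ 5))
      XD xyCritical k0 Xo (E.cR / ((2 : ℝ) ^ ks) ^ 2) E.ε (2 ^ ks) j0 E.c0E (E.cmk * (2 ^ ks * (2 ^ kR) ^ 5)) :=
    EntSp.entIn_mk _ _ XD xyCritical k0 Xo _ E.ε (2 ^ Xkq) (2 ^ kR) (2 ^ ks) j0 E.c0E _ XhA (le_of_eq hc.R.symm) hε0 hEc0 hℓ1 hD2 hside rfl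
      (fun h _ _ hd => hcells h hd) (fun h hj _ => hsd.obs h j0 le_rfl hj)
      (fun 𝒱 h𝒱 => ⟨hsd.ent.bulk 𝒱 h𝒱, fun 𝒱' h𝒱' => hsd.ent.copy 𝒱 𝒱' h𝒱 h𝒱'⟩)
  have hrr : 0 < E.cR / ((2 : ℝ) ^ ks) ^ 2 := div_pos hsd.ent.cR_pos (by positivity)
  unfold RawCenterOK
  rw [hKL, hP0]
  refine oc_step ⟨parT ⟨δ, κ, h0, A, ω8⟩ qA, oT, H0, H1⟩ oT.a hoo.aT ℓ (2 ^ Xkq * 2 ^ kR) ks j0 ((2 ^ kR) ^ 5) E.cmk D1 hside
    θ C (min cs cB) Cs c1 Cc cc E.CR E.ε _ _ _ hC1 hε0 (fun _ => norm_nonneg _) (fun _ => norm_nonneg _) HS Hcut ?_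
    _ κe.C κe.c rfl ((le_max_left _ _).trans (le_max_left _ _)) ((le_max_right _ _).trans (le_max_left _ _))
    ((le_max_left _ _).trans (le_max_right _ _)) (min_le_left _ _) ((min_le_right _ _).trans (min_le_left _ _))
    ((min_le_right _ _).trans (min_le_right _ _))
    (((le_max_left _ _).trans (le_max_left _ _)).trans hCe) (((le_max_right _ _).trans (le_max_left _ _)).trans hCe)
    (((le_max_left _ _).trans (le_max_right _ _)).trans hCe) (((le_max_right _ _).trans (le_max_right _ _)).trans hCe) hce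
  intro N i hN hu hsz P hPs hPm hPD hPC hP1 hP2 hPn
  have hmin : (Asm.obsReg (cfg8 c δ κ h0 A c0 ℓ D0 hD).s Xo (2 ^ ks) ((2 ^ kR) ^ 5)).hmin ≤ N + 2 := by
    refine Nat.sInf_le ?_
    show 2 ^ ks * (2 ^ kR) ^ 5 ≤ D0 * (2 ^ ℓ) ^ (N + 2)
    have h1 : (2 ^ ℓ) ^ N ≤ (2 ^ ℓ) ^ (N + 2) := Nat.pow_le_pow_right (by positivity) (by omega)
    exact (hsz.trans h1).trans (Nat.le_mul_of_pos_left _ hD)
  obtain ⟨H, hHok, hHt⟩ := HB _ _ XhA XD Xo _ E.ε (2 ^ ks) j0 E.c0E _ ops rd hrr hEnt hsd.map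
    (hε.trans ((min_le_left _ _).trans (min_le_right _ _))) (N + 2) i (by omega) hmin
    (fun k hk => (hu k hk).trans_le (min_le_right _ _))
  obtain ⟨vJ, Dex, cex, hvJ, hStop, hlab⟩ := HA XD E Xkq kR ks j0 hEc0 hsd.ent hside hj0 _
    ⟨hsd.tower, hsd.obs, fun h _ hd => hcells h hd⟩ (N + 2) i H _ _ hHok hε0
    (hε.trans ((min_le_left _ _).trans (min_le_left _ _))) (fun k hk => (hu k hk).trans_le (min_le_left _ _))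
    P hPs hPm hPD hPC hP1 hP2 (by
      rw [hPn]
      have h1 : 2 * 2 ^ 1 ≤ D0 * 2 ^ ℓ := Nat.mul_le_mul hD2 (Nat.pow_le_pow_right (by norm_num) hℓ1)
      calc 4 * (2 ^ ℓ) ^ (N + 1) = (2 * 2 ^ 1) * (2 ^ ℓ) ^ (N + 1) := by norm_num
        _ ≤ (D0 * 2 ^ ℓ) * (2 ^ ℓ) ^ (N + 1) := Nat.mul_le_mul_right _ h1
        _ = D0 * (2 ^ ℓ) ^ (N + 2) := by ring) (by
      rw [hPn]
      exact oc_dvd ℓ D0 N hℓ1)
  refine ⟨H.z (j0 + i), vJ, Dex, cex, hvJ, ?_, (hHok.bd i le_rfl).2.2.1, ?_, hlab⟩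
  · have := (hHok.bd i le_rfl).1
    rwa [hHt i le_rfl] at this
  · have := hStop
    rwa [hHt i le_rfl] at this

end

end Claimed.Agent.R285.Obs
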