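import Claimed.Agent.R285.Obs.PairDefs
import Claimed.Agent.R285.Geo.Main
import Claimed.Agent.R285.F4a.UnitB

/-!
# ROW 285, unit OBS, BP-OBS-L62, package PAIR-GEO: geometry of the zones of a centred free square      (architect helper79)   -- KEEP

PAPER-FREE (natural number arithmetic, finite sets).  ONE FILE = ONE PACKAGE; the leaves `L-PAIR-G*` share it: edit ONLY your theorems, pull before landing.  Helper lemmas: prefix `prg_`.
Notation: `L = 2^ℓ`; fine index `a`, coarse index `a / L` (`prg_up`); `P.g.n = L * P.g'.n`; the unit is the junction of the blocks `{n/2 - 1, n/2}²` at both levels.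

RESULT OF THE READING ([F] l.205-260, 330-420): with `L ≥ H1 + R n0 + 1` the label location `H_J` and the affected set `H_A` are both `1`: every small defect and every small labelled input sits over the FOUR CENTRAL coarse blocks.

## Leaves
`L-PAIR-G1` closed forms: `prg_n`, `prg_up`, `prg_half`, `prg_idist`, `prg_lev_std`, `prg_pair_cen`      (~200 l.)
`L-PAIR-G2` stability of the zones: `prg_wallFree_fine`, `prg_shiftGood_fine`, `prg_small_diam`, `prg_defect_central`, `prg_label_central`, `prg_near_cl`, `prg_central_wallFree`      (~300 l.)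
`L-PAIR-G3` gauges: `prg_Dm_fine`, `prg_hull_mono`, `prg_gauge_fine`, `prg_gaugeR_gauge`, `prg_gauge_unique`, `prg_gauge_exists`, `prg_dep_hull`      (~350 l.)
`L-PAIR-G4` counting: `prg_count_small`, `prg_count_all`, `prg_count_wall`, `prg_count_defect`, `prg_count_label`      (~300 l.)
`L-PAIR-G5` embeddings: `prg_emb_id`, `prg_emb_sq`, `prg_emb_tor`      (~400 l.)
-/

set_option autoImplicit false

namespace Claimed.Agent.R285.F6.Pr

open scoped BigOperators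
open Claimed.Agent.R285 Claimed.Agent.R285.RG Claimed.Agent.R285.F4a

noncomputable section

variable {G : Geom} {D0 ℓ : ℕ} {P : Pair G D0 ℓ}

/-! ## 1. Closed forms -/

theorem prg_n (h : Cen P) : P.g.n = 2 ^ ℓ * P.g'.n := by
  have h1 := h.fine.card
  have h2 := h.coarse.card
  rw [P.hS] at h2
  have h3 : P.g.n * P.g.m = (2 ^ ℓ * P.g'.n) * P.g.m := by
    rw [← h1, h2]; ring
  exact Nat.eq_of_mul_eq_mul_right h.fine.pos h3

theorem prg_up1 (h : Cen P) (a : Fin P.g.n) : ((P.N.up1 a : Fin P.g'.n) : ℕ) = (a : ℕ) / 2 ^ ℓ := by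
  have hm := h.fine.pos
  have hlt : (a : ℕ) * P.g.m < G.M := by
    rw [h.fine.card]
    exact Nat.mul_lt_mul_of_pos_right a.2 hm
  have e1 : P.g.blk1 ⟨(a : ℕ) * P.g.m, hlt⟩ = a := by
    apply Fin.ext
    rw [h.fine.blk]
    exact Nat.mul_div_cancel _ hm
  have e2 := P.N.comm ⟨(a : ℕ) * P.g.m, hlt⟩
  rw [e1] at e2
  rw [← e2, h.coarse.blk, P.hS]
  show (a : ℕ) * P.g.m / (2 ^ ℓ * P.g.m) = (a : ℕ) / 2 ^ ℓ
  exact Nat.mul_div_mul_right _ _ hm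

theorem prg_up (h : Cen P) (a : P.g.I) :
    ((P.N.up a).1 : ℕ) = (a.1 : ℕ) / 2 ^ ℓ ∧ ((P.N.up a).2 : ℕ) = (a.2 : ℕ) / 2 ^ ℓ :=
  ⟨prg_up1 h a.1, prg_up1 h a.2⟩

theorem prg_half (h : Cen P) : P.g.n / 2 = 2 ^ ℓ * (P.g'.n / 2) := by
  obtain ⟨c, hc⟩ := h.even
  rw [prg_n h, hc, Nat.mul_div_cancel_left _ (by norm_num : 0 < 2), show 2 ^ ℓ * (2 * c) = 2 * (2 ^ ℓ * c) by ring,
    Nat.mul_div_cancel_left _ (by norm_num : 0 < 2)]

theorem prg_idist (hG : G.bc = BC.free) (g : Grid G) (a b : g.I) :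
    g.idist a b = max ((a.1 : ℤ) - b.1).natAbs ((a.2 : ℤ) - b.2).natAbs := by
  unfold Grid.idist Grid.idist1
  simp only [hG]

/-- the levels of the tower are whole-block grids -/
theorem prg_lev_std (G : Geom) (ℓ j : ℕ) : Std (lev G ℓ j) where
  pos := side_pos G ℓ j
  card := (Nat.div_mul_cancel (side_dvd G ℓ j)).symm
  blk := fun _ => rfl

/-- the retained pairs of a free square of side `2 n`, `L^{j+1} ∣ n`, are centred -/
theorem prg_pair_cen {j : ℕ} (hG : G.bc = BC.free) (h : Ret G ℓ D0 j) (hn : 2 * (2 ^ ℓ) ^ (j + 1) ∣ G.M) : Cen (pair h) where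
  free := hG
  fine := prg_lev_std G ℓ j
  coarse := prg_lev_std G ℓ (j + 1)
  even := by
    show 2 ∣ G.M / side G ℓ (j + 1)
    rw [side_eq h.dvd]
    obtain ⟨c, hc⟩ := hn
    refine ⟨c, ?_⟩
    rw [hc, show 2 * (2 ^ ℓ) ^ (j + 1) * c = (2 ^ ℓ) ^ (j + 1) * (2 * c) by ring]
    exact Nat.mul_div_cancel_left _ (by positivity)

/-! ## 2. Stability of the zones under the step.  `hX`: the closure of `X` lies in the unit neighbourhood of `Y`. -/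

theorem prg_div_lo {L c x t : ℕ} (hL : 0 < L) (ht : t ≤ L) (h : L * c ≤ x + t) : c ≤ x / L + 1 := by
  have h1 : c ≤ (x + L) / L := by
    rw [Nat.le_div_iff_mul_le hL, Nat.mul_comm]
    omega
  rwa [Nat.add_div_right x hL] at h1

theorem prg_div_hi {L c x t : ℕ} (hL : 0 < L) (ht : t ≤ L) (h : x < L * c + t) : x / L < c + 1 := by
  rw [Nat.div_lt_iff_lt_mul hL]
  have : (c + 1) * L = L * c + L := by ring
  omega

theorem prg_idist_le (hG : G.bc = BC.free) (g : Grid G) {a b : g.I} {k : ℕ} (h : g.idist a b ≤ k) :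
    (a.1 : ℕ) ≤ (b.1 : ℕ) + k ∧ (b.1 : ℕ) ≤ (a.1 : ℕ) + k ∧ (a.2 : ℕ) ≤ (b.2 : ℕ) + k ∧ (b.2 : ℕ) ≤ (a.2 : ℕ) + k := by
  rw [prg_idist hG] at h
  have h1 := (le_max_left _ _).trans h
  have h2 := (le_max_right _ _).trans h
  omega

theorem prg_wallFree_fine (h : Cen P) (hℓ : 1 ≤ ℓ) (H : ℕ) (hH : 2 ≤ H) (Y : Finset P.g'.I) (hY : WallFree P.g' H Y) (X : Finset P.g.I)
    (hX : ∀ a ∈ X, ∃ b ∈ Y, P.g'.idist (P.N.up a) b ≤ 1) : WallFree P.g H X := by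
  have hL2 : 2 ≤ 2 ^ ℓ := by
    calc 2 = 2 ^ 1 := (pow_one 2).symm
      _ ≤ 2 ^ ℓ := Nat.pow_le_pow_right (by norm_num) hℓ
  have hL0 : 0 < 2 ^ ℓ := by omega
  obtain ⟨H', rfl⟩ : ∃ H', H = H' + 2 := ⟨H - 2, by omega⟩
  have key : ∀ x y' : ℕ, x / 2 ^ ℓ ≤ y' + 1 → y' ≤ x / 2 ^ ℓ + 1 → H' + 2 ≤ y' → y' + (H' + 2) < P.g'.n →
      H' + 2 ≤ x ∧ x + (H' + 2) < P.g.n := by
    intro x y' h1 h2 h3 h4
    have a1 : 2 ^ ℓ * (x / 2 ^ ℓ) ≤ x := Nat.mul_div_le _ _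
    have a2 : x < 2 ^ ℓ * (x / 2 ^ ℓ + 1) := Nat.lt_mul_div_succ _ hL0
    have a3 : 2 * (H' + 1) ≤ 2 ^ ℓ * (x / 2 ^ ℓ) := Nat.mul_le_mul hL2 (by omega)
    have a4 : 2 * (H' + 1) ≤ 2 ^ ℓ * (H' + 1) := Nat.mul_le_mul_right _ hL2
    have a5 : 2 ^ ℓ * ((x / 2 ^ ℓ + 1) + (H' + 1)) ≤ 2 ^ ℓ * P.g'.n := Nat.mul_le_mul_left _ (by omega)
    rw [Nat.mul_add] at a5
    rw [prg_n h]
    omega
  intro a ha
  obtain ⟨b, hb, hab⟩ := hX a ha
  obtain ⟨c1, c2, c3, c4⟩ := prg_idist_le h.free P.g' hab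
  rw [(prg_up h a).1] at c1 c2
  rw [(prg_up h a).2] at c3 c4
  obtain ⟨d1, d2, d3, d4⟩ := hY b hb
  obtain ⟨e1, e2⟩ := key a.1 b.1 c1 c2 d1 d2
  obtain ⟨e3, e4⟩ := key a.2 b.2 c3 c4 d3 d4
  exact ⟨e1, e2, e3, e4⟩

theorem prg_shiftGood_fine (h : Cen P) (H : ℕ) (hH : 2 ≤ H) (hL : H ≤ 2 ^ ℓ) (Y : Finset P.g'.I) (hY : ShiftGood P.g' H Y) (X : Finset P.g.I)
    (hX : ∀ a ∈ X, ∃ b ∈ Y, P.g'.idist (P.N.up a) b ≤ 1) : ShiftGood P.g H X := by
  have hL0 : 0 < 2 ^ ℓ := by positivity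
  have key1 : ∀ x y' : ℕ, y' ≤ x / 2 ^ ℓ + 1 → x ≤ 2 ^ ℓ * (P.g'.n / 2) + H → y' ≤ P.g'.n / 2 + H := by
    intro x y' h1 h2
    have : x / 2 ^ ℓ ≤ P.g'.n / 2 + 1 := Nat.div_le_of_le_mul (by rw [Nat.mul_add, Nat.mul_one]; omega)
    omega
  have key2 : ∀ x y' : ℕ, x / 2 ^ ℓ ≤ y' + 1 → 2 ^ ℓ * (P.g'.n / 2) ≤ x + H → P.g'.n / 2 ≤ y' + H := by
    intro x y' h1 h2
    have := prg_div_lo hL0 hL h2
    omega
  intro hin
  apply hY
  obtain ⟨⟨a1, h1, e1⟩, ⟨a2, h2, e2⟩, ⟨a3, h3, e3⟩, ⟨a4, h4, e4⟩⟩ := hin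
  simp only [prg_half h] at e1 e2 e3 e4
  refine ⟨?_, ?_, ?_, ?_⟩
  · obtain ⟨b, hb, hab⟩ := hX a1 h1
    obtain ⟨c1, c2, c3, c4⟩ := prg_idist_le h.free P.g' hab
    rw [(prg_up h a1).1] at c1 c2
    exact ⟨b, hb, key1 _ _ c2 e1⟩
  · obtain ⟨b, hb, hab⟩ := hX a2 h2
    obtain ⟨c1, c2, c3, c4⟩ := prg_idist_le h.free P.g' hab
    rw [(prg_up h a2).1] at c1 c2
    exact ⟨b, hb, key2 _ _ c1 e2⟩
  · obtain ⟨b, hb, hab⟩ := hX a3 h3
    obtain ⟨c1, c2, c3, c4⟩ := prg_idist_le h.free P.g' hab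
    rw [(prg_up h a3).2] at c3 c4
    exact ⟨b, hb, key1 _ _ c4 e3⟩
  · obtain ⟨b, hb, hab⟩ := hX a4 h4
    obtain ⟨c1, c2, c3, c4⟩ := prg_idist_le h.free P.g' hab
    rw [(prg_up h a4).2] at c3 c4
    exact ⟨b, hb, key2 _ _ c3 e4⟩

/-- a chain from `f ≤ t` to `t < f` crosses the level `t` -/
theorem prg_cross {I : Type} (E : I → I → Prop) (f : I → ℕ) (t : ℕ) {a b : I} (h : Relation.ReflTransGen E a b)
    (ha : f a ≤ t) (hb : t < f b) : ∃ u v, E u v ∧ f u ≤ t ∧ t < f v := by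
  induction h with
  | refl => omega
  | @tail y z _ hyz ih =>
    by_cases hy : f y ≤ t
    · exact ⟨y, z, hyz, hy, hb⟩
    · exact ih (by omega)

/-- the extent of a chain-connected finite set along a function that moves by `≤ R` on every step -/
theorem prg_span {I : Type} (X : Finset I) (f : I → ℕ) (R : ℕ) (E : I → I → Prop)
    (hE : ∀ u v, E u v → v ∈ X ∧ f v ≤ f u + R) (hc : ∀ a ∈ X, ∀ b ∈ X, Relation.ReflTransGen E a b) (b : I) (hb : b ∈ X) :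
    ∀ (n : ℕ) (a : I), a ∈ X → (X.filter fun x => f a < f x ∧ f x ≤ f b).card ≤ n → f b ≤ f a + R * n := by
  intro n
  induction n with
  | zero =>
    intro a _ hn
    by_contra hlt
    have : b ∈ X.filter fun x => f a < f x ∧ f x ≤ f b := Finset.mem_filter.2 ⟨hb, by omega, le_rfl⟩
    have := Finset.card_pos.2 ⟨b, this⟩
    omega
  | succ n ih =>
    intro a ha hn
    by_cases hlt : f b ≤ f a
    · exact hlt.trans (Nat.le_add_right _ _)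
    obtain ⟨u, v, huv, hu, hv⟩ := prg_cross E f (f a) (hc a ha b hb) le_rfl (by omega)
    obtain ⟨hvX, hvR⟩ := hE u v huv
    have e : R * (n + 1) = R * n + R := by ring
    by_cases hvb : f v ≤ f b
    · have hss : (X.filter fun x => f v < f x ∧ f x ≤ f b) ⊂ (X.filter fun x => f a < f x ∧ f x ≤ f b) := by
        refine Finset.ssubset_iff_subset_ne.2 ⟨?_, fun heq => ?_⟩
        · intro x hx
          obtain ⟨h1, h2, h3⟩ := Finset.mem_filter.1 hx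
          exact Finset.mem_filter.2 ⟨h1, by omega, h3⟩
        · have : v ∈ X.filter fun x => f v < f x ∧ f x ≤ f b := by
            rw [heq]
            exact Finset.mem_filter.2 ⟨hvX, hv, hvb⟩
          have := (Finset.mem_filter.1 this).2.1
          omega
      have := Finset.card_lt_card hss
      have := ih v hvX (by omega)
      omega
    · omega

theorem prg_conn_dist (g : Grid G) (R : ℕ) (X : Finset g.I) (hc : g.Conn R X) {a b : g.I} (ha : a ∈ X) (hb : b ∈ X) :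
    g.idist a b ≤ R * X.card := by
  have := prg_span X (fun x => g.idist a x) R _ (fun u v huv => ⟨huv.2.1, (Geo.geo_idist_triangle g a u v).trans
    (Nat.add_le_add_left huv.2.2 _)⟩) hc.2 b hb X.card a ha (Finset.card_filter_le _ _)
  simpa [Geo.geo_idist_self] using this

theorem prg_small_diam (g : Grid G) (R n0 : ℕ) (X : Finset g.I) (hc : g.Conn R X) (hn : X.card ≤ n0) : g.idiam X ≤ R * n0 := by
  unfold Grid.idiam
  refine Finset.sup_le fun a ha => Finset.sup_le fun b hb => ?_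
  exact (prg_conn_dist g R X hc ha hb).trans (Nat.mul_le_mul_left _ hn)

/-- a small defect sits over the four central coarse blocks -/
theorem prg_defect_central (h : Cen P) (R n0 H : ℕ) (hL : H + R * n0 + 1 ≤ 2 ^ ℓ) (X : Finset P.g.I) (hc : P.g.Conn R X) (hn : X.card ≤ n0)
    (hd : ¬ ShiftGood P.g H X) : ∀ B ∈ X, NearB P.g' 1 (P.N.up B) := by
  have hL0 : 0 < 2 ^ ℓ := by positivity
  unfold ShiftGood at hd
  rw [not_not] at hd
  obtain ⟨⟨a1, h1, e1⟩, ⟨a2, h2, e2⟩, ⟨a3, h3, e3⟩, ⟨a4, h4, e4⟩⟩ := hd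
  simp only [prg_half h] at e1 e2 e3 e4
  intro B hB
  have hk : R * X.card ≤ R * n0 := Nat.mul_le_mul_left _ hn
  have d1 := prg_idist_le h.free P.g ((prg_conn_dist P.g R X hc hB h1).trans hk)
  have d2 := prg_idist_le h.free P.g ((prg_conn_dist P.g R X hc hB h2).trans hk)
  have d3 := prg_idist_le h.free P.g ((prg_conn_dist P.g R X hc hB h3).trans hk)
  have d4 := prg_idist_le h.free P.g ((prg_conn_dist P.g R X hc hB h4).trans hk)
  unfold NearB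
  rw [(prg_up h B).1, (prg_up h B).2]
  exact ⟨prg_div_lo hL0 (t := H + R * n0) (by omega) (by omega), prg_div_hi hL0 (t := H + R * n0 + 1) hL (by omega),
    prg_div_lo hL0 (t := H + R * n0) (by omega) (by omega), prg_div_hi hL0 (t := H + R * n0 + 1) hL (by omega)⟩

/-- a small input with a central block sits over the four central coarse blocks -/
theorem prg_label_central (h : Cen P) (R n0 : ℕ) (hL : R * n0 + 1 ≤ 2 ^ ℓ) (X : Finset P.g.I) (hc : P.g.Conn R X) (hn : X.card ≤ n0)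
    (hd : NearUnit P.g 1 X) : ∀ B ∈ X, NearB P.g' 1 (P.N.up B) := by
  have hL0 : 0 < 2 ^ ℓ := by positivity
  obtain ⟨b, hb, e1, e2, e3, e4⟩ := hd
  rw [prg_half h] at e1 e2 e3 e4
  intro B hB
  have hk : R * X.card ≤ R * n0 := Nat.mul_le_mul_left _ hn
  have d1 := prg_idist_le h.free P.g ((prg_conn_dist P.g R X hc hB hb).trans hk)
  unfold NearB
  rw [(prg_up h B).1, (prg_up h B).2]
  exact ⟨prg_div_lo hL0 (t := R * n0 + 1) hL (by omega), prg_div_hi hL0 (t := R * n0 + 1) hL (by omega),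
    prg_div_lo hL0 (t := R * n0 + 1) hL (by omega), prg_div_hi hL0 (t := R * n0 + 1) hL (by omega)⟩

theorem prg_near_cl (h : Cen P) (X : Finset P.g.I) (hd : NearUnit P.g 1 X) : NearUnit P.g' 1 (P.N.cl X) := by
  classical
  have hL0 : 0 < 2 ^ ℓ := by positivity
  have hL1 : 1 ≤ 2 ^ ℓ := hL0
  obtain ⟨b, hb, e1, e2, e3, e4⟩ := hd
  rw [prg_half h] at e1 e2 e3 e4
  refine ⟨P.N.up b, Finset.mem_image_of_mem _ hb, ?_⟩
  unfold NearB
  rw [(prg_up h b).1, (prg_up h b).2]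
  exact ⟨prg_div_lo hL0 hL1 e1, prg_div_hi hL0 hL1 e2, prg_div_lo hL0 hL1 e3, prg_div_hi hL0 hL1 e4⟩

/-- the blocks at index distance `≤ k` from a central block are wall-free -/
theorem prg_central_wallFree (hG : G.bc = BC.free) (g : Grid G) (H k : ℕ) (hD : H + k + 1 ≤ g.n / 2) (b b' : g.I) (hb : NearB g 1 b)
    (hbb : g.idist b b' ≤ k) : WallFree g H {b'} := by
  intro c hc
  rw [Finset.mem_singleton] at hc
  subst hc
  obtain ⟨e1, e2, e3, e4⟩ := hb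
  obtain ⟨d1, d2, d3, d4⟩ := prg_idist_le hG g hbb
  omega

/-! ## 3. Gauges -/


theorem prg_mem_hull {D : Finset G.V} {v : G.V} : v ∈ hullS D ↔
    (∃ a ∈ D, a.1 ≤ v.1) ∧ (∃ a ∈ D, v.1 ≤ a.1) ∧ (∃ a ∈ D, a.2 ≤ v.2) ∧ (∃ a ∈ D, v.2 ≤ a.2) := by
  unfold hullS
  simp only [Finset.mem_filter, Finset.mem_univ, true_and]

theorem prg_mem_Dm (g : Grid G) (X : Finset g.I) (v : G.V) : v ∈ g.Dm X ↔ ∃ a ∈ X, g.idist a (g.blk v) ≤ 2 := by
  unfold Grid.Dm Grid.sites Grid.collar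
  simp only [Finset.mem_filter, Finset.mem_univ, true_and]

theorem prg_div_near {m x y : ℕ} (hm : 0 < m) (h : ((x : ℤ) - y).natAbs ≤ m) :
    (((x / m : ℕ) : ℤ) - (y / m : ℕ)).natAbs ≤ 1 := by
  have h1 : x / m ≤ y / m + 1 := by
    calc x / m ≤ (y + m) / m := Nat.div_le_div_right (by omega)
      _ = y / m + 1 := Nat.add_div_right _ hm
  have h2 : y / m ≤ x / m + 1 := by
    calc y / m ≤ (x + m) / m := Nat.div_le_div_right (by omega)
      _ = x / m + 1 := Nat.add_div_right _ hm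
  omega

theorem prg_Dm_fine (h : Cen P) (hℓ : 1 ≤ ℓ) (Y : Finset P.g'.I) (X : Finset P.g.I) (hX : ∀ a ∈ X, ∃ b ∈ Y, P.g'.idist (P.N.up a) b ≤ 1) :
    P.g.Dm X ⊆ P.g'.Dm Y := by

  intro v hv
  rw [prg_mem_Dm] at hv ⊢
  obtain ⟨a, ha, hd⟩ := hv
  obtain ⟨b, hb, hbd⟩ := hX a ha
  refine ⟨b, hb, ?_⟩
  have hblk : P.g'.blk v = P.N.up (P.g.blk v) := by
    unfold Grid.blk Nest.up
    rw [P.N.comm, P.N.comm]
  have hL : 2 ≤ 2 ^ ℓ := by
    calc 2 = 2 ^ 1 := by norm_num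
      _ ≤ 2 ^ ℓ := Nat.pow_le_pow_right (by norm_num) hℓ
  have h1 : P.g'.idist (P.N.up a) (P.N.up (P.g.blk v)) ≤ 1 := by
    rw [prg_idist h.free] at hd ⊢
    obtain ⟨u1, u2⟩ := prg_up h a
    obtain ⟨w1, w2⟩ := prg_up h (P.g.blk v)
    rw [u1, u2, w1, w2]
    exact max_le (prg_div_near (by omega) (le_trans (le_trans (le_max_left _ _) hd) hL))
      (prg_div_near (by omega) (le_trans (le_trans (le_max_right _ _) hd) hL))
  rw [hblk]
  calc P.g'.idist b (P.N.up (P.g.blk v))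
      ≤ P.g'.idist b (P.N.up a) + P.g'.idist (P.N.up a) (P.N.up (P.g.blk v)) := Geo.geo_idist_triangle _ _ _ _
    _ ≤ 1 + 1 := add_le_add (by rw [Geo.geo_idist_comm]; exact hbd) h1

theorem prg_hull_mono {D D' : Finset G.V} (h : D ⊆ D') : hullS D ⊆ hullS D' := by

  intro v hv
  rw [prg_mem_hull] at hv ⊢
  obtain ⟨⟨a1, h1, k1⟩, ⟨a2, h2, k2⟩, ⟨a3, h3, k3⟩, ⟨a4, h4, k4⟩⟩ := hv
  exact ⟨⟨a1, h h1, k1⟩, ⟨a2, h h2, k2⟩, ⟨a3, h h3, k3⟩, ⟨a4, h h4, k4⟩⟩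

theorem prg_gauge_fine (h : Cen P) (hℓ : 1 ≤ ℓ) (Y : Finset P.g'.I) (κ : G.V → ℤ) (hκ : IsGauge P.g' Y κ) (X : Finset P.g.I)
    (hX : ∀ a ∈ X, ∃ b ∈ Y, P.g'.idist (P.N.up a) b ≤ 1) : IsGauge P.g X κ := by

  intro e he h1 h2
  have hs := prg_hull_mono (prg_Dm_fine h hℓ Y X hX)
  exact hκ e he (hs h1) (hs h2)


theorem prg_hull_inRect (hG : G.bc = BC.free) (g : Grid G) (hg : Std g) (H : ℕ) (hH : 2 ≤ H) (X : Finset g.I) (v : G.V)
    (hv : v ∈ hullS (g.Dm X)) : InRect g H X (((g.blk v).1 : ℕ), ((g.blk v).2 : ℕ)) := by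
  have hmono : ∀ i j : Fin G.M, i ≤ j → ((g.blk1 i : Fin g.n) : ℕ) ≤ ((g.blk1 j : Fin g.n) : ℕ) := by
    intro i j hij
    rw [hg.blk, hg.blk]
    exact Nat.div_le_div_right hij
  have hc : ∀ a ∈ g.Dm X, ∃ c ∈ X, ((c.1 : ℤ) - (g.blk1 a.1 : Fin g.n)).natAbs ≤ 2 ∧
      ((c.2 : ℤ) - (g.blk1 a.2 : Fin g.n)).natAbs ≤ 2 := by
    intro a ha
    obtain ⟨c, hc, hd⟩ := (prg_mem_Dm g X a).1 ha
    rw [prg_idist hG] at hd
    exact ⟨c, hc, le_trans (le_max_left _ _) hd, le_trans (le_max_right _ _) hd⟩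
  rw [prg_mem_hull] at hv
  obtain ⟨⟨a1, h1, k1⟩, ⟨a2, h2, k2⟩, ⟨a3, h3, k3⟩, ⟨a4, h4, k4⟩⟩ := hv
  obtain ⟨c1, hc1, d1, -⟩ := hc a1 h1
  obtain ⟨c2, hc2, d2, -⟩ := hc a2 h2
  obtain ⟨c3, hc3, -, d3⟩ := hc a3 h3
  obtain ⟨c4, hc4, -, d4⟩ := hc a4 h4
  have m1 := hmono _ _ k1
  have m2 := hmono _ _ k2
  have m3 := hmono _ _ k3
  have m4 := hmono _ _ k4
  refine ⟨⟨c1, hc1, ?_⟩, ⟨c2, hc2, ?_⟩, ⟨c3, hc3, ?_⟩, ⟨c4, hc4, ?_⟩⟩
  · show (c1.1 : ℕ) ≤ ((g.blk1 v.1 : Fin g.n) : ℕ) + H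
    omega
  · show ((g.blk1 v.1 : Fin g.n) : ℕ) ≤ (c2.1 : ℕ) + H
    omega
  · show (c3.2 : ℕ) ≤ ((g.blk1 v.2 : Fin g.n) : ℕ) + H
    omega
  · show ((g.blk1 v.2 : Fin g.n) : ℕ) ≤ (c4.2 : ℕ) + H
    omega

theorem prg_gaugeR_gauge (hG : G.bc = BC.free) (g : Grid G) (hg : Std g) (H : ℕ) (hH : 2 ≤ H) (X : Finset g.I) (κ : G.V → ℤ)
    (hκ : IsGaugeR g H X κ) : IsGauge g X κ := by

  intro e he h1 h2
  exact hκ e he (prg_hull_inRect hG g hg H hH X _ h1) (prg_hull_inRect hG g hg H hH X _ h2)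


theorem prg_hull_between {D : Finset G.V} {v u z : G.V} (hv : v ∈ hullS D) (hu : u ∈ hullS D)
    (h1 : v.1 ≤ z.1 ∨ u.1 ≤ z.1) (h2 : z.1 ≤ v.1 ∨ z.1 ≤ u.1) (h3 : v.2 ≤ z.2 ∨ u.2 ≤ z.2) (h4 : z.2 ≤ v.2 ∨ z.2 ≤ u.2) :
    z ∈ hullS D := by
  rw [prg_mem_hull] at hv hu ⊢
  obtain ⟨⟨a1, p1, k1⟩, ⟨a2, p2, k2⟩, ⟨a3, p3, k3⟩, ⟨a4, p4, k4⟩⟩ := hv
  obtain ⟨⟨b1, q1, l1⟩, ⟨b2, q2, l2⟩, ⟨b3, q3, l3⟩, ⟨b4, q4, l4⟩⟩ := hu
  refine ⟨?_, ?_, ?_, ?_⟩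
  · rcases h1 with h | h
    · exact ⟨a1, p1, le_trans k1 h⟩
    · exact ⟨b1, q1, le_trans l1 h⟩
  · rcases h2 with h | h
    · exact ⟨a2, p2, le_trans h k2⟩
    · exact ⟨b2, q2, le_trans h l2⟩
  · rcases h3 with h | h
    · exact ⟨a3, p3, le_trans k3 h⟩
    · exact ⟨b3, q3, le_trans l3 h⟩
  · rcases h4 with h | h
    · exact ⟨a4, p4, le_trans h k4⟩
    · exact ⟨b4, q4, le_trans h l4⟩

theorem prg_const_row (hG : G.bc = BC.free) {D : Finset G.V} (δ : G.V → ℤ)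
    (hδ : ∀ e : G.V × Bool, stp e.1 e.2 ≠ e.1 → e.1 ∈ hullS D → stp e.1 e.2 ∈ hullS D → δ (stp e.1 e.2) = δ e.1) :
    ∀ (n : ℕ) (v u : G.V), v ∈ hullS D → u ∈ hullS D → v.2 = u.2 → (u.1 : ℕ) = (v.1 : ℕ) + n → δ v = δ u := by
  intro n
  induction n with
  | zero =>
    intro v u _ _ h2 h1
    have : v = u := Prod.ext (Fin.ext (by omega)) h2
    rw [this]
  | succ n ih =>
    intro v u hv hu h2 h1
    obtain ⟨s1, -, -, -⟩ := stp_free hG v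
    have hlt : (v.1 : ℕ) + 1 < G.M := by
      have := u.1.2
      omega
    obtain ⟨e1, e2⟩ := s1 hlt
    have hne : stp v true ≠ v := by
      intro h
      rw [h] at e1
      omega
    have hmem : stp v true ∈ hullS D :=
      prg_hull_between hv hu (Or.inl (by rw [Fin.le_def]; omega)) (Or.inr (by rw [Fin.le_def]; omega))
        (Or.inl (by rw [e2])) (Or.inl (by rw [e2]))
    have hstep : δ (stp v true) = δ v := hδ (v, true) hne hv hmem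
    rw [← hstep]
    exact ih (stp v true) u hmem hu (by rw [e2]; exact h2) (by omega)

theorem prg_const_col (hG : G.bc = BC.free) {D : Finset G.V} (δ : G.V → ℤ)
    (hδ : ∀ e : G.V × Bool, stp e.1 e.2 ≠ e.1 → e.1 ∈ hullS D → stp e.1 e.2 ∈ hullS D → δ (stp e.1 e.2) = δ e.1) :
    ∀ (n : ℕ) (v u : G.V), v ∈ hullS D → u ∈ hullS D → v.1 = u.1 → (u.2 : ℕ) = (v.2 : ℕ) + n → δ v = δ u := by
  intro n
  induction n with
  | zero =>
    intro v u _ _ h2 h1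
    have : v = u := Prod.ext h2 (Fin.ext (by omega))
    rw [this]
  | succ n ih =>
    intro v u hv hu h2 h1
    obtain ⟨-, -, s1, -⟩ := stp_free hG v
    have hlt : (v.2 : ℕ) + 1 < G.M := by
      have := u.2.2
      omega
    obtain ⟨e1, e2⟩ := s1 hlt
    have hne : stp v false ≠ v := by
      intro h
      rw [h] at e1
      omega
    have hmem : stp v false ∈ hullS D :=
      prg_hull_between hv hu (Or.inl (by rw [e2])) (Or.inl (by rw [e2]))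
        (Or.inl (by rw [Fin.le_def]; omega)) (Or.inr (by rw [Fin.le_def]; omega))
    have hstep : δ (stp v false) = δ v := hδ (v, false) hne hv hmem
    rw [← hstep]
    exact ih (stp v false) u hmem hu (by rw [e2]; exact h2) (by omega)

/-- two gauges on a rectangle differ by an integer constant -/
theorem prg_gauge_unique (hG : G.bc = BC.free) (g : Grid G) (X : Finset g.I) (κ κ' : G.V → ℤ) (h : IsGauge g X κ) (h' : IsGauge g X κ') :
    ∃ c : ℤ, ∀ v ∈ hullS (g.Dm X), κ v = κ' v + c := by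

  by_cases hne : (hullS (g.Dm X)).Nonempty
  · obtain ⟨w, hw⟩ := hne
    refine ⟨κ w - κ' w, fun v hv => ?_⟩
    obtain ⟨δ, hδd⟩ : ∃ δ : G.V → ℤ, ∀ x, δ x = κ x - κ' x := ⟨_, fun _ => rfl⟩
    have hδ : ∀ e : G.V × Bool, stp e.1 e.2 ≠ e.1 → e.1 ∈ hullS (g.Dm X) → stp e.1 e.2 ∈ hullS (g.Dm X) →
        δ (stp e.1 e.2) = δ e.1 := by
      intro e he h1 h2
      have a := h e he h1 h2
      have b := h' e he h1 h2
      rw [hδd, hδd]
      omega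
    have hz : (v.1, w.2) ∈ hullS (g.Dm X) :=
      prg_hull_between hv hw (Or.inl le_rfl) (Or.inl le_rfl) (Or.inr le_rfl) (Or.inr le_rfl)
    have c1 : δ v = δ (v.1, w.2) := by
      rcases le_total (v.2 : ℕ) (w.2 : ℕ) with hle | hle
      · exact prg_const_col hG δ hδ ((w.2 : ℕ) - (v.2 : ℕ)) v (v.1, w.2) hv hz rfl (by simp only; omega)
      · exact (prg_const_col hG δ hδ ((v.2 : ℕ) - (w.2 : ℕ)) (v.1, w.2) v hz hv rfl (by simp only; omega)).symm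
    have c2 : δ (v.1, w.2) = δ w := by
      rcases le_total (v.1 : ℕ) (w.1 : ℕ) with hle | hle
      · exact prg_const_row hG δ hδ ((w.1 : ℕ) - (v.1 : ℕ)) (v.1, w.2) w hz hw rfl (by simp only; omega)
      · exact (prg_const_row hG δ hδ ((v.1 : ℕ) - (w.1 : ℕ)) w (v.1, w.2) hw hz rfl (by simp only; omega)).symm
    have c3 := c1.trans c2
    rw [hδd, hδd] at c3
    omega
  · exact ⟨0, fun v hv => absurd ⟨v, hv⟩ hne⟩

/-- from `F4a.unit_lift` -/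
theorem prg_gauge_exists (hG : G.bc = BC.free) (g : Grid G) (hg : Std g) (he : 2 ∣ g.n) (H : ℕ) (X : Finset g.I) (hX : ShiftGood g H X) :
    ∃ κ, IsGaugeR g H X κ := by

  have hm := hg.pos
  obtain ⟨c, hc⟩ := he
  have hc2 : g.n / 2 = c := by omega
  obtain ⟨N, hN⟩ : ∃ N, N = c * g.m := ⟨_, rfl⟩
  have hM : G.M = 2 * N := by rw [hg.card, hc, hN]; ring
  have hn : G.M / 2 = N := by omega
  have hNpos : 0 < N := by
    have := G.hM
    omega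
  have hlt : ∀ i : Fin G.M, ((g.blk1 i : Fin g.n) : ℕ) < c → (i : ℕ) < N := by
    intro i h
    rw [hg.blk] at h
    rw [hN]
    exact (Nat.div_lt_iff_lt_mul hm).1 h
  have hgt : ∀ i : Fin G.M, c < ((g.blk1 i : Fin g.n) : ℕ) → N ≤ (i : ℕ) := by
    intro i h
    rw [hg.blk] at h
    rw [hN]
    exact (Nat.le_div_iff_mul_le hm).1 h.le
  have key : ∃ x0 x1 y0 y1 : ℕ, ¬ (x0 + 1 ≤ N ∧ N ≤ x1 ∧ y0 + 1 ≤ N ∧ N ≤ y1) ∧
      ∀ v : G.V, InRect g H X (((g.blk v).1 : ℕ), ((g.blk v).2 : ℕ)) →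
        x0 ≤ (v.1 : ℕ) ∧ (v.1 : ℕ) ≤ x1 ∧ y0 ≤ (v.2 : ℕ) ∧ (v.2 : ℕ) ≤ y1 := by
    by_cases hA : ∃ a ∈ X, (a.1 : ℕ) ≤ c + H
    · by_cases hB : ∃ a ∈ X, c ≤ (a.1 : ℕ) + H
      · by_cases hC : ∃ a ∈ X, (a.2 : ℕ) ≤ c + H
        · by_cases hD : ∃ a ∈ X, c ≤ (a.2 : ℕ) + H
          · exfalso
            apply hX
            unfold InRect
            rw [hc2]
            exact ⟨hA, hB, hC, hD⟩
          · refine ⟨0, G.M, 0, N - 1, by omega, ?_⟩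
            rintro v ⟨-, -, -, ⟨a, ha, k⟩⟩
            have k' : ((g.blk1 v.2 : Fin g.n) : ℕ) ≤ (a.2 : ℕ) + H := k
            have h1 : ¬ c ≤ (a.2 : ℕ) + H := fun h => hD ⟨a, ha, h⟩
            have h2 := hlt v.2 (by omega)
            have := v.1.2
            omega
        · refine ⟨0, G.M, N, G.M, by omega, ?_⟩
          rintro v ⟨-, -, ⟨a, ha, k⟩, -⟩
          have k' : (a.2 : ℕ) ≤ ((g.blk1 v.2 : Fin g.n) : ℕ) + H := k
          have h1 : ¬ (a.2 : ℕ) ≤ c + H := fun h => hC ⟨a, ha, h⟩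
          have h2 := hgt v.2 (by omega)
          have := v.1.2
          have := v.2.2
          omega
      · refine ⟨0, N - 1, 0, G.M, by omega, ?_⟩
        rintro v ⟨-, ⟨a, ha, k⟩, -, -⟩
        have k' : ((g.blk1 v.1 : Fin g.n) : ℕ) ≤ (a.1 : ℕ) + H := k
        have h1 : ¬ c ≤ (a.1 : ℕ) + H := fun h => hB ⟨a, ha, h⟩
        have h2 := hlt v.1 (by omega)
        have := v.2.2
        omega
    · refine ⟨N, G.M, 0, G.M, by omega, ?_⟩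
      rintro v ⟨⟨a, ha, k⟩, -, -, -⟩
      have k' : (a.1 : ℕ) ≤ ((g.blk1 v.1 : Fin g.n) : ℕ) + H := k
      have h1 : ¬ (a.1 : ℕ) ≤ c + H := fun h => hA ⟨a, ha, h⟩
      have h2 := hgt v.1 (by omega)
      have := v.1.2
      have := v.2.2
      omega
  obtain ⟨x0, x1, y0, y1, hfree, hrect⟩ := key
  obtain ⟨k, hk⟩ := unit_lift N hG hM x0 x1 y0 y1 hfree
  refine ⟨k, ?_⟩
  intro e he h1 h2
  rw [hn]
  have r1 := hrect _ h1
  have r2 := hrect _ h2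
  exact (hk e he ⟨r1.1, r2.2.1, r1.2.2.1, r2.2.2.2⟩).symm


theorem prg_fold_near (hG : G.bc = BC.free) (i : Fin G.M) (x : ℤ) (m : ℕ) (hm : m ≤ G.M) (h : (x - ((i : ℕ) : ℤ)).natAbs ≤ m) :
    (((G.fold x : ℕ) : ℤ) - ((i : ℕ) : ℤ)).natAbs ≤ m := by
  have hv := fold_free_val hG x
  have hi := i.2
  rcases lt_or_ge x 0 with hx | hx
  · have e : x % (2 * (G.M : ℤ)) = x + 2 * G.M := by
      have e1 : (x + 2 * (G.M : ℤ)) % (2 * (G.M : ℤ)) = x + 2 * G.M := Int.emod_eq_of_lt (by omega) (by omega)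
      rw [← e1, Int.add_emod_right]
    rw [e, if_neg (by omega)] at hv
    omega
  · have e : x % (2 * (G.M : ℤ)) = x := Int.emod_eq_of_lt hx (by omega)
    rw [e] at hv
    split_ifs at hv <;> omega

/-- the dependence set of a function at `B ∈ X` lies in the rectangle spanned by `D_m (X)` -/
theorem prg_dep_hull (hG : G.bc = BC.free) (g : Grid G) (hg : Std g) (col : ℕ) (hcol : col ≤ g.m) (X : Finset g.I) :
    dep g col X ⊆ (hullS (g.Dm X) : Set G.V) := by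

  intro v hv
  obtain ⟨w, hw, hd⟩ := hv
  have hne : {n : ℕ | ∃ x : ℤ × ℤ, G.π x = v ∧ n = max (x.1 - (G.ι w).1).natAbs (x.2 - (G.ι w).2).natAbs}.Nonempty :=
    ⟨_, G.ι v, pi_iota v, rfl⟩
  obtain ⟨x, hx, hn⟩ := Nat.sInf_mem hne
  have hdist : max (x.1 - (G.ι w).1).natAbs (x.2 - (G.ι w).2).natAbs ≤ g.m := by
    rw [← hn]
    exact le_trans hd hcol
  have hm := hg.pos
  have hmM : g.m ≤ G.M := by
    have h1 := hg.card
    have h2 := G.hM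
    have h3 : 0 < g.n := by
      rcases Nat.eq_zero_or_pos g.n with h | h
      · rw [h] at h1; omega
      · exact h
    rw [h1]
    exact Nat.le_mul_of_pos_left _ h3
  have hv1 : v.1 = G.fold x.1 := by rw [← hx]; rfl
  have hv2 : v.2 = G.fold x.2 := by rw [← hx]; rfl
  have f1 : (((v.1 : ℕ) : ℤ) - ((w.1 : ℕ) : ℤ)).natAbs ≤ g.m := by
    rw [hv1]
    exact prg_fold_near hG w.1 x.1 g.m hmM (le_trans (le_max_left _ _) hdist)
  have f2 : (((v.2 : ℕ) : ℤ) - ((w.2 : ℕ) : ℤ)).natAbs ≤ g.m := by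
    rw [hv2]
    exact prg_fold_near hG w.2 x.2 g.m hmM (le_trans (le_max_right _ _) hdist)
  have hwX : g.blk w ∈ X := (Finset.mem_filter.1 hw).2
  have hvD : v ∈ g.Dm X := by
    rw [prg_mem_Dm]
    refine ⟨g.blk w, hwX, ?_⟩
    rw [prg_idist hG]
    have b1 : ((((g.blk w).1 : Fin g.n) : ℕ) : ℤ) = (((w.1 : ℕ) / g.m : ℕ) : ℤ) := by
      have := hg.blk w.1
      exact_mod_cast this
    have b2 : ((((g.blk w).2 : Fin g.n) : ℕ) : ℤ) = (((w.2 : ℕ) / g.m : ℕ) : ℤ) := by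
      have := hg.blk w.2
      exact_mod_cast this
    have b3 : ((((g.blk v).1 : Fin g.n) : ℕ) : ℤ) = (((v.1 : ℕ) / g.m : ℕ) : ℤ) := by
      have := hg.blk v.1
      exact_mod_cast this
    have b4 : ((((g.blk v).2 : Fin g.n) : ℕ) : ℤ) = (((v.2 : ℕ) / g.m : ℕ) : ℤ) := by
      have := hg.blk v.2
      exact_mod_cast this
    rw [b1, b2, b3, b4]
    have g1 := prg_div_near hm f1
    have g2 := prg_div_near hm f2
    apply max_le <;> omega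
  rw [Finset.mem_coe, prg_mem_hull]
  exact ⟨⟨v, hvD, le_rfl⟩, ⟨v, hvD, le_rfl⟩, ⟨v, hvD, le_rfl⟩, ⟨v, hvD, le_rfl⟩⟩

/-! ## 4. Counting.  All constants are independent of `L`, of the scale and of the volume. -/

open Classical in
theorem prg_count_small (R n0 : ℕ) : ∃ C : ℕ, ∀ (G : Geom) (g : Grid G), g.Ok → ∀ b : g.I,
    (Finset.univ.filter fun X : Finset g.I => g.Conn R X ∧ X.card ≤ n0 ∧ b ∈ X).card ≤ C := by

  obtain ⟨Ca, hCa⟩ := Geo.geo_animals R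
  refine ⟨∑ n ∈ Finset.range (n0 + 1), Ca ^ n, fun G g hg b => ?_⟩
  have hsub : (Finset.univ.filter fun X : Finset g.I => g.Conn R X ∧ X.card ≤ n0 ∧ b ∈ X) ⊆
      (Finset.range (n0 + 1)).biUnion fun n =>
        Finset.univ.filter fun X : Finset g.I => g.Conn R X ∧ b ∈ X ∧ X.card = n := by
    intro X hX
    obtain ⟨h1, h2, h3⟩ := (Finset.mem_filter.1 hX).2
    exact Finset.mem_biUnion.2 ⟨X.card, Finset.mem_range.2 (by omega),
      Finset.mem_filter.2 ⟨Finset.mem_univ _, h1, h3, rfl⟩⟩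
  exact le_trans (Finset.card_le_card hsub)
    (le_trans Finset.card_biUnion_le (Finset.sum_le_sum fun n _ => hCa G g hg b n))


open Classical in
/-- small polymers through a set `Z` of blocks -/
theorem prg_count_through (R n0 : ℕ) : ∃ C : ℕ, ∀ (G : Geom) (g : Grid G), g.Ok → ∀ (Z : Finset g.I) (p : Finset g.I → Prop) [DecidablePred p],
    (∀ X, p X → g.Conn R X ∧ X.card ≤ n0 ∧ ∃ b ∈ Z, b ∈ X) → (Finset.univ.filter p).card ≤ Z.card * C := by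
  obtain ⟨C, hC⟩ := prg_count_small R n0
  refine ⟨C, fun G g hg Z p _ hp => ?_⟩
  have hsub : (Finset.univ.filter p) ⊆
      Z.biUnion fun b => Finset.univ.filter fun X : Finset g.I => g.Conn R X ∧ X.card ≤ n0 ∧ b ∈ X := by
    intro X hX
    obtain ⟨h1, h2, b, hb, hbX⟩ := hp X (Finset.mem_filter.1 hX).2
    exact Finset.mem_biUnion.2 ⟨b, hb, Finset.mem_filter.2 ⟨Finset.mem_univ _, h1, h2, hbX⟩⟩
  calc (Finset.univ.filter p).card ≤ _ := Finset.card_le_card hsub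
    _ ≤ ∑ b ∈ Z, C := le_trans Finset.card_biUnion_le (Finset.sum_le_sum fun b _ => hC G g hg b)
    _ = Z.card * C := by rw [Finset.sum_const, smul_eq_mul]

open Classical in
theorem prg_box_card (n c K : ℕ) : (Finset.univ.filter fun a : Fin n × Fin n =>
    c ≤ (a.1 : ℕ) + K ∧ (a.1 : ℕ) ≤ c + K ∧ c ≤ (a.2 : ℕ) + K ∧ (a.2 : ℕ) ≤ c + K).card ≤ (2 * K + 1) ^ 2 := by
  have h := Finset.card_le_card_of_injOn (s := Finset.univ.filter fun a : Fin n × Fin n =>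
      c ≤ (a.1 : ℕ) + K ∧ (a.1 : ℕ) ≤ c + K ∧ c ≤ (a.2 : ℕ) + K ∧ (a.2 : ℕ) ≤ c + K)
    (t := Finset.range (2 * K + 1) ×ˢ Finset.range (2 * K + 1))
    (fun a => ((a.1 : ℕ) + K - c, (a.2 : ℕ) + K - c))
    (by
      intro a ha
      obtain ⟨h1, h2, h3, h4⟩ := (Finset.mem_filter.1 (Finset.mem_coe.1 ha)).2
      rw [Finset.mem_coe, Finset.mem_product, Finset.mem_range, Finset.mem_range]
      constructor <;> simp only <;> omega)
    (by
      intro a ha a' ha' h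
      obtain ⟨h1, h2, h3, h4⟩ := (Finset.mem_filter.1 (Finset.mem_coe.1 ha)).2
      obtain ⟨k1, k2, k3, k4⟩ := (Finset.mem_filter.1 (Finset.mem_coe.1 ha')).2
      have e1 : (a.1 : ℕ) + K - c = (a'.1 : ℕ) + K - c := congrArg Prod.fst h
      have e2 : (a.2 : ℕ) + K - c = (a'.2 : ℕ) + K - c := congrArg Prod.snd h
      exact Prod.ext (Fin.ext (by omega)) (Fin.ext (by omega)))
  rw [Finset.card_product, Finset.card_range] at h
  rw [sq]; exact h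

open Classical in
theorem prg_edge_card (n H : ℕ) : (Finset.univ.filter fun i : Fin n => ¬ (H ≤ (i : ℕ) ∧ (i : ℕ) + H < n)).card ≤ 2 * H := by
  have h := Finset.card_le_card_of_injOn (s := Finset.univ.filter fun i : Fin n => ¬ (H ≤ (i : ℕ) ∧ (i : ℕ) + H < n))
    (t := Finset.range (2 * H))
    (fun i => if (i : ℕ) < H then (i : ℕ) else H + (n - 1 - (i : ℕ)))
    (by
      intro i hi
      have h1 := (Finset.mem_filter.1 (Finset.mem_coe.1 hi)).2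
      have h2 := i.2
      rw [Finset.mem_coe, Finset.mem_range]
      simp only
      split_ifs <;> omega)
    (by
      intro i hi i' hi' h
      have h1 := (Finset.mem_filter.1 (Finset.mem_coe.1 hi)).2
      have h1' := (Finset.mem_filter.1 (Finset.mem_coe.1 hi')).2
      have h2 := i.2
      have h2' := i'.2
      simp only at h
      apply Fin.ext
      split_ifs at h <;> omega)
  rwa [Finset.card_range] at h

open Classical in
/-- all small inputs with a block in a given coarse block: `≤ C L²` -/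
theorem prg_count_all (R n0 : ℕ) : ∃ C : ℕ, ∀ (G : Geom) (D0 ℓ : ℕ) (P : Pair G D0 ℓ) (b : P.g'.I),
    (Finset.univ.filter fun X : Finset P.g.I => P.g.Conn R X ∧ X.card ≤ n0 ∧ ∃ B ∈ X, P.N.up B = b).card ≤ C * (2 ^ ℓ) ^ 2 := by

  obtain ⟨C, hC⟩ := prg_count_through R n0
  refine ⟨4 * C, fun G D0 ℓ P b => ?_⟩
  have h := hC G P.g P.ok (Finset.univ.filter fun a : P.g.I => P.N.up a = b)
    (fun X : Finset P.g.I => P.g.Conn R X ∧ X.card ≤ n0 ∧ ∃ B ∈ X, P.N.up B = b) (by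
      rintro X ⟨h1, h2, B, hB, hb⟩
      exact ⟨h1, h2, B, Finset.mem_filter.2 ⟨Finset.mem_univ _, hb⟩, hB⟩)
  refine le_trans h ?_
  calc (Finset.univ.filter fun a : P.g.I => P.N.up a = b).card * C ≤ (2 * 2 ^ ℓ) ^ 2 * C :=
        Nat.mul_le_mul_right _ (Geo.geo_fib_card P b)
    _ = 4 * C * (2 ^ ℓ) ^ 2 := by ring

open Classical in
/-- [B] C4.7 at a wall: `O (L)` placements -/
theorem prg_count_wall (R n0 H : ℕ) : ∃ C : ℕ, ∀ (G : Geom) (D0 ℓ : ℕ) (P : Pair G D0 ℓ), Cen P → ∀ Y : Finset P.g'.I,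
    (Finset.univ.filter fun X : Finset P.g.I => P.g.Conn R X ∧ X.card ≤ n0 ∧ P.N.cl X = Y ∧ ¬ WallFree P.g H X).card
      ≤ C * 2 ^ ℓ * Y.card := by

  obtain ⟨C, hC⟩ := prg_count_through R n0
  refine ⟨8 * H * C, fun G D0 ℓ P _ Y => ?_⟩
  set Wz : P.g'.I → Finset P.g.I := fun y => Finset.univ.filter fun b : P.g.I => P.N.up b = y ∧
    ¬ (H ≤ (b.1 : ℕ) ∧ (b.1 : ℕ) + H < P.g.n ∧ H ≤ (b.2 : ℕ) ∧ (b.2 : ℕ) + H < P.g.n) with hWz
  have hWc : ∀ y, (Wz y).card ≤ 8 * H * 2 ^ ℓ := by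
    intro y
    set E : Finset (Fin P.g.n) := Finset.univ.filter fun i : Fin P.g.n => ¬ (H ≤ (i : ℕ) ∧ (i : ℕ) + H < P.g.n) with hE
    have hEc : E.card ≤ 2 * H := prg_edge_card P.g.n H
    have hsub : Wz y ⊆ (E ×ˢ (Finset.univ.filter fun a => P.N.up1 a = y.2)) ∪ ((Finset.univ.filter fun a => P.N.up1 a = y.1) ×ˢ E) := by
      intro b hb
      obtain ⟨h1, h2⟩ := (Finset.mem_filter.1 hb).2
      have u1 : P.N.up1 b.1 = y.1 := congrArg Prod.fst h1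
      have u2 : P.N.up1 b.2 = y.2 := congrArg Prod.snd h1
      rw [Finset.mem_union, Finset.mem_product, Finset.mem_product]
      by_cases hc : H ≤ (b.1 : ℕ) ∧ (b.1 : ℕ) + H < P.g.n
      · right
        refine ⟨Finset.mem_filter.2 ⟨Finset.mem_univ _, u1⟩, Finset.mem_filter.2 ⟨Finset.mem_univ _, ?_⟩⟩
        intro hc2
        exact h2 ⟨hc.1, hc.2, hc2.1, hc2.2⟩
      · left
        exact ⟨Finset.mem_filter.2 ⟨Finset.mem_univ _, hc⟩, Finset.mem_filter.2 ⟨Finset.mem_univ _, u2⟩⟩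
    have f1 := (Geo.geo_fib1_hi P y.1).le
    have f2 := (Geo.geo_fib1_hi P y.2).le
    calc (Wz y).card ≤ _ := Finset.card_le_card hsub
      _ ≤ _ := Finset.card_union_le _ _
      _ = E.card * (Finset.univ.filter fun a => P.N.up1 a = y.2).card
          + (Finset.univ.filter fun a => P.N.up1 a = y.1).card * E.card := by
          rw [Finset.card_product, Finset.card_product]
      _ ≤ 2 * H * (2 * 2 ^ ℓ) + 2 * 2 ^ ℓ * (2 * H) :=
          Nat.add_le_add (Nat.mul_le_mul hEc f2) (Nat.mul_le_mul f1 hEc)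
      _ = 8 * H * 2 ^ ℓ := by ring
  have h := hC G P.g P.ok (Y.biUnion Wz)
    (fun X : Finset P.g.I => P.g.Conn R X ∧ X.card ≤ n0 ∧ P.N.cl X = Y ∧ ¬ WallFree P.g H X) (by
      rintro X ⟨h1, h2, h3, h4⟩
      unfold WallFree at h4
      push Not at h4
      obtain ⟨b, hb, hbw⟩ := h4
      refine ⟨h1, h2, b, Finset.mem_biUnion.2 ⟨P.N.up b, ?_, Finset.mem_filter.2 ⟨Finset.mem_univ _, rfl, ?_⟩⟩, hb⟩
      · rw [← h3]; exact Finset.mem_image_of_mem _ hb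
      · rintro ⟨a1, a2, a3, a4⟩
        exact absurd a4 (not_lt.2 (hbw a1 a2 a3)))
  refine le_trans h ?_
  calc (Y.biUnion Wz).card * C ≤ (∑ y ∈ Y, 8 * H * 2 ^ ℓ) * C :=
        Nat.mul_le_mul_right _ (le_trans Finset.card_biUnion_le (Finset.sum_le_sum fun y _ => hWc y))
    _ = 8 * H * C * 2 ^ ℓ * Y.card := by rw [Finset.sum_const, smul_eq_mul]; ring

open Classical in
/-- `O (1)` small defects -/
theorem prg_count_defect (R n0 H : ℕ) : ∃ C : ℕ, ∀ (G : Geom) (g : Grid G), G.bc = BC.free → g.Ok →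
    (Finset.univ.filter fun X : Finset g.I => g.Conn R X ∧ X.card ≤ n0 ∧ ¬ ShiftGood g H X).card ≤ C := by

  obtain ⟨C, hC⟩ := prg_count_through R n0
  refine ⟨(2 * (H + R * n0) + 1) ^ 2 * C, fun G g hG hg => ?_⟩
  have h := hC G g hg (Finset.univ.filter fun a : Fin g.n × Fin g.n =>
      g.n / 2 ≤ (a.1 : ℕ) + (H + R * n0) ∧ (a.1 : ℕ) ≤ g.n / 2 + (H + R * n0) ∧
      g.n / 2 ≤ (a.2 : ℕ) + (H + R * n0) ∧ (a.2 : ℕ) ≤ g.n / 2 + (H + R * n0))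
    (fun X : Finset g.I => g.Conn R X ∧ X.card ≤ n0 ∧ ¬ ShiftGood g H X) (by
      rintro X ⟨h1, h2, h3⟩
      unfold ShiftGood at h3
      rw [not_not] at h3
      obtain ⟨⟨a1, ha1, k1⟩, ⟨a2, ha2, k2⟩, ⟨a3, ha3, k3⟩, ⟨a4, ha4, k4⟩⟩ := h3
      simp only at k1 k2 k3 k4
      obtain ⟨b, hb⟩ := h1.1
      have hdiam := prg_small_diam g R n0 X h1 h2
      have hd : ∀ a ∈ X, g.idist a b ≤ R * n0 := by
        intro a ha
        refine le_trans ?_ hdiam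
        unfold Grid.idiam
        exact le_trans (Finset.le_sup (f := fun b => g.idist a b) hb) (Finset.le_sup (f := fun a => X.sup fun b => g.idist a b) ha)
      have hd' : ∀ a ∈ X, ((a.1 : ℤ) - b.1).natAbs ≤ R * n0 ∧ ((a.2 : ℤ) - b.2).natAbs ≤ R * n0 := by
        intro a ha
        have := hd a ha
        rw [prg_idist hG] at this
        exact ⟨le_trans (le_max_left _ _) this, le_trans (le_max_right _ _) this⟩
      have d1 := (hd' a1 ha1).1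
      have d2 := (hd' a2 ha2).1
      have d3 := (hd' a3 ha3).2
      have d4 := (hd' a4 ha4).2
      refine ⟨h1, h2, b, Finset.mem_filter.2 ⟨Finset.mem_univ _, ?_, ?_, ?_, ?_⟩, hb⟩ <;> omega)
  exact le_trans h (Nat.mul_le_mul_right _ (prg_box_card g.n (g.n / 2) (H + R * n0)))

open Classical in
/-- `O (1)` small labelled inputs -/
theorem prg_count_label (R n0 : ℕ) : ∃ C : ℕ, ∀ (G : Geom) (g : Grid G), g.Ok →
    (Finset.univ.filter fun X : Finset g.I => g.Conn R X ∧ X.card ≤ n0 ∧ NearUnit g 1 X).card ≤ C := by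

  obtain ⟨C, hC⟩ := prg_count_through R n0
  refine ⟨(2 * 1 + 1) ^ 2 * C, fun G g hg => ?_⟩
  have h := hC G g hg (Finset.univ.filter fun a : Fin g.n × Fin g.n =>
      g.n / 2 ≤ (a.1 : ℕ) + 1 ∧ (a.1 : ℕ) ≤ g.n / 2 + 1 ∧ g.n / 2 ≤ (a.2 : ℕ) + 1 ∧ (a.2 : ℕ) ≤ g.n / 2 + 1)
    (fun X : Finset g.I => g.Conn R X ∧ X.card ≤ n0 ∧ NearUnit g 1 X) (by
      rintro X ⟨h1, h2, b, hb, k1, k2, k3, k4⟩
      refine ⟨h1, h2, b, Finset.mem_filter.2 ⟨Finset.mem_univ _, ?_, ?_, ?_, ?_⟩, hb⟩ <;> omega)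
  exact le_trans h (Nat.mul_le_mul_right _ (prg_box_card g.n (g.n / 2) 1))

/-! ## 5. The three embeddings -/

theorem prg_emb_id (g : Grid G) : (GEmb.id g).Ok where
  side := rfl
  blk := fun _ => rfl
  full := fun v' _ _ => ⟨v', rfl⟩
  dist := fun _ _ => rfl
  lat := fun _ _ _ => rfl

/-- the shift `a ↦ a + t` of an interval of indices -/
def prg_fsh (n n' t : ℕ) (h : n + t ≤ n') : Fin n ↪ Fin n' :=
  ⟨fun a => ⟨(a : ℕ) + t, by have := a.2; omega⟩, fun a b hab => by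
    have := congrArg Fin.val hab
    simp only at this
    exact Fin.ext (by omega)⟩

/-- the diagonal shift of a square of indices -/
def prg_fsh2 (n n' t : ℕ) (h : n + t ≤ n') : Fin n × Fin n ↪ Fin n' × Fin n' :=
  (prg_fsh n n' t h).prodMap (prg_fsh n n' t h)

theorem prg_fsh2_val (n n' t : ℕ) (h : n + t ≤ n') (a : Fin n × Fin n) :
    ((prg_fsh2 n n' t h a).1 : ℕ) = (a.1 : ℕ) + t ∧ ((prg_fsh2 n n' t h a).2 : ℕ) = (a.2 : ℕ) + t := ⟨rfl, rfl⟩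

theorem prg_std_torusGrid (G : Geom) (m : ℕ) (h : m ∣ G.M) (hm : 0 < m) : Std (torusGrid G m h) where
  pos := hm
  card := (Nat.div_mul_cancel h).symm
  blk := fun _ => rfl

theorem prg_idist1_free (hG : G.bc = BC.free) (g : Grid G) (a b : Fin g.n) : g.idist1 a b = ((a : ℤ) - b).natAbs := by
  unfold Grid.idist1
  rw [hG]

theorem prg_idist1_per (hG : G.bc = BC.per) (g : Grid G) (a b : Fin g.n) :
    g.idist1 a b = min ((a : ℤ) - b).natAbs (g.n - ((a : ℤ) - b).natAbs) := by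
  unfold Grid.idist1
  rw [hG]

theorem prg_fold_val (G : Geom) (y : ℤ) (h0 : 0 ≤ y) (h1 : y < G.M) : ((G.fold y : ℕ) : ℤ) = y := by
  obtain ⟨n, rfl⟩ := Int.eq_ofNat_of_zero_le h0
  have hn : n < G.M := by exact_mod_cast h1
  have := fold_coe (G := G) ⟨n, hn⟩
  simp only at this
  rw [this]

/-- an embedding of whole-block grids which is a diagonal translation by `t` blocks -/
theorem prg_ok_of_shift {G₀ G₁ : Geom} (g₀ : Grid G₀) (g₁ : Grid G₁) (h₀ : Std g₀) (h₁ : Std g₁) (E : GEmb g₀ g₁) (hm : g₁.m = g₀.m)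
    (t : ℕ) (hs : ∀ v, ((E.s v).1 : ℕ) = (v.1 : ℕ) + g₀.m * t ∧ ((E.s v).2 : ℕ) = (v.2 : ℕ) + g₀.m * t)
    (he : ∀ b, ((E.e b).1 : ℕ) = (b.1 : ℕ) + t ∧ ((E.e b).2 : ℕ) = (b.2 : ℕ) + t)
    (hb₀ : G₀.bc = BC.free) (hb₁ : G₁.bc = BC.free ∨ 2 * g₀.n ≤ g₁.n) : E.Ok where
  side := hm
  blk := fun v => by
    have k : ∀ i : ℕ, (i + g₀.m * t) / g₀.m = i / g₀.m + t := fun i => Nat.add_mul_div_left _ _ h₀.pos
    refine Prod.ext (Fin.ext ?_) (Fin.ext ?_)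
    · show ((g₁.blk1 (E.s v).1 : Fin g₁.n) : ℕ) = ((E.e (g₀.blk v)).1 : ℕ)
      rw [h₁.blk, (he _).1, (hs v).1, hm, k]
      show _ = ((g₀.blk1 v.1 : Fin g₀.n) : ℕ) + t
      rw [h₀.blk]
    · show ((g₁.blk1 (E.s v).2 : Fin g₁.n) : ℕ) = ((E.e (g₀.blk v)).2 : ℕ)
      rw [h₁.blk, (he _).2, (hs v).2, hm, k]
      show _ = ((g₀.blk1 v.2 : Fin g₀.n) : ℕ) + t
      rw [h₀.blk]
  full := fun v' a hv => by
    have key : ∀ (i : Fin G₁.M) (c : Fin g₀.n), ((g₁.blk1 i : Fin g₁.n) : ℕ) = (c : ℕ) + t →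
        g₀.m * t ≤ (i : ℕ) ∧ (i : ℕ) - g₀.m * t < G₀.M := by
      intro i c hic
      rw [h₁.blk, hm] at hic
      have e1 := Nat.div_add_mod (i : ℕ) g₀.m
      have e2 := Nat.mod_lt (i : ℕ) h₀.pos
      rw [hic] at e1
      have e3 : g₀.m * ((c : ℕ) + 1) ≤ g₀.m * g₀.n := Nat.mul_le_mul_left _ c.2
      have e4 : G₀.M = g₀.m * g₀.n := by rw [h₀.card, mul_comm]
      rw [mul_add] at e1
      rw [mul_add, mul_one] at e3
      omega
    have h1 := key v'.1 a.1 (by rw [← (he a).1, ← hv]; rfl)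
    have h2 := key v'.2 a.2 (by rw [← (he a).2, ← hv]; rfl)
    refine ⟨(⟨(v'.1 : ℕ) - g₀.m * t, h1.2⟩, ⟨(v'.2 : ℕ) - g₀.m * t, h2.2⟩), ?_⟩
    refine Prod.ext (Fin.ext ?_) (Fin.ext ?_)
    · rw [(hs _).1]
      show (v'.1 : ℕ) - g₀.m * t + g₀.m * t = _
      omega
    · rw [(hs _).2]
      show (v'.2 : ℕ) - g₀.m * t + g₀.m * t = _
      omega
  dist := fun a b => by
    have key : ∀ (x y : Fin g₀.n) (x' y' : Fin g₁.n), (x' : ℕ) = (x : ℕ) + t → (y' : ℕ) = (y : ℕ) + t →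
        g₁.idist1 x' y' = g₀.idist1 x y := by
      intro x y x' y' hx hy
      rw [prg_idist1_free hb₀]
      have hx2 := x.2
      have hy2 := y.2
      rcases hG₁ : G₁.bc with _ | _
      · rw [prg_idist1_per hG₁]
        rcases hb₁ with hb₁ | hb₁
        · rw [hG₁] at hb₁; cases hb₁
        · omega
      · rw [prg_idist1_free hG₁]
        omega
    unfold Grid.idist
    rw [key a.1 b.1 _ _ (he a).1 (he b).1, key a.2 b.2 _ _ (he a).2 (he b).2]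
  lat := fun v x hx => by
    obtain ⟨x1, x2, x3, x4⟩ := hx
    have hM : ∀ i : Fin G₀.M, (i : ℕ) + g₀.m * t < G₁.M := by
      intro i
      have := (E.s (i, i)).1.2
      rw [(hs (i, i)).1] at this
      exact this
    have hM' : G₀.M + g₀.m * t ≤ G₁.M := by
      have := hM ⟨G₀.M - 1, by have := G₀.hM; omega⟩
      simp only at this
      have := G₀.hM
      omega
    refine Prod.ext (Fin.ext ?_) (Fin.ext ?_)
    · have a1 := prg_fold_val G₀ _ x1 x2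
      have a2 : (((E.s (G₀.π (G₀.ι v + x))).1 : ℕ) : ℤ) = (G₀.ι v + x).1 + ((g₀.m * t : ℕ) : ℤ) := by
        rw [(hs _).1]; push_cast
        rw [← a1]; rfl
      have e : (G₁.ι (E.s v) + x).1 = (G₀.ι v + x).1 + ((g₀.m * t : ℕ) : ℤ) := by
        show (((E.s v).1 : ℕ) : ℤ) + x.1 = ((v.1 : ℕ) : ℤ) + x.1 + ((g₀.m * t : ℕ) : ℤ)
        rw [(hs v).1]; push_cast; ring
      have a3 := prg_fold_val G₁ (G₁.ι (E.s v) + x).1 (by rw [e]; positivity) (by rw [e]; omega)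
      have : (((G₁.π (G₁.ι (E.s v) + x)).1 : ℕ) : ℤ) = (((E.s (G₀.π (G₀.ι v + x))).1 : ℕ) : ℤ) := by
        rw [a2, ← e, ← a3]; rfl
      exact_mod_cast this
    · have a1 := prg_fold_val G₀ _ x3 x4
      have a2 : (((E.s (G₀.π (G₀.ι v + x))).2 : ℕ) : ℤ) = (G₀.ι v + x).2 + ((g₀.m * t : ℕ) : ℤ) := by
        rw [(hs _).2]; push_cast
        rw [← a1]; rfl
      have e : (G₁.ι (E.s v) + x).2 = (G₀.ι v + x).2 + ((g₀.m * t : ℕ) : ℤ) := by
        show (((E.s v).2 : ℕ) : ℤ) + x.2 = ((v.2 : ℕ) : ℤ) + x.2 + ((g₀.m * t : ℕ) : ℤ)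
        rw [(hs v).2]; push_cast; ring
      have a3 := prg_fold_val G₁ (G₁.ι (E.s v) + x).2 (by rw [e]; positivity) (by rw [e]; omega)
      have : (((G₁.π (G₁.ι (E.s v) + x)).2 : ℕ) : ℤ) = (((E.s (G₀.π (G₀.ι v + x))).2 : ℕ) : ℤ) := by
        rw [a2, ← e, ← a3]; rfl
      exact_mod_cast this

/-- `M₀ / gcd (a, M₀) ≤ M₁ / d` if `M₀ ∣ M₁`, `d ∣ a`, `d ∣ M₁` -/
theorem prg_n_le (a M₀ M₁ d : ℕ) (hM₀ : 0 < M₀) (hM₁ : 0 < M₁) (hdvd : M₀ ∣ M₁) (hda : d ∣ a) (hdM : d ∣ M₁) :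
    M₀ / Nat.gcd a M₀ ≤ M₁ / d := by
  obtain ⟨k, rfl⟩ := hdvd
  have hk : 0 < k := Nat.pos_of_mul_pos_left hM₁ |> fun h => h
  have hd : 0 < d := Nat.pos_of_dvd_of_pos hdM hM₁
  have hg : 0 < Nat.gcd a M₀ := Nat.gcd_pos_of_pos_right _ hM₀
  have h1 : d ∣ Nat.gcd a (M₀ * k) := Nat.dvd_gcd hda hdM
  have h2 : Nat.gcd a (M₀ * k) ∣ Nat.gcd a M₀ * Nat.gcd a k := Nat.gcd_mul_right_dvd_mul_gcd a M₀ k
  have h3 : Nat.gcd a M₀ * Nat.gcd a k ∣ Nat.gcd a M₀ * k := Nat.mul_dvd_mul_left _ (Nat.gcd_dvd_right a k)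
  have h4 : d ≤ Nat.gcd a M₀ * k := Nat.le_of_dvd (Nat.mul_pos hg hk) (h1.trans (h2.trans h3))
  rw [Nat.le_div_iff_mul_le hd]
  calc M₀ / Nat.gcd a M₀ * d ≤ M₀ / Nat.gcd a M₀ * (Nat.gcd a M₀ * k) := Nat.mul_le_mul_left _ h4
    _ = M₀ * k := by rw [← mul_assoc, Nat.div_mul_cancel (Nat.gcd_dvd_right a M₀)]

/-- two centred squares, `M₀ ∣ M₁` (so that `n₀ (j) ∣ n₁ (j)` at ALL levels: `e j b = b + (n₁ (j) - n₀ (j)) / 2` is a total definition); the properties are claimed for the levels `j ≤ J` -/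
theorem prg_emb_sq (G₀ G₁ : Geom) (h₀ : G₀.bc = BC.free) (h₁ : G₁.bc = BC.free) (ℓ J : ℕ) (hdvd : G₀.M ∣ G₁.M)
    (hd₀ : 2 * (2 ^ ℓ) ^ J ∣ G₀.M) :
    ∃ E : TEmb (lev G₀ ℓ) (lev G₁ ℓ), Centred E.s ∧ ∀ j ≤ J, (E.lv j).Ok ∧
      ∀ b : (lev G₀ ℓ j).I, ((E.e j b).1 : ℕ) = (b.1 : ℕ) + ((lev G₁ ℓ j).n / 2 - (lev G₀ ℓ j).n / 2) ∧
        ((E.e j b).2 : ℕ) = (b.2 : ℕ) + ((lev G₁ ℓ j).n / 2 - (lev G₀ ℓ j).n / 2) := by
  have hMle : G₀.M ≤ G₁.M := Nat.le_of_dvd G₁.hM hdvd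
  have hn : ∀ j, (lev G₀ ℓ j).n ≤ (lev G₁ ℓ j).n := fun j =>
    prg_n_le ((2 ^ ℓ) ^ j) G₀.M G₁.M (side G₁ ℓ j) G₀.hM G₁.hM hdvd (Nat.gcd_dvd_left _ _) (Nat.gcd_dvd_right _ _)
  refine ⟨⟨prg_fsh2 G₀.M G₁.M (G₁.M / 2 - G₀.M / 2) (by omega),
    fun j => prg_fsh2 (lev G₀ ℓ j).n (lev G₁ ℓ j).n ((lev G₁ ℓ j).n / 2 - (lev G₀ ℓ j).n / 2) (by have := hn j; omega)⟩, ?_, ?_⟩
  · intro v
    refine Prod.ext ?_ ?_
    · show (((v.1 : ℕ) + (G₁.M / 2 - G₀.M / 2) : ℕ) : ℤ) = ((v.1 : ℕ) : ℤ) + (((G₁.M / 2 : ℕ) : ℤ) - ((G₀.M / 2 : ℕ) : ℤ))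
      omega
    · show (((v.2 : ℕ) + (G₁.M / 2 - G₀.M / 2) : ℕ) : ℤ) = ((v.2 : ℕ) : ℤ) + (((G₁.M / 2 : ℕ) : ℤ) - ((G₀.M / 2 : ℕ) : ℤ))
      omega
  · intro j hj
    refine ⟨?_, fun b => ⟨rfl, rfl⟩⟩
    have hL : 2 * (2 ^ ℓ) ^ j ∣ G₀.M := (Nat.mul_dvd_mul_left 2 (pow_dvd_pow _ hj)).trans hd₀
    have hL₀ : (2 ^ ℓ) ^ j ∣ G₀.M := (Dvd.intro_left 2 rfl).trans hL
    have hs₀ : side G₀ ℓ j = (2 ^ ℓ) ^ j := side_eq hL₀
    have hs₁ : side G₁ ℓ j = (2 ^ ℓ) ^ j := side_eq (hL₀.trans hdvd)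
    have S₀ : Std (lev G₀ ℓ j) := prg_std_torusGrid G₀ _ _ (side_pos G₀ ℓ j)
    have S₁ : Std (lev G₁ ℓ j) := prg_std_torusGrid G₁ _ _ (side_pos G₁ ℓ j)
    have hm₀ : (lev G₀ ℓ j).m = (2 ^ ℓ) ^ j := hs₀
    have hm₁ : (lev G₁ ℓ j).m = (2 ^ ℓ) ^ j := hs₁
    have hm : (lev G₁ ℓ j).m = (lev G₀ ℓ j).m := by rw [hm₀, hm₁]
    have hmpos : 0 < (lev G₀ ℓ j).m := S₀.pos
    -- evenness
    have ev : ∀ (M n m : ℕ), 0 < m → M = n * m → 2 * m ∣ M → M / 2 = m * (n / 2) := by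
      intro M n m hm0 hM h2
      rw [hM] at h2
      have h3 : 2 ∣ n := Nat.dvd_of_mul_dvd_mul_right hm0 h2
      obtain ⟨c, rfl⟩ := h3
      rw [hM, Nat.mul_div_cancel_left _ (by norm_num : 0 < 2), mul_assoc, Nat.mul_div_cancel_left _ (by norm_num : 0 < 2), mul_comm]
    have e₀ : G₀.M / 2 = (lev G₀ ℓ j).m * ((lev G₀ ℓ j).n / 2) := ev _ _ _ hmpos S₀.card (by rw [hm₀]; exact hL)
    have e₁ : G₁.M / 2 = (lev G₀ ℓ j).m * ((lev G₁ ℓ j).n / 2) :=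
      ev _ _ _ hmpos (by rw [← hm]; exact S₁.card) (by rw [hm₀]; exact hL.trans hdvd)
    have esh : G₁.M / 2 - G₀.M / 2 = (lev G₀ ℓ j).m * ((lev G₁ ℓ j).n / 2 - (lev G₀ ℓ j).n / 2) := by
      rw [e₀, e₁, Nat.mul_sub]
    refine prg_ok_of_shift _ _ S₀ S₁ _ hm ((lev G₁ ℓ j).n / 2 - (lev G₀ ℓ j).n / 2) ?_ (fun b => ⟨rfl, rfl⟩) h₀ (Or.inl h₁)
    intro v
    rw [← esh]
    exact ⟨rfl, rfl⟩

/-- a free square in the corner chart of a torus of at least twice its side (tower of `B8.Sc`); `M₀ ∣ M_t` makes `e j b = b` a total definition -/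
theorem prg_emb_tor (G₀ : Geom) (h₀ : G₀.bc = BC.free) (sc : B8.Sc) (h J : ℕ) (hJ : J ≤ h) (hle : 2 * G₀.M ≤ (sc.T h).M)
    (hdvd : G₀.M ∣ (sc.T h).M) (hd₀ : (2 ^ sc.ℓ) ^ J ∣ G₀.M) :
    ∃ E : TEmb (lev G₀ sc.ℓ) (sc.lev h), (∀ v, (sc.T h).ι (E.s v) = G₀.ι v) ∧ ∀ j ≤ J, (E.lv j).Ok ∧
      ∀ b : (lev G₀ sc.ℓ j).I, ((E.e j b).1 : ℕ) = (b.1 : ℕ) ∧ ((E.e j b).2 : ℕ) = (b.2 : ℕ) := by
  have hn : ∀ j, (lev G₀ sc.ℓ j).n ≤ (sc.lev h j).n := fun j =>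
    prg_n_le ((2 ^ sc.ℓ) ^ j) G₀.M (sc.T h).M (sc.L ^ (min j h)) G₀.hM (sc.T h).hM hdvd
      (pow_dvd_pow (2 ^ sc.ℓ) (min_le_left j h)) (sc.dvd h j)
  refine ⟨⟨prg_fsh2 G₀.M (sc.T h).M 0 (by omega), fun j => prg_fsh2 (lev G₀ sc.ℓ j).n (sc.lev h j).n 0 (hn j)⟩, ?_, ?_⟩
  · intro v
    rfl
  · intro j hj
    refine ⟨?_, fun b => ⟨rfl, rfl⟩⟩
    have hL₀ : (2 ^ sc.ℓ) ^ j ∣ G₀.M := (pow_dvd_pow _ hj).trans hd₀
    have hs₀ : side G₀ sc.ℓ j = (2 ^ sc.ℓ) ^ j := side_eq hL₀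
    have S₀ : Std (lev G₀ sc.ℓ j) := prg_std_torusGrid G₀ _ _ (side_pos G₀ sc.ℓ j)
    have S₁ : Std (sc.lev h j) := prg_std_torusGrid (sc.T h) _ _ (Nat.pow_pos sc.L_pos)
    have hm₀ : (lev G₀ sc.ℓ j).m = (2 ^ sc.ℓ) ^ j := hs₀
    have hm₁ : (sc.lev h j).m = (2 ^ sc.ℓ) ^ j := by
      show sc.L ^ (min j h) = (2 ^ sc.ℓ) ^ j
      rw [min_eq_left (hj.trans hJ)]
      rfl
    have hm : (sc.lev h j).m = (lev G₀ sc.ℓ j).m := by rw [hm₀, hm₁]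
    have h2n : 2 * (lev G₀ sc.ℓ j).n ≤ (sc.lev h j).n := by
      have c₀ := S₀.card
      have c₁ := S₁.card
      rw [hm] at c₁
      rw [c₀, c₁, ← mul_assoc] at hle
      exact Nat.le_of_mul_le_mul_right hle S₀.pos
    refine prg_ok_of_shift _ _ S₀ S₁ _ hm 0 ?_ (fun b => ⟨rfl, rfl⟩) h₀ (Or.inr h2n)
    intro v
    exact ⟨rfl, rfl⟩

end

end Claimed.Agent.R285.F6.Pr
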