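import Claimed.Agent.R285.Read.B4
import Claimed.Agent.R285.Read.F4a
import Claimed.Agent.R285.Glue.WireDefs
import Claimed.Agent.R285.Obs.Green

/-!
# ROW 285, unit OBS: DEFINITIONS of `Read/F6.lean` s2-s3 (aligned squares, the stopped representation), moved here verbatim (helper271, 14:55Z).  No contract, no sorry.
(15:40Z, file budget: + s0 = the bridge `Obs.unitEnergy_eq_coclosed` (ex GreenCo.lean), + `SqData.Ok.unitEnergy_eq` (ex StopFacts.lean), + at the END of the file the PLAN for L6.2 (ex PairPlan.lean).)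
Proof files of the unit (`R285/Obs/*.lean`) import this file (+ contract files of LOWER layers: `Read/B4`, `Read/F4a`), never `Read/F6.lean`.  Same namespace `Claimed.Agent.R285.F6`.
-/

set_option autoImplicit false

/-! ## 0. A co-closed unit field attains the unit energy
Bridge between `Glue.unitEnergy` (edges of `square (2 n)`) and `F4a.etaE` (all pairs `(v, d)` of the free `Geom`; the pairs through a wall are degenerate). -/

namespace Claimed.Agent.R285.Obs

open scoped BigOperators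
open Claimed.Agent.R285 Claimed.Agent.R285.RG Claimed.Agent.R285.F4a

noncomputable section

/-- the free height square -/
def fsq (n : ℕ) (hn : 0 < n) : Geom := ⟨BC.free, 2 * n, by omega⟩

theorem fold_free (n : ℕ) (hn : 0 < n) (x : ℕ) (hx : x ≤ 2 * n) :
    (((fsq n hn).fold (x : ℤ) : Fin (2 * n)) : ℕ) = if x < 2 * n then x else 2 * n - 1 := by
  have e1 : (x : ℤ) % (2 * ((2 * n : ℕ) : ℤ)) = x := Int.emod_eq_of_lt (by positivity) (by push_cast; omega)
  have key : (((fsq n hn).fold (x : ℤ) : Fin (2 * n)) : ℕ)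
      = (if (x : ℤ) % (2 * ((2 * n : ℕ) : ℤ)) < ((2 * n : ℕ) : ℤ) then (x : ℤ) % (2 * ((2 * n : ℕ) : ℤ))
          else 2 * ((2 * n : ℕ) : ℤ) - 1 - (x : ℤ) % (2 * ((2 * n : ℕ) : ℤ))).toNat := rfl
  rw [key, e1]
  by_cases h : x < 2 * n
  · rw [if_pos h, if_pos (by exact_mod_cast h)]
    simp
  · rw [if_neg h, if_neg (by intro h'; exact h (by exact_mod_cast h'))]
    push_cast
    omega

theorem stp_true (n : ℕ) (hn : 0 < n) (v : (fsq n hn).V) :
    ((stp v true).1 : ℕ) = (if (v.1 : ℕ) + 1 < 2 * n then (v.1 : ℕ) + 1 else v.1) ∧ (stp v true).2 = v.2 := by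
  have h1 : (v.1 : ℕ) < 2 * n := v.1.2
  have h2 : (v.2 : ℕ) < 2 * n := v.2.2
  constructor
  · have := fold_free n hn ((v.1 : ℕ) + 1) (by omega)
    simp only [stp, Geom.π, Geom.ι, bdir, if_true, Prod.fst_add]
    push_cast at this
    rw [this]
    split_ifs <;> omega
  · apply Fin.ext
    have := fold_free n hn (v.2 : ℕ) (by omega)
    simp only [stp, Geom.π, Geom.ι, bdir, if_true, Prod.snd_add, add_zero]
    rw [this, if_pos h2]

theorem stp_false (n : ℕ) (hn : 0 < n) (v : (fsq n hn).V) :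
    ((stp v false).2 : ℕ) = (if (v.2 : ℕ) + 1 < 2 * n then (v.2 : ℕ) + 1 else v.2) ∧ (stp v false).1 = v.1 := by
  have h1 : (v.1 : ℕ) < 2 * n := v.1.2
  have h2 : (v.2 : ℕ) < 2 * n := v.2.2
  constructor
  · have := fold_free n hn ((v.2 : ℕ) + 1) (by omega)
    simp only [stp, Geom.π, Geom.ι, bdir, Bool.false_eq_true, if_false, Prod.snd_add]
    push_cast at this
    rw [this]
    split_ifs <;> omega
  · apply Fin.ext
    have := fold_free n hn (v.1 : ℕ) (by omega)
    simp only [stp, Geom.π, Geom.ι, bdir, Bool.false_eq_true, if_false, Prod.fst_add, add_zero]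
    rw [this, if_pos h1]

theorem ext_apply {m : ℕ} (φ : (square m).V → ℝ) (v : (square m).V) : ext φ (v.1 : ℕ) (v.2 : ℕ) = φ v := by
  obtain ⟨i, j⟩ := v
  simp only [ext]
  rw [dif_pos ⟨i.2, j.2⟩]

/-- the two vertex types are the same -/
def toSq (n : ℕ) (hn : 0 < n) (φ : (fsq n hn).V → ℝ) : (square (2 * n)).V → ℝ := φ

/-- extension to `ℕ`-coordinates -/
def extG (n : ℕ) (hn : 0 < n) (φ : (fsq n hn).V → ℝ) : ℕ → ℕ → ℝ := ext (toSq n hn φ)

theorem extG_apply (n : ℕ) (hn : 0 < n) (φ : (fsq n hn).V → ℝ) (v : (fsq n hn).V) : φ v = extG n hn φ (v.1 : ℕ) (v.2 : ℕ) :=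
  (ext_apply (toSq n hn φ) v).symm

theorem sum_V (n : ℕ) (hn : 0 < n) (F : ℕ → ℕ → ℝ) :
    ∑ v : (fsq n hn).V, F (v.1 : ℕ) (v.2 : ℕ) = ∑ i ∈ Finset.range (2 * n), ∑ j ∈ Finset.range (2 * n), F i j := by
  show ∑ v : Fin (2 * n) × Fin (2 * n), F (v.1 : ℕ) (v.2 : ℕ) = _
  rw [Fintype.sum_prod_type, Fin.sum_univ_eq_sum_range (fun i => ∑ y : Fin (2 * n), F i y) (2 * n)]
  apply Finset.sum_congr rfl
  intro i _
  rw [Fin.sum_univ_eq_sum_range (fun j => F i j) (2 * n)]

/-- the energy of `∇ φ + 2π τ` over all pairs `(v, d)` -/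
def enG (n : ℕ) (hn : 0 < n) (φ : (fsq n hn).V → ℝ) : ℝ :=
  ∑ e : (fsq n hn).V × Bool, (φ (stp e.1 e.2) - φ e.1 + 2 * Real.pi * (tauE n e : ℝ)) ^ 2

theorem enG_eq (n : ℕ) (hn : 0 < n) (φ : (fsq n hn).V → ℝ) : enG n hn φ = enN n (extG n hn φ) := by
  have hφ := extG_apply n hn φ
  unfold enG enN
  rw [Fintype.sum_prod_type, Finset.sum_congr rfl (fun x _ => Fintype.sum_bool _), Finset.sum_add_distrib]
  congr 1
  · have e1 : ∀ v : (fsq n hn).V, (φ (stp v true) - φ v + 2 * Real.pi * (tauE n (v, true) : ℝ)) ^ 2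
        = (fun i j : ℕ => if i + 1 < 2 * n then (extG n hn φ (i + 1) j - extG n hn φ i j) ^ 2 else 0) v.1 v.2 := by
      intro v
      obtain ⟨h1, h2⟩ := stp_true n hn v
      rw [hφ (stp v true), hφ v, h1, h2]
      simp only [tauE, Bool.true_eq_false, false_and, if_false, Int.cast_zero, mul_zero, add_zero]
      split_ifs <;> simp
    rw [Finset.sum_congr rfl (fun v _ => e1 v)]
    refine (sum_V n hn (fun i j : ℕ => if i + 1 < 2 * n then (extG n hn φ (i + 1) j - extG n hn φ i j) ^ 2 else 0)).trans ?_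
    rw [← sum_range_pred]
    apply Finset.sum_congr rfl
    intro i _
    split_ifs <;> simp
  · have e1 : ∀ v : (fsq n hn).V, (φ (stp v false) - φ v + 2 * Real.pi * (tauE n (v, false) : ℝ)) ^ 2
        = (fun i j : ℕ => if j + 1 < 2 * n then (extG n hn φ i (j + 1) - extG n hn φ i j + 2 * Real.pi * tau n i j) ^ 2 else 0) v.1 v.2 := by
      intro v
      obtain ⟨h1, h2⟩ := stp_false n hn v
      have hv2 : (v.2 : ℕ) < 2 * n := v.2.2
      rw [hφ (stp v false), hφ v, h1, h2]
      simp only [tauE, tau, true_and]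
      by_cases c : (v.2 : ℕ) + 1 < 2 * n
      · simp only [if_pos c]
        split_ifs <;> simp
      · have c2 : ¬ ((v.2 : ℕ) + 1 = n ∧ n ≤ (v.1 : ℕ)) := by omega
        simp [if_neg c, if_neg c2]
    rw [Finset.sum_congr rfl (fun v _ => e1 v)]
    refine (sum_V n hn (fun i j : ℕ => if j + 1 < 2 * n then (extG n hn φ i (j + 1) - extG n hn φ i j + 2 * Real.pi * tau n i j) ^ 2 else 0)).trans ?_
    apply Finset.sum_congr rfl
    intro i _
    rw [sum_range_pred]

/-- **a co-closed unit field attains the unit energy** -/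
theorem unitEnergy_eq_coclosed (n : ℕ) (hn : 0 < n) (v : (fsq n hn).V → ℝ)
    (hco : ∀ f : (fsq n hn).V → ℝ, ∑ e : (fsq n hn).V × Bool, etaE n v e * (f (stp e.1 e.2) - f e.1) = 0) :
    Glue.unitEnergy n = ∑ e : (fsq n hn).V × Bool, etaE n v e ^ 2 := by
  have hv : enG n hn v = ∑ e : (fsq n hn).V × Bool, etaE n v e ^ 2 := rfl
  have hsplit : ∀ φ : (fsq n hn).V → ℝ, enG n hn φ = enG n hn v
      + ∑ e : (fsq n hn).V × Bool, ((φ (stp e.1 e.2) - v (stp e.1 e.2)) - (φ e.1 - v e.1)) ^ 2 := by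
    intro φ
    have h := hco (fun x => φ x - v x)
    rw [hv]
    unfold enG
    have : ∀ e : (fsq n hn).V × Bool, (φ (stp e.1 e.2) - φ e.1 + 2 * Real.pi * (tauE n e : ℝ)) ^ 2
        = etaE n v e ^ 2 + 2 * (etaE n v e * ((φ (stp e.1 e.2) - v (stp e.1 e.2)) - (φ e.1 - v e.1)))
          + ((φ (stp e.1 e.2) - v (stp e.1 e.2)) - (φ e.1 - v e.1)) ^ 2 := by
      intro e
      unfold etaE
      ring
    rw [Finset.sum_congr rfl (fun e _ => this e), Finset.sum_add_distrib, Finset.sum_add_distrib, ← Finset.mul_sum, h]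
    ring
  have hE : ∀ φ : (square (2 * n)).V → ℝ,
      ∑ e, (φ ((square (2 * n)).tgt e) - φ ((square (2 * n)).src e) + 2 * Real.pi * (Glue.centerConn n e : ℝ)) ^ 2
        = enG n hn (φ : (fsq n hn).V → ℝ) := by
    intro φ
    rw [energy_ext]
    exact (enG_eq n hn (φ : (fsq n hn).V → ℝ)).symm
  rw [← hv]
  unfold Glue.unitEnergy
  apply le_antisymm
  · refine (ciInf_le ⟨0, ?_⟩ (toSq n hn v)).trans ?_
    · rintro _ ⟨φ, rfl⟩
      exact Finset.sum_nonneg fun e _ => sq_nonneg _
    · exact le_of_eq (hE (toSq n hn v))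
  · apply le_ciInf
    intro φ
    rw [hE φ, hsplit (φ : (fsq n hn).V → ℝ)]
    have : 0 ≤ ∑ e : (fsq n hn).V × Bool, (((φ : (fsq n hn).V → ℝ) (stp e.1 e.2) - v (stp e.1 e.2)) - ((φ : (fsq n hn).V → ℝ) e.1 - v e.1)) ^ 2 :=
      Finset.sum_nonneg fun _ _ => sq_nonneg _
    linarith

end

end Claimed.Agent.R285.Obs

namespace Claimed.Agent.R285.F6

open scoped BigOperators ENNReal NNReal
open MeasureTheory ProbabilityTheory Filter Topology
open Claimed.Agent.R285 Claimed.Agent.R285.RG Claimed.Agent.R285.B4 Claimed.Agent.R285.F4a Claims.C0459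

noncomputable section

/-! ## 2. Aligned squares, supports, lifts -/

/-- an aligned free height square at the stop: `2 D` terminal blocks on a side, `r` observation cells on a block side, cells of side `s` -/
structure Sq where
  D : ℕ
  r : ℕ
  s : ℕ
  hD : 0 < D
  hr : 0 < r
  hs : 0 < s

namespace Sq

variable (Q : Sq)

/-- the side `m'` of a terminal block -/
def m : ℕ := Q.r * Q.s

/-- the size `n` of the spin square; the height square has side `2 n` -/
def n : ℕ := Q.D * Q.m

theorem m_pos : 0 < Q.m := Nat.mul_pos Q.hr Q.hs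

theorem n_pos : 0 < Q.n := Nat.mul_pos Q.hD Q.m_pos

/-- the free height square -/
def G : Geom := ⟨BC.free, 2 * Q.n, by have := Q.n_pos; omega⟩

/-- the grid of terminal blocks (whole blocks; the centre is the junction of four blocks) -/
def g : Grid Q.G where
  m := Q.m
  n := 2 * Q.D
  blk1 := fun i => ⟨(i : ℕ) / Q.m, by
    have h : (i : ℕ) < 2 * (Q.D * Q.m) := i.2
    exact Nat.div_lt_of_lt_mul (by rw [Nat.mul_comm Q.m, Nat.mul_assoc]; exact h)⟩

/-- the grid of observation cells -/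
def c : Grid Q.G where
  m := Q.s
  n := 2 * (Q.D * Q.r)
  blk1 := fun i => ⟨(i : ℕ) / Q.s, by
    have h : (i : ℕ) < 2 * (Q.D * (Q.r * Q.s)) := i.2
    exact Nat.div_lt_of_lt_mul (by
      rw [Nat.mul_comm Q.s, Nat.mul_assoc, Nat.mul_assoc]; exact h)⟩

/-- a reference cell -/
def i0 : Q.c.I :=
  (⟨0, Nat.mul_pos (by omega) (Nat.mul_pos Q.hD Q.hr)⟩, ⟨0, Nat.mul_pos (by omega) (Nat.mul_pos Q.hD Q.hr)⟩)

/-- `X` stays `H` terminal blocks away from the walls -/
def WallFree (H : ℕ) (X : Finset Q.g.I) : Prop :=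
  ∀ b ∈ X, H ≤ (b.1 : ℕ) ∧ (b.1 : ℕ) + H < 2 * Q.D ∧ H ≤ (b.2 : ℕ) ∧ (b.2 : ℕ) + H < 2 * Q.D

/-- the block index `b` lies in the enclosing rectangle of `X`, padded by `H` blocks -/
def InRect (H : ℕ) (X : Finset Q.g.I) (b : ℕ × ℕ) : Prop :=
  (∃ a ∈ X, (a.1 : ℕ) ≤ b.1 + H) ∧ (∃ a ∈ X, b.1 ≤ (a.1 : ℕ) + H) ∧
    (∃ a ∈ X, (a.2 : ℕ) ≤ b.2 + H) ∧ (∃ a ∈ X, b.2 ≤ (a.2 : ℕ) + H)

/-- shift-good: the padded enclosing rectangle misses the unit (the junction of the blocks `{D-1, D}²`); otherwise `X` is a DEFECT -/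
def ShiftGood (H : ℕ) (X : Finset Q.g.I) : Prop := ¬ Q.InRect H X (Q.D, Q.D)

/-- `lam` is a local lift of the unit field `η_n = ∇ v + 2π τ` on the padded rectangle of `X`: `∇ lam = η_n / α` -/
def IsLift (α : ℝ) (v : Q.G.V → ℝ) (H : ℕ) (X : Finset Q.g.I) (lam : Q.G.V → ℝ) : Prop :=
  ∀ e : Q.G.V × Bool, stp e.1 e.2 ≠ e.1 →
    Q.InRect H X (((Q.g.blk e.1).1 : ℕ), ((Q.g.blk e.1).2 : ℕ)) →
    Q.InRect H X (((Q.g.blk (stp e.1 e.2)).1 : ℕ), ((Q.g.blk (stp e.1 e.2)).2 : ℕ)) →
    lam (stp e.1 e.2) - lam e.1 = etaE Q.n v e / α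

/-- the insertion ratio with the observation cutoff in both sectors, `\widehat M_n` -/
def Mhat (b : ℝ) : ℝ :=
  Phat b Q.c Q.i0 (tauU Q.c) (fun _ => 1) / Phat b Q.c Q.i0 0 (fun _ => 1)

end Sq

/-- two aligned squares with the same cells and terminal blocks, centred on the same unit -/
structure SqPair where
  Q0 : Sq
  Q1 : Sq
  hr : Q1.r = Q0.r
  hs : Q1.s = Q0.s
  hD : Q0.D ≤ Q1.D

namespace SqPair

variable (P : SqPair)

theorem n_le : P.Q0.n ≤ P.Q1.n := by
  unfold Sq.n Sq.m
  rw [P.hr, P.hs]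
  exact Nat.mul_le_mul_right _ P.hD

/-- the centred embedding of the sites -/
def eV (x : P.Q0.G.V) : P.Q1.G.V :=
  (⟨(x.1 : ℕ) + (P.Q1.n - P.Q0.n), by
      have h : (x.1 : ℕ) < 2 * P.Q0.n := x.1.2
      have := P.n_le
      show _ < 2 * P.Q1.n
      omega⟩,
   ⟨(x.2 : ℕ) + (P.Q1.n - P.Q0.n), by
      have h : (x.2 : ℕ) < 2 * P.Q0.n := x.2.2
      have := P.n_le
      show _ < 2 * P.Q1.n
      omega⟩)

/-- the centred embedding of the terminal blocks -/
def eI (b : P.Q0.g.I) : P.Q1.g.I :=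
  (⟨(b.1 : ℕ) + (P.Q1.D - P.Q0.D), by
      have h : (b.1 : ℕ) < 2 * P.Q0.D := b.1.2
      have := P.hD
      show _ < 2 * P.Q1.D
      omega⟩,
   ⟨(b.2 : ℕ) + (P.Q1.D - P.Q0.D), by
      have h : (b.2 : ℕ) < 2 * P.Q0.D := b.2.2
      have := P.hD
      show _ < 2 * P.Q1.D
      omega⟩)

end SqPair

/-! ## 3. The stopped representation = the interface between Section 6.1 and Sections 6.2-6.3 -/

/-- integration against a terminal covariance and the uniform common phase, (obs:terminal-quantities) -/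
def term {G : Geom} (ω : ℝ) (Γ : Matrix G.V G.V ℝ) (F : Fn G) : ℂ :=
  ((1 / ω : ℝ) : ℂ) * ∫ t in (0 : ℝ)..ω, ∫ ζ, F (fun v => ((ζ v + t : ℝ) : ℂ)) ∂(gauss G Γ)

/-- the two retained singletons `t e_B^0 / 2 + z c_B^α` as an activity -/
def single {G : Geom} (g : Grid G) (α t z : ℝ) : Act g := fun X =>
  ∑ B : g.I, if X = {B} then ((t / 2 : ℝ) : ℂ) • eBC g B + (z : ℂ) • cBC g α B else 0

/-- the parameters which are fixed before `N`: the (weakest) terminal norm `p = (δ, κ_b, h₀, A_w, ω)`, the observation regulator `o = (a, h_b, p₁, p₂)`,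
the wall clearance `H0` and the padding `H1` of the enclosing rectangles, in terminal blocks -/
structure Fix where
  p : Par
  o : ObsPar
  H0 : ℕ
  H1 : ℕ

/-- `α = √a` -/
def Fix.α (fx : Fix) : ℝ := Real.sqrt fx.o.a

/-- everything that lives on ONE square at the stop -/
structure SqData (Q : Sq) where
  /-- the terminal covariance `C_{*,n} = A_n⁺ 𝖯_{m'}` -/
  Γ : Matrix Q.G.V Q.G.V ℝ
  /-- the observation regulator at the stop -/
  V : Extra Q.g
  /-- centred, unit (unlabelled), labelled activities `K_{j'}^{0,n}`, `K_{j'}^{τ,n}`, `J_{j'}^n` -/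
  K0 : Act Q.g
  Kt : Act Q.g
  J : Act Q.g
  /-- the (plane) remainder on wall-free supports -/
  Rm : Act Q.g
  /-- the branch `v_n` -/
  v : Q.G.V → ℝ
  /-- the local lifts `λ_X` -/
  lam : Finset Q.g.I → Q.G.V → ℝ
  /-- the microscopic collar -/
  col : ℕ

namespace SqData

variable {Q : Sq} (d : SqData Q)

/-- `T_n^0`, `T_n^τ`, `\dot T_n^τ` -/
def T0 (ω : ℝ) : ℝ := (term ω d.Γ (ZA Q.g RR d.K0)).re
def Tt (ω : ℝ) : ℝ := (term ω d.Γ (ZA Q.g RR d.Kt)).re
def Td (ω : ℝ) : ℝ := (term ω d.Γ (ZA1 Q.g RR d.Kt d.J)).re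

/-- the properties on one square: Lemma 6.2 (i), (ii), (iii) at the stop, (obs:label-stop), (obs:unlabelled-stop), P5.1.
`t, z` = unbalanced plane singleton coefficients at the stop; `ν ≥ U + w + d`; `ν2 ≥ ‖𝓡‖`; `vJ ≥ ‖J‖`. -/
structure Ok (fx : Fix) (t z ν ν2 vJ : ℝ) : Prop where
  term : IsTerminal Q.G Fam.entry Q.m d.Γ
  obs : IsObs fx.o Q.c Q.g d.V
  col : 4 * d.col ≤ Q.m
  /-- the second-difference stencils of `D_m (X)` stay inside the padded rectangle (request of helper49) -/
  m_ge : 2 ≤ Q.m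
  K0_ok : Act.Ok fx.p d.col RR d.K0
  Kt_ok : Act.Ok fx.p d.col RR d.Kt
  J_ok : Act.Ok fx.p d.col RR d.J
  K0_real : Act.Real d.K0
  Kt_real : Act.Real d.Kt
  J_real : Act.Real d.J
  K0_even : Act.Even fx.p.h0 d.K0
  K0_bd : actNorm fx.p Q.g d.V d.K0 ≤ ENNReal.ofReal ν
  Kt_bd : actNorm fx.p Q.g d.V d.Kt ≤ ENNReal.ofReal ν
  J_bd : actNorm fx.p Q.g d.V d.J ≤ ENNReal.ofReal vJ
  /-- `η_n = ∇ v_n + 2π τ` is co-closed, including at the free boundary -/
  coclosed : ∀ f : Q.G.V → ℝ, ∑ e : Q.G.V × Bool, etaE Q.n d.v e * (f (stp e.1 e.2) - f e.1) = 0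
  lift : ∀ X, Q.ShiftGood fx.H1 X → Q.IsLift fx.α d.v fx.H1 X (d.lam X)
  /-- (i): wall-free supports carry the plane state `(t, z, 𝓡)` -/
  plane : ∀ X, Q.WallFree fx.H0 X → ∀ w ∈ strip fx.p.h0 Q.g X, d.K0 X w = single Q.g fx.α t z X w + d.Rm X w
  Rm_bd : ∀ X, Q.WallFree fx.H0 X →
    ENNReal.ofReal (fx.p.A ^ X.card) * fnSize fx.p Q.g d.V X (d.Rm X) ≤ ENNReal.ofReal ν2
  /-- (ii): on a shift-good support (near a wall or not) the unit activity is the untwisted one at a local lift -/
  shift : ∀ X, Q.ShiftGood fx.H1 X → ∀ w ∈ strip fx.p.h0 Q.g X, d.Kt X w = d.K0 X (w + toC (d.lam X))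

end SqData

/-- Lemma 6.2 (i), (ii): exact copies between the two sizes on supports which are wall-free in the smaller square.  No plane object: the plane prescription at
`φ + δ_n`, `δ_n = (v_n - v_∞)/α`, is eliminated between the two squares. -/
structure PairOk (fx : Fix) (P : SqPair) (d0 : SqData P.Q0) (d1 : SqData P.Q1) : Prop where
  copy0 : ∀ X : Finset P.Q0.g.I, P.Q0.WallFree fx.H0 X → ∀ w ∈ strip fx.p.h0 P.Q1.g (X.image P.eI),
    d1.K0 (X.image P.eI) w = d0.K0 X fun x => w (P.eV x)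
  copyt : ∀ X : Finset P.Q0.g.I, P.Q0.WallFree fx.H0 X → ∀ w ∈ strip fx.p.h0 P.Q1.g (X.image P.eI),
    d1.Kt (X.image P.eI) w = d0.Kt X fun x => w (P.eV x) + (((d1.v (P.eV x) - d0.v x) / fx.α : ℝ) : ℂ)

/-- **the stopped representation** of the two cutoff insertion ratios: (obs:extraction-identity) with COMMON `D_ex`, `c_ex` (obs:extracted-scalars) -/
structure Stop (fx : Fix) (b : ℝ) (P : SqPair) (t z ν ν2 vJ Dex cex : ℝ) where
  d0 : SqData P.Q0
  d1 : SqData P.Q1
  ok0 : d0.Ok fx t z ν ν2 vJ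
  ok1 : d1.Ok fx t z ν ν2 vJ
  pair : PairOk fx P d0 d1
  Dex_pos : 0 < Dex
  id0 : P.Q0.Mhat b = Real.exp (-Glue.unitEnergy P.Q0.n / (2 * fx.o.a)) * Dex
    * ((cex * d0.Tt fx.p.ω + d0.Td fx.p.ω) / d0.T0 fx.p.ω)
  id1 : P.Q1.Mhat b = Real.exp (-Glue.unitEnergy P.Q1.n / (2 * fx.o.a)) * Dex
    * ((cex * d1.Tt fx.p.ω + d1.Td fx.p.ω) / d1.T0 fx.p.ω)


/-- `g_n = ‖η_n‖²` for the co-closed branch carried by the stopped data -/
theorem SqData.Ok.unitEnergy_eq {Q : Sq} {d : SqData Q} {fx : Fix} {t z ν ν2 vJ : ℝ} (h : d.Ok fx t z ν ν2 vJ) :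
    Glue.unitEnergy Q.n = ∑ e : Q.G.V × Bool, etaE Q.n d.v e ^ 2 :=
  Obs.unitEnergy_eq_coclosed Q.n Q.n_pos d.v h.coclosed

end

end Claimed.Agent.R285.F6

/-!
# ROW 285, unit OBS: PLAN for [F] Lemma 6.2 (paired local maps) and the stopped identity      (chief helper271, for the architect of BP-OBS-L62)

TARGET.  `F6.raw_system_center` (`Read/F6.lean` s5), i.e. `RawCenterOK` for the concrete system of MAP/ENTRY.  Chain:
   entries (`F4b.initialization`: `BulkOK`, `UnitOK`, `CopyOK`)  --[PAIR STEP, iterated j0 ≤ j < j']-->  `F6.Stop` (`Obs/Defs.lean`)  --[`consecutive_of_stop`, `cutoff_absolute`]-->  `StepIneq`.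
Everything below was checked against the TeX (observable.tex l.122-640).  NO FATAL; the prose on "tags" and "witnesses" is replaced by LOCALITY of the explicit formula `RG.Kprime`.

## 0. Variables: the TOTAL FIELD (as in `Read/F4b.lean` v2)
Unit-sector objects are functions of `Ψ = ψ + v_n/α` : `KT`, `JT`.  Translation of the whole field argument commutes with `conv` and with products, so the step in the variable `Ψ` is the SAME `Kprime` with the same `conv Γ`.
`v_n` enters only (a) the norms: `‖K^τ‖ := actNorm (shiftA KT (v_n/α))`, (b) the reference point of the defect constants, (c) the conversion to `Stop` at the end: `Kt X ψ = KT X (ψ + v_n/α)`.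
GAUGE: for an integral `κ` with `∇κ = τ` on the hull of the padded support, `KT X z = K0 X (z + ω κ)` (`UnitOK.transl`).  Two gauges on a connected hull differ by an integer constant: harmless by `LocalFn.per`.
`c_B^α (z + ωκ) = c_B^α (z)`;  `e_B^0 (z + ωκ) = (1/2) ∑ (∇z + ωτ)² =: e_B^τ (z)` does not depend on the gauge.  If the hull misses the cut then `KT X = K0 X`.
So (obs:smooth-background), `λ_n`, `δ_n` disappear from all IDENTITIES; `λ_X = v_n/α + ωκ` (smooth on the hull, `∇λ = η_n/α`) is only used in the ESTIMATES.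

## 1. Zones at the level `g` (block side `m_j`), in block units
* `WallFree H0 X` (as `Sq.WallFree`), `ShiftGood H1 X` (as `Sq.ShiftGood`: the padded enclosing rectangle misses the junction), DEFECT := not shift-good.
* STABILITY (pure geometry, `L = 2^ℓ ≥ 2 (H + 4)`): if a coarse `Y` is wall-free (shift-good) with the constant `H`, then every fine `X` with `cl X ⊆ N_1 (Y)` is wall-free (shift-good) with the same `H`.
  `Kprime (..) Y` only uses `K X` with `cl X ⊆ N_1 (Y)`, `d.F Y' b`, `d.a b` with `Y' ∪ {b} ⊆ N_1 (Y)` (`Desig.Small`: relocated labels have diameter ≤ 1) and `Γ` on `N_{1+ρ} (Y)`.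
* `𝒜_j` := coarse blocks within `H_A` of the junction.

## 2. States
Plane state `x_j = (t, z, R)` = the raw history (`Asm.RawSys.pl`; concretely `B8b`: copy-consistent family over the tori, `B8.Kof g α x = single + R`).  In the square `n`:
* `K0 = single on wall-free blocks (t, z) + R0`,   `R0 X` = copy of the plane `R` for wall-free `X` (`F4b.CopyAt` torus - square, all aligned charts);  `w` := norm of `K0` restricted to the supports which are not wall-free.
* `KT = single^τ on wall-free shift-good blocks + RT`,  `RT X z = R0 X (z + ωκ)` for shift-good `X`;  `d` := shifted norm of `KT` restricted to defects.  NOTE: the four central blocks carry NO singleton: `e_B^τ (v_n/α) ~ log m_j` there.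
* `JT`, shifted norm `vJ`; every `X` with `JT X ≠ 0` has a block within `H_J` of the junction.
* between the two squares, centred charts: `CopyAt` for `K0`, `KT`, `JT`.

## 3. Designations (the ONLY choice).  `small`, `piece`, `Hq`, `anchor` as in `B8.Step`.
Centred sector `d0`:  wall-free small `X`: `B8.Step.piece` of `R0 X` (constant + `Loc` + cosine), wall-free singletons: the whole `conv Γ (t/2 e_B + z c_B)`  [= `B8.Step.desig` verbatim];
   small `X` which is not wall-free: ONLY the constant `Hq 0 K0 X 0 / |X|` on each `B ∈ X`.        `a0 b` = sum of all these constants.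
Unit sector `dT`:  shift-good small `X`: the centred piece at `z + ωκ_X`, the SAME constant;   small defect `X`: ONLY the constant `Hq 0 KT X Ψref / |X|`,  `Ψref x = vinf (x - centre) / α` (`F4a.center_background`): the same function in both squares.
Label direction `ḋ`:  small `X`: ONLY the constant `Hq 0 JT X Ψref / |X|`  (`ȧ b` = their sum); no function is designated.
Then: `aT b = a0 b`, `ȧ b = 0` for `b ∉ 𝒜_j` (definition + zone geometry), and `a0, aT, ȧ` agree in the two squares on `𝒜_j` (copy).  This is (obs:factor-outside), (obs:factor-copy).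

## 4. The label WITHOUT dual numbers
`exact_map` is an algebraic identity for every designation with `1 + a b ≠ 0`.  Apply it to `K + xJ`, `d + xḋ`, `x ∈ ℂ` small, and differentiate at `x = 0` (finite sums of products, rational in `x`):
 `J' := ∂_x Kprime (K + xJ) (d + xḋ) |_0`,   `conv Γ (ZA1 K J) = ∏ (1 + a) * ((∑_b ȧ b / (1 + a b)) * ZA K' + ZA1 K' J')`      (obs:dual-number-map).
Estimate of `J'`: linear part directly; nonlinear part from the LIPSCHITZ form of `B4.nonlinear_map` (difference quotients; the sup norms are lower semicontinuous under pointwise limits): `‖DN(K) J‖ ≤ C ν ‖J‖`, no smallness of `J`.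

## 5. ONE copy lemma for `Kprime` (pure locality, no estimate), used 5 times
Data: two volumes with pairs of grids, charts `o, o'`, a real field `μ` (gauge/translation) on the second volume.  If `K' X z = K X (z ∘ chart + μ)` for all fine `X` in a region, the same for `d.F`, equality of `d.a`, and `Γ = Γ'` on the region
(`Spaces.cov_copy` for tori; NEW: the same for free squares away from the walls, polynomial kernels of finite range), then the same relation holds for `Kprime` on all coarse `Y` with `N_{1+ρ} (Y)` in the region.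
Uses: torus - square (wall-free), square - square centred (`K0`, `KT`, and `JT` by differentiation), gauge inside one square (`μ = ωκ`).  `B8.weak_copy` is the instance torus - torus: share the proof with helper202 / helper165.

## 6. Estimates (constants: `θ, C` after `L, A_w`; three norms `p_0 ⊃ p_τ ⊃ p_J` from a finite list: stronger regulator reserve for the untwisted activities)
(W) (obs:wall-recurrence) `w' ≤ θ w + C U + C (U + w)²`.   Linear part on an output which is not wall-free: small even inputs minus constant: `B4 StepOK.neutral` (even case, `L⁻²`) times `O(L)` placements; charges: `StepOK.charge` with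
    `β = α`, needs the FREE DIAGONAL `Γ (x,x) ≥ log L / 2π - C` up to the wall (NEW kernel input, POT/KER: images have nonnegative zero-distance values, first-difference bound); large inputs: weight; wall-free inputs feeding the output: `C_L U` in full.
(D) (obs:defect-recurrence) `d' ≤ θ d + C (U + w) + C (U + w + d)²`.   Small defects minus the constant at `Ψref`: `StepOK.neutral` (no evenness, `L⁻¹`), `O(1)` placements, plus `C_{L,A} m_j / n` for `Ψref - v_n/α` (mean value in the
    point norm; `F4a.center_background`, last two clauses); shift-good inputs feeding a defect: translated regulators (`|∇λ| ≤ C/m_j`, `|∇²λ| ≤ C/m_j²` on the padded support): `W^κ (ψ + λ) ≤ e^{C|X|} W^{κ'} (ψ)`, same for `Vobs` ([B] (9.14), (9.16)).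
(J) (obs:label-recurrence) `vJ' ≤ (θ + C (U + w + d)) vJ`.
(S) (obs:scalar-log-bound) `|log ((1 + aT b) / (1 + a0 b))| ≤ C (U + w + d)`, `|a| ≤ 1/2`.
Solving the recurrences gives `ν ≤ C cvl θ ε u` and `D² vJ D_ex ≤ lab` of `StepIneq` (`Obs/CenterDefs.lean`); the quadratic terms are absorbed in the tube `u < κo.c`.

## 7. The stopped identity
Iterate `exact_map` (centred), s4 (unit) from `TargetOrd`, `TargetLab` (`F4a`), integrate the terminal covariance and the common phase:
 `Mhat_n = e^{-g_n/2a} D_ex (c_ex T^τ_n + \dot T_n) / T^0_n`,  `D_ex = ∏_j ∏_{b ∈ 𝒜_j} (1 + aT b) / (1 + a0 b)`,  `c_ex = ∑_j ∑_{b ∈ 𝒜_j} ȧ b / (1 + aT b)`: the SAME numbers for `n₀`, `n₁`.   The entry scalar `D.sc 𝒱 b0` cancels in the ratio.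
The factor `e^{-g_n/2a}`: `F4a.noisy_reference`.

## 8. Proposed files (`R285/Obs/Pair*.lean`)
`PairGeo` (zones, stability), `PairCopy` (s5), `PairDesig` (s3, definitions), `PairLabel` (s4), `PairWall`, `PairDefect`, `PairLab` (s6), `PairScal` (s3 end, (S)), `PairIter` (recurrences, induction), `PairStop` (s7), `PairRaw` (link with `Asm.RawSys`).
-/
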