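import Claimed.Agent.R285.Obs.PairDefs
import Claimed.Agent.R285.Alg.Step2
import Claimed.Agent.R285.Alg.Step3

/-!
# ROW 285, unit OBS, BP-OBS-L62, package PAIR-ALG: ONE TRANSPORT LEMMA FOR `Kprime`      (architect helper79)   -- KEEP

PAPER-FREE, pure finite algebra.  ONE FILE = ONE PACKAGE; the leaves `L-PAIR-A*` share it: edit ONLY your theorems, pull before landing.  Helper lemmas: prefix `pra_`.

`Kprime (..) Y` is an explicit finite sum of products.  It only uses `Ktil Y'` with `Y' ⊆ Y`, the pieces `d.F Y' b` with `b ∈ Y` and the scalars `d.a b`, `b ∈ Y`.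
`pr_Kprime_transport`: two volumes, an index-distance preserving embedding of the blocks, two RING HOMS `φ₀ : 𝔸₀ → 𝔹`, `φ₁ : 𝔸₁ → 𝔹` into a common ring (not necessarily `ℂ`-linear).
If the local data correspond under `(φ₀, φ₁)`, then so do the outputs.  Instances (all with `𝔹 = ℂ`, `φ` = evaluation at a field, possibly composed with the complex conjugation):
 * locality / congruence (`E = id`, `φ₀ = φ₁`);   * translation by a gauge (`E = id`, `φ₁` = evaluation at `z + ω κ`);   * evenness (`φ₁` = evaluation at `-z`);   * reality (`φ₁ = conj ∘` evaluation at `\bar z`);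
 * period;   * lattice symmetries;   * copies torus - torus (`B8.weak_copy`), torus - square, square - square.

## Leaves
`L-PAIR-A1` `pra_conn_map`, `pra_comps_map`, `pra_idiam_map`, `pra_newSupp_map`, `pra_nb_map`      (~200 l.)
`L-PAIR-A2` `pr_Kext_transport`      (~150 l.)
`L-PAIR-A3` `pr_Hrel_transport`      (~300 l.; restrict the sum to `W ⊆ nb Z` by `Alg.om_eq_zero`, `Alg.good_subset_nb`, then `Finset.sum_nbij'` along `Finset.map e`)
`L-PAIR-A4` `pr_Ktil_transport`      (~150 l.)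
-/

set_option autoImplicit false

namespace Claimed.Agent.R285.F6.Pr

open scoped BigOperators
open Claimed.Agent.R285 Claimed.Agent.R285.RG

noncomputable section

variable {G₀ G₁ : Geom}

/-! ## 1. Combinatorics of an isometric embedding of blocks -/

section comb

variable {g₀ : Grid G₀} {g₁ : Grid G₁} (e : g₀.I ↪ g₁.I) (he : ∀ a b, g₁.idist (e a) (e b) = g₀.idist a b)

include he

theorem pra_conn_map (R : ℕ) (X : Finset g₀.I) : g₁.Conn R (X.map e) ↔ g₀.Conn R X := by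
  unfold Grid.Conn
  constructor
  · rintro ⟨hne, h⟩
    refine ⟨by simpa using hne, fun a ha b hb => ?_⟩
    have key : ∀ y, Relation.ReflTransGen (fun u v => u ∈ X.map e ∧ v ∈ X.map e ∧ g₁.idist u v ≤ R) (e a) y →
        ∃ b', y = e b' ∧ Relation.ReflTransGen (fun u v => u ∈ X ∧ v ∈ X ∧ g₀.idist u v ≤ R) a b' := by
      intro y hy
      induction hy with
      | refl => exact ⟨a, rfl, Relation.ReflTransGen.refl⟩
      | @tail y z _ hyz ih =>
        obtain ⟨b', rfl, hb'⟩ := ih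
        obtain ⟨h1, h2, h3⟩ := hyz
        obtain ⟨c, hc, rfl⟩ := Finset.mem_map.1 h2
        refine ⟨c, rfl, hb'.tail ⟨?_, hc, by rwa [he] at h3⟩⟩
        simpa using h1
    obtain ⟨b', hbb, hp⟩ := key (e b) (h _ (Finset.mem_map_of_mem e ha) _ (Finset.mem_map_of_mem e hb))
    rwa [e.injective hbb]
  · rintro ⟨hne, h⟩
    refine ⟨by simpa using hne, ?_⟩
    intro a' ha' b' hb'
    obtain ⟨a, ha, rfl⟩ := Finset.mem_map.1 ha'
    obtain ⟨b, hb, rfl⟩ := Finset.mem_map.1 hb'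
    exact Relation.ReflTransGen.lift e (fun u v huv => ⟨Finset.mem_map_of_mem e huv.1, Finset.mem_map_of_mem e huv.2.1,
      by rw [he]; exact huv.2.2⟩) _ _ (h a ha b hb)

theorem pra_comps_map (R : ℕ) (V : Finset g₀.I) : g₁.comps R (V.map e) = (g₀.comps R V).map (Finset.mapEmbedding e).toEmbedding := by
  ext Y
  rw [Alg.mem_comps, Finset.mem_map]
  simp only [Alg.mem_comps, RelEmbedding.coe_toEmbedding, Finset.mapEmbedding_apply]
  constructor
  · rintro ⟨h1, h2, h3⟩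
    obtain ⟨X, hX, rfl⟩ := Finset.subset_map_iff.1 h1
    refine ⟨X, ⟨hX, (pra_conn_map e he R X).1 h2, fun a ha b hb hab => ?_⟩, rfl⟩
    have := h3 (e a) (Finset.mem_map_of_mem e ha) (e b) (Finset.mem_map_of_mem e hb) (by rw [he]; exact hab)
    simpa using this
  · rintro ⟨X, ⟨h1, h2, h3⟩, rfl⟩
    refine ⟨Finset.map_subset_map.2 h1, (pra_conn_map e he R X).2 h2, ?_⟩
    intro a' ha' b' hb' hab
    obtain ⟨a, ha, rfl⟩ := Finset.mem_map.1 ha'
    obtain ⟨b, hb, rfl⟩ := Finset.mem_map.1 hb'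
    rw [he] at hab
    exact Finset.mem_map_of_mem e (h3 a ha b hb hab)

theorem pra_idiam_map (X : Finset g₀.I) : g₁.idiam (X.map e) = g₀.idiam X := by
  unfold Grid.idiam
  simp only [Finset.sup_map, Function.comp_def, he]

theorem pra_newSupp_map (r : ℕ) (W T : Finset g₀.I) : newSupp r g₁ (W.map e) (T.map e) = (newSupp r g₀ W T).map e := by
  unfold newSupp
  rw [pra_comps_map e he]
  ext a
  simp only [Finset.mem_union, Finset.mem_map, Finset.mem_biUnion, Finset.mem_filter, RelEmbedding.coe_toEmbedding,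
    Finset.mapEmbedding_apply, id]
  constructor
  · rintro (⟨b, hb, rfl⟩ | ⟨Y, ⟨⟨X, hX, rfl⟩, h2⟩, h3⟩)
    · exact ⟨b, Or.inl hb, rfl⟩
    · obtain ⟨b, hb, rfl⟩ := Finset.mem_map.1 h3
      rw [← Finset.map_inter, Finset.map_eq_empty] at h2
      exact ⟨b, Or.inr ⟨X, ⟨hX, h2⟩, hb⟩, rfl⟩
  · rintro ⟨b, hb | ⟨X, ⟨hX, h2⟩, h3⟩, rfl⟩
    · exact Or.inl ⟨b, hb, rfl⟩
    · refine Or.inr ⟨X.map e, ⟨⟨X, hX, rfl⟩, ?_⟩, Finset.mem_map_of_mem e h3⟩
      rw [← Finset.map_inter, Finset.map_eq_empty]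
      exact h2

end comb

/-! ## 2. The three steps -/

section steps

variable {𝔸₀ 𝔸₁ 𝔹 : Type} [CommRing 𝔸₀] [Algebra ℂ 𝔸₀] [CommRing 𝔸₁] [Algebra ℂ 𝔸₁] [CommRing 𝔹]
  (φ₀ : 𝔸₀ →+* 𝔹) (φ₁ : 𝔸₁ →+* 𝔹)

theorem pra_powerset_map {α β : Type} (e : α ↪ β) (Y : Finset α) :
    (Y.map e).powerset = Y.powerset.map (Finset.mapEmbedding e).toEmbedding := by
  ext Z
  simp only [Finset.mem_powerset, Finset.mem_map, RelEmbedding.coe_toEmbedding, Finset.mapEmbedding_apply]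
  constructor
  · intro h
    obtain ⟨X, hX, rfl⟩ := Finset.subset_map_iff.1 h
    exact ⟨X, hX, rfl⟩
  · rintro ⟨X, hX, rfl⟩
    exact Finset.map_subset_map.2 hX

theorem pra_sum_powerset_map {α β M : Type} [AddCommMonoid M] (e : α ↪ β) (Y : Finset α) (F : Finset β → M) :
    ∑ Z ∈ (Y.map e).powerset, F Z = ∑ Z ∈ Y.powerset, F (Z.map e) := by
  rw [pra_powerset_map, Finset.sum_map]
  rfl

theorem pra_prod_smul {𝔸 ι : Type} [CommRing 𝔸] [Algebra ℂ 𝔸] (T : Finset ι) (c : ι → ℂ) (x : 𝔸) :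
    (∏ b ∈ T, c b) • x = (∏ b ∈ T, c b • (1 : 𝔸)) * x := by
  rw [Algebra.smul_def, map_prod]
  simp only [Algebra.algebraMap_eq_smul_one]

/-- STEP 3 -/
theorem pr_Kext_transport {g₀ : Grid G₀} {g₁ : Grid G₁} (e : g₀.I ↪ g₁.I) (he : ∀ a b, g₁.idist (e a) (e b) = g₀.idist a b) (R : ℕ)
    (H₀ : Finset g₀.I → 𝔸₀) (H₁ : Finset g₁.I → 𝔸₁) (d₀ : Desig g₀ 𝔸₀) (d₁ : Desig g₁ 𝔸₁) (Y : Finset g₀.I)
    (hH : ∀ Z ⊆ Y, φ₀ (H₀ Z) = φ₁ (H₁ (Z.map e)))
    (ha : ∀ b ∈ Y, φ₀ (((1 + d₀.a b)⁻¹ - 1) • (1 : 𝔸₀)) = φ₁ (((1 + d₁.a (e b))⁻¹ - 1) • (1 : 𝔸₁))) :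
    φ₀ (Kext R g₀ H₀ d₀ Y) = φ₁ (Kext R g₁ H₁ d₁ (Y.map e)) := by
  unfold Kext
  by_cases hY : g₀.Conn R Y
  · rw [if_pos hY, if_pos ((pra_conn_map e he R Y).2 hY)]
    simp only [Finset.sum_filter]
    rw [pra_sum_powerset_map, map_sum, map_sum]
    refine Finset.sum_congr rfl fun Z hZ => ?_
    rw [pra_sum_powerset_map, map_sum, map_sum]
    refine Finset.sum_congr rfl fun T hT => ?_
    rw [← Finset.map_union]
    by_cases hZT : Z ∪ T = Y
    · rw [if_pos hZT, if_pos (by rw [hZT]), pra_prod_smul, pra_prod_smul, map_mul, map_mul, map_prod, map_prod, map_prod, map_prod,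
        pra_comps_map e he, Finset.prod_map, Finset.prod_map]
      congr 1
      · exact Finset.prod_congr rfl fun b hb => ha b (Finset.mem_powerset.1 hT hb)
      · refine Finset.prod_congr rfl fun X hX => ?_
        exact hH X ((Alg.comps_subset hX).trans (Finset.mem_powerset.1 hZ))
    · rw [if_neg hZT, if_neg (fun h => hZT (Finset.map_inj.1 h)), map_zero, map_zero]
  · rw [if_neg hY, if_neg (fun h => hY ((pra_conn_map e he R Y).1 h)), map_zero, map_zero]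

omit [Algebra ℂ 𝔸₀] [Algebra ℂ 𝔸₁] in
theorem pra_tempObj_transport {g₀ : Grid G₀} {g₁ : Grid G₁} (e : g₀.I ↪ g₁.I)
    (Kt₀ : Finset g₀.I → 𝔸₀) (Kt₁ : Finset g₁.I → 𝔸₁) (d₀ : Desig g₀ 𝔸₀) (d₁ : Desig g₁ 𝔸₁) (T Y : Finset g₀.I)
    (hK : Y ∩ T = ∅ → φ₀ (Kt₀ Y) = φ₁ (Kt₁ (Y.map e)))
    (hF : ∀ b ∈ Y, (Y ∩ T = ∅ ∨ b ∈ T) → φ₀ (d₀.F Y b) = φ₁ (d₁.F (Y.map e) (e b))) :
    φ₀ (tempObj g₀ Kt₀ d₀ T Y) = φ₁ (tempObj g₁ Kt₁ d₁ (T.map e) (Y.map e)) := by
  unfold tempObj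
  rw [← Finset.map_inter]
  by_cases h : Y ∩ T = ∅
  · rw [if_pos h, if_pos (by rw [h, Finset.map_empty]), map_sub, map_sub, map_sum, map_sum, Finset.sum_map, hK h]
    congr 1
    exact Finset.sum_congr rfl fun b hb => hF b hb (Or.inl h)
  · rw [if_neg h, if_neg (fun h' => h (Finset.map_eq_empty.1 h')), map_sum, map_sum, Finset.sum_map]
    refine Finset.sum_congr rfl fun b hb => ?_
    by_cases hb' : Y ∩ T = {b}
    · have hbT : b ∈ T := by
        have : b ∈ Y ∩ T := by rw [hb']; exact Finset.mem_singleton_self b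
        exact (Finset.mem_inter.1 this).2
      rw [if_pos hb', if_pos (by rw [hb', Finset.map_singleton])]
      exact hF b hb (Or.inr hbT)
    · rw [if_neg hb', if_neg (fun h' => hb' (by rwa [← Finset.map_singleton, Finset.map_inj] at h')), map_zero, map_zero]

/-- STEP 2.  `hnb`: the unit neighbourhood of the image of `Z` is in the range of the embedding. -/
theorem pr_Hrel_transport {g₀ : Grid G₀} {g₁ : Grid G₁} (e : g₀.I ↪ g₁.I) (he : ∀ a b, g₁.idist (e a) (e b) = g₀.idist a b) (r R : ℕ)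
    (Kt₀ : Finset g₀.I → 𝔸₀) (Kt₁ : Finset g₁.I → 𝔸₁) (d₀ : Desig g₀ 𝔸₀) (d₁ : Desig g₁ 𝔸₁)
    (hd₀ : d₀.Small r g₀) (hd₁ : d₁.Small r g₁) (Z : Finset g₀.I)
    (hnb : ∀ b ∈ Z, ∀ b' : g₁.I, g₁.idist (e b) b' ≤ 1 → b' ∈ Set.range e)
    (hK : ∀ Y' ⊆ Z, φ₀ (Kt₀ Y') = φ₁ (Kt₁ (Y'.map e)))
    (hF : ∀ b ∈ Z, ∀ Y', φ₀ (d₀.F Y' b) = φ₁ (d₁.F (Y'.map e) (e b))) :
    φ₀ (Hrel r R g₀ Kt₀ d₀ Z) = φ₁ (Hrel r R g₁ Kt₁ d₁ (Z.map e)) := by
  unfold Hrel
  by_cases hZ : g₀.Conn R Z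
  · rw [if_pos hZ, if_pos ((pra_conn_map e he R Z).2 hZ)]
    simp only [Finset.sum_filter]
    -- only the images of `e` contribute on the `g₁` side
    have hres : ∑ W' : Finset g₁.I, ∑ T' ∈ W'.powerset,
          (if newSupp r g₁ W' T' = Z.map e then ∏ Y ∈ g₁.comps r W', tempObj g₁ Kt₁ d₁ T' Y else 0)
        = ∑ W : Finset g₀.I, ∑ T' ∈ (W.map e).powerset,
          (if newSupp r g₁ (W.map e) T' = Z.map e then ∏ Y ∈ g₁.comps r (W.map e), tempObj g₁ Kt₁ d₁ T' Y else 0) := by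
      have h1 := Finset.sum_map (Finset.univ : Finset (Finset g₀.I)) (Finset.mapEmbedding e).toEmbedding
        (fun W' : Finset g₁.I => ∑ T' ∈ W'.powerset,
          (if newSupp r g₁ W' T' = Z.map e then ∏ Y ∈ g₁.comps r W', tempObj g₁ Kt₁ d₁ T' Y else 0))
      refine Eq.trans (Eq.symm ?_) h1
      refine Finset.sum_subset (Finset.subset_univ _) fun W' _ hW' => ?_
      refine Finset.sum_eq_zero fun T' hT' => ?_
      by_cases hs : newSupp r g₁ W' T' = Z.map e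
      · rw [if_pos hs]
        by_cases hG : Alg.Good r W' T'
        · exfalso
          apply hW'
          have hsub : W' ⊆ (Finset.univ : Finset g₀.I).map e := by
            intro a ha
            have h2 := Alg.good_subset_nb (Finset.mem_powerset.1 hT') hG ha
            rw [hs] at h2
            obtain ⟨b', hb', hab⟩ := Alg.mem_nb.1 h2
            obtain ⟨b, hb, rfl⟩ := Finset.mem_map.1 hb'
            rw [Alg.idist_comm] at hab
            obtain ⟨a, rfl⟩ := hnb b hb a hab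
            exact Finset.mem_map_of_mem e (Finset.mem_univ a)
          obtain ⟨W, _, rfl⟩ := Finset.subset_map_iff.1 hsub
          simp only [Finset.mem_map, Finset.mem_univ, true_and, RelEmbedding.coe_toEmbedding, Finset.mapEmbedding_apply]
          exact ⟨W, rfl⟩
        · exact Alg.om_eq_zero Kt₁ d₁ hd₁ hG
      · rw [if_neg hs]
    rw [hres, map_sum, map_sum]
    refine Finset.sum_congr rfl fun W _ => ?_
    rw [pra_sum_powerset_map, map_sum, map_sum]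
    refine Finset.sum_congr rfl fun T hT => ?_
    rw [pra_newSupp_map e he]
    by_cases hs : newSupp r g₀ W T = Z
    · rw [if_pos hs, if_pos (by rw [hs]), map_prod, map_prod, pra_comps_map e he, Finset.prod_map]
      refine Finset.prod_congr rfl fun Y hY => ?_
      simp only [RelEmbedding.coe_toEmbedding, Finset.mapEmbedding_apply]
      have hTZ : T ⊆ Z := by
        rw [← hs]
        unfold newSupp
        exact Finset.subset_union_left
      have hYZ : Y ∩ T = ∅ → Y ⊆ Z := by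
        intro h0 a ha
        rw [← hs]
        unfold newSupp
        apply Finset.mem_union_right
        simp only [Finset.mem_biUnion, Finset.mem_filter, id]
        exact ⟨Y, ⟨hY, h0⟩, ha⟩
      refine pra_tempObj_transport φ₀ φ₁ e Kt₀ Kt₁ d₀ d₁ T Y (fun h0 => hK Y (hYZ h0)) ?_
      rintro b hb (h0 | hbT)
      · exact hF b (hYZ h0 hb) Y
      · exact hF b (hTZ hbT) Y
    · rw [if_neg hs, if_neg (fun h => hs (Finset.map_inj.1 h)), map_zero, map_zero]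
  · rw [if_neg hZ, if_neg (fun h => hZ ((pra_conn_map e he R Z).1 h)), map_zero, map_zero]

variable {D0 D0' ℓ : ℕ} {P₀ : Pair G₀ D0 ℓ} {P₁ : Pair G₁ D0' ℓ}

/-- STEP 1.  `hup`, `hfib`: the embeddings of the two levels commute with `up`, with full fibres. -/
theorem pr_Ktil_transport (f : P₀.g.I ↪ P₁.g.I) (c : P₀.g'.I ↪ P₁.g'.I)
    (hf : ∀ a b, P₁.g.idist (f a) (f b) = P₀.g.idist a b) (hc : ∀ a b, P₁.g'.idist (c a) (c b) = P₀.g'.idist a b)
    (hup : ∀ a, P₁.N.up (f a) = c (P₀.N.up a)) (hfib : ∀ a' b, P₁.N.up a' = c b → a' ∈ Set.range f) (r R : ℕ)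
    (E₀ : 𝔸₀ → 𝔸₀) (E₁ : 𝔸₁ → 𝔸₁) (K₀ : Finset P₀.g.I → 𝔸₀) (K₁ : Finset P₁.g.I → 𝔸₁) (Y : Finset P₀.g'.I)
    (h : ∀ V : Finset P₀.g.I, P₀.N.cl V = Y →
      φ₀ (E₀ (∏ X ∈ P₀.g.comps R V, K₀ X)) = φ₁ (E₁ (∏ X ∈ P₀.g.comps R V, K₁ (X.map f)))) :
    φ₀ (Ktil P₀ r R E₀ K₀ Y) = φ₁ (Ktil P₁ r R E₁ K₁ (Y.map c)) := by
  have hcl : ∀ V : Finset P₀.g.I, P₁.N.cl (V.map f) = (P₀.N.cl V).map c := by
    intro V
    unfold Nest.cl
    ext a
    simp only [Finset.mem_image, Finset.mem_map]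
    constructor
    · rintro ⟨_, ⟨b, hb, rfl⟩, rfl⟩
      exact ⟨P₀.N.up b, ⟨b, hb, rfl⟩, (hup b).symm⟩
    · rintro ⟨_, ⟨b, hb, rfl⟩, rfl⟩
      exact ⟨f b, ⟨b, hb, rfl⟩, hup b⟩
  unfold Ktil
  by_cases hY : P₀.g'.Conn r Y
  · rw [if_pos hY, if_pos ((pra_conn_map c hc r Y).2 hY), map_sum, map_sum]
    refine Finset.sum_bij (fun V _ => V.map f) ?_ ?_ ?_ ?_
    · intro V hV
      simp only [Finset.mem_filter, Finset.mem_univ, true_and] at hV ⊢
      rw [hcl, hV]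
    · intro V _ V' _ hVV
      exact Finset.map_injective f hVV
    · intro V' hV'
      simp only [Finset.mem_filter, Finset.mem_univ, true_and] at hV'
      have hsub : V' ⊆ (Finset.univ : Finset P₀.g.I).map f := by
        intro a' ha'
        have h1 : P₁.N.up a' ∈ Y.map c := by
          rw [← hV']
          exact Finset.mem_image_of_mem _ ha'
        obtain ⟨b, _, hb⟩ := Finset.mem_map.1 h1
        obtain ⟨a, rfl⟩ := hfib a' b hb.symm
        exact Finset.mem_map_of_mem f (Finset.mem_univ a)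
      obtain ⟨V, _, rfl⟩ := Finset.subset_map_iff.1 hsub
      rw [hcl, Finset.map_inj] at hV'
      exact ⟨V, by simp [hV'], rfl⟩
    · intro V hV
      simp only [Finset.mem_filter, Finset.mem_univ, true_and] at hV
      rw [h V hV, pra_comps_map f hf, Finset.prod_map]
      rfl
  · rw [if_neg hY, if_neg (fun h => hY ((pra_conn_map c hc r Y).1 h)), map_zero, map_zero]

/-- **THE TRANSPORT LEMMA.**  PROVED from the three steps. -/
theorem pr_Kprime_transport (f : P₀.g.I ↪ P₁.g.I) (c : P₀.g'.I ↪ P₁.g'.I)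
    (hf : ∀ a b, P₁.g.idist (f a) (f b) = P₀.g.idist a b) (hc : ∀ a b, P₁.g'.idist (c a) (c b) = P₀.g'.idist a b)
    (hup : ∀ a, P₁.N.up (f a) = c (P₀.N.up a)) (hfib : ∀ a' b, P₁.N.up a' = c b → a' ∈ Set.range f) (r R : ℕ)
    (E₀ : 𝔸₀ → 𝔸₀) (E₁ : 𝔸₁ → 𝔸₁) (K₀ : Finset P₀.g.I → 𝔸₀) (K₁ : Finset P₁.g.I → 𝔸₁)
    (d₀ : Desig P₀.g' 𝔸₀) (d₁ : Desig P₁.g' 𝔸₁) (hd₀ : d₀.Small r P₀.g') (hd₁ : d₁.Small r P₁.g') (Y : Finset P₀.g'.I)
    (hnb : ∀ b ∈ Y, ∀ b' : P₁.g'.I, P₁.g'.idist (c b) b' ≤ 1 → b' ∈ Set.range c)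
    (hK : ∀ V : Finset P₀.g.I, P₀.N.cl V ⊆ Y →
      φ₀ (E₀ (∏ X ∈ P₀.g.comps R V, K₀ X)) = φ₁ (E₁ (∏ X ∈ P₀.g.comps R V, K₁ (X.map f))))
    (hF : ∀ b ∈ Y, ∀ Y', φ₀ (d₀.F Y' b) = φ₁ (d₁.F (Y'.map c) (c b)))
    (ha : ∀ b ∈ Y, φ₀ (((1 + d₀.a b)⁻¹ - 1) • (1 : 𝔸₀)) = φ₁ (((1 + d₁.a (c b))⁻¹ - 1) • (1 : 𝔸₁))) :
    φ₀ (Kprime P₀ r R E₀ K₀ d₀ Y) = φ₁ (Kprime P₁ r R E₁ K₁ d₁ (Y.map c)) := by
  unfold Kprime
  refine pr_Kext_transport φ₀ φ₁ c hc R _ _ d₀ d₁ Y (fun Z hZ => ?_) ha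
  refine pr_Hrel_transport φ₀ φ₁ c hc r R _ _ d₀ d₁ hd₀ hd₁ Z (fun b hb => hnb b (hZ hb)) (fun Y' hY' => ?_)
    (fun b hb => hF b (hZ hb))
  exact pr_Ktil_transport φ₀ φ₁ f c hf hc hup hfib r R E₀ E₁ K₀ K₁ Y' (fun V hV => hK V (hV ▸ hY'.trans hZ))

end steps

end

end Claimed.Agent.R285.F6.Pr
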