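import Claimed.Agent.R285.Obs.PairDefs
import Claimed.Agent.R285.Ent.Eta
import Claimed.Agent.R285.F4a.Ref

/-!
# ROW 285, unit OBS, block STOP of `Obs.pair_stop`, half (H2): THE ENTRY / PHYSICAL LINK      (helper31, consumer helper70 `Obs/PairStop.lean`)   -- KEEP
Nothing is sorried here.

The cutoff insertion ratio `\widehat M_n` is expressed by the ENTRY activities (level `j₀`), integrated against the terminal covariance `C_{≥ m₀}` and the common phase: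
  `Mhat = exp (-g_n / 2a) * Re term (ZA1 (KT (· + v/α)) (JT (· + v/α))) / Re term (ZA K0)`.
Inputs: `F4a.noisy_reference`, `TargetOrd`, `TargetLab` (total field, `v = 0`: the form of `F4b.UnitOK.ident`), `Ent.etu_*` (bridge `tauU`/`tauE`), `Obs.unitEnergy_eq_coclosed`.

## Exits
* `pen_link`       : generic volume, generic grids `c`, `g`; energy `∑ η²` over the retained bonds;
* `pen_link_vol`   : `𝒱 : F4b.Vol` free and centred; energy `Glue.unitEnergy (M / 2)`;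
* `pen_link_sq`    : `Q : F6.Sq`, `𝒱 = penVol Q m₀ ..`: the left side is `Q.Mhat b`; co-closedness in the `etaE` form of `SqData.Ok.coclosed`;
* `pen_link_ent`   : the same from `F4b.BulkOK`, `F4b.UnitOK`;   `pen_term_real`: the entry integrals are real;
* `pen_coclosed_iff`: the two forms of co-closedness;
* casts: `pen_grid_ext`, `pen_sq_c`, `pen_sq_g`, `pen_lev_eq` (`(penVol Q (side ..) ..).g = lev ..` is `rfl`);
* `pen_ZA_shA`, `pen_ZA1_shA`: translation of the field argument commutes with `ZA`, `ZA1`;  `pen_target_shift`: `TargetLab` with `v = 0` gives `TargetLab` with any `v`.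
-/

set_option autoImplicit false

namespace Claimed.Agent.R285.F6.Pr

open scoped BigOperators ENNReal NNReal
open MeasureTheory
open Claimed.Agent.R285 Claimed.Agent.R285.RG Claimed.Agent.R285.B4 Claimed.Agent.R285.F4a Claimed.Agent.R285.F4b

noncomputable section

variable {G : Geom}

/-! ## 1. Translations -/

theorem pen_ZA_shA (g : Grid G) (R : ℕ) (K : Act g) (lam : G.V → ℝ) (z : G.V → ℂ) :
    ZA g R (shA K lam) z = ZA g R K (z + toC lam) := by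
  unfold ZA
  simp only [Finset.sum_apply, Finset.prod_apply]
  rfl

theorem pen_ZA1_shA (g : Grid G) (R : ℕ) (K J : Act g) (lam : G.V → ℝ) (z : G.V → ℂ) :
    ZA1 g R (shA K lam) (shA J lam) z = ZA1 g R K J (z + toC lam) := by
  unfold ZA1
  simp only [Finset.sum_apply, Finset.prod_apply, Pi.mul_apply]
  rfl

/-- `𝓗^τ` depends on `ψ + v / α` only -/
theorem pen_Hav_shift (b a : ℝ) (ha : 0 < a) (c : Grid G) (m : ℕ) (τ : Face c → ℤ) (v ψ : G.V → ℝ) :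
    Hav b a c m τ v ψ = Hav b a c m τ 0 (fun x => ψ x + v x / Real.sqrt a) := by
  have hs : Real.sqrt a ≠ 0 := (Real.sqrt_pos.2 ha).ne'
  have key : ∀ ζ : G.V → ℝ, (fun x => v x + Real.sqrt a * (ψ x + ζ x))
      = fun x => (0 : G.V → ℝ) x + Real.sqrt a * ((ψ x + v x / Real.sqrt a) + ζ x) := by
    intro ζ
    funext x
    simp only [Pi.zero_apply]
    field_simp
    ring
  unfold Hav
  simp only [key]

/-- the labelled target in the total field gives the labelled target in the variable `ψ`, for every branch `v` -/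
theorem pen_target_shift (b a : ℝ) (ha : 0 < a) (c g : Grid G) (cG : ℝ) (v : G.V → ℝ) (KT JT : Act g)
    (h : TargetLab b a c g cG 0 KT JT) :
    TargetLab b a c g cG v (shA KT fun x => v x / Real.sqrt a) (shA JT fun x => v x / Real.sqrt a) := by
  intro ψ
  have e : (toC fun x => ψ x + v x / Real.sqrt a) = toC ψ + toC fun x => v x / Real.sqrt a := by
    funext x
    simp [toC]
  rw [pen_Hav_shift b a ha, h, pen_ZA1_shA, e]

/-! ## 2. `outer` and `term` -/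

/-- a function which represents a real function on real fields, up to a real scalar -/
theorem pen_term_eq (a : ℝ) (Γ : Matrix G.V G.V ℝ) (F : Fn G) (H : (G.V → ℝ) → ℝ) (cG : ℝ) (hc : cG ≠ 0)
    (hF : ∀ ψ, (H ψ : ℂ) = cG * F (toC ψ)) :
    term (2 * Real.pi / Real.sqrt a) Γ F = ((1 / (2 * Real.pi / Real.sqrt a) * (outer a Γ H / cG) : ℝ) : ℂ) := by
  have h1 : ∀ (t : ℝ) (ζ : G.V → ℝ), F (fun v => ((ζ v + t : ℝ) : ℂ)) = ((H (fun x => ζ x + t) / cG : ℝ) : ℂ) := by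
    intro t ζ
    have := hF (fun x => ζ x + t)
    have hc' : (cG : ℂ) ≠ 0 := by exact_mod_cast hc
    rw [Complex.ofReal_div, this, mul_div_cancel_left₀ _ hc']
    rfl
  unfold term outer
  simp only [h1]
  simp only [integral_complex_ofReal, intervalIntegral.integral_ofReal]
  simp only [integral_div, intervalIntegral.integral_div]
  push_cast
  ring

/-! ## 3. The link, generic form -/

/-- **the entry link**, generic volume -/
theorem pen_link (b a : ℝ) (hb : 0 < b) (ha : 0 < a) {c : Grid G} (hc : Whole c) (i0 : c.I) (g : Grid G) (hm : 1 ≤ g.m)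
    (Γ : Matrix G.V G.V ℝ) (hΓ : IsTerminal G Fam.entry g.m Γ) (v : G.V → ℝ)
    (hv : (Top.full c).CoClosed ((Top.full c).eta (tauU c) v))
    (cG : ℝ) (K0 KT JT : Act g) (h0 : TargetOrd b a c g cG K0) (hT : TargetLab b a c g cG 0 KT JT) :
    Phat b c i0 (tauU c) (fun _ => 1) / Phat b c i0 0 (fun _ => 1)
      = Real.exp (-(∑ e, (Top.full c).eta (tauU c) v e ^ 2) / (2 * a))
        * ((term (2 * Real.pi / Real.sqrt a) Γ
              (ZA1 g RR (shA KT fun x => v x / Real.sqrt a) (shA JT fun x => v x / Real.sqrt a))).re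
            / (term (2 * Real.pi / Real.sqrt a) Γ (ZA g RR K0)).re) := by
  rw [noisy_reference b a hb ha hc i0 g.m hm Γ hΓ (tauU c) v hv]
  have hcG : cG ≠ 0 := h0.1.ne'
  rw [pen_term_eq a Γ _ _ cG hcG (pen_target_shift b a ha c g cG v KT JT hT), pen_term_eq a Γ _ _ cG hcG h0.2,
    Complex.ofReal_re, Complex.ofReal_re]
  have hω : (1 / (2 * Real.pi / Real.sqrt a)) ≠ 0 :=
    one_div_ne_zero (div_ne_zero (by positivity) (Real.sqrt_pos.2 ha).ne')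
  rw [mul_div_mul_left _ _ hω, div_div_div_cancel_right₀ hcG]

/-! ## 4. Free centred squares -/

/-- `Obs.unitEnergy_eq_coclosed` for a free square which is not literally `Obs.fsq` -/
theorem pen_unitEnergy (hG : G.bc = BC.free) (n : ℕ) (hM : G.M = 2 * n) (v : G.V → ℝ)
    (hco : ∀ f : G.V → ℝ, ∑ e : G.V × Bool, etaE n v e * (f (stp e.1 e.2) - f e.1) = 0) :
    Glue.unitEnergy n = ∑ e : G.V × Bool, etaE n v e ^ 2 := by
  obtain ⟨bc, M, hMpos⟩ := G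
  simp only at hG hM
  subst hG hM
  exact Obs.unitEnergy_eq_coclosed n (by omega) v hco

/-- the unit field vanishes through a wall -/
theorem pen_etaE_wall (hG : G.bc = BC.free) (n : ℕ) (hM : G.M = 2 * n) (v : G.V → ℝ) (e : G.V × Bool) (he : stp e.1 e.2 = e.1) :
    etaE n v e = 0 := by
  obtain ⟨x, d⟩ := e
  simp only at he
  have ht : tauE n (x, d) = 0 := by
    unfold tauE
    rw [if_neg]
    rintro ⟨hd, h1, -⟩
    simp only at hd h1
    subst hd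
    exact (Ent.etu_stp_ne_false hG x).2 (by omega) he
  unfold etaE
  simp only [he, ht, sub_self, zero_add, Int.cast_zero, mul_zero]

/-- sums over the retained bonds of the full topology -/
theorem pen_sum_full (𝒱 : Vol) (hG : 𝒱.G.bc = BC.free) (F : 𝒱.G.V × Bool → ℝ) (hF : ∀ e, stp e.1 e.2 = e.1 → F e = 0) :
    ∑ e : (Top.full 𝒱.c).graph.E, F e.1 = ∑ e : 𝒱.G.V × Bool, F e :=
  cfl_sumE_eq (Top.full 𝒱.c) F fun e he => Ent.etu_full_edge 𝒱 hG e fun h => he (hF e h)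

/-- the two forms of co-closedness -/
theorem pen_coclosed_iff (𝒱 : Vol) (hG : 𝒱.G.bc = BC.free) (hcen : 2 * 𝒱.m ∣ 𝒱.G.M) (hs : 0 < 𝒱.s) (v : 𝒱.G.V → ℝ) :
    (Top.full 𝒱.c).CoClosed ((Top.full 𝒱.c).eta (tauU 𝒱.c) v)
      ↔ ∀ f : 𝒱.G.V → ℝ, ∑ e : 𝒱.G.V × Bool, etaE (𝒱.G.M / 2) v e * (f (stp e.1 e.2) - f e.1) = 0 := by
  refine ⟨fun h f => Ent.etu_coclosed 𝒱 hG hcen hs v h f, fun h f => ?_⟩
  have h2 : ∑ e : (Top.full 𝒱.c).graph.E, (Top.full 𝒱.c).eta (tauU 𝒱.c) v e * (f (stp e.1.1 e.1.2) - f e.1.1)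
      = ∑ e : (Top.full 𝒱.c).graph.E, (fun e : 𝒱.G.V × Bool => etaE (𝒱.G.M / 2) v e * (f (stp e.1 e.2) - f e.1)) e.1 :=
    Finset.sum_congr rfl fun e _ => by rw [Ent.etu_eta_eq 𝒱 hG hcen hs]
  exact h2.trans ((pen_sum_full 𝒱 hG _ (fun e he => by simp only [he, sub_self, mul_zero])).trans (h f))

theorem pen_half (𝒱 : Vol) (hcen : 2 * 𝒱.m ∣ 𝒱.G.M) : 𝒱.G.M = 2 * (𝒱.G.M / 2) :=
  (Nat.mul_div_cancel' (dvd_trans (Dvd.intro _ rfl) hcen)).symm

/-- the energy of the co-closed unit field is the unit energy -/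
theorem pen_energy (𝒱 : Vol) (hG : 𝒱.G.bc = BC.free) (hcen : 2 * 𝒱.m ∣ 𝒱.G.M) (hs : 0 < 𝒱.s) (v : 𝒱.G.V → ℝ)
    (hv : (Top.full 𝒱.c).CoClosed ((Top.full 𝒱.c).eta (tauU 𝒱.c) v)) :
    ∑ e, (Top.full 𝒱.c).eta (tauU 𝒱.c) v e ^ 2 = Glue.unitEnergy (𝒱.G.M / 2) := by
  have hM := pen_half 𝒱 hcen
  rw [pen_unitEnergy hG (𝒱.G.M / 2) hM v ((pen_coclosed_iff 𝒱 hG hcen hs v).1 hv)]
  have h2 : ∑ e : (Top.full 𝒱.c).graph.E, (Top.full 𝒱.c).eta (tauU 𝒱.c) v e ^ 2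
      = ∑ e : (Top.full 𝒱.c).graph.E, (fun e : 𝒱.G.V × Bool => etaE (𝒱.G.M / 2) v e ^ 2) e.1 :=
    Finset.sum_congr rfl fun e _ => by rw [Ent.etu_eta_eq 𝒱 hG hcen hs]
  exact h2.trans (pen_sum_full 𝒱 hG (fun e : 𝒱.G.V × Bool => etaE (𝒱.G.M / 2) v e ^ 2) (fun e he => by
    show etaE (𝒱.G.M / 2) v e ^ 2 = 0
    rw [pen_etaE_wall hG _ hM v e he]; norm_num))

/-- the cells of a volume are whole -/
theorem pen_whole (𝒱 : Vol) (hs : 0 < 𝒱.s) (h2 : 2 * 𝒱.s ≤ 𝒱.G.M) : Whole 𝒱.c where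
  pos := hs
  mono := (B8.torusGrid_ok 𝒱.G 𝒱.s _ hs).mono
  size := B8.torusGrid_card 𝒱.G 𝒱.s _ hs
  two := (Nat.le_div_iff_mul_le hs).2 h2

/-- **the entry link** in a free centred volume -/
theorem pen_link_vol (b a : ℝ) (hb : 0 < b) (ha : 0 < a) (𝒱 : Vol) (hG : 𝒱.G.bc = BC.free) (hcen : 2 * 𝒱.m ∣ 𝒱.G.M) (hs : 0 < 𝒱.s)
    (i0 : 𝒱.c.I) (Γ : Matrix 𝒱.G.V 𝒱.G.V ℝ) (hΓ : IsTerminal 𝒱.G Fam.entry 𝒱.m Γ) (v : 𝒱.G.V → ℝ)
    (hv : (Top.full 𝒱.c).CoClosed ((Top.full 𝒱.c).eta (tauU 𝒱.c) v))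
    (cG : ℝ) (K0 KT JT : Act 𝒱.g) (h0 : TargetOrd b a 𝒱.c 𝒱.g cG K0) (hT : TargetLab b a 𝒱.c 𝒱.g cG 0 KT JT) :
    Phat b 𝒱.c i0 (tauU 𝒱.c) (fun _ => 1) / Phat b 𝒱.c i0 0 (fun _ => 1)
      = Real.exp (-Glue.unitEnergy (𝒱.G.M / 2) / (2 * a))
        * ((term (2 * Real.pi / Real.sqrt a) Γ
              (ZA1 𝒱.g RR (shA KT fun x => v x / Real.sqrt a) (shA JT fun x => v x / Real.sqrt a))).re
            / (term (2 * Real.pi / Real.sqrt a) Γ (ZA 𝒱.g RR K0)).re) := by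
  have hm : 0 < 𝒱.m := by
    rcases Nat.eq_zero_or_pos 𝒱.m with h | h
    · exfalso
      have := 𝒱.G.hM
      rw [h] at hcen
      simp at hcen
      omega
    · exact h
  have hsm : 𝒱.s ≤ 𝒱.m := Nat.le_of_dvd hm 𝒱.hsm
  have h2 : 2 * 𝒱.s ≤ 𝒱.G.M := (Nat.mul_le_mul_left 2 hsm).trans (Nat.le_of_dvd 𝒱.G.hM hcen)
  rw [← pen_energy 𝒱 hG hcen hs v hv]
  exact pen_link b a hb ha (pen_whole 𝒱 hs h2) i0 𝒱.g hm Γ hΓ v hv cG K0 KT JT h0 hT

/-! ## 5. Casts of grids, aligned squares -/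

theorem pen_grid_ext (g g' : Grid G) (hm : g.m = g'.m) (hn : g.n = g'.n) (hb : ∀ i, (g.blk1 i : ℕ) = (g'.blk1 i : ℕ)) : g = g' := by
  obtain ⟨m, n, blk⟩ := g
  obtain ⟨m', n', blk'⟩ := g'
  simp only at hm hn hb
  subst hm hn
  congr
  funext i
  exact Fin.ext (hb i)

theorem pen_torusGrid_congr (m m' : ℕ) (h : m ∣ G.M) (h' : m' ∣ G.M) (e : m = m') : torusGrid G m h = torusGrid G m' h' := by
  subst e; rfl

/-- the observation cells of an aligned square -/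
theorem pen_sq_c (Q : Sq) (h : Q.s ∣ Q.G.M) : Q.c = torusGrid Q.G Q.s h := by
  refine pen_grid_ext _ _ rfl ?_ fun i => rfl
  show 2 * (Q.D * Q.r) = 2 * (Q.D * (Q.r * Q.s)) / Q.s
  rw [show 2 * (Q.D * (Q.r * Q.s)) = 2 * (Q.D * Q.r) * Q.s by ring, Nat.mul_div_cancel _ Q.hs]

/-- the terminal blocks of an aligned square -/
theorem pen_sq_g (Q : Sq) (m : ℕ) (hm : m = Q.m) (h : m ∣ Q.G.M) : Q.g = torusGrid Q.G m h := by
  subst hm
  refine pen_grid_ext _ _ rfl ?_ fun i => rfl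
  show 2 * Q.D = 2 * (Q.D * Q.m) / Q.m
  rw [show 2 * (Q.D * Q.m) = 2 * Q.D * Q.m by ring, Nat.mul_div_cancel _ Q.m_pos]

/-- the terminal blocks are the level `j'` of the tower -/
theorem pen_sq_lev (Q : Sq) (ℓ j : ℕ) (hm : Q.m = (2 ^ ℓ) ^ j) : Q.g = lev Q.G ℓ j := by
  have hd : (2 ^ ℓ) ^ j ∣ Q.G.M := by
    rw [← hm]
    exact ⟨2 * Q.D, by show 2 * (Q.D * Q.m) = Q.m * (2 * Q.D); ring⟩
  exact pen_sq_g Q _ (by rw [side_eq hd, hm]) _

/-- the volume of an aligned square with entry blocks of side `m₀` -/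
def penVol (Q : Sq) (m0 : ℕ) (hsm : Q.s ∣ m0) (hmM : m0 ∣ Q.G.M) : Vol := ⟨Q.G, Q.s, m0, hsm, hmM⟩

theorem pen_lev_eq (Q : Sq) (ℓ j : ℕ) (hsm : Q.s ∣ side Q.G ℓ j) : (penVol Q (side Q.G ℓ j) hsm (side_dvd Q.G ℓ j)).g = lev Q.G ℓ j := rfl

theorem pen_Mhat (Q : Sq) (b : ℝ) (c : Grid Q.G) (hc : Q.c = c) :
    ∃ i0 : c.I, Q.Mhat b = Phat b c i0 (tauU c) (fun _ => 1) / Phat b c i0 0 (fun _ => 1) := by
  subst hc
  exact ⟨Q.i0, rfl⟩

/-- **the entry link** for an aligned square: `\widehat M_n` by the entry activities -/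
theorem pen_link_sq (b a : ℝ) (hb : 0 < b) (ha : 0 < a) (Q : Sq) (m0 : ℕ) (hsm : Q.s ∣ m0) (hmM : m0 ∣ Q.G.M) (hcen : 2 * m0 ∣ Q.G.M)
    (Γ : Matrix Q.G.V Q.G.V ℝ) (hΓ : IsTerminal Q.G Fam.entry m0 Γ) (v : Q.G.V → ℝ)
    (hv : ∀ f : Q.G.V → ℝ, ∑ e : Q.G.V × Bool, etaE Q.n v e * (f (stp e.1 e.2) - f e.1) = 0)
    (cG : ℝ) (K0 KT JT : Act (penVol Q m0 hsm hmM).g)
    (h0 : TargetOrd b a (penVol Q m0 hsm hmM).c (penVol Q m0 hsm hmM).g cG K0)
    (hT : TargetLab b a (penVol Q m0 hsm hmM).c (penVol Q m0 hsm hmM).g cG 0 KT JT) :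
    Q.Mhat b = Real.exp (-Glue.unitEnergy Q.n / (2 * a))
        * ((term (2 * Real.pi / Real.sqrt a) Γ
              (ZA1 (penVol Q m0 hsm hmM).g RR (shA KT fun x => v x / Real.sqrt a) (shA JT fun x => v x / Real.sqrt a))).re
            / (term (2 * Real.pi / Real.sqrt a) Γ (ZA (penVol Q m0 hsm hmM).g RR K0)).re) := by
  obtain ⟨i0, hi0⟩ := pen_Mhat Q b (penVol Q m0 hsm hmM).c (pen_sq_c Q _)
  have hn : (penVol Q m0 hsm hmM).G.M / 2 = Q.n := by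
    show 2 * Q.n / 2 = Q.n
    omega
  have hv' : (Top.full (penVol Q m0 hsm hmM).c).CoClosed ((Top.full (penVol Q m0 hsm hmM).c).eta (tauU (penVol Q m0 hsm hmM).c) v) := by
    rw [pen_coclosed_iff (penVol Q m0 hsm hmM) rfl hcen Q.hs v, hn]
    exact hv
  have key := pen_link_vol b a hb ha (penVol Q m0 hsm hmM) rfl hcen Q.hs i0 Γ hΓ v hv' cG K0 KT JT h0 hT
  rw [hn] at key
  exact hi0.trans key

/-- **the entry link** for an aligned square, from the two exits of `F4b.initialization` (any norms) -/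
theorem pen_link_ent (D : EntryData) (b0 a : ℝ) (hb : 0 < b0) (ha : 0 < a) (p pT : Par) (o oT : ObsPar) (r ε εT εJ : ℝ) (hr : 0 < r)
    (Q : Sq) (m0 : ℕ) (hsm : Q.s ∣ m0) (hmM : m0 ∣ Q.G.M) (hcen : 2 * m0 ∣ Q.G.M)
    (hB : BulkOK D b0 a p o r ε (penVol Q m0 hsm hmM)) (hU : UnitOK D b0 a pT oT εT εJ (penVol Q m0 hsm hmM))
    (Γ : Matrix Q.G.V Q.G.V ℝ) (hΓ : IsTerminal Q.G Fam.entry m0 Γ) (v : Q.G.V → ℝ)
    (hv : ∀ f : Q.G.V → ℝ, ∑ e : Q.G.V × Bool, etaE Q.n v e * (f (stp e.1 e.2) - f e.1) = 0) :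
    Q.Mhat b0 = Real.exp (-Glue.unitEnergy Q.n / (2 * a))
        * ((term (2 * Real.pi / Real.sqrt a) Γ
              (ZA1 (penVol Q m0 hsm hmM).g RR (shA (D.KT (penVol Q m0 hsm hmM)) fun x => v x / Real.sqrt a)
                (shA (D.JT (penVol Q m0 hsm hmM)) fun x => v x / Real.sqrt a))).re
            / (term (2 * Real.pi / Real.sqrt a) Γ (ZA (penVol Q m0 hsm hmM).g RR (D.K0 (penVol Q m0 hsm hmM) (b0 : ℂ)))).re) :=
  pen_link_sq b0 a hb ha Q m0 hsm hmM hcen Γ hΓ v hv (D.sc (penVol Q m0 hsm hmM) b0) _ _ _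
    (hB.ident b0 (by simpa using hr)) hU.ident

/-- the two entry integrals are real numbers -/
theorem pen_term_real (a : ℝ) (Γ : Matrix G.V G.V ℝ) (F : Fn G) (H : (G.V → ℝ) → ℝ) (cG : ℝ) (hc : cG ≠ 0)
    (hF : ∀ ψ, (H ψ : ℂ) = cG * F (toC ψ)) :
    term (2 * Real.pi / Real.sqrt a) Γ F = (((term (2 * Real.pi / Real.sqrt a) Γ F).re : ℝ) : ℂ) := by
  rw [pen_term_eq a Γ F H cG hc hF, Complex.ofReal_re]

end

end Claimed.Agent.R285.F6.Pr
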