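import Claimed.Agent.R285.Obs.PairStop
import Claimed.Agent.R285.Obs.PairEnt
import Claimed.Agent.R285.Obs.PairConv
import Claimed.Agent.R285.Obs.PairS

/-!
# ROW 285, unit OBS, BP-OBS-L62, block STOP, parts 3-5: REG, CHAIN, EXIT      (architect helper70)   -- KEEP

TARGET: the field `ident` of `Pr.AtStop` (`Obs/PairConv.lean`) and `0 < Dex`, for `x = hist .. i`, `Dex = (Pr.Dex ..).re`, `cex = (Pr.cex ..).re`: exit `prs_ident`.
PAPER-FREE.  Everything is stated for ONE volume `G` (any boundary convention until the last theorem).  Leaves `L-STOP-*`; plans in the docstrings.  Prefix `prs_`.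
3. REG    `prs_tint_sum`, `prs_term_conv`     : sums of local functions of finite size are terminally integrable; one shell inside `term`.
4. STEP   `prs_step_Z`, `prs_step_Z1`         : one step of the three terminal quantities, abstract pair.
   CHAIN  `prs_chain_alg` (algebra), `prs_chain` (the history).
5. EXIT   `prs_off_aff`, `prs_real_*`, `prs_Dex_pos`, `prs_ident`.
-/

set_option autoImplicit false

namespace Claimed.Agent.R285.F6.Pr

open scoped BigOperators ENNReal NNReal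
open MeasureTheory ProbabilityTheory
open Claimed.Agent.R285 Claimed.Agent.R285.RG Claimed.Agent.R285.F4a Claimed.Agent.R285.B4 Claimed.Agent.R285.F4b

noncomputable section

variable {G : Geom}

/-! ## 3. REG -/

/-- monotonicity of the regulator in the support -/
theorem prs_wt_mono (p : Par) (g : Grid G) (hadm : p.Adm g) (V : Extra g) (W : Finset g.I) (φ : G.V → ℝ) :
    Wt g p.δ p.κ V W φ ≤ Wt g p.δ p.κ V Finset.univ φ := by
  unfold Wt
  apply Real.exp_le_exp.2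
  have h1 := hadm.mono W Finset.univ (Finset.subset_univ W) φ
  have h2 := V.mono W Finset.univ φ (Finset.subset_univ W)
  have h3 := mul_le_mul_of_nonneg_left h1 hadm.κ_pos.le
  linarith

/-- the EXPLICIT dominating function of a sum of local functions of finite size (for `L-STOP-R1`, `L-STOP-R3`) -/
theorem prs_sum_norm_le (p : Par) (hh : 0 < p.h0) (g : Grid G) (hadm : p.Adm g) (V : Extra g) (F : Finset g.I → Fn G)
    (hfin : ∀ W, fnSize p g V W (F W) ≠ ⊤) (φ : G.V → ℝ) :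
    ‖(∑ W : Finset g.I, F W) (toC φ)‖ ≤ (∑ W : Finset g.I, (fnSize p g V W (F W)).toReal) * Wt g p.δ p.κ V Finset.univ φ := by
  rw [Finset.sum_apply, Finset.sum_mul]
  refine (norm_sum_le _ _).trans (Finset.sum_le_sum fun W _ => ?_)
  have h : ‖F W (toC φ)‖ₑ ≤ fnSize p g V W (F W) * ENNReal.ofReal (Wt g p.δ p.κ V W φ) := by
    have h0 := Hol.nnnorm_le_fnSize_mul p g V W (F W) φ 0 (by rw [Hol.tnorm_zero]; exact hh)
    rwa [add_zero, ← enorm_eq_nnnorm] at h0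
  have h1 : ‖F W (toC φ)‖ ≤ (fnSize p g V W (F W)).toReal * Wt g p.δ p.κ V W φ := by
    have h2 := ENNReal.toReal_mono (ENNReal.mul_ne_top (hfin W) ENNReal.ofReal_ne_top) h
    rw [toReal_enorm, ENNReal.toReal_mul, ENNReal.toReal_ofReal (Hol.Wt_pos g p.δ p.κ V W φ).le] at h2
    exact h2
  exact h1.trans (mul_le_mul_of_nonneg_left (prs_wt_mono p g hadm V W φ) ENNReal.toReal_nonneg)

/-- continuity on real fields of a sum of local functions -/
theorem prs_sum_cont (p : Par) (hh : 0 < p.h0) (g : Grid G) (col : ℕ) (F : Finset g.I → Fn G) (hF : ∀ W, LocalFn p col g W (F W)) :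
    Continuous fun φ : G.V → ℝ => (∑ W : Finset g.I, F W) (toC φ) := by
  simp only [Finset.sum_apply]
  exact continuous_finsetSum _ fun W _ => (hF W).hol.continuousOn.comp_continuous Hol.toC_continuous fun φ =>
    Rdo.rdo_s3_strip p.h0 hh g W (toC φ) fun v => Complex.ofReal_im _

/-- the period on real fields of a sum of local functions -/
theorem prs_sum_per (p : Par) (hh : 0 < p.h0) (g : Grid G) (col : ℕ) (F : Finset g.I → Fn G) (hF : ∀ W, LocalFn p col g W (F W))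
    (φ : G.V → ℝ) : (∑ W : Finset g.I, F W) (toC fun v => φ v + p.ω) = (∑ W : Finset g.I, F W) (toC φ) := by
  rw [Finset.sum_apply, Finset.sum_apply]
  refine Finset.sum_congr rfl fun W _ => ?_
  have h := (hF W).per (toC φ) (Rdo.rdo_s3_strip p.h0 hh g W (toC φ) fun v => Complex.ofReal_im _)
  rw [← h]
  congr 1
  funext v
  simp [toC]

/-- **LEAF L-STOP-R1.**  A finite sum of local functions `F W` (support `W`) of finite size is terminally integrable as soon as the regulator of the whole volume is.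
PLAN: `D φ := (∑ W, (fnSize p g V W (F W)).toReal) * Wt g p.δ p.κ V univ φ`.
`cont`: `Obs.ta_hol_continuous` (`Obs/TermA.lean`; or `Hol.continuous_comp_shift`) for each `F W`, real fields lie in all strips (`Rdo.rdo_s3_strip`);  `per`: `LocalFn.per` with the integer `1` at the real field;
`D` blind to constants: `Hol.Wt_add_const` / `Obs.ta_wt_const`;  bound: `Hol.nnnorm_le_fnSize_mul` / `Obs.ta_enorm_le` + monotonicity of `Wt` in the support (copy the 8 lines `hmono` of `Rdo.rdo_s3_ZA_bd`, `Rdo/Stop.lean`);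
finiteness: `ENNReal.ofReal_mul`, `lintegral_const_mul'`. -/
theorem prs_tint_sum (p : Par) (hh : 0 < p.h0) (g : Grid G) (hadm : p.Adm g) (V : Extra g) (col : ℕ) (Γ : Matrix G.V G.V ℝ)
    (F : Finset g.I → Fn G) (hF : ∀ W, LocalFn p col g W (F W)) (hfin : ∀ W, fnSize p g V W (F W) ≠ ⊤)
    (hint : ∫⁻ ζ, ENNReal.ofReal (Wt g p.δ p.κ V Finset.univ ζ) ∂(gauss G Γ) ≠ ⊤) : TInt Γ p.ω (∑ W : Finset g.I, F W) := by
  refine ⟨prs_sum_cont p hh g col F hF, prs_sum_per p hh g col F hF,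
    fun φ => (∑ W : Finset g.I, (fnSize p g V W (F W)).toReal) * Wt g p.δ p.κ V Finset.univ φ, fun φ c => ?_,
    prs_sum_norm_le p hh g hadm V F hfin, ?_⟩
  · show _ * Wt g p.δ p.κ V Finset.univ (fun v => φ v + c) = _
    rw [Hol.Wt_add_const]
  · have hC : (0 : ℝ) ≤ ∑ W : Finset g.I, (fnSize p g V W (F W)).toReal := Finset.sum_nonneg fun W _ => ENNReal.toReal_nonneg
    simp only [ENNReal.ofReal_mul hC]
    rw [lintegral_const_mul' _ _ ENNReal.ofReal_ne_top]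
    exact ENNReal.mul_ne_top ENNReal.ofReal_ne_top hint

/-- continuity, period and ONE explicit dominating regulator for a finite sum of local functions of finite size -/
theorem prs_r3_dom (p : Par) (hh : 0 < p.h0) (g : Grid G) (hadm : p.Adm g) (V : Extra g) (col : ℕ)
    (F : Finset g.I → Fn G) (hF : ∀ W, LocalFn p col g W (F W)) (hfin : ∀ W, fnSize p g V W (F W) ≠ ⊤) :
    (Continuous fun φ : G.V → ℝ => (∑ W : Finset g.I, F W) (toC φ)) ∧
    (∀ φ : G.V → ℝ, (∑ W : Finset g.I, F W) (toC fun v => φ v + p.ω) = (∑ W : Finset g.I, F W) (toC φ)) ∧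
    ∀ φ : G.V → ℝ, ‖(∑ W : Finset g.I, F W) (toC φ)‖
      ≤ (∑ W : Finset g.I, (fnSize p g V W (F W)).toReal) * Wt g p.δ p.κ V Finset.univ φ := by
  refine ⟨?_, ?_, ?_⟩
  · simp only [Finset.sum_apply]
    refine continuous_finsetSum _ fun W _ => ?_
    refine (hF W).hol.continuousOn.comp_continuous Hol.toC_continuous fun φ => ?_
    exact Rdo.rdo_s3_strip p.h0 hh g W _ fun v => Complex.ofReal_im _
  · intro φ
    simp only [Finset.sum_apply]
    refine Finset.sum_congr rfl fun W _ => ?_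
    have h := (hF W).per (toC φ) (Rdo.rdo_s3_strip p.h0 hh g W _ fun v => Complex.ofReal_im _)
    have e : (toC fun v => φ v + p.ω) = fun v => toC φ v + (p.ω : ℂ) := by
      funext v
      simp [toC]
    rw [e, h]
  · intro φ
    rw [Finset.sum_apply, Finset.sum_mul]
    refine (norm_sum_le _ _).trans (Finset.sum_le_sum fun W _ => ?_)
    have hmono : Wt g p.δ p.κ V W φ ≤ Wt g p.δ p.κ V Finset.univ φ := by
      unfold Wt
      apply Real.exp_le_exp.2
      have h1 := hadm.mono W Finset.univ (Finset.subset_univ W) φ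
      have h2 := V.mono W Finset.univ φ (Finset.subset_univ W)
      have h3 := mul_le_mul_of_nonneg_left h1 hadm.κ_pos.le
      linarith
    have h1 := Hol.nnnorm_le_fnSize_mul p g V W (F W) φ 0 (by rw [Hol.tnorm_zero]; exact_mod_cast hh)
    rw [add_zero] at h1
    have h2 : ‖F W (toC φ)‖ ≤ (fnSize p g V W (F W)).toReal * Wt g p.δ p.κ V W φ := by
      have h3 := ENNReal.toReal_mono (ENNReal.mul_ne_top (hfin W) ENNReal.ofReal_ne_top) h1
      rwa [ENNReal.coe_toReal, coe_nnnorm, ENNReal.toReal_mul, ENNReal.toReal_ofReal (show 0 ≤ Wt g p.δ p.κ V W φ from (Real.exp_pos _).le)] at h3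
    exact h2.trans (mul_le_mul_of_nonneg_left hmono ENNReal.toReal_nonneg)

/-- the standing hypotheses of one step `g → g'` of the terminal quantities, in ONE norm `p`; `Γ`, `Γ'` = terminal covariances of the two levels -/
structure TStep (p : Par) (col ρ r R n0 : ℕ) (cst : ℝ≥0) {D0 ℓ : ℕ} (P : Pair G D0 ℓ) (Vf : Extra P.g) (Vc : Extra P.g')
    (Γ Γ' : Matrix G.V G.V ℝ) : Prop where
  hω : 0 < p.ω
  hh : 0 < p.h0
  hA : 0 < p.A
  hρ : ρ + 1 < r
  hrR : r + 2 < R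
  hcol : 2 * col < P.g'.m
  hL : R ≤ 2 ^ ℓ
  hR : max 5 Vf.sep ≤ R
  hR' : max 5 Vc.sep ≤ R
  adm : p.Adm P.g
  adm' : p.Adm P.g'
  psd : (shell G Fam.entry P.g.m P.g'.m).PosSemidef
  rng : FinRange (shell G Fam.entry P.g.m P.g'.m) (ρ * P.g'.m)
  reg : RegStable R n0 cst p.δ p.κ P Vf Vc (shell G Fam.entry P.g.m P.g'.m)
  term : IsTerminal G Fam.entry P.g.m Γ
  term' : IsTerminal G Fam.entry P.g'.m Γ'
  /-- `Obs.terminal_regulator` at the coarse level -/
  int' : ∫⁻ ζ, ENNReal.ofReal (Wt P.g' p.δ p.κ Vc Finset.univ ζ) ∂(gauss G Γ') ≠ ⊤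

section step

variable {p : Par} {col ρ r R n0 : ℕ} {cst : ℝ≥0} {D0 ℓ : ℕ} {P : Pair G D0 ℓ} {Vf : Extra P.g} {Vc : Extra P.g'} {Γ Γ' : Matrix G.V G.V ℝ}

/-- **LEAF L-STOP-R2.**  The regulator of the fine level is integrable.
PLAN: `Rdo.rdo_io_step Γ Γ' shell c .. (prs_ker_split ..) f` with `f φ = ofReal (Wt P.g .. univ φ)` (blind to constants), then `H.reg.main univ univ (subset_univ _) ψ` under the outer integral, `lintegral_const_mul'`, `H.int'`;
`P.ok.pos`, `P.ok'.pos` give `1 ≤ m`. -/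
theorem TStep.int (H : TStep p col ρ r R n0 cst P Vf Vc Γ Γ') :
    ∫⁻ ζ, ENNReal.ofReal (Wt P.g p.δ p.κ Vf Finset.univ ζ) ∂(gauss G Γ) ≠ ⊤ := by
  have h1 := Rdo.rdo_io_step Γ Γ' (shell G Fam.entry P.g.m P.g'.m) _ H.term.psd H.term.const H.term'.psd H.psd
    (prs_ker_split P.g.m P.g'.m P.ok.pos P.ok'.pos Γ Γ' H.term H.term')
    (fun φ => ENNReal.ofReal (Wt P.g p.δ p.κ Vf Finset.univ φ))
    (fun φ t => by rw [Hol.Wt_add_const])
  have h2 : ∫⁻ ψ, ∫⁻ ζ, ENNReal.ofReal (Wt P.g p.δ p.κ Vf Finset.univ (ψ + ζ)) ∂(gauss G (shell G Fam.entry P.g.m P.g'.m)) ∂(gauss G Γ')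
      ≤ ∫⁻ ψ, (cst : ℝ≥0∞) ^ (Finset.univ : Finset P.g.I).card * ENNReal.ofReal (Wt P.g' p.δ p.κ Vc Finset.univ ψ) ∂(gauss G Γ') :=
    lintegral_mono fun ψ => H.reg.main Finset.univ Finset.univ (Finset.subset_univ _) ψ
  rw [lintegral_const_mul' _ _ (ENNReal.pow_ne_top ENNReal.coe_ne_top)] at h2
  exact ne_top_of_le_ne_top (ENNReal.mul_ne_top (ENNReal.pow_ne_top ENNReal.coe_ne_top) H.int') (h1.trans h2)

/-- **LEAF L-STOP-R3: one shell inside `term`.**
PLAN: `prs_term_shell P.g.m P.g'.m .. (Z := ∑ W, F W) cont per D ..` with the `D` of `L-STOP-R1` (repeat its three properties or extract them from `prs_tint_sum`: better, prove a common lemma giving `D` explicitly);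
`hint`: `∫⁻ ζ, ofReal (C * Wt fine univ (ψ + ζ)) ∂shell ≤ C cst^{|univ|} ofReal (Wt coarse univ ψ)` by `H.reg.main univ univ`, then `H.int'`.  Model: `Rdo/Stop.lean` l.575-600 (`hint`). -/
theorem prs_term_conv (H : TStep p col ρ r R n0 cst P Vf Vc Γ Γ') (F : Finset P.g.I → Fn G) (hF : ∀ W, LocalFn p col P.g W (F W))
    (hfin : ∀ W, fnSize p P.g Vf W (F W) ≠ ⊤) :
    term p.ω Γ' (conv (shell G Fam.entry P.g.m P.g'.m) (∑ W : Finset P.g.I, F W)) = term p.ω Γ (∑ W : Finset P.g.I, F W) := by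
  obtain ⟨hc, hper, hZD⟩ := prs_r3_dom p H.hh P.g H.adm Vf col F hF hfin
  set C : ℝ := ∑ W : Finset P.g.I, (fnSize p P.g Vf W (F W)).toReal with hC
  have hC0 : 0 ≤ C := Finset.sum_nonneg fun _ _ => ENNReal.toReal_nonneg
  refine prs_term_shell P.g.m P.g'.m P.ok.pos P.ok'.pos Γ Γ' H.term H.term' H.psd p.ω H.hω _ hc hper
    (fun φ => C * Wt P.g p.δ p.κ Vf Finset.univ φ) (fun φ c => by simp only [Hol.Wt_add_const]) hZD ?_
  have h1 : ∀ ψ : G.V → ℝ, ∫⁻ ζ, ENNReal.ofReal (C * Wt P.g p.δ p.κ Vf Finset.univ (ψ + ζ)) ∂(gauss G (shell G Fam.entry P.g.m P.g'.m))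
      ≤ ENNReal.ofReal C * ((cst : ℝ≥0∞) ^ (Finset.univ : Finset P.g.I).card * ENNReal.ofReal (Wt P.g' p.δ p.κ Vc Finset.univ ψ)) := by
    intro ψ
    simp only [ENNReal.ofReal_mul hC0]
    rw [lintegral_const_mul' _ _ ENNReal.ofReal_ne_top]
    exact mul_le_mul_right (H.reg.main Finset.univ Finset.univ (Finset.subset_univ _) ψ) _
  refine ne_top_of_le_ne_top ?_ (lintegral_mono h1)
  rw [lintegral_const_mul' _ _ ENNReal.ofReal_ne_top, lintegral_const_mul' _ _ (ENNReal.pow_ne_top ENNReal.coe_ne_top)]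
  exact ENNReal.mul_ne_top ENNReal.ofReal_ne_top (ENNReal.mul_ne_top (ENNReal.pow_ne_top ENNReal.coe_ne_top) H.int')

/-- **LEAF L-STOP-R4.**  `ZA` of an admissible activity of finite norm is terminally integrable.
PLAN: `ZA g R K = ∑ W, ∏ X ∈ g.comps R W, K X` (`rfl` / `unfold ZA`); `Scal.localFn_prod_comps`, `Scal.fnSize_prod_comps_ne_top` (names: grep `prod_comps` in `R285/Scal`), `Scal.fnSize_ne_top p hA g V K hfin`; then `prs_tint_sum`. -/
theorem prs_tint_ZA (p : Par) (hh : 0 < p.h0) (hA : 0 < p.A) (g : Grid G) (hg : g.Ok) (hadm : p.Adm g) (V : Extra g) (col R : ℕ) (hR : max 5 V.sep ≤ R)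
    (Γ : Matrix G.V G.V ℝ) (K : Act g) (hK : Act.Ok p col R K) (hfin : actNorm p g V K ≠ ⊤)
    (hint : ∫⁻ ζ, ENNReal.ofReal (Wt g p.δ p.κ V Finset.univ ζ) ∂(gauss G Γ) ≠ ⊤) : TInt Γ p.ω (ZA g R K) := by
  have e : ZA g R K = ∑ W : Finset g.I, ∏ X ∈ g.comps R W, K X := rfl
  rw [e]
  exact prs_tint_sum p hh g hadm V col Γ _ (fun W => Scal.localFn_prod_comps hK.fn W)
    (fun W => Scal.fnSize_prod_comps_ne_top hg hR (Scal.fnSize_ne_top p hA g V K hfin) W) hint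

/-- **LEAF L-STOP-R5.**  The same for `ZA1` (`F4a.ZA1_eq`, `F4a.localFn_prod1`, `F4a.fnSize_prod1_ne_top`). -/
theorem prs_tint_ZA1 (p : Par) (hh : 0 < p.h0) (hA : 0 < p.A) (g : Grid G) (hg : g.Ok) (hadm : p.Adm g) (V : Extra g) (col R : ℕ) (hR : max 5 V.sep ≤ R)
    (Γ : Matrix G.V G.V ℝ) (K J : Act g) (hK : Act.Ok p col R K) (hfin : actNorm p g V K ≠ ⊤) (hJ : Act.Ok p col R J) (hJfin : actNorm p g V J ≠ ⊤)
    (hint : ∫⁻ ζ, ENNReal.ofReal (Wt g p.δ p.κ V Finset.univ ζ) ∂(gauss G Γ) ≠ ⊤) : TInt Γ p.ω (ZA1 g R K J) := by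
  rw [F4a.ZA1_eq]
  exact prs_tint_sum p hh g hadm V col Γ (prod1 g R K J) (fun W => F4a.localFn_prod1 hK.fn hJ.fn W)
    (fun W => F4a.fnSize_prod1_ne_top hg hR (Scal.fnSize_ne_top p hA g V K hfin) (Scal.fnSize_ne_top p hA g V J hJfin) W) hint

/-! ## 4. STEP -/

theorem prs_toC_strip (h0 : ℝ≥0) (hh : 0 < h0) (g : Grid G) (X : Finset g.I) (φ : G.V → ℝ) : toC φ ∈ strip h0 g X :=
  Rdo.rdo_s3_strip h0 hh g X _ fun v => by simp [toC]

/-- **LEAF L-STOP-S1: one step of `term (ZA K)`.**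
PLAN: `← prs_term_conv H (fun W => ∏ X ∈ P.g.comps R W, K X)` (as in R4), then `prs_term_congr` with `Scal.exact_map_strip P shell Vf Vc p H.hA ρ col r R n0 cst H.hρ H.hrR H.hcol H.hL H.hR H.psd H.rng K hK hfin H.reg d hd (toC φ)`
(real fields lie in the strip: `Rdo.rdo_s3_strip`), then `prs_term_smul` (write the right side as `c • ZA ..`). -/
theorem prs_step_Z (H : TStep p col ρ r R n0 cst P Vf Vc Γ Γ') (K : Act P.g) (hK : Act.Ok p col R K) (hfin : actNorm p P.g Vf K ≠ ⊤)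
    (d : Desig P.g' (Fn G)) (hd : d.Ok p col r) :
    term p.ω Γ (ZA P.g R K)
      = (∏ b : P.g'.I, (1 + d.a b)) * term p.ω Γ' (ZA P.g' R (Kprime P r R (conv (shell G Fam.entry P.g.m P.g'.m)) K d)) := by
  have h1 := prs_term_conv H (fun W => ∏ X ∈ P.g.comps R W, K X) (fun W => Scal.localFn_prod_comps hK.fn W)
    (fun W => Scal.fnSize_prod_comps_ne_top P.ok H.hR (Scal.fnSize_ne_top p H.hA P.g Vf K hfin) W)
  have e : (∑ W : Finset P.g.I, ∏ X ∈ P.g.comps R W, K X) = ZA P.g R K := rfl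
  rw [e] at h1
  rw [← h1, ← prs_term_smul]
  refine prs_term_congr _ _ fun φ => ?_
  exact Scal.exact_map_strip P _ Vf Vc p H.hA ρ col r R n0 cst H.hρ H.hrR H.hcol H.hL H.hR H.psd H.rng K hK hfin H.reg d hd (toC φ)
    (prs_toC_strip _ H.hh _ _ φ)

theorem prs_tint_smul {Γ : Matrix G.V G.V ℝ} {ω : ℝ} {Z : Fn G} (h : TInt Γ ω Z) (c : ℂ) : TInt Γ ω (c • Z) := by
  obtain ⟨D, h1, h2, h3⟩ := h.dom
  refine ⟨continuous_const.mul h.cont, fun φ => ?_, fun φ => ‖c‖ * D φ, fun φ a => by show ‖c‖ * D _ = ‖c‖ * D _; rw [h1], fun φ => ?_, ?_⟩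
  · show c * Z _ = c * Z _
    rw [h.per]
  · show ‖c * Z _‖ ≤ _
    rw [norm_mul]
    exact mul_le_mul_of_nonneg_left (h2 φ) (norm_nonneg _)
  · simp only [ENNReal.ofReal_mul (norm_nonneg c)]
    rw [lintegral_const_mul' _ _ ENNReal.ofReal_ne_top]
    exact ENNReal.mul_ne_top ENNReal.ofReal_ne_top h3

/-- **LEAF L-STOP-S2: one step of `term (ZA1 K J)`** = (obs:dual-number-map) under the terminal integration.
PLAN: `← prs_term_conv H (prod1 P.g R K J)` (`F4a.ZA1_eq`), `prs_term_congr` with `F4a.lab_exact L ρ H.hρ H.hrR H.hcol H.hL H.psd H.rng` at real fields; the right side is `c • (s • ZA K' + ZA1 K' J')`: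
`prs_term_smul`, `prs_term_add` (`TInt` of the two summands at the coarse level: `prs_tint_ZA`, `prs_tint_ZA1` with `H.int'`, `H.adm'`, `H.hR'`, `P.ok'`; `TInt` of `s • Z`: add a 5-line lemma `TInt.smul`), `prs_term_smul`. -/
theorem prs_step_Z1 (H : TStep p col ρ r R n0 cst P Vf Vc Γ Γ') (K J : Act P.g) (d dd : Desig P.g' (Fn G))
    (L : LabHyp p col r R n0 cst P (shell G Fam.entry P.g.m P.g'.m) Vf Vc K J d dd)
    (hK' : Act.Ok p col R (Kprime P r R (conv (shell G Fam.entry P.g.m P.g'.m)) K d))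
    (hK'fin : actNorm p P.g' Vc (Kprime P r R (conv (shell G Fam.entry P.g.m P.g'.m)) K d) ≠ ⊤)
    (hJ'fin : actNorm p P.g' Vc (labJ P (shell G Fam.entry P.g.m P.g'.m) r R K J d dd) ≠ ⊤) :
    term p.ω Γ (ZA1 P.g R K J)
      = (∏ b : P.g'.I, (1 + d.a b)) *
        ((∑ b : P.g'.I, dd.a b / (1 + d.a b)) * term p.ω Γ' (ZA P.g' R (Kprime P r R (conv (shell G Fam.entry P.g.m P.g'.m)) K d))
          + term p.ω Γ' (ZA1 P.g' R (Kprime P r R (conv (shell G Fam.entry P.g.m P.g'.m)) K d)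
              (labJ P (shell G Fam.entry P.g.m P.g'.m) r R K J d dd))) := by
  have h1 := prs_term_conv H (prod1 P.g R K J) (fun W => localFn_prod1 L.K_ok.fn L.J_ok.fn W)
    (fun W => fnSize_prod1_ne_top P.ok H.hR (Scal.fnSize_ne_top p H.hA P.g Vf K L.K_fin) (Scal.fnSize_ne_top p H.hA P.g Vf J L.J_fin) W)
  rw [← ZA1_eq] at h1
  have t1 := prs_tint_ZA p H.hh H.hA P.g' P.ok' H.adm' Vc col R H.hR' Γ' _ hK' hK'fin H.int'
  have t2 := prs_tint_ZA1 p H.hh H.hA P.g' P.ok' H.adm' Vc col R H.hR' Γ' _ _ hK' hK'fin (lab_ok L) hJ'fin H.int'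
  rw [← h1, ← prs_term_smul p.ω Γ' (∑ b : P.g'.I, dd.a b / (1 + d.a b)), ← prs_term_add (prs_tint_smul t1 _) t2, ← prs_term_smul]
  refine prs_term_congr _ _ fun φ => ?_
  exact lab_exact L ρ H.hρ H.hrR H.hcol H.hL H.psd H.rng (prs_toC_strip _ H.hh _ _ φ)

end step

/-- the algebra of the chain (no non-vanishing is needed: `x / 0 = 0`) -/
theorem prs_chain_alg (i : ℕ) (T0 Tt Td A B c : ℕ → ℂ) (h0 : ∀ k < i, T0 k = B k * T0 (k + 1)) (ht : ∀ k < i, Tt k = A k * Tt (k + 1))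
    (hd : ∀ k < i, Td k = A k * (c k * Tt (k + 1) + Td (k + 1))) :
    Td 0 / T0 0 = (∏ k ∈ Finset.range i, A k / B k) * (((∑ k ∈ Finset.range i, c k) * Tt i + Td i) / T0 i) := by
  have e0 : ∀ n ≤ i, T0 0 = (∏ k ∈ Finset.range n, B k) * T0 n := by
    intro n
    induction n with
    | zero => intro _; simp
    | succ n ih =>
      intro hn
      rw [ih (by omega), h0 n (by omega), Finset.prod_range_succ]
      ring
  have ed : ∀ n ≤ i, Td 0 = (∏ k ∈ Finset.range n, A k) * ((∑ k ∈ Finset.range n, c k) * Tt n + Td n) := by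
    intro n
    induction n with
    | zero => intro _; simp
    | succ n ih =>
      intro hn
      rw [ih (by omega), hd n (by omega), ht n (by omega), Finset.prod_range_succ, Finset.sum_range_succ]
      ring
  rw [e0 i le_rfl, ed i le_rfl, Finset.prod_div_distrib, mul_div_mul_comm]

/-! ## 4'. The history -/

section hist

variable {ℓ : ℕ} (pm : Prm) (T : Tw G ℓ) (t z : ℕ → ℂ) (j0 : ℕ) (x0 : St (lev G ℓ j0)) (μ : G.V → ℝ) (Γt : ℕ → Matrix G.V G.V ℝ)

/-- the centred terminal quantity at the stage `k` -/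
def tq0 (k : ℕ) : ℂ := term pm.ω (Γt k) (ZA (lev G ℓ (j0 + k)) pm.c.R (hist pm T t z j0 x0 k).K0)

/-- the unit terminal quantity at the stage `k`, fluctuation field -/
def tqT (k : ℕ) : ℂ := term pm.ω (Γt k) (ZA (lev G ℓ (j0 + k)) pm.c.R (shA (hist pm T t z j0 x0 k).KT μ))

/-- the labelled terminal quantity at the stage `k` -/
def tqJ (k : ℕ) : ℂ :=
  term pm.ω (Γt k) (ZA1 (lev G ℓ (j0 + k)) pm.c.R (shA (hist pm T t z j0 x0 k).KT μ) (shA (hist pm T t z j0 x0 k).JT μ))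

/-- what is known at the stage `k` (`k ≤ i`): admissibility and FINITENESS of the three norms (`p0`: centred norm, `pT`: unit norm) -/
structure SLev (p0 pT : Par) (k : ℕ) : Prop where
  K0_ok : Act.Ok p0 pm.c.col pm.c.R (hist pm T t z j0 x0 k).K0
  K0_fin : actNorm p0 (lev G ℓ (j0 + k)) (T.V0 (j0 + k)) (hist pm T t z j0 x0 k).K0 ≠ ⊤
  KT_ok : Act.Ok pT pm.c.col pm.c.R (shA (hist pm T t z j0 x0 k).KT μ)
  KT_fin : actNorm pT (lev G ℓ (j0 + k)) (T.VT (j0 + k)) (shA (hist pm T t z j0 x0 k).KT μ) ≠ ⊤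
  JT_ok : Act.Ok pT pm.c.col pm.c.R (shA (hist pm T t z j0 x0 k).JT μ)
  JT_fin : actNorm pT (lev G ℓ (j0 + k)) (T.VT (j0 + k)) (shA (hist pm T t z j0 x0 k).JT μ) ≠ ⊤

/-- what is known about the step `k → k + 1` (`k < i`) -/
structure SStp (p0 pT : Par) (cst0 cstT : ℝ≥0) (k : ℕ) : Prop where
  ret : Ret G ℓ pm.D0 (j0 + k)
  ω0 : p0.ω = pm.ω
  ωT : pT.ω = pm.ω
  st0 : TStep p0 pm.c.col pm.c.ρ pm.c.r pm.c.R pm.c.n0 cst0 (pair ret) (T.V0 (j0 + k)) (T.V0 (j0 + k + 1)) (Γt k) (Γt (k + 1))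
  stT : TStep pT pm.c.col pm.c.ρ pm.c.r pm.c.R pm.c.n0 cstT (pair ret) (T.VT (j0 + k)) (T.VT (j0 + k + 1)) (Γt k) (Γt (k + 1))
  d0_ok : (d0 (T.step ret) pm.c pm.ω pm.zn (t (j0 + k)) (z (j0 + k)) (hist pm T t z j0 x0 k).K0).Ok p0 pm.c.col pm.c.r
  dT_ok : (shD (dT (T.step ret) pm.c pm.ω pm.zn (t (j0 + k)) (z (j0 + k)) (pm.ref G) (hist pm T t z j0 x0 k).K0 (hist pm T t z j0 x0 k).KT) μ).Ok
    pT pm.c.col pm.c.r
  dT_small : (dT (T.step ret) pm.c pm.ω pm.zn (t (j0 + k)) (z (j0 + k)) (pm.ref G) (hist pm T t z j0 x0 k).K0 (hist pm T t z j0 x0 k).KT).Small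
    pm.c.r (lev G ℓ (j0 + k + 1))
  dJ_small : (dJ (T.step ret) pm.c pm.ω (pm.ref G) (hist pm T t z j0 x0 k).JT).Small pm.c.r (lev G ℓ (j0 + k + 1))
  dJ_fn : ∀ Y b, LocalFn pT pm.c.col (lev G ℓ (j0 + k + 1)) {b} ((shD (dJ (T.step ret) pm.c pm.ω (pm.ref G) (hist pm T t z j0 x0 k).JT) μ).F Y b)

/-- the history at a retained step -/
theorem prs_hist_succ (k : ℕ) (h : Ret G ℓ pm.D0 (j0 + k)) :
    hist pm T t z j0 x0 (k + 1) = next (T.step h) pm.c pm.ω pm.zn (t (j0 + k)) (z (j0 + k)) (pm.ref G) (hist pm T t z j0 x0 k) := by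
  rw [hist]
  exact dif_pos h

theorem prs_scal_eq (k : ℕ) (h : Ret G ℓ pm.D0 (j0 + k)) (b : (lev G ℓ (j0 + k + 1)).I) :
    scal pm T t z j0 x0 k b =
    ((d0 (T.step h) pm.c pm.ω pm.zn (t (j0 + k)) (z (j0 + k)) (hist pm T t z j0 x0 k).K0).a b,
     (dT (T.step h) pm.c pm.ω pm.zn (t (j0 + k)) (z (j0 + k)) (pm.ref G) (hist pm T t z j0 x0 k).K0 (hist pm T t z j0 x0 k).KT).a b,
     (dJ (T.step h) pm.c pm.ω (pm.ref G) (hist pm T t z j0 x0 k).JT).a b) := by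
  unfold scal
  rw [dif_pos h]

variable {pm T t z j0 x0 μ Γt}

/-- **LEAF L-STOP-C1** (centred sector).  PLAN: `unfold tq0`; `rw [prs_hist_succ .. S.ret]`; `(next ..).K0` is `Kprime (pair ret) c.r c.R (conv shell) K0 d0` by `rfl` (`(T.step ret).Γ = shell G entry (side j) (side (j+1))`, `(pair ret).g.m = side ..` by `rfl`);
`prs_step_Z S.st0 _ L.K0_ok L.K0_fin _ S.d0_ok` after `rw [← S.ω0]`; `prs_scal_eq`. -/
theorem prs_chain0 {p0 pT : Par} {cst0 cstT : ℝ≥0} {k : ℕ} (L : SLev pm T t z j0 x0 μ p0 pT k) (S : SStp pm T t z j0 x0 μ Γt p0 pT cst0 cstT k) :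
    tq0 pm T t z j0 x0 Γt k = (∏ b, (1 + (scal pm T t z j0 x0 k b).1)) * tq0 pm T t z j0 x0 Γt (k + 1) := by
  unfold tq0
  rw [prs_hist_succ pm T t z j0 x0 k S.ret]
  have h := prs_step_Z S.st0 _ L.K0_ok L.K0_fin _ S.d0_ok
  rw [S.ω0] at h
  simp only [prs_scal_eq pm T t z j0 x0 k S.ret]
  exact h

/-- **LEAF L-STOP-C2** (unit sector).  PLAN: as C1 with `prs_next_KT (T.step ret) .. S.dT_small μ` (the translated step) and `prs_step_Z S.stT _ L.KT_ok L.KT_fin _ S.dT_ok`; `(shD d μ).a = d.a` by `rfl`. -/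
theorem prs_chainT {p0 pT : Par} {cst0 cstT : ℝ≥0} {k : ℕ} (L : SLev pm T t z j0 x0 μ p0 pT k) (S : SStp pm T t z j0 x0 μ Γt p0 pT cst0 cstT k) :
    tqT pm T t z j0 x0 μ Γt k = (∏ b, (1 + (scal pm T t z j0 x0 k b).2.1)) * tqT pm T t z j0 x0 μ Γt (k + 1) := by
  have h1 := prs_step_Z S.stT (shA (hist pm T t z j0 x0 k).KT μ) L.KT_ok L.KT_fin _ S.dT_ok
  rw [S.ωT] at h1
  have h2 := prs_next_KT (T.step S.ret) pm.c pm.ω pm.zn (t (j0 + k)) (z (j0 + k)) (pm.ref G) (hist pm T t z j0 x0 k) S.dT_small μ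
  have hKT : shA (hist pm T t z j0 x0 (k + 1)).KT μ
      = Kprime (pair S.ret) pm.c.r pm.c.R (conv (shell G Fam.entry (pair S.ret).g.m (pair S.ret).g'.m)) (shA (hist pm T t z j0 x0 k).KT μ)
        (shD (dT (T.step S.ret) pm.c pm.ω pm.zn (t (j0 + k)) (z (j0 + k)) (pm.ref G) (hist pm T t z j0 x0 k).K0 (hist pm T t z j0 x0 k).KT) μ) := by
    rw [prs_hist_succ pm T t z j0 x0 k S.ret]
    exact h2
  unfold tqT
  rw [hKT]
  simp only [prs_scal_eq pm T t z j0 x0 k S.ret]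
  exact h1

/-- **LEAF L-STOP-C3** (label).  PLAN: `prs_next_KT`, `prs_next_JT` (translated step), `LabHyp` := ⟨S.stT.hA, S.stT.hR, S.stT.reg, L.KT_ok, L.KT_fin, L.JT_ok, L.JT_fin, S.dT_ok, prs_shD_small S.dJ_small μ, S.dJ_fn⟩,
`prs_step_Z1 S.stT ..` with `L'.KT_ok`, `L'.KT_fin`, `L'.JT_fin` rewritten by `prs_hist_succ`, `prs_next_KT`, `prs_next_JT`. -/
theorem prs_chainJ {p0 pT : Par} {cst0 cstT : ℝ≥0} {k : ℕ} (L : SLev pm T t z j0 x0 μ p0 pT k) (L' : SLev pm T t z j0 x0 μ p0 pT (k + 1))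
    (S : SStp pm T t z j0 x0 μ Γt p0 pT cst0 cstT k) :
    tqJ pm T t z j0 x0 μ Γt k = (∏ b, (1 + (scal pm T t z j0 x0 k b).2.1)) *
      ((∑ b, (scal pm T t z j0 x0 k b).2.2 / (1 + (scal pm T t z j0 x0 k b).2.1)) * tqT pm T t z j0 x0 μ Γt (k + 1) + tqJ pm T t z j0 x0 μ Γt (k + 1)) := by
  have h2 := prs_next_KT (T.step S.ret) pm.c pm.ω pm.zn (t (j0 + k)) (z (j0 + k)) (pm.ref G) (hist pm T t z j0 x0 k) S.dT_small μ
  have h3 := prs_next_JT (T.step S.ret) pm.c pm.ω pm.zn (t (j0 + k)) (z (j0 + k)) (pm.ref G) (hist pm T t z j0 x0 k) S.dT_small S.dJ_small μ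
  have hKT : shA (hist pm T t z j0 x0 (k + 1)).KT μ
      = Kprime (pair S.ret) pm.c.r pm.c.R (conv (shell G Fam.entry (pair S.ret).g.m (pair S.ret).g'.m)) (shA (hist pm T t z j0 x0 k).KT μ)
        (shD (dT (T.step S.ret) pm.c pm.ω pm.zn (t (j0 + k)) (z (j0 + k)) (pm.ref G) (hist pm T t z j0 x0 k).K0 (hist pm T t z j0 x0 k).KT) μ) := by
    rw [prs_hist_succ pm T t z j0 x0 k S.ret]
    exact h2
  have hJT : shA (hist pm T t z j0 x0 (k + 1)).JT μ
      = labJ (pair S.ret) (shell G Fam.entry (pair S.ret).g.m (pair S.ret).g'.m) pm.c.r pm.c.R (shA (hist pm T t z j0 x0 k).KT μ)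
        (shA (hist pm T t z j0 x0 k).JT μ)
        (shD (dT (T.step S.ret) pm.c pm.ω pm.zn (t (j0 + k)) (z (j0 + k)) (pm.ref G) (hist pm T t z j0 x0 k).K0 (hist pm T t z j0 x0 k).KT) μ)
        (shD (dJ (T.step S.ret) pm.c pm.ω (pm.ref G) (hist pm T t z j0 x0 k).JT) μ) := by
    rw [prs_hist_succ pm T t z j0 x0 k S.ret]
    exact h3
  have hLab : LabHyp pT pm.c.col pm.c.r pm.c.R pm.c.n0 cstT (pair S.ret) (shell G Fam.entry (pair S.ret).g.m (pair S.ret).g'.m)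
      (T.VT (j0 + k)) (T.VT (j0 + k + 1)) (shA (hist pm T t z j0 x0 k).KT μ) (shA (hist pm T t z j0 x0 k).JT μ)
      (shD (dT (T.step S.ret) pm.c pm.ω pm.zn (t (j0 + k)) (z (j0 + k)) (pm.ref G) (hist pm T t z j0 x0 k).K0 (hist pm T t z j0 x0 k).KT) μ)
      (shD (dJ (T.step S.ret) pm.c pm.ω (pm.ref G) (hist pm T t z j0 x0 k).JT) μ) :=
    ⟨S.stT.hA, S.stT.hR, S.stT.reg, L.KT_ok, L.KT_fin, L.JT_ok, L.JT_fin, S.dT_ok, prs_shD_small S.dJ_small μ, S.dJ_fn⟩
  have k1 := L'.KT_ok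
  have k2 := L'.KT_fin
  have k3 := L'.JT_fin
  rw [hKT] at k1 k2
  rw [hJT] at k3
  have h1 := prs_step_Z1 S.stT _ _ _ _ hLab k1 k2 k3
  rw [S.ωT] at h1
  unfold tqJ tqT
  rw [hKT, hJT]
  simp only [prs_scal_eq pm T t z j0 x0 k S.ret]
  exact h1

/-- **the chain** -/
theorem prs_chain {p0 pT : Par} {cst0 cstT : ℝ≥0} (i : ℕ) (L : ∀ k ≤ i, SLev pm T t z j0 x0 μ p0 pT k)
    (S : ∀ k < i, SStp pm T t z j0 x0 μ Γt p0 pT cst0 cstT k) :
    tqJ pm T t z j0 x0 μ Γt 0 / tq0 pm T t z j0 x0 Γt 0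
      = (∏ k ∈ Finset.range i, (∏ b, (1 + (scal pm T t z j0 x0 k b).2.1)) / (∏ b, (1 + (scal pm T t z j0 x0 k b).1)))
        * (((∑ k ∈ Finset.range i, ∑ b, (scal pm T t z j0 x0 k b).2.2 / (1 + (scal pm T t z j0 x0 k b).2.1)) * tqT pm T t z j0 x0 μ Γt i
            + tqJ pm T t z j0 x0 μ Γt i) / tq0 pm T t z j0 x0 Γt i) :=
  prs_chain_alg i _ _ _ _ _ _ (fun k hk => prs_chain0 (L k hk.le) (S k hk)) (fun k hk => prs_chainT (L k hk.le) (S k hk))
    (fun k hk => prs_chainJ (L k hk.le) (L (k + 1) hk) (S k hk))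

/-! ## 5. EXIT -/

/-- (obs:factor-outside) + reality + smallness of the extracted scalars of the step `k` -/
structure SScal (pm : Prm) (T : Tw G ℓ) (t z : ℕ → ℂ) (j0 : ℕ) (x0 : St (lev G ℓ j0)) (k : ℕ) : Prop where
  off : ∀ b ∉ Aff (lev G ℓ (j0 + k + 1)) 1, (scal pm T t z j0 x0 k b).2.1 = (scal pm T t z j0 x0 k b).1 ∧ (scal pm T t z j0 x0 k b).2.2 = 0
  real : ∀ b, (scal pm T t z j0 x0 k b).1.im = 0 ∧ (scal pm T t z j0 x0 k b).2.1.im = 0 ∧ (scal pm T t z j0 x0 k b).2.2.im = 0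
  small : ∀ b, ‖(scal pm T t z j0 x0 k b).1‖ ≤ 1 / 2 ∧ ‖(scal pm T t z j0 x0 k b).2.1‖ ≤ 1 / 2

/-- **LEAF L-STOP-E1**: the products and sums over all blocks reduce to the affected blocks.
PLAN: `← Finset.prod_div_distrib`; `Finset.prod_subset (Finset.subset_univ (Aff ..))` : off `Aff` the factor is `x / x = 1` (`1 + a ≠ 0` from `small`: `‖a‖ ≤ 1/2`); `Finset.sum_subset`: off `Aff` the term is `0 / _ = 0`; `unfold Dex cex`. -/
theorem prs_off_aff (i : ℕ) (h : ∀ k < i, SScal pm T t z j0 x0 k) :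
    (∏ k ∈ Finset.range i, (∏ b, (1 + (scal pm T t z j0 x0 k b).2.1)) / (∏ b, (1 + (scal pm T t z j0 x0 k b).1))) = Dex pm T t z j0 x0 i ∧
    (∑ k ∈ Finset.range i, ∑ b, (scal pm T t z j0 x0 k b).2.2 / (1 + (scal pm T t z j0 x0 k b).2.1)) = cex pm T t z j0 x0 i := by
  constructor
  · unfold Dex
    refine Finset.prod_congr rfl fun k hk => ?_
    have hS := h k (Finset.mem_range.1 hk)
    rw [← Finset.prod_div_distrib]
    symm
    refine Finset.prod_subset (Finset.subset_univ _) fun b _ hb => ?_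
    rw [(hS.off b hb).1]
    refine div_self ?_
    intro h0
    have h1 : (scal pm T t z j0 x0 k b).1 = -1 := by linear_combination h0
    have h2 := (hS.small b).1
    rw [h1] at h2
    norm_num at h2
  · unfold cex
    refine Finset.sum_congr rfl fun k hk => ?_
    have hS := h k (Finset.mem_range.1 hk)
    symm
    refine Finset.sum_subset (Finset.subset_univ _) fun b _ hb => ?_
    rw [(hS.off b hb).2, zero_div]

/-- products of positive real complex numbers are positive real -/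
theorem prs_posre_prod {ι : Type*} (s : Finset ι) (f : ι → ℂ) (h : ∀ i ∈ s, (f i).im = 0 ∧ 0 < (f i).re) :
    (∏ i ∈ s, f i).im = 0 ∧ 0 < (∏ i ∈ s, f i).re := by
  refine Finset.prod_induction f (fun x : ℂ => x.im = 0 ∧ 0 < x.re) ?_ (by simp) h
  rintro x y ⟨h1, h2⟩ ⟨h3, h4⟩
  refine ⟨by simp [Complex.mul_im, h1, h3], ?_⟩
  rw [Complex.mul_re, h1, h3, mul_zero, sub_zero]
  exact mul_pos h2 h4

/-- sums of real complex numbers are real -/
theorem prs_imz_sum {ι : Type*} (s : Finset ι) (f : ι → ℂ) (h : ∀ i ∈ s, (f i).im = 0) : (∑ i ∈ s, f i).im = 0 := by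
  rw [Complex.im_sum]
  exact Finset.sum_eq_zero h

/-- `(1 + a) / (1 + b)` is positive real for small real `a`, `b` -/
theorem prs_posre_quot {a b : ℂ} (ha : a.im = 0) (hb : b.im = 0) (ha' : ‖a‖ ≤ 1 / 2) (hb' : ‖b‖ ≤ 1 / 2) :
    ((1 + a) / (1 + b)).im = 0 ∧ 0 < ((1 + a) / (1 + b)).re := by
  have p1 : 0 < 1 + a.re := by
    have := abs_le.1 ((Complex.abs_re_le_norm a).trans ha')
    linarith [this.1]
  have p2 : 0 < 1 + b.re := by
    have := abs_le.1 ((Complex.abs_re_le_norm b).trans hb')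
    linarith [this.1]
  have e : (1 + a) / (1 + b) = (((1 + a.re) / (1 + b.re) : ℝ) : ℂ) := by
    have e1 : a = ((a.re : ℝ) : ℂ) := Complex.ext (by simp) (by simp [ha])
    have e2 : b = ((b.re : ℝ) : ℂ) := Complex.ext (by simp) (by simp [hb])
    push_cast
    rw [← e1, ← e2]
  rw [e]
  exact ⟨Complex.ofReal_im _, by rw [Complex.ofReal_re]; exact div_pos p1 p2⟩

/-- `c / (1 + b)` is real for real `c`, `b` -/
theorem prs_imz_quot {c b : ℂ} (hc : c.im = 0) (hb : b.im = 0) : (c / (1 + b)).im = 0 := by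
  have e : c / (1 + b) = ((c.re / (1 + b.re) : ℝ) : ℂ) := by
    have e1 : c = ((c.re : ℝ) : ℂ) := Complex.ext (by simp) (by simp [hc])
    have e2 : b = ((b.re : ℝ) : ℂ) := Complex.ext (by simp) (by simp [hb])
    push_cast
    rw [← e1, ← e2]
  rw [e]
  exact Complex.ofReal_im _

/-- **LEAF L-STOP-E2**: `D_ex` is a positive real number, `c_ex` is real.
PLAN: a complex number with `im = 0` is `((re : ℝ) : ℂ)` (`Complex.ext`); write every scalar as a cast, `push_cast`/`Complex.ofReal_prod`, `Complex.ofReal_div`; positivity: `1 + a ≥ 1/2 > 0` from `|a| ≤ 1/2` (`Complex.abs_re_le_norm`), `Finset.prod_pos`, `div_pos`. -/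
theorem prs_Dex_pos (i : ℕ) (h : ∀ k < i, SScal pm T t z j0 x0 k) :
    Dex pm T t z j0 x0 i = (((Dex pm T t z j0 x0 i).re : ℝ) : ℂ) ∧ 0 < (Dex pm T t z j0 x0 i).re ∧
      cex pm T t z j0 x0 i = (((cex pm T t z j0 x0 i).re : ℝ) : ℂ) := by
  have hD : (Dex pm T t z j0 x0 i).im = 0 ∧ 0 < (Dex pm T t z j0 x0 i).re := by
    unfold Dex
    refine prs_posre_prod _ _ fun k hk => prs_posre_prod _ _ fun b _ => ?_
    have hk' := h k (Finset.mem_range.1 hk)
    exact prs_posre_quot (hk'.real b).2.1 (hk'.real b).1 (hk'.small b).2 (hk'.small b).1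
  have hc : (cex pm T t z j0 x0 i).im = 0 := by
    unfold cex
    refine prs_imz_sum _ _ fun k hk => prs_imz_sum _ _ fun b _ => ?_
    have hk' := h k (Finset.mem_range.1 hk)
    exact prs_imz_quot (hk'.real b).2.2 (hk'.real b).2.1
  exact ⟨Complex.ext (by simp) (by simp [hD.1]), hD.2, Complex.ext (by simp) (by simp [hc])⟩

/-- **LEAF L-STOP-E4**: the extracted scalars are real (producer of `SScal.real`).
PLAN: not retained: `scal = (0, 0, 0)` (`unfold scal; rw [dif_neg]`).  Retained: `prs_scal_eq`; `(ofPieces ..).a b` is a finite sum of `cn0` / `cnT` / `cnJ` (`Obs/PairDefs.lean` s3); each is `(1 / card) * Hq 0 K X (toC φ)` (`φ = 0` or `pm.ref G`; `toC 0 = 0`)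
plus `(t / 2) * conv Γ (eBC B) 0`.  KEY LEMMA (10 l. each): if `F (toC φ)` has `im = 0` for all real `φ` then so have `chargeProj ω 0 F (toC φ)` and `conv Γ F (toC φ)`:
write `F (toC φ) = ((F (toC φ)).re : ℂ)`, `integral_ofReal` / `intervalIntegral.integral_ofReal`; `(fun v => toC φ v + (s : ℂ)) = toC (fun v => φ v + s)`, `toC φ + toC ζ = toC (φ + ζ)` (`Hol.toC_add`); the exponential is `1` at `q = 0`.
`R0 = K0 - singleWF ..` is real: `eBC`, `cBC` are real on real fields (grep `eBC_toC`, `cBC_toC`, `eBC_real` in `R285/`; `Complex.ofReal_cos`), `t`, `z` real. -/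
theorem prs_scal_real (k : ℕ) (hx : (hist pm T t z j0 x0 k).K0.Real ∧ (hist pm T t z j0 x0 k).KT.Real ∧ (hist pm T t z j0 x0 k).JT.Real)
    (ht : (t (j0 + k)).im = 0) (hz : (z (j0 + k)).im = 0) (b : (lev G ℓ (j0 + k + 1)).I) :
    (scal pm T t z j0 x0 k b).1.im = 0 ∧ (scal pm T t z j0 x0 k b).2.1.im = 0 ∧ (scal pm T t z j0 x0 k b).2.2.im = 0 := by
  by_cases h : Ret G ℓ pm.D0 (j0 + k)
  · rw [prs_scal_eq pm T t z j0 x0 k h b]
    exact ⟨prs_a0_real (T.step h) pm.c pm.ω pm.zn _ _ _ hx.1 ht hz b,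
      prs_aT_real (T.step h) pm.c pm.ω pm.zn _ _ (pm.ref G) _ _ hx.1 hx.2.1 ht hz b,
      prs_aJ_real (T.step h) pm.c pm.ω (pm.ref G) _ hx.2.2 b⟩
  · unfold scal
    rw [dif_neg h]
    exact ⟨rfl, rfl, rfl⟩

end hist

theorem prs_prod_im {ι : Type} (s : Finset ι) (f : ι → ℂ) (h : ∀ i ∈ s, (f i).im = 0) : (∏ i ∈ s, f i).im = 0 := by
  refine Finset.prod_induction f (fun w => w.im = 0) (fun a b ha hb => ?_) Complex.one_im h
  rw [Complex.mul_im, ha, hb]
  ring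

theorem prs_sum_im {ι : Type} (s : Finset ι) (f : ι → ℂ) (h : ∀ i ∈ s, (f i).im = 0) : (∑ i ∈ s, f i).im = 0 := by
  rw [Complex.im_sum]
  exact Finset.sum_eq_zero h

/-- `term` of a function which is real on real fields is real -/
theorem prs_term_real_fn (ω : ℝ) (Γ : Matrix G.V G.V ℝ) (F : Fn G) (hF : ∀ φ : G.V → ℝ, (F (toC φ)).im = 0) :
    term ω Γ F = (((term ω Γ F).re : ℝ) : ℂ) := by
  have h1 : ∀ (ζ : G.V → ℝ) (s : ℝ),
      F (fun v => ((ζ v + s : ℝ) : ℂ)) = (((F (fun v => ((ζ v + s : ℝ) : ℂ))).re : ℝ) : ℂ) := by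
    intro ζ s
    apply Complex.ext
    · rw [Complex.ofReal_re]
    · rw [Complex.ofReal_im]
      exact hF fun v => ζ v + s
  have h2 : term ω Γ F
      = (((1 / ω) * ∫ s in (0 : ℝ)..ω, ∫ ζ, (F (fun v => ((ζ v + s : ℝ) : ℂ))).re ∂(gauss G Γ) : ℝ) : ℂ) := by
    unfold term
    rw [Complex.ofReal_mul, ← intervalIntegral.integral_ofReal]
    congr 2
    funext s
    rw [← integral_complex_ofReal]
    congr 1
    funext ζ
    exact h1 ζ s
  rw [h2, Complex.ofReal_re]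

/-- **LEAF L-STOP-E3**: terminal quantities of real activities are real.
PLAN: `ZA g R K (toC φ)` has `im = 0`: finite sums of products of numbers with `im = 0` (induction `Finset.prod_induction` with the predicate `im = 0`, `Complex.mul_im`); then `term` of a function which is real on real fields is real:
`Obs.tb_term_of_real` (`Obs/TermB.lean` l.1487) or directly: `Z (toC φ) = ((Z (toC φ)).re : ℂ)`, `integral_ofReal`, `intervalIntegral.integral_ofReal`. -/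
theorem prs_term_real (ω : ℝ) (Γ : Matrix G.V G.V ℝ) (g : Grid G) (R : ℕ) (K J : Act g) (hK : Act.Real K) (hJ : Act.Real J) :
    term ω Γ (ZA g R K) = (((term ω Γ (ZA g R K)).re : ℝ) : ℂ) ∧ term ω Γ (ZA1 g R K J) = (((term ω Γ (ZA1 g R K J)).re : ℝ) : ℂ) := by
  constructor
  · refine prs_term_real_fn ω Γ _ fun φ => ?_
    unfold ZA
    rw [Finset.sum_apply]
    refine prs_sum_im _ _ fun V _ => ?_
    rw [Finset.prod_apply]
    exact prs_prod_im _ _ fun X _ => hK X φ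
  · refine prs_term_real_fn ω Γ _ fun φ => ?_
    unfold ZA1
    rw [Finset.sum_apply]
    refine prs_sum_im _ _ fun V _ => ?_
    rw [Finset.sum_apply]
    refine prs_sum_im _ _ fun X _ => ?_
    rw [Pi.mul_apply, Finset.prod_apply, Complex.mul_im, hJ X φ, prs_prod_im _ _ fun X' _ => hK X' φ]
    ring

/-- a real activity translated by a real background is real -/
theorem prs_real_shA {g : Grid G} {K : Act g} (hK : Act.Real K) (lam : G.V → ℝ) : Act.Real (shA K lam) := by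
  intro X φ
  show (K X (toC φ + toC lam)).im = 0
  rw [← Hol.toC_add]
  exact hK X _

/-- the three activities of a state are real on real fields -/
structure St.Real {g : Grid G} (x : St g) : Prop where
  K0 : Act.Real x.K0
  KT : Act.Real x.KT
  JT : Act.Real x.JT

/-- **EXIT OF THE BLOCK STOP** = the field `ident` of `Pr.AtStop` + `0 < Dex` for `g = lev G ℓ (j0 + i)`, `cl = torusGrid G s _` (`= (⟨G, s, side G ℓ j0, hs, _⟩ : F4b.Vol).c`), `x = hist .. i`, `Γ = Γt i`,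
`Dex = (Pr.Dex ..).re`, `cex = (Pr.cex ..).re`, `fx.p.ω = pm.ω = 2π/√a`, `fx.o.a = a`, `muOf fx.α v = fun x => v x / √a` (`rfl`), `pm.c.R = RR`.
Inputs: ENTRY (`h0`, `hT` = `F4b.BulkOK.ident`, `F4b.UnitOK.ident`, see `pen_link_ent`), `SLev` (EST: admissibility + finiteness), `SStp` (`Ctx` + `Obs.terminal_regulator` + designations), `SScal` (COPY / EST-S), reality (`Inv.real*`). -/
theorem prs_ident {ℓ : ℕ} (pm : Prm) (T : Tw G ℓ) (t z : ℕ → ℂ) (j0 : ℕ) (x0 : St (lev G ℓ j0)) (Γt : ℕ → Matrix G.V G.V ℝ)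
    (b a : ℝ) (hb : 0 < b) (ha : 0 < a) (hG : G.bc = BC.free) (s : ℕ) (hs0 : 0 < s) (hs : s ∣ side G ℓ j0) (hcen : 2 * side G ℓ j0 ∣ G.M)
    (hω : pm.ω = 2 * Real.pi / Real.sqrt a) (hR : pm.c.R = RR) (v : G.V → ℝ)
    (hv : ∀ f : G.V → ℝ, ∑ e : G.V × Bool, etaE (G.M / 2) v e * (f (stp e.1 e.2) - f e.1) = 0)
    (hΓ0 : IsTerminal G Fam.entry (side G ℓ j0) (Γt 0)) (cG : ℝ)
    (h0 : TargetOrd b a (⟨G, s, side G ℓ j0, hs, side_dvd G ℓ j0⟩ : F4b.Vol).c (lev G ℓ j0) cG x0.K0)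
    (hT : TargetLab b a (⟨G, s, side G ℓ j0, hs, side_dvd G ℓ j0⟩ : F4b.Vol).c (lev G ℓ j0) cG 0 x0.KT x0.JT)
    {p0 pT : Par} {cst0 cstT : ℝ≥0} (i : ℕ) (L : ∀ k ≤ i, SLev pm T t z j0 x0 (fun x => v x / Real.sqrt a) p0 pT k)
    (S : ∀ k < i, SStp pm T t z j0 x0 (fun x => v x / Real.sqrt a) Γt p0 pT cst0 cstT k) (hsc : ∀ k < i, SScal pm T t z j0 x0 k)
    (hr0 : x0.Real) (hri : (hist pm T t z j0 x0 i).Real) :
    0 < (Dex pm T t z j0 x0 i).re ∧
    ∀ i0 : (⟨G, s, side G ℓ j0, hs, side_dvd G ℓ j0⟩ : F4b.Vol).c.I,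
      Phat b (⟨G, s, side G ℓ j0, hs, side_dvd G ℓ j0⟩ : F4b.Vol).c i0 (tauU _) (fun _ => 1)
          / Phat b (⟨G, s, side G ℓ j0, hs, side_dvd G ℓ j0⟩ : F4b.Vol).c i0 0 (fun _ => 1)
        = Real.exp (-Glue.unitEnergy (G.M / 2) / (2 * a)) * (Dex pm T t z j0 x0 i).re
          * (((cex pm T t z j0 x0 i).re
                * (term pm.ω (Γt i) (ZA (lev G ℓ (j0 + i)) RR (shA (hist pm T t z j0 x0 i).KT fun x => v x / Real.sqrt a))).re
              + (term pm.ω (Γt i) (ZA1 (lev G ℓ (j0 + i)) RR (shA (hist pm T t z j0 x0 i).KT fun x => v x / Real.sqrt a)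
                  (shA (hist pm T t z j0 x0 i).JT fun x => v x / Real.sqrt a))).re)
            / (term pm.ω (Γt i) (ZA (lev G ℓ (j0 + i)) RR (hist pm T t z j0 x0 i).K0)).re) := by
  obtain ⟨hD, hDpos, hc⟩ := prs_Dex_pos i hsc
  refine ⟨hDpos, fun i0 => ?_⟩
  set μ : G.V → ℝ := fun x => v x / Real.sqrt a with hμ
  have key := pen_link_vol b a hb ha ⟨G, s, side G ℓ j0, hs, side_dvd G ℓ j0⟩ hG hcen hs0 i0 (Γt 0) hΓ0 v
    ((pen_coclosed_iff ⟨G, s, side G ℓ j0, hs, side_dvd G ℓ j0⟩ hG hcen hs0 v).2 hv) cG x0.K0 x0.KT x0.JT h0 hT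
  have hch := prs_chain i L S
  obtain ⟨e1, e2⟩ := prs_off_aff i hsc
  rw [e1, e2] at hch
  -- reality
  have r0 := prs_term_real pm.ω (Γt 0) (lev G ℓ j0) pm.c.R x0.K0 x0.K0 hr0.K0 hr0.K0
  have rT := prs_term_real pm.ω (Γt 0) (lev G ℓ j0) pm.c.R (shA x0.KT μ) (shA x0.JT μ) (prs_real_shA hr0.KT μ) (prs_real_shA hr0.JT μ)
  have s0 := prs_term_real pm.ω (Γt i) (lev G ℓ (j0 + i)) pm.c.R _ _ hri.K0 hri.K0
  have sT := prs_term_real pm.ω (Γt i) (lev G ℓ (j0 + i)) pm.c.R _ _ (prs_real_shA hri.KT μ) (prs_real_shA hri.JT μ)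
  have hch' : term pm.ω (Γt 0) (ZA1 (lev G ℓ j0) pm.c.R (shA x0.KT μ) (shA x0.JT μ)) / term pm.ω (Γt 0) (ZA (lev G ℓ j0) pm.c.R x0.K0)
      = Dex pm T t z j0 x0 i * ((cex pm T t z j0 x0 i * term pm.ω (Γt i) (ZA (lev G ℓ (j0 + i)) pm.c.R (shA (hist pm T t z j0 x0 i).KT μ))
          + term pm.ω (Γt i) (ZA1 (lev G ℓ (j0 + i)) pm.c.R (shA (hist pm T t z j0 x0 i).KT μ) (shA (hist pm T t z j0 x0 i).JT μ)))
        / term pm.ω (Γt i) (ZA (lev G ℓ (j0 + i)) pm.c.R (hist pm T t z j0 x0 i).K0)) := hch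
  rw [rT.2, r0.1, hD, hc, sT.1, sT.2, s0.1] at hch'
  have hre : (term pm.ω (Γt 0) (ZA1 (lev G ℓ j0) pm.c.R (shA x0.KT μ) (shA x0.JT μ))).re / (term pm.ω (Γt 0) (ZA (lev G ℓ j0) pm.c.R x0.K0)).re
      = (Dex pm T t z j0 x0 i).re * (((cex pm T t z j0 x0 i).re * (term pm.ω (Γt i) (ZA (lev G ℓ (j0 + i)) pm.c.R (shA (hist pm T t z j0 x0 i).KT μ))).re
          + (term pm.ω (Γt i) (ZA1 (lev G ℓ (j0 + i)) pm.c.R (shA (hist pm T t z j0 x0 i).KT μ) (shA (hist pm T t z j0 x0 i).JT μ))).re)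
        / (term pm.ω (Γt i) (ZA (lev G ℓ (j0 + i)) pm.c.R (hist pm T t z j0 x0 i).K0)).re) := by
    exact_mod_cast hch'
  rw [hR] at hre
  rw [← hω] at key
  rw [mul_assoc, ← hre]
  exact key

end

end Claimed.Agent.R285.F6.Pr
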