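import Claimed.Agent.R285.Obs.Defs
import Claimed.Agent.R285.Map.Defs

/-!
# ROW 285, unit OBS, post BP-OBS-L62: [F] Lemma 6.2 (paired local maps): DEFINITIONS      (architect helper79, chief helper271).  No contract, no sorry.   -- KEEP

Design = `R285/Obs/PairPlan.lean` (helper271): TOTAL FIELD `Ψ = ψ + v_n/α`, three zones, designations by zones, the label as an `x`-derivative, ONE transport lemma for `Kprime`.
Everything lives in the namespace `Claimed.Agent.R285.F6.Pr`.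

## Contents
1. zones of a whole-block grid of a centred free square: `WallFree`, `InRect`, `ShiftGood`, `NearUnit`, `Aff`; restriction `cutA` of an activity to a class of supports;
2. gauges: `hullS`, `IsGauge` (= hypothesis of `F4b.UnitOK.transl`), `IsGaugeR` (gauge on the padded rectangle), `gaugeOf`, translations `shA`, reference field `psiRef`;
3. designations BY PIECES: `ofPieces`; the pieces of the three sectors `pc0/cn0`, `pcT/cnT`, `cnJ`; `d0`, `dT`, `dJ`;
4. the paired step `next` on states `St = (K0, KT, JT)`;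
5. embeddings of volumes `VEmb` and the copy relations `CopyX`, `CopyF`;
6. the tower of level grids `lev`, `nest`, `pair`, `stp`, and the history `hist`.
-/

set_option autoImplicit false

namespace Claimed.Agent.R285.F6.Pr

open scoped BigOperators ENNReal NNReal
open MeasureTheory
open Claimed.Agent.R285 Claimed.Agent.R285.RG Claimed.Agent.R285.B4 Claimed.Agent.R285.F4a

noncomputable section

variable {G : Geom}

/-! ## 1. Zones -/

/-- `X` stays `H` blocks away from the walls (`= Sq.WallFree` for `Q.g`) -/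
def WallFree (g : Grid G) (H : ℕ) (X : Finset g.I) : Prop :=
  ∀ b ∈ X, H ≤ (b.1 : ℕ) ∧ (b.1 : ℕ) + H < g.n ∧ H ≤ (b.2 : ℕ) ∧ (b.2 : ℕ) + H < g.n

/-- the block index `b` lies in the enclosing rectangle of `X`, padded by `H` blocks (`= Sq.InRect`) -/
def InRect (g : Grid G) (H : ℕ) (X : Finset g.I) (b : ℕ × ℕ) : Prop :=
  (∃ a ∈ X, (a.1 : ℕ) ≤ b.1 + H) ∧ (∃ a ∈ X, b.1 ≤ (a.1 : ℕ) + H) ∧
    (∃ a ∈ X, (a.2 : ℕ) ≤ b.2 + H) ∧ (∃ a ∈ X, b.2 ≤ (a.2 : ℕ) + H)

/-- shift-good: the padded enclosing rectangle misses the unit = the junction of the four central blocks; otherwise `X` is a DEFECT -/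
def ShiftGood (g : Grid G) (H : ℕ) (X : Finset g.I) : Prop := ¬ InRect g H X (g.n / 2, g.n / 2)

/-- the block `b` is within `H` blocks of the unit (`H = 1`: the four central blocks) -/
def NearB (g : Grid G) (H : ℕ) (b : g.I) : Prop :=
  g.n / 2 ≤ (b.1 : ℕ) + H ∧ (b.1 : ℕ) < g.n / 2 + H ∧ g.n / 2 ≤ (b.2 : ℕ) + H ∧ (b.2 : ℕ) < g.n / 2 + H

/-- `X` has an occupied block within `H` blocks of the unit -/
def NearUnit (g : Grid G) (H : ℕ) (X : Finset g.I) : Prop := ∃ b ∈ X, NearB g H b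

open Classical in
/-- (obs:affected-set): the possible destinations of scalar differences -/
def Aff (g : Grid G) (H : ℕ) : Finset g.I := Finset.univ.filter fun b => NearB g H b

open Classical in
/-- restriction of an activity to a class of supports -/
def cutA {g : Grid G} (𝒞 : Finset g.I → Prop) (K : Act g) : Act g := fun X => if 𝒞 X then K X else 0

/-- the zone constants, in current blocks, the same at all levels -/
structure Zn where
  /-- wall clearance -/
  H0 : ℕ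
  /-- padding of the enclosing rectangles -/
  H1 : ℕ
  /-- location of the label -/
  HJ : ℕ
  /-- the affected blocks -/
  HA : ℕ

/-! ## 2. Gauges, translations, the reference field -/

open Classical in
/-- the rectangle spanned by a set of sites (`= F4b.Vol.hull`) -/
def hullS (D : Finset G.V) : Finset G.V :=
  Finset.univ.filter fun v => (∃ a ∈ D, a.1 ≤ v.1) ∧ (∃ a ∈ D, v.1 ≤ a.1) ∧ (∃ a ∈ D, a.2 ≤ v.2) ∧ (∃ a ∈ D, v.2 ≤ a.2)

/-- `κ` is an integral gauge of the unit connection on the rectangle spanned by `D_m (X)` (the hypothesis of `F4b.UnitOK.transl`) -/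
def IsGauge (g : Grid G) (X : Finset g.I) (κ : G.V → ℤ) : Prop :=
  ∀ e : G.V × Bool, stp e.1 e.2 ≠ e.1 → e.1 ∈ hullS (g.Dm X) → stp e.1 e.2 ∈ hullS (g.Dm X) →
    κ (stp e.1 e.2) - κ e.1 = tauE (G.M / 2) e

/-- `κ` is an integral gauge on the enclosing rectangle of `X` padded by `H` blocks (used in the ESTIMATES: the stencils of the regulators stay inside) -/
def IsGaugeR (g : Grid G) (H : ℕ) (X : Finset g.I) (κ : G.V → ℤ) : Prop :=
  ∀ e : G.V × Bool, stp e.1 e.2 ≠ e.1 →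
    InRect g H X (((g.blk e.1).1 : ℕ), ((g.blk e.1).2 : ℕ)) →
    InRect g H X (((g.blk (stp e.1 e.2)).1 : ℕ), ((g.blk (stp e.1 e.2)).2 : ℕ)) →
    κ (stp e.1 e.2) - κ e.1 = tauE (G.M / 2) e

open Classical in
/-- a chosen gauge on the padded rectangle (junk `0` on defects) -/
def gaugeOf (g : Grid G) (H : ℕ) (X : Finset g.I) : G.V → ℤ := if h : ∃ κ, IsGaugeR g H X κ then h.choose else 0

/-- the real field `ω κ` -/
def gF (ω : ℝ) (κ : G.V → ℤ) : G.V → ℝ := fun x => ω * (κ x : ℝ)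

/-- translation of the field argument of one function by a real background -/
def shF (F : Fn G) (lam : G.V → ℝ) : Fn G := fun z => F (z + toC lam)

/-- translation of the field argument of an activity by a real background (`= F4b.shiftA`) -/
def shA {g : Grid G} (K : Act g) (lam : G.V → ℝ) : Act g := fun X => shF (K X) lam

/-- the reference point of the defect constants: `Ψ_ref (x) = v_∞ (x - centre) / α`, the same plane function in all centred squares -/
def psiRef (G : Geom) (vinf : ℤ × ℤ → ℝ) (α : ℝ) : G.V → ℝ :=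
  fun x => vinf (G.ι x - (((G.M / 2 : ℕ) : ℤ), ((G.M / 2 : ℕ) : ℤ))) / α

/-! ## 3. Designations by pieces -/

variable {D0 ℓ : ℕ} (S : B8.Step G D0 ℓ) (c : B8.Geo) (ω : ℝ)

open Classical in
/-- the designated data whose label `Y`, block `b` collects the pieces `pc X B` of the small inputs `X`, `\bar X = Y`, `B ∈ X`, `B ⊆ b`; `cn X B` = the constant part of the piece -/
def ofPieces (pc : Finset S.P.g.I → S.P.g.I → Fn G) (cn : Finset S.P.g.I → S.P.g.I → ℂ) : Desig S.P.g' (Fn G) where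
  F := fun Y b => ∑ X ∈ (S.small c).filter (fun X => S.P.N.cl X = Y), ∑ B ∈ X.filter (fun B => S.P.N.up B = b), pc X B
  a := fun b => ∑ X ∈ S.small c, ∑ B ∈ X.filter (fun B => S.P.N.up B = b), cn X B

/-- the affine family `d + s ḋ` -/
def dLin {g' : Grid G} (d dd : Desig g' (Fn G)) (s : ℂ) : Desig g' (Fn G) := ⟨d.F + s • dd.F, d.a + s • dd.a⟩

open Classical in
/-- the two retained singletons on the wall-free blocks -/
def singleWF (g : Grid G) (H0 : ℕ) (α : ℝ) (t z : ℂ) : Act g := fun X =>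
  ∑ B : g.I, if X = {B} ∧ WallFree g H0 {B} then (t / 2) • eBC g B + z • cBC g α B else 0

variable (zn : Zn) (t z : ℂ)

/-- the centred remainder `R0 = K0 - singletons` -/
def R0 (K0 : Act S.P.g) : Act S.P.g := K0 - singleWF S.P.g zn.H0 (B8.Step.alpha ω) t z

open Classical in
/-- CENTRED sector, the piece of the small input `X` at the fine block `B ∈ X`:
wall-free `X`: the plane rule (`B8.Step.piece` of the remainder; the whole expectation of the singletons);  otherwise ONLY the neutral constant -/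
def pc0 (K0 : Act S.P.g) (X : Finset S.P.g.I) (B : S.P.g.I) : Fn G :=
  if WallFree S.P.g zn.H0 X then
    S.piece ω true (R0 S ω zn t z K0) X B
      + if X = {B} then conv S.Γ ((t / 2) • eBC S.P.g B + z • cBC S.P.g (B8.Step.alpha ω) B) else 0
  else fun _ => (1 / (X.card : ℂ)) * S.Hq ω 0 K0 X 0

open Classical in
/-- CENTRED sector, the constant of the piece -/
def cn0 (K0 : Act S.P.g) (X : Finset S.P.g.I) (B : S.P.g.I) : ℂ :=
  if WallFree S.P.g zn.H0 X then
    (1 / (X.card : ℂ)) * S.Hq ω 0 (R0 S ω zn t z K0) X 0 + if X = {B} then (t / 2) * conv S.Γ (eBC S.P.g B) 0 else 0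
  else (1 / (X.card : ℂ)) * S.Hq ω 0 K0 X 0

variable (Ψ : G.V → ℝ)

open Classical in
/-- UNIT sector (total field): shift-good `X`: the centred piece at `Ψ + ω κ_X`;  defect: ONLY the neutral constant at the reference field -/
def pcT (K0 KT : Act S.P.g) (X : Finset S.P.g.I) (B : S.P.g.I) : Fn G :=
  if ShiftGood S.P.g zn.H1 X then shF (pc0 S ω zn t z K0 X B) (gF ω (gaugeOf S.P.g zn.H1 X))
  else fun _ => (1 / (X.card : ℂ)) * S.Hq ω 0 KT X (toC Ψ)

open Classical in
/-- UNIT sector, the constant: the SAME constant as in the centred sector on shift-good inputs -/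
def cnT (K0 KT : Act S.P.g) (X : Finset S.P.g.I) (B : S.P.g.I) : ℂ :=
  if ShiftGood S.P.g zn.H1 X then cn0 S ω zn t z K0 X B else (1 / (X.card : ℂ)) * S.Hq ω 0 KT X (toC Ψ)

/-- LABEL direction: ONLY the neutral constant at the reference field -/
def cnJ (JT : Act S.P.g) (X : Finset S.P.g.I) (_B : S.P.g.I) : ℂ := (1 / (X.card : ℂ)) * S.Hq ω 0 JT X (toC Ψ)

/-- the designated data of the centred sector -/
def d0 (K0 : Act S.P.g) : Desig S.P.g' (Fn G) := ofPieces S c (pc0 S ω zn t z K0) (cn0 S ω zn t z K0)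

/-- the designated data of the unit sector -/
def dT (K0 KT : Act S.P.g) : Desig S.P.g' (Fn G) := ofPieces S c (pcT S ω zn t z Ψ K0 KT) (cnT S ω zn t z Ψ K0 KT)

/-- the designated data in the label direction -/
def dJ (JT : Act S.P.g) : Desig S.P.g' (Fn G) := ofPieces S c (fun X B _ => cnJ S ω Ψ JT X B) (cnJ S ω Ψ JT)

/-! ## 4. The paired step -/

/-- the state of one square at one level: centred activity; unit and labelled activities as functions of the TOTAL field -/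
structure St (g : Grid G) where
  K0 : Act g
  KT : Act g
  JT : Act g

/-- the unit activity along the label direction, `s ↦ K' (KT + s JT, dT + s dJ)` -/
def famT (x : St S.P.g) (s : ℂ) : Act S.P.g' :=
  Kprime S.P c.r c.R (conv S.Γ) (x.KT + s • x.JT) (dLin (dT S c ω zn t z Ψ x.K0 x.KT) (dJ S c ω Ψ x.JT) s)

/-- **the paired step** in one square -/
def next (x : St S.P.g) : St S.P.g' where
  K0 := Kprime S.P c.r c.R (conv S.Γ) x.K0 (d0 S c ω zn t z x.K0)
  KT := Kprime S.P c.r c.R (conv S.Γ) x.KT (dT S c ω zn t z Ψ x.K0 x.KT)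
  JT := fun Y w => deriv (fun s : ℂ => famT S c ω zn t z Ψ x s Y w) 0

/-! ## 5. Embeddings of volumes, copies -/

/-- an embedding of the sites and of the blocks of a grid -/
structure GEmb {G₀ G₁ : Geom} (g₀ : Grid G₀) (g₁ : Grid G₁) where
  s : G₀.V ↪ G₁.V
  e : g₀.I ↪ g₁.I

/-- the plane point `y` lies in the box of canonical lifts -/
def InBox (G : Geom) (y : ℤ × ℤ) : Prop := 0 ≤ y.1 ∧ y.1 < G.M ∧ 0 ≤ y.2 ∧ y.2 < G.M

/-- the embedding respects blocks (with full fibres), index distances, block sides and the lattice structure (it is a translation) -/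
structure GEmb.Ok {G₀ G₁ : Geom} {g₀ : Grid G₀} {g₁ : Grid G₁} (E : GEmb g₀ g₁) : Prop where
  side : g₁.m = g₀.m
  blk : ∀ v, g₁.blk (E.s v) = E.e (g₀.blk v)
  full : ∀ v' a, g₁.blk v' = E.e a → v' ∈ Set.range E.s
  dist : ∀ a b, g₁.idist (E.e a) (E.e b) = g₀.idist a b
  lat : ∀ (v : G₀.V) (x : ℤ × ℤ), InBox G₀ (G₀.ι v + x) → G₁.π (G₁.ι (E.s v) + x) = E.s (G₀.π (G₀.ι v + x))

/-- the sites on which a function with support `X` and collar `col` depends -/
def dep (g : Grid G) (col : ℕ) (X : Finset g.I) : Set G.V := {v | ∃ w ∈ g.sites X, G.dist w v ≤ col}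

/-- the fields `z₀`, `z₁` correspond on the dependence set of `X`, up to the real translation `μ` -/
def Agree {G₀ G₁ : Geom} {g₀ : Grid G₀} {g₁ : Grid G₁} (E : GEmb g₀ g₁) (col : ℕ) (μ : G₀.V → ℝ) (X : Finset g₀.I)
    (z₀ : G₀.V → ℂ) (z₁ : G₁.V → ℂ) : Prop := ∀ v ∈ dep g₀ col X, z₁ (E.s v) = z₀ v + (μ v : ℂ)

/-- `F₀` with support `X` is the copy of `F₁` with support `E X`, at the translated field -/
def CopyFn {G₀ G₁ : Geom} {g₀ : Grid G₀} {g₁ : Grid G₁} (E : GEmb g₀ g₁) (h0 : ℝ≥0) (col : ℕ) (μ : G₀.V → ℝ) (X : Finset g₀.I)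
    (F₀ : Fn G₀) (F₁ : Fn G₁) : Prop :=
  ∀ z₀ ∈ strip h0 g₀ X, ∀ z₁ ∈ strip h0 g₁ (X.map E.e), Agree E col μ X z₀ z₁ → F₀ z₀ = F₁ z₁

/-- `K₀ (X, z) = K₁ (E X, z ∘ E⁻¹ + μ)` -/
def CopyX {G₀ G₁ : Geom} {g₀ : Grid G₀} {g₁ : Grid G₁} (E : GEmb g₀ g₁) (h0 : ℝ≥0) (col : ℕ) (μ : G₀.V → ℝ) (K₀ : Act g₀) (K₁ : Act g₁)
    (X : Finset g₀.I) : Prop := CopyFn E h0 col μ X (K₀ X) (K₁ (X.map E.e))

/-- an embedding of a retained pair -/
structure PEmb {G₀ G₁ : Geom} {D0 D0' ℓ : ℕ} (P₀ : Pair G₀ D0 ℓ) (P₁ : Pair G₁ D0' ℓ) where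
  s : G₀.V ↪ G₁.V
  f : P₀.g.I ↪ P₁.g.I
  c : P₀.g'.I ↪ P₁.g'.I

namespace PEmb

variable {G₀ G₁ : Geom} {D0' : ℕ} {P₀ : Pair G₀ D0 ℓ} {P₁ : Pair G₁ D0' ℓ} (E : PEmb P₀ P₁)

/-- the fine level -/
def fine : GEmb P₀.g P₁.g := ⟨E.s, E.f⟩

/-- the coarse level -/
def coarse : GEmb P₀.g' P₁.g' := ⟨E.s, E.c⟩

/-- both levels are respected -/
structure Ok : Prop where
  fine : E.fine.Ok
  coarse : E.coarse.Ok

end PEmb

/-- a family of embeddings of the levels of two towers, with ONE embedding of the sites -/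
structure TEmb {G₀ G₁ : Geom} (L₀ : ℕ → Grid G₀) (L₁ : ℕ → Grid G₁) where
  s : G₀.V ↪ G₁.V
  e : ∀ j, (L₀ j).I ↪ (L₁ j).I

/-- the embedding of the level `j` -/
def TEmb.lv {G₀ G₁ : Geom} {L₀ : ℕ → Grid G₀} {L₁ : ℕ → Grid G₁} (E : TEmb L₀ L₁) (j : ℕ) : GEmb (L₀ j) (L₁ j) := ⟨E.s, E.e j⟩

/-- the embedding of two squares is centred -/
def Centred {G₀ G₁ : Geom} (s : G₀.V ↪ G₁.V) : Prop :=
  ∀ v, G₁.ι (s v) = G₀.ι v + ((((G₁.M / 2 : ℕ) : ℤ) - ((G₀.M / 2 : ℕ) : ℤ)), (((G₁.M / 2 : ℕ) : ℤ) - ((G₀.M / 2 : ℕ) : ℤ)))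

/-- the identity embedding -/
def GEmb.id (g : Grid G) : GEmb g g := ⟨Function.Embedding.refl _, Function.Embedding.refl _⟩

/-- the identity embedding of a pair -/
def PEmb.id (P : Pair G D0 ℓ) : PEmb P P := ⟨Function.Embedding.refl _, Function.Embedding.refl _, Function.Embedding.refl _⟩

/-! ## 6. Whole-block grids, centred squares, the tower of levels, the history -/

/-- a whole-block grid in closed form -/
structure Std (g : Grid G) : Prop where
  pos : 0 < g.m
  card : G.M = g.n * g.m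
  blk : ∀ i : Fin G.M, ((g.blk1 i : Fin g.n) : ℕ) = (i : ℕ) / g.m

/-- a retained pair of whole-block grids of a free square whose centre is a junction of coarse blocks -/
structure Cen (P : Pair G D0 ℓ) : Prop where
  free : G.bc = BC.free
  fine : Std P.g
  coarse : Std P.g'
  even : 2 ∣ P.g'.n

/-- the block side of the level `j` (TOTAL definition: it is `L^j` as soon as `L^j ∣ M`) -/
def side (G : Geom) (ℓ j : ℕ) : ℕ := Nat.gcd ((2 ^ ℓ) ^ j) G.M

theorem side_pos (G : Geom) (ℓ j : ℕ) : 0 < side G ℓ j := Nat.gcd_pos_of_pos_right _ G.hM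

theorem side_dvd (G : Geom) (ℓ j : ℕ) : side G ℓ j ∣ G.M := Nat.gcd_dvd_right _ _

theorem side_dvd_succ (G : Geom) (ℓ j : ℕ) : side G ℓ j ∣ side G ℓ (j + 1) :=
  Nat.gcd_dvd_gcd_of_dvd_left _ (pow_dvd_pow _ (Nat.le_succ j))

theorem side_eq {G : Geom} {ℓ j : ℕ} (h : (2 ^ ℓ) ^ j ∣ G.M) : side G ℓ j = (2 ^ ℓ) ^ j := Nat.gcd_eq_left h

/-- the whole-block grid of the level `j` -/
def lev (G : Geom) (ℓ j : ℕ) : Grid G := torusGrid G (side G ℓ j) (side_dvd G ℓ j)

/-- nesting of consecutive levels -/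
def nest (G : Geom) (ℓ j : ℕ) : Nest (lev G ℓ j) (lev G ℓ (j + 1)) where
  up1 := fun a => ⟨(a : ℕ) / (side G ℓ (j + 1) / side G ℓ j), by
    have ha : (a : ℕ) < G.M / side G ℓ j := a.2
    have e : side G ℓ (j + 1) = side G ℓ j * (side G ℓ (j + 1) / side G ℓ j) := (Nat.mul_div_cancel' (side_dvd_succ G ℓ j)).symm
    show (a : ℕ) / (side G ℓ (j + 1) / side G ℓ j) < G.M / side G ℓ (j + 1)
    conv_rhs => rw [e, ← Nat.div_div_eq_div_mul]
    apply Nat.div_lt_div_of_lt_of_dvd _ ha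
    apply Nat.dvd_div_of_mul_dvd
    rw [← e]; exact side_dvd G ℓ (j + 1)⟩
  comm := fun i => by
    apply Fin.ext
    have e : side G ℓ (j + 1) = side G ℓ j * (side G ℓ (j + 1) / side G ℓ j) := (Nat.mul_div_cancel' (side_dvd_succ G ℓ j)).symm
    show (i : ℕ) / side G ℓ (j + 1) = (i : ℕ) / side G ℓ j / (side G ℓ (j + 1) / side G ℓ j)
    conv_lhs => rw [e]
    rw [Nat.div_div_eq_div_mul]

/-- the pair of levels `(j, j + 1)` is retained with the clearance `D0` -/
structure Ret (G : Geom) (ℓ D0 j : ℕ) : Prop where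
  dvd : (2 ^ ℓ) ^ (j + 1) ∣ G.M
  clear : D0 * (2 ^ ℓ) ^ (j + 1) < G.M

theorem Ret.dvd' {G : Geom} {ℓ D0 j : ℕ} (h : Ret G ℓ D0 j) : (2 ^ ℓ) ^ j ∣ G.M :=
  dvd_trans (pow_dvd_pow _ (Nat.le_succ j)) h.dvd

/-- the retained pair -/
def pair {G : Geom} {ℓ D0 j : ℕ} (h : Ret G ℓ D0 j) : Pair G D0 ℓ where
  g := lev G ℓ j
  g' := lev G ℓ (j + 1)
  N := nest G ℓ j
  ok := B8.torusGrid_ok _ _ _ (side_pos G ℓ j)
  ok' := B8.torusGrid_ok _ _ _ (side_pos G ℓ (j + 1))
  hS := by
    show side G ℓ (j + 1) = 2 ^ ℓ * side G ℓ j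
    rw [side_eq h.dvd, side_eq h.dvd', pow_succ, mul_comm]
  clear := by
    show D0 * side G ℓ (j + 1) < G.M
    rw [side_eq h.dvd]; exact h.clear

/-- the regulators of the two norms at all levels of one volume -/
structure Tw (G : Geom) (ℓ : ℕ) where
  V0 : ∀ j, Extra (lev G ℓ j)
  VT : ∀ j, Extra (lev G ℓ j)

/-- the step `j → j + 1`, entry family, regulators of the centred norm -/
def Tw.step {G : Geom} {ℓ : ℕ} (T : Tw G ℓ) {D0 j : ℕ} (h : Ret G ℓ D0 j) : B8.Step G D0 ℓ :=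
  ⟨pair h, shell G Fam.entry (side G ℓ j) (side G ℓ (j + 1)), T.V0 j, T.V0 (j + 1)⟩

/-- the parameters of the paired map which are the same at all levels and in all squares -/
structure Prm where
  c : B8.Geo
  ω : ℝ
  zn : Zn
  D0 : ℕ
  vinf : ℤ × ℤ → ℝ

/-- `α = 2π/ω` -/
def Prm.α (pm : Prm) : ℝ := B8.Step.alpha pm.ω

/-- the reference field of a square -/
def Prm.ref (pm : Prm) (G : Geom) : G.V → ℝ := psiRef G pm.vinf pm.α

open Classical in
/-- **the paired history** of one square from the entry state `x0` at the level `j0`, driven by the plane scalars `t j`, `z j` (absolute index) -/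
def hist (pm : Prm) {G : Geom} {ℓ : ℕ} (T : Tw G ℓ) (t z : ℕ → ℂ) (j0 : ℕ) (x0 : St (lev G ℓ j0)) : ∀ k, St (lev G ℓ (j0 + k))
  | 0 => x0
  | k + 1 =>
    if h : Ret G ℓ pm.D0 (j0 + k) then
      next (T.step h) pm.c pm.ω pm.zn (t (j0 + k)) (z (j0 + k)) (pm.ref G) (hist pm T t z j0 x0 k)
    else ⟨0, 0, 0⟩

open Classical in
/-- the three extracted scalars `(a⁰, a^τ, \dot a)` of the step `j0 + k → j0 + k + 1` at the output block `b` -/
def scal (pm : Prm) {G : Geom} {ℓ : ℕ} (T : Tw G ℓ) (t z : ℕ → ℂ) (j0 : ℕ) (x0 : St (lev G ℓ j0)) (k : ℕ) (b : (lev G ℓ (j0 + k + 1)).I) :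
    ℂ × ℂ × ℂ :=
  if h : Ret G ℓ pm.D0 (j0 + k) then
    ((d0 (T.step h) pm.c pm.ω pm.zn (t (j0 + k)) (z (j0 + k)) (hist pm T t z j0 x0 k).K0).a b,
     (dT (T.step h) pm.c pm.ω pm.zn (t (j0 + k)) (z (j0 + k)) (pm.ref G) (hist pm T t z j0 x0 k).K0 (hist pm T t z j0 x0 k).KT).a b,
     (dJ (T.step h) pm.c pm.ω (pm.ref G) (hist pm T t z j0 x0 k).JT).a b)
  else (0, 0, 0)

/-- (obs:extracted-scalars): `D_ex` after `i` steps; the affected blocks are the four central ones -/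
def Dex (pm : Prm) {G : Geom} {ℓ : ℕ} (T : Tw G ℓ) (t z : ℕ → ℂ) (j0 : ℕ) (x0 : St (lev G ℓ j0)) (i : ℕ) : ℂ :=
  ∏ k ∈ Finset.range i, ∏ b ∈ Aff (lev G ℓ (j0 + k + 1)) 1, (1 + (scal pm T t z j0 x0 k b).2.1) / (1 + (scal pm T t z j0 x0 k b).1)

/-- (obs:extracted-scalars): `c_ex` after `i` steps -/
def cex (pm : Prm) {G : Geom} {ℓ : ℕ} (T : Tw G ℓ) (t z : ℕ → ℂ) (j0 : ℕ) (x0 : St (lev G ℓ j0)) (i : ℕ) : ℂ :=
  ∑ k ∈ Finset.range i, ∑ b ∈ Aff (lev G ℓ (j0 + k + 1)) 1, (scal pm T t z j0 x0 k b).2.2 / (1 + (scal pm T t z j0 x0 k b).2.1)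

end

end Claimed.Agent.R285.F6.Pr
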