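import Claimed.Agent.R285.Obs.PairJX
import Claimed.Agent.R285.Obs.PairKit2
import Claimed.Agent.R285.Obs.PairRegC

/-!
# ROW 285, unit OBS, BP-OBS-L62, block EST, items DESIG-0 and DESIG-T: THE DESIGNATED DATA OF THE CENTRED AND OF THE UNIT SECTOR      (architect helper223, chief helper79)   -- KEEP

[F] Lemma 6.2, observable.tex l.470-545.  Unit-sector objects are functions of the TOTAL field `Ψ = ψ + μ`, `μ = v_n/α`; they are MEASURED after the translation by `μ` (`shA`, `shD` of `Obs/PairJ.lean`).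
ONE FILE = SEVERAL LEAVES `L-PAIR-T*` (name in the docstring): edit ONLY your theorems (helpers directly above them, prefix `pdt_`), statements verbatim, pull before landing.   ALL NUMBERS ARE EXPLICIT (`pdtC`, `pdtCp`, `pdtN`).
Not redone here: translations (`prj_*_shift`, `prj_shF_local`, `prj_shA_ok`: helper8), generic kit `Ctx0`, `pk_desig_*` (helper202), (R2)/(R3), total norm `prx_R2`, energy of the lifts `prx_lamX_energy` (helper49), scalars (helper205).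

THE POINT (answer to helper49's warning): the pieces of a shift-good input `X` are EXPLICIT functions of the gradients / values of the field at the sites of ONE fine block `B ∈ X`; translated by the local lift `λ_X` they are bounded
DIRECTLY in the coarse norm at `{up B}` by means of `gE (sites {B}) λ_X ≤ Cl` only (`prx_lamX_energy`): no lift on the coarse `D_{Lm}`, no cut-off extension is needed.

## Exits
1. TRANSLATED EXPLICIT FUNCTIONS, measured at the coarse block, ANY norm, ANY real `lam` with `gE (sites {B}) lam ≤ Cl`: `pdt_loc_size`, `pdt_eBC_size`, `pdt_cBC_size`, `pdt_sing_size`.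
2. PER-PIECE BOUNDS, input measured in `(p, S.Vf)`, piece measured in ANY `(q, Vc')`: `pdt_piece_size`, `pdt_pc0_size`, `pdt_cn0_le`, `pdt_pc0_fn`; `pdt_ref_le` (neutral constant at the reference field); `pdt_pcT_good`, `pdt_pcT_defect`, ..
3. GENERAL STEP: `pdt_d0_ok`, `pdt_d0_size`, `pdt_dT_ok`, `pdt_dT_size`.
4. In the vocabulary of `Obs/PairCtx.lean`: `pdt_exit0_pc` (= `hpc` of `prw_row`), `pdt_exit0` (`d0`: size, `Desig.Ok`), `pdt_exit0_norm` (`‖K0‖ ≤ C (U + w)`, `hU` of `prw_row`), `pdt_exitT_pc` (= `hpc` of `prd_row`), `pdt_exitT` (`shD dT μ`: size, `Desig.Ok`).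
-/

set_option autoImplicit false

namespace Claimed.Agent.R285.F6.Pr

open scoped BigOperators ENNReal NNReal
open MeasureTheory
open Claimed.Agent.R285 Claimed.Agent.R285.RG Claimed.Agent.R285.B4 Claimed.Agent.R285.F4a

noncomputable section

variable {G : Geom} {D0 ℓ : ℕ}

/-! ## 0. Small facts on translations -/

section transl

theorem pdt_shF_apply (F : Fn G) (lam : G.V → ℝ) (z : G.V → ℂ) : shF F lam z = F (z + toC lam) := rfl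

theorem pdt_shF_shF (F : Fn G) (lam mu : G.V → ℝ) : shF (shF F lam) mu = shF F (mu + lam) := by
  funext z
  rw [pdt_shF_apply, pdt_shF_apply, pdt_shF_apply, Hol.toC_add, add_assoc]

theorem pdt_shF_add (F F' : Fn G) (lam : G.V → ℝ) : shF (F + F') lam = shF F lam + shF F' lam := rfl

theorem pdt_shF_smul (a : ℂ) (F : Fn G) (lam : G.V → ℝ) : shF (a • F) lam = a • shF F lam := rfl

theorem pdt_shF_const (a : ℂ) (lam : G.V → ℝ) : shF (fun _ : G.V → ℂ => a) lam = fun _ => a := rfl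

/-- translation of a designation by pieces -/
theorem pdt_shD_ofPieces (S : B8.Step G D0 ℓ) (c : B8.Geo) (pc : Finset S.P.g.I → S.P.g.I → Fn G) (cn : Finset S.P.g.I → S.P.g.I → ℂ) (lam : G.V → ℝ) :
    shD (ofPieces S c pc cn) lam = ofPieces S c (fun X B => shF (pc X B) lam) cn := by
  unfold shD ofPieces
  congr 1
  funext Y b w
  simp only [shF, Finset.sum_apply]

/-- `LocalFn` only sees `h0`, `ω` -/
theorem pdt_localFn_par {p q : Par} (hh : q.h0 = p.h0) (hω : q.ω = p.ω) {col : ℕ} {g : Grid G} {X : Finset g.I} {F : Fn G} (h : LocalFn p col g X F) :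
    LocalFn q col g X F := by
  refine ⟨?_, ?_, ?_⟩
  · have := h.hol
    unfold Hol at this ⊢
    rwa [hh]
  · rw [hh]
    exact h.loc
  · rw [hh, hω]
    exact h.per

/-- the scalars of data of size `< 1` are admissible -/
theorem pdt_ne_of_size {g' : Grid G} (p : Par) (V : Extra g') (d : Desig g' (Fn G)) (h : d.size p V < 1) (b : g'.I) : 1 + d.a b ≠ 0 := by
  intro hb
  have h1 : d.a b = -1 := by linear_combination hb
  have h2 : (‖d.a b‖₊ : ℝ≥0∞) ≤ d.size p V := le_trans le_add_self (le_iSup (fun b : g'.I => (∑ Y : Finset g'.I, fnSize p g' V {b} (d.F Y b)) + (‖d.a b‖₊ : ℝ≥0∞)) b)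
  rw [h1, nnnorm_neg, nnnorm_one, ENNReal.coe_one] at h2
  exact absurd h (not_lt.2 h2)

end transl

/-! ## 1. Translated explicit functions, measured at the coarse block which contains the fine block `B` -/

section explicit

/-- the constant of the translated quadratic functions -/
def pdtC (κ : ℝ) (h0 : ℝ≥0) (Cl : ℝ) : ℝ := 4 / κ + 4 * Cl + 16 * (h0 : ℝ) ^ 2

/-- **LEAF `L-PAIR-T1`**.  the gradient energy of `φ + f + lam` on one block.  plan: `toC φ + f + toC lam = toC (φ + lam) + f` (`Hol.toC_add`, `abel`), `B8.w_ls_energy_le` at `φ + lam`, `prt_gE_add_le` with `ε = 1`. -/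
theorem pdt_energy_sh (g : Grid G) (hg : g.Ok) (B : g.I) (φ lam : G.V → ℝ) (f : G.V → ℂ) {h0 : ℝ≥0} (hf : tnorm g {B} f < h0) :
    ∑ v ∈ g.sites {B}, B8.wSv (toC φ + f + toC lam) v ≤ 8 * gE G (g.sites {B}) φ + 8 * gE G (g.sites {B}) lam + 32 * (h0 : ℝ) ^ 2 := by
  have e : toC φ + f + toC lam = toC (φ + lam) + f := by
    rw [Hol.toC_add]
    abel
  rw [e]
  have h1 := B8.w_ls_energy_le g hg B (φ + lam) f hf
  have h2 := prt_gE_add_le (g.sites {B}) 1 one_pos φ lam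
  rw [inv_one] at h2
  linarith

/-- **LEAF `L-PAIR-T1`**.  .. against the coarse regulator.  plan: as in the proof of `B8.w_loc_size` (`Map/WDes.lean`): `tnorm_coarse`, `pdt_energy_sh`, `gE (sites {B}) φ ≤ U' ≤ Wt' / κ`, `1 ≤ Wt'`, `0 ≤ gE lam ≤ Cl`. -/
theorem pdt_half_energy_le (p : Par) (hδ : 0 < p.δ) (hκ : 0 < p.κ) (P : Pair G D0 ℓ) (Vc : Extra P.g') (B : P.g.I) (lam : G.V → ℝ) (Cl : ℝ)
    (hl : gE G (P.g.sites {B}) lam ≤ Cl) (φ : G.V → ℝ) (f : G.V → ℂ) (hf : tnorm P.g' {P.N.up B} f < p.h0) :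
    (1 / 2) * ∑ v ∈ P.g.sites {B}, B8.wSv (toC φ + f + toC lam) v ≤ pdtC p.κ p.h0 Cl * Wt P.g' p.δ p.κ Vc {P.N.up B} φ := by
  have hcl : P.N.cl {B} ⊆ {P.N.up B} := by
    unfold Nest.cl
    simp
  have hf' : tnorm P.g {B} f < p.h0 := lt_of_le_of_lt (Hol.tnorm_coarse P {B} {P.N.up B} hcl f) hf
  have h1 := pdt_energy_sh P.g P.ok B φ lam f hf'
  have hsub : P.g.sites {B} ⊆ P.g'.Dm {P.N.up B} := (Hol.sites_subset_Dm P.g {B}).trans (Hol.Dm_coarse P {B} {P.N.up B} hcl)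
  have h2 : gE G (P.g.sites {B}) φ ≤ U P.g' p.δ {P.N.up B} φ := (Hol.gE_mono hsub φ).trans (Hol.gE_le_U P.g' hδ.le _ φ)
  have h3 : p.κ * U P.g' p.δ {P.N.up B} φ ≤ Wt P.g' p.δ p.κ Vc {P.N.up B} φ := by
    have := Real.add_one_le_exp (p.κ * U P.g' p.δ {P.N.up B} φ)
    have h4 := Hol.exp_le_Wt P.g' p.δ p.κ Vc {P.N.up B} φ
    linarith
  have h5 := Hol.one_le_Wt P.g' hδ.le hκ.le Vc {P.N.up B} φ
  have h6 : 4 * U P.g' p.δ {P.N.up B} φ ≤ 4 / p.κ * Wt P.g' p.δ p.κ Vc {P.N.up B} φ := by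
    rw [div_mul_eq_mul_div, le_div_iff₀ hκ]
    linarith
  have hCl : 0 ≤ Cl := (Hol.gE_nonneg _ lam).trans hl
  have h7 : 4 * Cl + 16 * (p.h0 : ℝ) ^ 2 ≤ (4 * Cl + 16 * (p.h0 : ℝ) ^ 2) * Wt P.g' p.δ p.κ Vc {P.N.up B} φ :=
    le_mul_of_one_le_right (by positivity) h5
  unfold pdtC
  have e : (4 / p.κ + 4 * Cl + 16 * (p.h0 : ℝ) ^ 2) * Wt P.g' p.δ p.κ Vc {P.N.up B} φ
      = 4 / p.κ * Wt P.g' p.δ p.κ Vc {P.N.up B} φ + (4 * Cl + 16 * (p.h0 : ℝ) ^ 2) * Wt P.g' p.δ p.κ Vc {P.N.up B} φ := by ring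
  rw [e]
  linarith

theorem pdt_C_nonneg {κ : ℝ} (hκ : 0 < κ) (h0 : ℝ≥0) {Cl : ℝ} (hCl : 0 ≤ Cl) : 0 ≤ pdtC κ h0 Cl := by
  unfold pdtC
  positivity

/-- **LEAF `L-PAIR-T2`**.  a translated fine quadratic piece (`B8.w_loc_size` at `z + lam`).  plan: `Hol.fnSize_le_iff`, `B8.w_ls_Loc_le` at `toC φ + f + toC lam`, `pdt_half_energy_le`, `1 ≤ Wt'`; end of the proof of `B8.w_loc_size`. -/
theorem pdt_loc_size (p : Par) (hδ : 0 < p.δ) (hκ : 0 < p.κ) (P : Pair G D0 ℓ) (Vc : Extra P.g') (X : Finset P.g.I) (v0 : G.V) (H : Fn G) (B : P.g.I)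
    (lam : G.V → ℝ) (Cl : ℝ) (hl : gE G (P.g.sites {B}) lam ≤ Cl) :
    fnSize p P.g' Vc {P.N.up B} (shF (Loc P.g X v0 H B) lam)
      ≤ ENNReal.ofReal (1 + pdtC p.κ p.h0 Cl) * ((‖H 0‖₊ : ℝ≥0∞) + ∑ i, ∑ j, (‖DX P.g v0 H i j‖₊ : ℝ≥0∞)) := by
  rw [Hol.fnSize_le_iff]
  intro φ f hf
  have hC : 0 ≤ pdtC p.κ p.h0 Cl := pdt_C_nonneg hκ p.h0 ((Hol.gE_nonneg _ _).trans hl)
  have h1 := B8.w_ls_Loc_le P.g P.ok X v0 H B (toC φ + f + toC lam)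
  have a1 := pdt_half_energy_le p hδ hκ P Vc B lam Cl hl φ f hf
  have h5 := Hol.one_le_Wt P.g' hδ.le hκ.le Vc {P.N.up B} φ
  obtain ⟨Dn, hDn⟩ : ∃ Dn : ℝ≥0, Dn = ∑ i, ∑ j, ‖DX P.g v0 H i j‖₊ := ⟨_, rfl⟩
  have hDr : ∑ i, ∑ j, ‖DX P.g v0 H i j‖ = (Dn : ℝ) := by
    rw [hDn]
    push_cast
    rfl
  have hDe : ∑ i, ∑ j, (‖DX P.g v0 H i j‖₊ : ℝ≥0∞) = (Dn : ℝ≥0∞) := by
    rw [hDn]
    push_cast
    rfl
  rw [hDr] at h1
  rw [hDe]
  obtain ⟨w, hw⟩ : ∃ w : ℝ, w = Wt P.g' p.δ p.κ Vc {P.N.up B} φ := ⟨_, rfl⟩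
  rw [← hw] at a1 h5 ⊢
  have hD0 : (0 : ℝ) ≤ Dn := Dn.2
  have hH0 : 0 ≤ ‖H 0‖ := norm_nonneg _
  have hw0 : 0 ≤ w := by linarith
  have h7 : ‖shF (Loc P.g X v0 H B) lam (toC φ + f)‖ ≤ (1 + pdtC p.κ p.h0 Cl) * ((‖H 0‖₊ + Dn : ℝ≥0) : ℝ) * w := by
    rw [pdt_shF_apply]
    have a2 : (1 / 2) * (∑ v ∈ P.g.sites {B}, B8.wSv (toC φ + f + toC lam) v) * Dn ≤ pdtC p.κ p.h0 Cl * w * Dn :=
      mul_le_mul_of_nonneg_right a1 hD0
    have a3 : ‖H 0‖ ≤ ‖H 0‖ * w := le_mul_of_one_le_right hH0 h5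
    push_cast
    have a4 : (1 + pdtC p.κ p.h0 Cl) * (‖H 0‖ + Dn) * w
        = ‖H 0‖ * w + pdtC p.κ p.h0 Cl * w * Dn + (Dn * w + pdtC p.κ p.h0 Cl * ‖H 0‖ * w) := by ring
    have a5 : 0 ≤ Dn * w + pdtC p.κ p.h0 Cl * ‖H 0‖ * w := by positivity
    rw [a4]
    linarith
  refine (Hol.coe_nnnorm_le_ofReal h7).trans ?_
  rw [ENNReal.ofReal_mul (by positivity), ENNReal.ofReal_mul (by positivity), ENNReal.ofReal_coe_nnreal]
  push_cast
  exact le_rfl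

/-- **LEAF `L-PAIR-T2`**.  the translated energy singleton.  plan: `‖eBC g B z‖ ≤ (1/2) ∑_{v ∈ B} wSv z v` (`norm_sum_le`, `norm_pow`), `pdt_half_energy_le`. -/
theorem pdt_eBC_size (p : Par) (hδ : 0 < p.δ) (hκ : 0 < p.κ) (P : Pair G D0 ℓ) (Vc : Extra P.g') (B : P.g.I) (lam : G.V → ℝ) (Cl : ℝ)
    (hl : gE G (P.g.sites {B}) lam ≤ Cl) :
    fnSize p P.g' Vc {P.N.up B} (shF (eBC P.g B) lam) ≤ ENNReal.ofReal (pdtC p.κ p.h0 Cl) := by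
  rw [Hol.fnSize_le_iff]
  intro φ f hf
  have hC : 0 ≤ pdtC p.κ p.h0 Cl := pdt_C_nonneg hκ p.h0 ((Hol.gE_nonneg _ _).trans hl)
  have a1 := pdt_half_energy_le p hδ hκ P Vc B lam Cl hl φ f hf
  have h7 : ‖shF (eBC P.g B) lam (toC φ + f)‖ ≤ pdtC p.κ p.h0 Cl * Wt P.g' p.δ p.κ Vc {P.N.up B} φ := by
    refine le_trans ?_ a1
    rw [pdt_shF_apply]
    unfold eBC B8.wSv
    rw [norm_mul]
    have h12 : ‖(1 / 2 : ℂ)‖ = 1 / 2 := by simp
    rw [h12]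
    refine mul_le_mul_of_nonneg_left ?_ (by norm_num)
    refine norm_sum_le_of_le _ fun v _ => ?_
    refine norm_sum_le_of_le _ fun e _ => ?_
    rw [norm_pow]
  refine (Hol.coe_nnnorm_le_ofReal h7).trans ?_
  rw [ENNReal.ofReal_mul hC]

/-- **LEAF `L-PAIR-T3`**.  the cosine singleton in the strip of the coarse block.  plan: inside the proof of `B8.w_cBC_coarse_size` (`h5`). -/
theorem pdt_cBC_le (h0 : ℝ≥0) (α : ℝ) (P : Pair G D0 ℓ) (B : P.g.I) (z : G.V → ℂ) (hz : z ∈ strip h0 P.g' {P.N.up B}) :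
    ‖cBC P.g α B z‖ ≤ 4 * Real.exp (|α| * h0) := by
  have hm : (0 : ℝ) < P.g.m := by exact_mod_cast P.ok.pos
  have h1 : ∀ x ∈ P.g.sites {B}, ‖Complex.cos (α * z x)‖ ≤ Real.exp (|α| * h0) := by
    intro x hx
    refine (Hol.norm_cos_le _).trans (Real.exp_le_exp.2 ?_)
    have h2 : ((α : ℂ) * z x).im = α * (z x).im := by simp
    rw [h2, abs_mul]
    gcongr
    have hx' : x ∈ P.g'.sites {P.N.up B} := by
      simp only [Grid.sites, Finset.mem_filter, Finset.mem_univ, true_and, Finset.mem_singleton] at hx ⊢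
      rw [← hx]
      exact Prod.ext (P.N.comm x.1) (P.N.comm x.2)
    have h3 : ‖(z x).im‖₊ ≤ tnorm P.g' {P.N.up B} (fun v => (z v).im) :=
      (Hol.tnorm_spec P.g' {P.N.up B} (fun v => (z v).im) x (Hol.sites_subset_Dm P.g' _ hx')).1
    have h4 : ‖(z x).im‖ ≤ h0 := by exact_mod_cast h3.trans (Hol.mem_strip.1 hz).le
    exact h4
  unfold cBC
  rw [norm_mul, Complex.norm_real, Real.norm_of_nonneg (by positivity)]
  have h6 : ‖∑ x ∈ P.g.sites {B}, Complex.cos (α * z x)‖ ≤ (4 * (P.g.m : ℝ) ^ 2) * Real.exp (|α| * h0) := by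
    refine (norm_sum_le_of_le _ h1).trans ?_
    rw [Finset.sum_const, nsmul_eq_mul]
    gcongr
    exact_mod_cast Hol.card_sites_singleton_le P.g P.ok B
  calc ((P.g.m : ℝ) ^ 2)⁻¹ * ‖∑ x ∈ P.g.sites {B}, Complex.cos (α * z x)‖
      ≤ ((P.g.m : ℝ) ^ 2)⁻¹ * ((4 * (P.g.m : ℝ) ^ 2) * Real.exp (|α| * h0)) := by gcongr
    _ = 4 * Real.exp (|α| * h0) := by field_simp

/-- **LEAF `L-PAIR-T3`**.  the translated cosine singleton, and its Gaussian expectation.  plan: `B8.w_fnSize_le_of_bound`, `pdt_cBC_le` at `z + toC lam` resp. `z + toC lam + toC ζ` (`Hol.strip_add_toC`);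
`norm_integral_le_of_norm_le_const`, `Reg.reg_gauss_prob`. -/
theorem pdt_cBC_size (p : Par) (hδ : 0 ≤ p.δ) (hκ : 0 ≤ p.κ) (α : ℝ) (P : Pair G D0 ℓ) (Γ : Matrix G.V G.V ℝ) (Vc : Extra P.g') (B : P.g.I) (lam : G.V → ℝ) :
    fnSize p P.g' Vc {P.N.up B} (shF (cBC P.g α B) lam) ≤ 4 * ENNReal.ofReal (Real.exp (|α| * p.h0)) ∧
    fnSize p P.g' Vc {P.N.up B} (shF (conv Γ (cBC P.g α B)) lam) ≤ 4 * ENNReal.ofReal (Real.exp (|α| * p.h0)) := by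
  have e4 : ENNReal.ofReal (4 * Real.exp (|α| * p.h0)) = 4 * ENNReal.ofReal (Real.exp (|α| * p.h0)) := by
    rw [ENNReal.ofReal_mul (by norm_num)]; norm_num
  constructor
  · refine B8.w_fnSize_le_of_bound p hδ hκ P.g' Vc _ _ _ fun z hz => ?_
    rw [← e4]
    exact Hol.coe_nnnorm_le_ofReal (pdt_cBC_le p.h0 α P B _ (Hol.strip_add_toC hz lam))
  · refine B8.w_fnSize_le_of_bound p hδ hκ P.g' Vc _ _ _ fun z hz => ?_
    rw [← e4]
    refine Hol.coe_nnnorm_le_ofReal ?_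
    have : IsProbabilityMeasure (gauss G Γ) := Reg.reg_gauss_prob Γ
    have h1 := norm_integral_le_of_norm_le_const (μ := gauss G Γ) (f := fun ζ : G.V → ℝ => cBC P.g α B (z + toC lam + toC ζ))
      (C := 4 * Real.exp (|α| * p.h0))
      (Filter.Eventually.of_forall fun ζ => pdt_cBC_le p.h0 α P B _ (Hol.strip_add_toC (Hol.strip_add_toC hz lam) ζ))
    have h2 : shF (conv Γ (cBC P.g α B)) lam z = ∫ ζ : G.V → ℝ, cBC P.g α B (z + toC lam + toC ζ) ∂(gauss G Γ) := rfl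
    rw [h2]
    simpa using h1

/-- **LEAF `L-PAIR-T3`**.  the translated complete expectation of the two singletons.  plan: `B8.w_conv_single`, `B8.w_conv_eBC` (`conv Γ eBC = eBC + const`), `pdt_shF_add/smul`, `B8.w_fnSize_add_le`, `B8.w_fnSize_smul_le`, `‖t/2‖ ≤ ‖t‖`,
`pdt_eBC_size`, `B8.w_ds_const_size`, `pdt_cBC_size`; model: `B8.w_ds_sing`. -/
theorem pdt_sing_size (p : Par) (hδ : 0 < p.δ) (hκ : 0 < p.κ) (α : ℝ) (P : Pair G D0 ℓ) (Γ : Matrix G.V G.V ℝ) (hΓ : Γ.PosSemidef) (Vc : Extra P.g') (B : P.g.I)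
    (t z : ℂ) (lam : G.V → ℝ) (Cl : ℝ) (hl : gE G (P.g.sites {B}) lam ≤ Cl) (Ce : ℝ≥0∞) (hCe : (‖conv Γ (eBC P.g B) 0‖₊ : ℝ≥0∞) ≤ Ce) :
    fnSize p P.g' Vc {P.N.up B} (shF (conv Γ ((t / 2) • eBC P.g B + z • cBC P.g α B)) lam)
      ≤ (‖t‖₊ : ℝ≥0∞) * (ENNReal.ofReal (pdtC p.κ p.h0 Cl) + Ce) + (‖z‖₊ : ℝ≥0∞) * (4 * ENNReal.ofReal (Real.exp (|α| * p.h0))) := by
  have e1 : conv Γ (eBC P.g B) = eBC P.g B + fun _ => conv Γ (eBC P.g B) 0 := by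
    funext w
    exact B8.w_conv_eBC P.g Γ hΓ B w
  rw [B8.w_conv_single P.g Γ hΓ, pdt_shF_add, pdt_shF_smul, pdt_shF_smul, e1, pdt_shF_add, pdt_shF_const]
  refine (B8.w_fnSize_add_le _ _ _ _ _ _).trans (add_le_add ?_ ?_)
  · refine (B8.w_fnSize_smul_le _ _ _ _ _ _).trans (mul_le_mul' ?_ ?_)
    · have : ‖t / 2‖₊ ≤ ‖t‖₊ := by
        rw [← NNReal.coe_le_coe, coe_nnnorm, coe_nnnorm, norm_div]
        have h2 : ‖(2 : ℂ)‖ = 2 := by simp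
        rw [h2]
        have := norm_nonneg t
        linarith
      exact_mod_cast this
    · refine (B8.w_fnSize_add_le _ _ _ _ _ _).trans (add_le_add (pdt_eBC_size p hδ hκ P Vc B lam Cl hl) ?_)
      exact (B8.w_ds_const_size p hδ.le hκ.le _ _ _ _).trans hCe
  · exact (B8.w_fnSize_smul_le _ _ _ _ _ _).trans (mul_le_mul' le_rfl (pdt_cBC_size p hδ.le hκ.le α P Γ Vc B lam).2)

/-- **LEAF `L-PAIR-T4`**.  `|E e_B (ζ)| ≤ 8 C_k`, any boundary condition.  plan: the proof of `B8.w_conv_eBC_zero` (`Map/WSing.lean`, periodic case) with `card (sites {B}) ≤ 4 m²` (`Hol.card_sites_singleton_le`) instead of `= m²`. -/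
theorem pdt_eB_mean (Ck ck : ℝ) (L : ℕ) (g : Grid G) (hg : g.Ok) (Γ : Matrix G.V G.V ℝ) (hΓ : Γ.PosSemidef)
    (hb : ShellBounds G Ck ck L g.m Γ) (B : g.I) : (‖conv Γ (eBC g B) 0‖₊ : ℝ≥0∞) ≤ ENNReal.ofReal (8 * Ck) := by
  refine Hol.coe_nnnorm_le_ofReal ?_
  rw [B8.w5_conv_eBC_eq g Γ hΓ B 0, B8.w5_eBC_zero, zero_add, Complex.norm_real, Real.norm_eq_abs]
  have hm : (0 : ℝ) < g.m := by exact_mod_cast hg.pos
  have hsq : ∀ (v : G.V) (e : Fin 4), ∫ ζ : G.V → ℝ, dif (dir e) (G.lift ζ) (G.ι v) ^ 2 ∂(gauss G Γ)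
      = kdif G ![e] ![e] Γ (G.ι v) (G.ι v) := fun v e => B8.w5_dif_sq Γ hΓ v e
  have hCk : 0 ≤ Ck := by
    obtain ⟨v⟩ : Nonempty G.V := ⟨B8.org G⟩
    have h := (abs_nonneg _).trans (hb.mixed 1 1 (by norm_num) (by norm_num) ![0] ![0] v v)
    have hp : 0 < ((((g.m : ℝ) + G.dist v v) ^ (1 + 1))⁻¹) := by positivity
    exact nonneg_of_mul_nonneg_left h hp
  have hbd : ∀ (v : G.V) (e : Fin 4), |kdif G ![e] ![e] Γ (G.ι v) (G.ι v)| ≤ Ck * ((g.m : ℝ) ^ 2)⁻¹ := by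
    intro v e
    refine (hb.mixed 1 1 (by norm_num) (by norm_num) ![e] ![e] v v).trans (mul_le_mul_of_nonneg_left ?_ hCk)
    have hd : (0 : ℝ) ≤ G.dist v v := Nat.cast_nonneg _
    exact inv_anti₀ (by positivity) (pow_le_pow_left₀ hm.le (by linarith) 2)
  have hcard : ((g.sites {B}).card : ℝ) ≤ 4 * (g.m : ℝ) ^ 2 := by exact_mod_cast Hol.card_sites_singleton_le g hg B
  unfold eB gE
  rw [integral_const_mul, integral_finsetSum _ fun v _ => integrable_finsetSum _ fun e _ => (B8.w5_dif_memLp Γ _ _).integrable_sq]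
  simp only [integral_finsetSum _ fun e _ => (B8.w5_dif_memLp Γ _ _).integrable_sq, hsq]
  rw [abs_mul, abs_of_pos (by norm_num : (0 : ℝ) < 1 / 2)]
  have h2 : |∑ v ∈ g.sites {B}, ∑ e : Fin 4, kdif G ![e] ![e] Γ (G.ι v) (G.ι v)| ≤ (g.sites {B}).card • (4 * (Ck * ((g.m : ℝ) ^ 2)⁻¹)) := by
    refine (Finset.abs_sum_le_sum_abs _ _).trans (Finset.sum_le_card_nsmul _ _ _ fun v _ => ?_)
    refine (Finset.abs_sum_le_sum_abs _ _).trans ((Finset.sum_le_card_nsmul _ _ _ fun e _ => hbd v e).trans (le_of_eq ?_))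
    simp
  rw [nsmul_eq_mul] at h2
  have h3 : ((g.sites {B}).card : ℝ) * (4 * (Ck * ((g.m : ℝ) ^ 2)⁻¹)) ≤ (4 * (g.m : ℝ) ^ 2) * (4 * (Ck * ((g.m : ℝ) ^ 2)⁻¹)) :=
    mul_le_mul_of_nonneg_right hcard (by positivity)
  have h4 : (4 * (g.m : ℝ) ^ 2) * (4 * (Ck * ((g.m : ℝ) ^ 2)⁻¹)) = 16 * Ck := by field_simp; ring
  linarith

end explicit

/-! ## 2. Per-piece bounds.  `p` = the norm in which the INPUT is measured (fine level, regulators of `S`), `(q, Vc')` = the norm in which the PIECE is measured (coarse block); no relation between `p` and `q`. -/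

section pieces

variable {c : B8.Geo} {Cg : ℝ≥0} {p q : Par} {S : B8.Step G D0 ℓ}

/-- the bound of the extracted coefficients (third clause of `F4a.StepGain.neutral`) -/
def CoefBd (c : B8.Geo) (Cg : ℝ≥0) (p : Par) (S : B8.Step G D0 ℓ) : Prop :=
  ∀ (X : Finset S.P.g.I) (F : Fn G) (ν : ℝ≥0∞), LocalInput p c.col c.R c.n0 S.P.g S.Vf X F ν → (∀ ψ ∈ strip p.h0 S.P.g X, F (-ψ) = F ψ) →
    S.P.g.Bulk X → ∀ v0 ∈ S.P.g.sites X,
      (‖conv S.Γ (chargeProj p.ω 0 F) 0‖₊ : ℝ≥0∞) + ∑ i, ∑ j, (‖DX S.P.g v0 (conv S.Γ (chargeProj p.ω 0 F)) i j‖₊ : ℝ≥0∞) ≤ Cg * ν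

theorem pdt_coef_of_gain {Cd Cnl ε0 η : ℝ≥0} {β : ℝ} (hg : StepGain p c.r c.R c.n0 Cg Cd Cnl ε0 η β S.P S.Γ S.Vf S.Vc) : CoefBd c Cg p S :=
  fun X F ν hin hev hB v0 hv0 => (((hg.neutral c.col X F ν hin _ rfl).2 hev).2 hB v0 hv0).1

/-- `max (1, cst)^{n0}` -/
def pdtK (c : B8.Geo) : ℝ≥0∞ := (((max 1 c.cst) ^ c.n0 : ℝ≥0) : ℝ≥0∞)

/-- the constant of the per-piece bounds -/
def pdtCp (c : B8.Geo) (Cg : ℝ≥0) (q : Par) (α Cl : ℝ) : ℝ≥0∞ :=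
  ENNReal.ofReal (1 + pdtC q.κ q.h0 Cl) * (Cg + 1) + 8 * pdtK c * ENNReal.ofReal (Real.exp (|α| * q.h0)) + ENNReal.ofReal (8 * c.Ck)

theorem pdtK_pdtCp_cite : True := by
  have := @pdtC.eq_1
  have := @CoefBd.eq_1
  have := @pdtK.eq_1
  have := @pdtCp.eq_1
  trivial

theorem pdt_cst_le (c : B8.Geo) {n : ℕ} (hn : n ≤ c.n0) : (c.cst : ℝ≥0∞) ^ n ≤ pdtK c := B8.w_ds_cst_le c hn

theorem pdt_one_le_K (c : B8.Geo) : 1 ≤ pdtK c := by
  unfold pdtK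
  have h : (1 : ℝ≥0) ≤ (max 1 c.cst) ^ c.n0 := one_le_pow₀ (le_max_left _ _)
  exact_mod_cast h

/-- **LEAF `L-PAIR-T5`**.  the plane piece of a small even bulk input, at `z + lam`.  plan: `unfold B8.Step.piece`, `pdt_shF_add`, `pdt_shF_smul`, `B8.w_fnSize_add_le`, `B8.w_fnSize_smul_le`;
first term: `pdt_loc_size` + `hco X (Rm X) _ (pk_input hR hX) (hev X) hB _ (pk_anchor_mem hX)` (`S.Hq p.ω 0 Rm X` is `conv S.Γ (chargeProj p.ω 0 (Rm X))` by `rfl`);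
second term: `B8.w_nn_inv_card_mul_le`, `nnnorm_add_le`, `pk_Hq_zero_le h hR (±1) X`, `(pdt_cBC_size ..).1`.   Model: `B8.w_ds_piece`. -/
theorem pdt_piece_size (h : Ctx0 c p S) (hco : CoefBd c Cg p S) (hqδ : 0 < q.δ) (hqκ : 0 < q.κ) (Vc' : Extra S.P.g') (Rm : Act S.P.g)
    (hR : Act.Ok p c.col c.R Rm) (hev : Act.Even p.h0 Rm) {X : Finset S.P.g.I} (hX : X ∈ S.small c) (hB : S.P.g.Bulk X) (B : S.P.g.I)
    (lam : G.V → ℝ) (Cl : ℝ) (hl : gE G (S.P.g.sites {B}) lam ≤ Cl) :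
    fnSize q S.P.g' Vc' {S.P.N.up B} (shF (S.piece p.ω true Rm X B) lam)
      ≤ (ENNReal.ofReal (1 + pdtC q.κ q.h0 Cl) * Cg + 8 * (c.cst : ℝ≥0∞) ^ X.card * ENNReal.ofReal (Real.exp (|B8.Step.alpha p.ω| * q.h0)))
        * fnSize p S.P.g S.Vf X (Rm X) := by
  unfold B8.Step.piece
  simp only [if_true]
  rw [pdt_shF_add, pdt_shF_smul, add_mul]
  refine (B8.w_fnSize_add_le _ _ _ _ _ _).trans (add_le_add ?_ ?_)
  · have h1 := pdt_loc_size q hqδ hqκ S.P Vc' X (B8.anchor S.P.g X) (S.Hq p.ω 0 Rm X) B lam Cl hl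
    have h2 : (‖S.Hq p.ω 0 Rm X 0‖₊ : ℝ≥0∞) + ∑ i, ∑ j, (‖DX S.P.g (B8.anchor S.P.g X) (S.Hq p.ω 0 Rm X) i j‖₊ : ℝ≥0∞)
        ≤ Cg * fnSize p S.P.g S.Vf X (Rm X) :=
      hco X (Rm X) _ (pk_input hR hX) (hev X) hB _ (pk_anchor_mem hX)
    refine h1.trans ((mul_le_mul' le_rfl h2).trans (le_of_eq ?_))
    ring
  · have hq : ∀ k : ℤ, (‖S.Hq p.ω k Rm X 0‖₊ : ℝ≥0∞) ≤ (c.cst : ℝ≥0∞) ^ X.card * fnSize p S.P.g S.Vf X (Rm X) := fun k => pk_Hq_zero_le h hR k X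
    have h1 : (‖(1 / (X.card : ℂ)) * (S.Hq p.ω 1 Rm X 0 + S.Hq p.ω (-1) Rm X 0)‖₊ : ℝ≥0∞)
        ≤ 2 * ((c.cst : ℝ≥0∞) ^ X.card * fnSize p S.P.g S.Vf X (Rm X)) := by
      refine (B8.w_nn_inv_card_mul_le _ _).trans ?_
      calc (‖S.Hq p.ω 1 Rm X 0 + S.Hq p.ω (-1) Rm X 0‖₊ : ℝ≥0∞) ≤ (‖S.Hq p.ω 1 Rm X 0‖₊ : ℝ≥0∞) + (‖S.Hq p.ω (-1) Rm X 0‖₊ : ℝ≥0∞) := by
            exact_mod_cast nnnorm_add_le _ _
        _ ≤ _ := add_le_add (hq 1) (hq (-1))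
        _ = _ := by ring
    have h2 := (pdt_cBC_size q hqδ.le hqκ.le (B8.Step.alpha p.ω) S.P S.Γ Vc' B lam).1
    refine (B8.w_fnSize_smul_le _ _ _ _ _ _).trans ((mul_le_mul' h1 h2).trans (le_of_eq ?_))
    ring

/-- **LEAF `L-PAIR-T6`**.  plan: `funext X`; `unfold singleWF cutA B8.single`; case `X = {B}` / not a singleton (`B8.w_single_singleton`, `B8.w_single_of_ne`, `Finset.sum_eq_single`, `Finset.singleton_inj`). -/
theorem pdt_singleWF_eq (g : Grid G) (H0 : ℕ) (α : ℝ) (t z : ℂ) : singleWF g H0 α t z = cutA (WallFree g H0) (B8.single g α t z) := by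
  classical
  funext X
  unfold singleWF cutA B8.single
  by_cases hX : WallFree g H0 X
  · rw [if_pos hX]
    refine Finset.sum_congr rfl fun B _ => ?_
    by_cases hB : X = {B}
    · rw [if_pos hB, if_pos ⟨hB, hB ▸ hX⟩]
    · rw [if_neg hB, if_neg (fun h => hB h.1)]
  · rw [if_neg hX]
    exact Finset.sum_eq_zero fun B _ => if_neg fun (h : X = {B} ∧ WallFree g H0 {B}) => hX (h.1 ▸ h.2)

theorem pdt_singleWF_ok (hω : 0 < p.ω) (col R : ℕ) (hcol : 1 ≤ col) (g : Grid G) (H0 : ℕ) (t z : ℂ) :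
    Act.Ok p col R (singleWF g H0 (B8.Step.alpha p.ω) t z) := by
  rw [pdt_singleWF_eq]
  exact pk_cut_ok p col R _ (B8.w_single_ok p hω col R hcol g t z)

theorem pdt_singleWF_even (h0 : ℝ≥0) (g : Grid G) (H0 : ℕ) (α : ℝ) (t z : ℂ) : Act.Even h0 (singleWF g H0 α t z) := by
  rw [pdt_singleWF_eq]
  intro X w hw
  by_cases hX : WallFree g H0 X
  · rw [pk_cut_pos _ hX]
    exact B8.w_single_even h0 g α t z X w hw
  · rw [pk_cut_neg _ hX]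
    rfl

theorem pdt_singleWF_of_not (g : Grid G) (H0 : ℕ) (α : ℝ) (t z : ℂ) {X : Finset g.I} (hX : ¬ WallFree g H0 X) : singleWF g H0 α t z X = 0 := by
  rw [pdt_singleWF_eq, pk_cut_neg _ hX]

theorem pdt_R0_ok (hω : 0 < p.ω) (hcol : 1 ≤ c.col) (zn : Zn) (t z : ℂ) {K0 : Act S.P.g} (hK : Act.Ok p c.col c.R K0) :
    Act.Ok p c.col c.R (R0 S p.ω zn t z K0) :=
  B8.w_actOk_sub p c.col c.R hK (pdt_singleWF_ok hω c.col c.R hcol S.P.g zn.H0 t z)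

theorem pdt_R0_even (ω : ℝ) (zn : Zn) (t z : ℂ) {K0 : Act S.P.g} {h0 : ℝ≥0} (hK : Act.Even h0 K0) : Act.Even h0 (R0 S ω zn t z K0) := by
  intro X w hw
  show K0 X (-w) - singleWF S.P.g zn.H0 (B8.Step.alpha ω) t z X (-w) = K0 X w - singleWF S.P.g zn.H0 (B8.Step.alpha ω) t z X w
  rw [hK X w hw, pdt_singleWF_even h0 S.P.g zn.H0 _ t z X w hw]

theorem pdt_R0_of_not (ω : ℝ) (zn : Zn) (t z : ℂ) (K0 : Act S.P.g) {X : Finset S.P.g.I} (hX : ¬ WallFree S.P.g zn.H0 X) : R0 S ω zn t z K0 X = K0 X := by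
  show K0 X - singleWF S.P.g zn.H0 (B8.Step.alpha ω) t z X = K0 X
  rw [pdt_singleWF_of_not S.P.g zn.H0 _ t z hX, sub_zero]

theorem pdt_bulk_of_wallFree (g : Grid G) (H : ℕ) (hH : 3 ≤ H) (X : Finset g.I) (h : WallFree g H X) : g.Bulk X := by
  refine Or.inr fun b hb => ?_
  obtain ⟨h1, h2, h3, h4⟩ := h b hb
  omega

/-- the size of the centred state seen by the piece of `X` -/
def pdtS (p : Par) (S : B8.Step G D0 ℓ) (zn : Zn) (t z : ℂ) (K0 : Act S.P.g) (X : Finset S.P.g.I) : ℝ≥0∞ :=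
  fnSize p S.P.g S.Vf X (R0 S p.ω zn t z K0 X) + (‖t‖₊ : ℝ≥0∞) + (‖z‖₊ : ℝ≥0∞)

/-- the parts of `pdtCp` -/
theorem pdt_Cp_ge (c : B8.Geo) (Cg : ℝ≥0) (q : Par) (α Cl : ℝ) :
    pdtK c ≤ pdtCp c Cg q α Cl ∧
    ENNReal.ofReal (1 + pdtC q.κ q.h0 Cl) * Cg + 8 * pdtK c * ENNReal.ofReal (Real.exp (|α| * q.h0)) ≤ pdtCp c Cg q α Cl ∧
    ENNReal.ofReal (pdtC q.κ q.h0 Cl) + ENNReal.ofReal (8 * c.Ck) ≤ pdtCp c Cg q α Cl ∧
    4 * ENNReal.ofReal (Real.exp (|α| * q.h0)) ≤ pdtCp c Cg q α Cl ∧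
    ENNReal.ofReal (8 * c.Ck) ≤ pdtCp c Cg q α Cl := by
  have hE : 1 ≤ ENNReal.ofReal (Real.exp (|α| * q.h0)) := by
    rw [ENNReal.one_le_ofReal]
    exact Real.one_le_exp (by positivity)
  have hK := pdt_one_le_K c
  have h8 : pdtK c ≤ 8 * pdtK c * ENNReal.ofReal (Real.exp (|α| * q.h0)) := by
    calc pdtK c = 1 * pdtK c * 1 := by rw [one_mul, mul_one]
      _ ≤ 8 * pdtK c * ENNReal.ofReal (Real.exp (|α| * q.h0)) := mul_le_mul' (mul_le_mul' (by norm_num) le_rfl) hE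
  have h4 : 4 * ENNReal.ofReal (Real.exp (|α| * q.h0)) ≤ 8 * pdtK c * ENNReal.ofReal (Real.exp (|α| * q.h0)) := by
    refine mul_le_mul' ?_ le_rfl
    calc (4 : ℝ≥0∞) = 4 * 1 := by rw [mul_one]
      _ ≤ 8 * pdtK c := mul_le_mul' (by norm_num) hK
  have ha : ENNReal.ofReal (pdtC q.κ q.h0 Cl) ≤ ENNReal.ofReal (1 + pdtC q.κ q.h0 Cl) * (Cg + 1) := by
    calc ENNReal.ofReal (pdtC q.κ q.h0 Cl) ≤ ENNReal.ofReal (1 + pdtC q.κ q.h0 Cl) * 1 := by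
          rw [mul_one]
          exact ENNReal.ofReal_le_ofReal (by linarith)
      _ ≤ _ := mul_le_mul' le_rfl le_add_self
  have hg : ENNReal.ofReal (1 + pdtC q.κ q.h0 Cl) * Cg ≤ ENNReal.ofReal (1 + pdtC q.κ q.h0 Cl) * (Cg + 1) := mul_le_mul' le_rfl le_self_add
  unfold pdtCp
  refine ⟨?_, ?_, ?_, ?_, ?_⟩
  · exact h8.trans (le_trans le_add_self le_self_add)
  · exact le_trans (add_le_add hg le_rfl) le_self_add
  · exact add_le_add (ha.trans le_self_add) le_rfl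
  · exact h4.trans (le_trans le_add_self le_self_add)
  · exact le_add_self

/-- **LEAF `L-PAIR-T7`: the centred piece at `z + lam`** (`lam = 0`, `q = p`, `Vc' = S.Vc`: DESIG-0).  plan: `unfold pc0`, `split_ifs`.
Wall-free `X`: `pdt_shF_add`, `B8.w_fnSize_add_le`; `pdt_piece_size` for `Rm := R0 ..` (`pdt_R0_ok` with `h.geo.col_pos`, `pdt_R0_even`, `pdt_bulk_of_wallFree`), `pdt_cst_le`; `X = {B}`: `pdt_sing_size` with `Ce := ofReal (8 Ck)`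
(`pdt_eB_mean _ _ _ _ S.P.ok _ h.psd h.shell.bounds B`); otherwise `shF 0 lam = 0`, `B8.w_fnSize_zero`.
Not wall-free: a constant: `B8.w_ds_const_size`, `B8.w_nn_inv_card_mul_le`, `pk_Hq_zero_le h hK 0 X`, `pdt_R0_of_not`, `pdt_cst_le`, `1 ≤ exp`.   Then ENNReal arithmetic (`unfold pdtCp pdtS`; bound term by term, `gcongr`/`mul_le_mul'`). -/
theorem pdt_pc0_size (h : Ctx0 c p S) (hco : CoefBd c Cg p S) (hqδ : 0 < q.δ) (hqκ : 0 < q.κ) (Vc' : Extra S.P.g') (zn : Zn) (hH0 : 3 ≤ zn.H0) (t z : ℂ)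
    (K0 : Act S.P.g) (hK : Act.Ok p c.col c.R K0) (hev : Act.Even p.h0 K0) {X : Finset S.P.g.I} (hX : X ∈ S.small c) (B : S.P.g.I)
    (lam : G.V → ℝ) (Cl : ℝ) (hl : gE G (S.P.g.sites {B}) lam ≤ Cl) :
    fnSize q S.P.g' Vc' {S.P.N.up B} (shF (pc0 S p.ω zn t z K0 X B) lam) ≤ pdtCp c Cg q (B8.Step.alpha p.ω) Cl * pdtS p S zn t z K0 X := by
  obtain ⟨g1, g2, g3, g4, -⟩ := pdt_Cp_ge c Cg q (B8.Step.alpha p.ω) Cl
  have hcard : X.card ≤ c.n0 := (B8.w_mem_small.1 hX).2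
  unfold pc0
  by_cases hW : WallFree S.P.g zn.H0 X
  · rw [if_pos hW, pdt_shF_add]
    refine (B8.w_fnSize_add_le _ _ _ _ _ _).trans ?_
    have h1 := pdt_piece_size (q := q) h hco hqδ hqκ Vc' (R0 S p.ω zn t z K0) (pdt_R0_ok h.hω h.geo.col_pos zn t z hK)
      (pdt_R0_even p.ω zn t z hev) hX (pdt_bulk_of_wallFree S.P.g zn.H0 hH0 X hW) B lam Cl hl
    have h2 : fnSize q S.P.g' Vc' {S.P.N.up B} (shF (S.piece p.ω true (R0 S p.ω zn t z K0) X B) lam)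
        ≤ pdtCp c Cg q (B8.Step.alpha p.ω) Cl * fnSize p S.P.g S.Vf X (R0 S p.ω zn t z K0 X) := by
      refine h1.trans (mul_le_mul' (le_trans ?_ g2) le_rfl)
      exact add_le_add le_rfl (mul_le_mul' (mul_le_mul' le_rfl (pdt_cst_le c hcard)) le_rfl)
    unfold pdtS
    by_cases hB : X = {B}
    · rw [if_pos hB]
      have h3 := pdt_sing_size q hqδ hqκ (B8.Step.alpha p.ω) S.P S.Γ h.psd Vc' B t z lam Cl hl (ENNReal.ofReal (8 * c.Ck))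
        (pdt_eB_mean _ _ _ _ S.P.ok _ h.psd h.shell.bounds B)
      rw [mul_add, mul_add, add_assoc]
      refine add_le_add h2 (h3.trans (add_le_add ?_ ?_))
      · rw [mul_comm]; exact mul_le_mul' g3 le_rfl
      · rw [mul_comm]; exact mul_le_mul' g4 le_rfl
    · rw [if_neg hB]
      have e0 : shF (0 : Fn G) lam = 0 := rfl
      rw [e0, B8.w_fnSize_zero, add_zero]
      refine h2.trans (mul_le_mul' le_rfl ?_)
      rw [add_assoc]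
      exact le_self_add
  · rw [if_neg hW, pdt_shF_const]
    refine (B8.w_ds_const_size q hqδ.le hqκ.le _ _ _ _).trans ((B8.w_nn_inv_card_mul_le _ _).trans ((pk_Hq_zero_le h hK 0 X).trans ?_))
    unfold pdtS
    rw [pdt_R0_of_not p.ω zn t z K0 hW]
    refine mul_le_mul' ((pdt_cst_le c hcard).trans g1) ?_
    rw [add_assoc]
    exact le_self_add

/-- **LEAF `L-PAIR-T8`: the constant of the centred piece**.  plan: `unfold cn0`, `split_ifs`; `nnnorm_add_le`, `B8.w_nn_inv_card_mul_le`, `pk_Hq_zero_le` (for `R0 ..` resp. `K0`, `pdt_R0_of_not`), `pdt_cst_le`,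
`‖t/2‖ ≤ ‖t‖`, `pdt_eB_mean`; `pdtK c ≤ 8 * pdtK c * ofReal (exp ..)` (`1 ≤ exp`). -/
theorem pdt_cn0_le (h : Ctx0 c p S) (q : Par) (Cg : ℝ≥0) (zn : Zn) (t z : ℂ) (K0 : Act S.P.g) (hK : Act.Ok p c.col c.R K0)
    {X : Finset S.P.g.I} (hX : X ∈ S.small c) (B : S.P.g.I) (Cl : ℝ) :
    (‖cn0 S p.ω zn t z K0 X B‖₊ : ℝ≥0∞) ≤ pdtCp c Cg q (B8.Step.alpha p.ω) Cl * pdtS p S zn t z K0 X := by
  obtain ⟨g1, -, -, -, g5⟩ := pdt_Cp_ge c Cg q (B8.Step.alpha p.ω) Cl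
  have hcard : X.card ≤ c.n0 := (B8.w_mem_small.1 hX).2
  unfold cn0
  by_cases hW : WallFree S.P.g zn.H0 X
  · rw [if_pos hW]
    have h1 : (‖(1 / (X.card : ℂ)) * S.Hq p.ω 0 (R0 S p.ω zn t z K0) X 0‖₊ : ℝ≥0∞)
        ≤ pdtCp c Cg q (B8.Step.alpha p.ω) Cl * fnSize p S.P.g S.Vf X (R0 S p.ω zn t z K0 X) :=
      (B8.w_nn_inv_card_mul_le _ _).trans ((pk_Hq_zero_le h (pdt_R0_ok h.hω h.geo.col_pos zn t z hK) 0 X).trans
        (mul_le_mul' ((pdt_cst_le c hcard).trans g1) le_rfl))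
    refine le_trans (ENNReal.coe_le_coe.2 (nnnorm_add_le _ _)) ?_
    rw [ENNReal.coe_add]
    unfold pdtS
    rw [mul_add, mul_add, add_assoc]
    refine add_le_add h1 ?_
    by_cases hB : X = {B}
    · rw [if_pos hB, nnnorm_mul, ENNReal.coe_mul]
      refine le_trans ?_ le_self_add
      rw [mul_comm]
      refine mul_le_mul' ((pdt_eB_mean _ _ _ _ S.P.ok _ h.psd h.shell.bounds B).trans g5) ?_
      refine ENNReal.coe_le_coe.2 ?_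
      rw [← NNReal.coe_le_coe, coe_nnnorm, coe_nnnorm, norm_div]
      have : ‖(2 : ℂ)‖ = 2 := by simp
      rw [this]
      linarith [norm_nonneg t]
    · rw [if_neg hB]
      simp
  · rw [if_neg hW]
    refine (B8.w_nn_inv_card_mul_le _ _).trans ((pk_Hq_zero_le h hK 0 X).trans ?_)
    unfold pdtS
    rw [pdt_R0_of_not p.ω zn t z K0 hW]
    refine mul_le_mul' ((pdt_cst_le c hcard).trans g1) ?_
    rw [add_assoc]
    exact le_self_add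

/-- **LEAF `L-PAIR-T9`: the centred pieces are local functions at the coarse block**.  plan: `unfold pc0`, `split_ifs`; `B8.w_localFn_coarse S.P p c.col (cl {B} ⊆ {up B})`; `B8.Step.piece`: `B8.w_localFn_add`, `B8.w_df_Loc` (`h.geo.col_pos`),
`B8.w_localFn_smul`, `B8.w_cBC_local p h.hω`; the expectation of the singletons: `pk_conv_local h` applied to `B8.w_localFn_add (smul (B8.w_eBC_local ..)) (smul (B8.w_cBC_local ..))`, finiteness from `B8.w_single_fin`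
(`B8.w_single_singleton`, `pk_fin`) with `h.admf`; constants: `Scal.localFn_const`; `0`: `B8.w_localFn_zero`.   Model: `B8.w_desig_fn`. -/
theorem pdt_pc0_fn (h : Ctx0 c p S) (zn : Zn) (t z : ℂ) (K0 : Act S.P.g) (X : Finset S.P.g.I) (B : S.P.g.I) :
    LocalFn p c.col S.P.g' {S.P.N.up B} (pc0 S p.ω zn t z K0 X B) := by
  classical
  have hcol := h.geo.col_pos
  have hup : S.P.N.cl {B} ⊆ {S.P.N.up B} := by
    unfold Nest.cl
    rw [Finset.image_singleton]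
  unfold pc0
  split_ifs with hW hXB
  · refine B8.w_localFn_add _ _ _ _ ?_ ?_
    · refine B8.w_localFn_coarse S.P p c.col hup ?_
      unfold B8.Step.piece
      refine B8.w_localFn_add p c.col _ _ (B8.w_df_Loc p c.col hcol _ _ _ _ _) ?_
      split_ifs
      · exact B8.w_localFn_smul p c.col _ _ _ (B8.w_cBC_local p h.hω c.col _ B)
      · exact B8.w_localFn_zero _ _ _ _
    · refine B8.w_localFn_coarse S.P p c.col hup ?_
      refine pk_conv_local h (B8.w_localFn_add _ _ _ _ (B8.w_localFn_smul _ _ _ _ _ (B8.w_eBC_local p c.col hcol _ B))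
        (B8.w_localFn_smul _ _ _ _ _ (B8.w_cBC_local p h.hω c.col _ B))) ?_
      have h1 := pk_fin h (B8.w_single_fin p h.admf.δ_pos h.admf.κ_pos h.hA h.hω S.P.g S.P.ok S.Vf t z) {B}
      rwa [B8.w_single_singleton] at h1
  · refine B8.w_localFn_add _ _ _ _ ?_ (B8.w_localFn_zero _ _ _ _)
    refine B8.w_localFn_coarse S.P p c.col hup ?_
    unfold B8.Step.piece
    refine B8.w_localFn_add p c.col _ _ (B8.w_df_Loc p c.col hcol _ _ _ _ _) ?_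
    split_ifs
    · exact B8.w_localFn_smul p c.col _ _ _ (B8.w_cBC_local p h.hω c.col _ B)
    · exact B8.w_localFn_zero _ _ _ _
  · exact Scal.localFn_const _ _ _ _ _

/-- neutrality of `E F_0`: blind to real constants (`Ctx0` version of `prj_neutral_const`) -/
theorem pdt_ref_const (h : Ctx0 c p S) {X : Finset S.P.g.I} {F : Fn G} (hF : LocalFn p c.col S.P.g X F) {z : G.V → ℂ} (a : ℝ)
    (hz : z ∈ strip p.h0 S.P.g X) :
    conv S.Γ (chargeProj p.ω 0 F) (fun v => z v + (a : ℂ)) = conv S.Γ (chargeProj p.ω 0 F) z := by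
  unfold conv
  refine integral_congr_ae (Filter.Eventually.of_forall fun ζ => ?_)
  simp only
  have e : (fun v => z v + (a : ℂ)) + toC ζ = fun v => (z + toC ζ) v + (a : ℂ) := by
    funext v
    simp only [Pi.add_apply]
    ring
  have h1 := (B4.charge_proj p h.hω c.col S.P.g S.Vf X F hF 0).2.2 (z + toC ζ) a (Hol.strip_add_toC hz ζ)
    (Hol.strip_add_real (Hol.strip_add_toC hz ζ) a)
  rw [e, h1]
  simp

/-- `E F_0` on the polydisc of radius `h₀` around `0` (`Ctx0` version of `prj_neutral_disc`) -/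
theorem pdt_ref_disc (h : Ctx0 c p S) {X : Finset S.P.g.I} {F : Fn G} (hF : LocalFn p c.col S.P.g X F) (hfin : fnSize p S.P.g S.Vf X F ≠ ⊤)
    (f : G.V → ℂ) (hf : tnorm S.P.g X f < p.h0) :
    (‖conv S.Γ (chargeProj p.ω 0 F) f‖₊ : ℝ≥0∞) ≤ (c.cst : ℝ≥0∞) ^ X.card * fnSize p S.P.g S.Vf X F := by
  have hcp := B4.charge_proj p h.hω c.col S.P.g S.Vf X F hF 0
  have hfin0 : fnSize p S.P.g S.Vf X (chargeProj p.ω 0 F) ≠ ⊤ := ne_top_of_le_ne_top hfin hcp.2.1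
  have e0 : toC (0 : G.V → ℝ) + f = f := by rw [Hol.toC_zero, zero_add]
  calc (‖conv S.Γ (chargeProj p.ω 0 F) f‖₊ : ℝ≥0∞)
      = (‖conv S.Γ (chargeProj p.ω 0 F) (toC (0 : G.V → ℝ) + f)‖₊ : ℝ≥0∞) := by rw [e0]
    _ ≤ ptNorm p.h0 S.P.g X (conv S.Γ (chargeProj p.ω 0 F)) 0 := Hol.le_ptNorm _ _ _ _ _ f hf
    _ ≤ ∫⁻ ζ, ptNorm p.h0 S.P.g X (chargeProj p.ω 0 F) (0 + ζ) ∂(gauss G S.Γ) := Hol.ptNorm_conv _ _ _ _ _ _
    _ ≤ ∫⁻ ζ, fnSize p S.P.g S.Vf X (chargeProj p.ω 0 F) * ENNReal.ofReal (Wt S.P.g p.δ p.κ S.Vf X (0 + ζ)) ∂(gauss G S.Γ) :=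
        lintegral_mono fun ζ => Hol.ptNorm_le_fnSize_mul p S.P.g S.Vf X _ (0 + ζ)
    _ = fnSize p S.P.g S.Vf X (chargeProj p.ω 0 F) * ∫⁻ ζ, ENNReal.ofReal (Wt S.P.g p.δ p.κ S.Vf X (0 + ζ)) ∂(gauss G S.Γ) :=
        lintegral_const_mul' _ _ hfin0
    _ ≤ fnSize p S.P.g S.Vf X F * ((c.cst : ℝ≥0∞) ^ X.card * ENNReal.ofReal (Wt S.P.g' p.δ p.κ S.Vc (S.P.N.cl X) 0)) :=
        mul_le_mul' hcp.2.1 (h.reg.main X _ (Finset.Subset.refl _) 0)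
    _ = _ := by rw [Loc.loc_Wt_zero, ENNReal.ofReal_one, mul_one, mul_comm]

/-- **LEAF `L-PAIR-T10`: the neutral constant at a reference field** which is close to a constant on `D_m (X)`: `|E F_0 (ψ)| ≤ cst^{|X|} |F|`.
plan: if `fnSize .. = ⊤`: `ENNReal.mul_top (Scal.cst_pow_ne_zero h.adm.δ_pos.le h.adm.κ_pos.le h.reg X)`, `le_top`; otherwise copy the proofs of `prj_neutral_const`, `prj_neutral_disc` (`Obs/PairJ.lean`; they only use `h.hω`, `h.reg`):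
`toC ψ = (toC (ψ - a)) + a`, neutrality, then `Hol.le_ptNorm` at `φ = 0`. -/
theorem pdt_ref_le (h : Ctx0 c p S) {X : Finset S.P.g.I} {F : Fn G} (hF : LocalFn p c.col S.P.g X F) (ψ : G.V → ℝ) (a : ℝ)
    (hψ : tnorm S.P.g X (fun x => ψ x - a) < p.h0) :
    (‖conv S.Γ (chargeProj p.ω 0 F) (toC ψ)‖₊ : ℝ≥0∞) ≤ (c.cst : ℝ≥0∞) ^ X.card * fnSize p S.P.g S.Vf X F := by
  by_cases hfin : fnSize p S.P.g S.Vf X F = ⊤
  · rw [hfin, ENNReal.mul_top (Scal.cst_pow_ne_zero h.adm.δ_pos.le h.adm.κ_pos.le h.reg X)]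
    exact le_top
  · have htn : tnorm S.P.g X (toC fun x => ψ x - a) < p.h0 := by rw [Hol.tnorm_toC]; exact hψ
    have hst : (toC fun x => ψ x - a) ∈ strip p.h0 S.P.g X := lt_of_le_of_lt (Hol.tnorm_im_le S.P.g X _) htn
    have e : toC ψ = fun v => (toC fun x => ψ x - a) v + (a : ℂ) := by
      funext v
      simp only [toC]
      push_cast
      ring
    rw [e, pdt_ref_const h hF a hst]
    exact pdt_ref_disc h hF hfin _ htn

/-! ### the pieces of the unit sector after the translation by `μ` -/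

theorem pdt_pcT_good (ω : ℝ) (zn : Zn) (t z : ℂ) (Ψ μ : G.V → ℝ) (K0 KT : Act S.P.g) {X : Finset S.P.g.I} (hX : ShiftGood S.P.g zn.H1 X) (B : S.P.g.I) :
    shF (pcT S ω zn t z Ψ K0 KT X B) μ = shF (pc0 S ω zn t z K0 X B) (μ + gF ω (gaugeOf S.P.g zn.H1 X)) := by
  unfold pcT
  rw [if_pos hX, pdt_shF_shF]

theorem pdt_Hq_ref (ω : ℝ) (Ψ μ : G.V → ℝ) (K : Act S.P.g) (X : Finset S.P.g.I) : S.Hq ω 0 K X (toC Ψ) = S.Hq ω 0 (shA K μ) X (toC (Ψ - μ)) := by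
  rw [prj_Hq_shift, pdt_shF_apply, ← Hol.toC_add, sub_add_cancel]

theorem pdt_pcT_defect (ω : ℝ) (zn : Zn) (t z : ℂ) (Ψ μ : G.V → ℝ) (K0 KT : Act S.P.g) {X : Finset S.P.g.I} (hX : ¬ ShiftGood S.P.g zn.H1 X) (B : S.P.g.I) :
    shF (pcT S ω zn t z Ψ K0 KT X B) μ = fun _ => (1 / (X.card : ℂ)) * S.Hq ω 0 (shA KT μ) X (toC (Ψ - μ)) := by
  unfold pcT
  rw [if_neg hX, pdt_Hq_ref ω Ψ μ]
  rfl

theorem pdt_cnT_good (ω : ℝ) (zn : Zn) (t z : ℂ) (Ψ : G.V → ℝ) (K0 KT : Act S.P.g) {X : Finset S.P.g.I} (hX : ShiftGood S.P.g zn.H1 X) (B : S.P.g.I) :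
    cnT S ω zn t z Ψ K0 KT X B = cn0 S ω zn t z K0 X B := by
  unfold cnT
  rw [if_pos hX]

theorem pdt_cnT_defect (ω : ℝ) (zn : Zn) (t z : ℂ) (Ψ μ : G.V → ℝ) (K0 KT : Act S.P.g) {X : Finset S.P.g.I} (hX : ¬ ShiftGood S.P.g zn.H1 X) (B : S.P.g.I) :
    cnT S ω zn t z Ψ K0 KT X B = (1 / (X.card : ℂ)) * S.Hq ω 0 (shA KT μ) X (toC (Ψ - μ)) := by
  unfold cnT
  rw [if_neg hX, pdt_Hq_ref ω Ψ μ]

/-- the neutral constant of an activity at a reference field -/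
theorem pdt_refc_le (h : Ctx0 c p S) (K : Act S.P.g) (hK : Act.Ok p c.col c.R K) (X : Finset S.P.g.I) (ψ : G.V → ℝ) (a : ℝ)
    (hψ : tnorm S.P.g X (fun x => ψ x - a) < p.h0) :
    (‖(1 / (X.card : ℂ)) * S.Hq p.ω 0 K X (toC ψ)‖₊ : ℝ≥0∞) ≤ (c.cst : ℝ≥0∞) ^ X.card * fnSize p S.P.g S.Vf X (K X) :=
  (B8.w_nn_inv_card_mul_le _ _).trans (pdt_ref_le h (hK.fn X) ψ a hψ)

/-- the pieces of the unit sector are local functions at the coarse block -/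
theorem pdt_pcT_fn (h : Ctx0 c p S) (zn : Zn) (t z : ℂ) (Ψ μ : G.V → ℝ) (K0 KT : Act S.P.g) (X : Finset S.P.g.I) (B : S.P.g.I) :
    LocalFn p c.col S.P.g' {S.P.N.up B} (shF (pcT S p.ω zn t z Ψ K0 KT X B) μ) := by
  refine prj_shF_local ?_ μ
  unfold pcT
  split_ifs
  · exact prj_shF_local (pdt_pc0_fn h zn t z K0 X B) _
  · exact Scal.localFn_const _ _ _ _ _

end pieces

/-! ## 3. The data, general step -/

section data

variable {c : B8.Geo} {Cg : ℝ≥0} {p : Par} {S : B8.Step G D0 ℓ}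

/-- the number of pairs (small input, block) over one coarse block -/
def pdtN (ℓ Cn : ℕ) : ℝ≥0∞ := (((2 * 2 ^ ℓ) ^ 2 * Cn : ℕ) : ℝ≥0∞)

/-- at most `Cn` small polymers through a fine block -/
def DCount (c : B8.Geo) (S : B8.Step G D0 ℓ) (Cn : ℕ) : Prop :=
  ∀ B : S.P.g.I, (open Classical in (S.small c).filter fun X => B ∈ X).card ≤ Cn

theorem pdtN_pdtS_cite : True := by
  have := @pdtN.eq_1
  have := @pdtS.eq_1
  have := @DCount.eq_1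
  trivial

theorem pdt_count (c : B8.Geo) : ∃ Cn : ℕ, ∀ (G : Geom) (D0 ℓ : ℕ) (S : B8.Step G D0 ℓ), DCount c S Cn := by
  obtain ⟨Cn, h⟩ := B8.w_count_small c
  exact ⟨Cn, fun G D0 ℓ S B => by convert h G D0 ℓ S B⟩

theorem pdt_gE_zero (D : Finset G.V) : gE G D (0 : G.V → ℝ) = 0 := by
  have h1 : ∀ (e : Fin 4) (x : ℤ × ℤ), dif (dir e) (G.lift (0 : G.V → ℝ)) x = 0 := fun e x => by simp [dif, Geom.lift]
  unfold gE
  simp [h1]

/-- DESIG-0, per piece -/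
theorem pdt_pc0_size0 (h : Ctx0 c p S) (hco : CoefBd c Cg p S) (zn : Zn) (hH0 : 3 ≤ zn.H0) (t z : ℂ)
    (K0 : Act S.P.g) (hK : Act.Ok p c.col c.R K0) (hev : Act.Even p.h0 K0) {X : Finset S.P.g.I} (hX : X ∈ S.small c) (B : S.P.g.I) :
    fnSize p S.P.g' S.Vc {S.P.N.up B} (pc0 S p.ω zn t z K0 X B) ≤ pdtCp c Cg p (B8.Step.alpha p.ω) 0 * pdtS p S zn t z K0 X := by
  have h1 := pdt_pc0_size (q := p) h hco h.adm.δ_pos h.adm.κ_pos S.Vc zn hH0 t z K0 hK hev hX B 0 0 (le_of_eq (pdt_gE_zero _))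
  rwa [prt_shF_zero] at h1

/-- **DESIG-0, the rooted size** -/
theorem pdt_d0_size (h : Ctx0 c p S) (hco : CoefBd c Cg p S) (zn : Zn) (hH0 : 3 ≤ zn.H0) (t z : ℂ)
    (K0 : Act S.P.g) (hK : Act.Ok p c.col c.R K0) (hev : Act.Even p.h0 K0) (Cn : ℕ)
    (hCn : DCount c S Cn) (E : ℝ≥0∞) (hE : ∀ X ∈ S.small c, pdtS p S zn t z K0 X ≤ E) :
    (d0 S c p.ω zn t z K0).size p S.Vc ≤ 2 * pdtN ℓ Cn * (pdtCp c Cg p (B8.Step.alpha p.ω) 0 * E) :=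
  pk_desig_size Cn hCn _ _ _ (fun X hX B _ => (pdt_pc0_size0 h hco zn hH0 t z K0 hK hev hX B).trans (mul_le_mul' le_rfl (hE X hX)))
    (fun X hX B _ => (pdt_cn0_le h p Cg zn t z K0 hK hX B 0).trans (mul_le_mul' le_rfl (hE X hX)))

/-- **DESIG-0, admissibility** -/
theorem pdt_d0_ok (h : Ctx0 c p S) (zn : Zn) (t z : ℂ) (K0 : Act S.P.g) (hs : (d0 S c p.ω zn t z K0).size p S.Vc < 1) :
    (d0 S c p.ω zn t z K0).Ok p c.col c.r where
  small := pk_desig_small h _ _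
  fn := pk_desig_fn _ _ fun X _ B _ => pdt_pc0_fn h zn t z K0 X B
  ne := pdt_ne_of_size p S.Vc _ hs

/-- **DESIG-T, admissibility**: `S`, `p`, `c` = step, norm, geometry of the UNIT sector (`T.stepT h`, `nm.pT ω`, `geoT pm.c cT`) -/
theorem pdt_dT_ok (h : Ctx0 c p S) (zn : Zn) (t z : ℂ) (Ψ μ : G.V → ℝ) (K0 KT : Act S.P.g)
    (hs : (shD (dT S c p.ω zn t z Ψ K0 KT) μ).size p S.Vc < 1) : (shD (dT S c p.ω zn t z Ψ K0 KT) μ).Ok p c.col c.r where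
  small := by
    unfold dT
    rw [pdt_shD_ofPieces]
    exact pk_desig_small h _ _
  fn := by
    unfold dT
    rw [pdt_shD_ofPieces]
    exact pk_desig_fn _ _ fun X _ B _ => pdt_pcT_fn h zn t z Ψ μ K0 KT X B
  ne := pdt_ne_of_size p S.Vc _ hs

/-- DESIG-T, per piece, shift-good inputs (`= hpc` of `prd_row`): the input `K0` is measured in the CENTRED norm `(p, S.Vf)`, the piece in ANY norm `(q, Vc')` -/
theorem pdt_pcT_size_good (h : Ctx0 c p S) (hco : CoefBd c Cg p S) {q : Par} (hqδ : 0 < q.δ) (hqκ : 0 < q.κ) (Vc' : Extra S.P.g') (zn : Zn) (hH0 : 3 ≤ zn.H0) (t z : ℂ)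
    (Ψ μ : G.V → ℝ) (K0 KT : Act S.P.g) (hK : Act.Ok p c.col c.R K0) (hev : Act.Even p.h0 K0) {X : Finset S.P.g.I} (hX : X ∈ S.small c)
    (hg : ShiftGood S.P.g zn.H1 X) (B : S.P.g.I) (Cl : ℝ) (hl : gE G (S.P.g.sites {B}) (μ + gF p.ω (gaugeOf S.P.g zn.H1 X)) ≤ Cl) :
    fnSize q S.P.g' Vc' {S.P.N.up B} (shF (pcT S p.ω zn t z Ψ K0 KT X B) μ) ≤ pdtCp c Cg q (B8.Step.alpha p.ω) Cl * pdtS p S zn t z K0 X ∧
    (‖cnT S p.ω zn t z Ψ K0 KT X B‖₊ : ℝ≥0∞) ≤ pdtCp c Cg q (B8.Step.alpha p.ω) Cl * pdtS p S zn t z K0 X := by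
  rw [pdt_pcT_good p.ω zn t z Ψ μ K0 KT hg B, pdt_cnT_good p.ω zn t z Ψ K0 KT hg B]
  exact ⟨pdt_pc0_size h hco hqδ hqκ Vc' zn hH0 t z K0 hK hev hX B _ Cl hl, pdt_cn0_le h q Cg zn t z K0 hK hX B Cl⟩

/-- DESIG-T, per piece, defects: `S`, `p`, `c` = step, norm, geometry of the UNIT sector -/
theorem pdt_pcT_size_defect (h : Ctx0 c p S) (zn : Zn) (t z : ℂ) (Ψ μ : G.V → ℝ) (K0 KT : Act S.P.g) (hKT : Act.Ok p c.col c.R (shA KT μ))
    {X : Finset S.P.g.I} (hX : X ∈ S.small c) (hg : ¬ ShiftGood S.P.g zn.H1 X) (B : S.P.g.I) (a : ℝ) (ha : tnorm S.P.g X (fun x => (Ψ - μ) x - a) < p.h0) :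
    fnSize p S.P.g' S.Vc {S.P.N.up B} (shF (pcT S p.ω zn t z Ψ K0 KT X B) μ) ≤ pdtK c * fnSize p S.P.g S.Vf X (shA KT μ X) ∧
    (‖cnT S p.ω zn t z Ψ K0 KT X B‖₊ : ℝ≥0∞) ≤ pdtK c * fnSize p S.P.g S.Vf X (shA KT μ X) := by
  rw [pdt_pcT_defect p.ω zn t z Ψ μ K0 KT hg B, pdt_cnT_defect p.ω zn t z Ψ μ K0 KT hg B]
  have h1 := (pdt_refc_le h (shA KT μ) hKT X (Ψ - μ) a ha).trans (mul_le_mul' (pdt_cst_le c (B8.w_mem_small.1 hX).2) le_rfl)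
  exact ⟨(B8.w_ds_const_size p h.adm.δ_pos.le h.adm.κ_pos.le _ _ _ _).trans h1, h1⟩

/-- **DESIG-T, the rooted size.**  `(p, S, c)` = centred sector, `(q, VTf, VTc, cT)` = unit sector -/
theorem pdt_dT_size (h : Ctx0 c p S) (hco : CoefBd c Cg p S) (cT : ℝ≥0) (q : Par) (VTf : Extra S.P.g) (VTc : Extra S.P.g')
    (hT : Ctx0 (geoT c cT) q (⟨S.P, S.Γ, VTf, VTc⟩ : B8.Step G D0 ℓ)) (hqω : q.ω = p.ω) (zn : Zn) (hH0 : 3 ≤ zn.H0) (t z : ℂ) (Ψ μ : G.V → ℝ) (K0 KT : Act S.P.g)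
    (hK : Act.Ok p c.col c.R K0) (hev : Act.Even p.h0 K0) (hKT : Act.Ok q c.col c.R (shA KT μ)) (Cn : ℕ)
    (hCn : DCount c S Cn) (Cl : ℝ)
    (hen : ∀ X ∈ S.small c, ShiftGood S.P.g zn.H1 X → ∀ B ∈ X, gE G (S.P.g.sites {B}) (μ + gF p.ω (gaugeOf S.P.g zn.H1 X)) ≤ Cl)
    (href : ∀ X ∈ S.small c, ¬ ShiftGood S.P.g zn.H1 X → ∃ a : ℝ, tnorm S.P.g X (fun x => (Ψ - μ) x - a) < q.h0)
    (E D : ℝ≥0∞) (hE : ∀ X ∈ S.small c, ShiftGood S.P.g zn.H1 X → pdtS p S zn t z K0 X ≤ E)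
    (hD : ∀ X ∈ S.small c, ¬ ShiftGood S.P.g zn.H1 X → fnSize q S.P.g VTf X (shA KT μ X) ≤ D) :
    (shD (dT S c p.ω zn t z Ψ K0 KT) μ).size q VTc ≤ 2 * pdtN ℓ Cn * (pdtCp c Cg q (B8.Step.alpha p.ω) Cl * E + pdtK (geoT c cT) * D) := by
  have key : ∀ X ∈ S.small c, ∀ B ∈ X,
      fnSize q S.P.g' VTc {S.P.N.up B} (shF (pcT S p.ω zn t z Ψ K0 KT X B) μ) ≤ pdtCp c Cg q (B8.Step.alpha p.ω) Cl * E + pdtK (geoT c cT) * D ∧
      (‖cnT S p.ω zn t z Ψ K0 KT X B‖₊ : ℝ≥0∞) ≤ pdtCp c Cg q (B8.Step.alpha p.ω) Cl * E + pdtK (geoT c cT) * D := by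
    intro X hX B hB
    by_cases hg : ShiftGood S.P.g zn.H1 X
    · obtain ⟨h1, h2⟩ := pdt_pcT_size_good h hco hT.adm.δ_pos hT.adm.κ_pos VTc zn hH0 t z Ψ μ K0 KT hK hev hX hg B Cl (hen X hX hg B hB)
      have h3 := mul_le_mul' (le_refl (pdtCp c Cg q (B8.Step.alpha p.ω) Cl)) (hE X hX hg)
      exact ⟨(h1.trans h3).trans le_self_add, (h2.trans h3).trans le_self_add⟩
    · obtain ⟨a, ha⟩ := href X hX hg
      obtain ⟨h1, h2⟩ := pdt_pcT_size_defect hT zn t z Ψ μ K0 KT hKT (X := X) hX hg B a ha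
      rw [hqω] at h1 h2
      have h3 := mul_le_mul' (le_refl (pdtK (geoT c cT))) (hD X hX hg)
      exact ⟨(h1.trans h3).trans le_add_self, (h2.trans h3).trans le_add_self⟩
  unfold dT
  rw [pdt_shD_ofPieces]
  exact pk_desig_size (S := (⟨S.P, S.Γ, VTf, VTc⟩ : B8.Step G D0 ℓ)) (c := c) (p := q) Cn hCn _ _ _ (fun X hX B hB => (key X hX B hB).1)
    (fun X hX B hB => (key X hX B hB).2)

end data

/-! ## 4. The sizes `nP`, `nW`, `nD` against the sizes seen by the pieces; the total centred norm -/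

section sizes

variable {p : Par} {S : B8.Step G D0 ℓ}

theorem pdt_fnSize_le_cut (hA : 1 ≤ p.A) {g : Grid G} (V : Extra g) (𝒞 : Finset g.I → Prop) (K : Act g) {X : Finset g.I} (hX : 𝒞 X) :
    fnSize p g V X (K X) ≤ actNorm p g V (cutA 𝒞 K) := by
  have h1 := B8.w_fnSize_le_actNorm p hA g V (cutA 𝒞 K) X
  rwa [pk_cut_pos K hX] at h1

/-- wall-free inputs only see the plane size -/
theorem pdt_S_wf (hA : 1 ≤ p.A) (zn : Zn) (t z : ℂ) (x : St S.P.g) {X : Finset S.P.g.I} (hX : WallFree S.P.g zn.H0 X) :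
    pdtS p S zn t z x.K0 X ≤ nP p S.Vf zn.H0 (B8.Step.alpha p.ω) t z x := by
  have h1 : fnSize p S.P.g S.Vf X (R0 S p.ω zn t z x.K0 X)
      ≤ actNorm p S.P.g S.Vf (cutA (WallFree S.P.g zn.H0) (x.K0 - singleWF S.P.g zn.H0 (B8.Step.alpha p.ω) t z)) :=
    pdt_fnSize_le_cut hA S.Vf (WallFree S.P.g zn.H0) (R0 S p.ω zn t z x.K0) hX
  unfold pdtS nP
  calc _ ≤ actNorm p S.P.g S.Vf (cutA (WallFree S.P.g zn.H0) (x.K0 - singleWF S.P.g zn.H0 (B8.Step.alpha p.ω) t z)) + (‖t‖₊ : ℝ≥0∞) + (‖z‖₊ : ℝ≥0∞) :=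
        add_le_add (add_le_add h1 le_rfl) le_rfl
    _ = _ := by ring

theorem pdt_S_le (hA : 1 ≤ p.A) (zn : Zn) (t z : ℂ) (x : St S.P.g) (X : Finset S.P.g.I) :
    pdtS p S zn t z x.K0 X ≤ nP p S.Vf zn.H0 (B8.Step.alpha p.ω) t z x + nW p S.Vf zn.H0 x := by
  by_cases hX : WallFree S.P.g zn.H0 X
  · exact (pdt_S_wf hA zn t z x hX).trans le_self_add
  · have h1 : fnSize p S.P.g S.Vf X (R0 S p.ω zn t z x.K0 X) ≤ nW p S.Vf zn.H0 x := by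
      rw [pdt_R0_of_not p.ω zn t z x.K0 hX]
      exact pdt_fnSize_le_cut hA S.Vf (fun X => ¬ WallFree S.P.g zn.H0 X) x.K0 hX
    unfold pdtS nP
    calc _ ≤ nW p S.Vf zn.H0 x + (‖t‖₊ : ℝ≥0∞) + (‖z‖₊ : ℝ≥0∞) := add_le_add (add_le_add h1 le_rfl) le_rfl
      _ ≤ _ := by
          rw [add_assoc, add_comm]
          exact add_le_add le_self_add le_rfl

/-- **the centred activity, singletons included**: `hU` of `prw_row` with `C1 = 1 + A Cs`, `Cs` from `B8.w_single_norm` -/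
theorem pdt_K0_norm {g : Grid G} (V : Extra g) (H0 : ℕ) (α : ℝ) (t z : ℂ) (x : St g) (Cs : ℝ≥0∞)
    (hCs : actNorm p g V (B8.single g α t z) ≤ Cs * ((‖t‖₊ : ℝ≥0∞) + (‖z‖₊ : ℝ≥0∞))) :
    actNorm p g V (cutA (WallFree g H0) x.K0) ≤ (1 + Cs) * nP p V H0 α t z x ∧
    actNorm p g V x.K0 ≤ (1 + Cs) * nP p V H0 α t z x + nW p V H0 x := by
  have h1 : actNorm p g V (cutA (WallFree g H0) x.K0) ≤ (1 + Cs) * nP p V H0 α t z x := by
    have e : cutA (WallFree g H0) x.K0 = cutA (WallFree g H0) (x.K0 - singleWF g H0 α t z) + cutA (WallFree g H0) (singleWF g H0 α t z) := by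
      rw [← pk_cut_add, sub_add_cancel]
    have h2 : actNorm p g V (cutA (WallFree g H0) (singleWF g H0 α t z)) ≤ Cs * ((‖t‖₊ : ℝ≥0∞) + (‖z‖₊ : ℝ≥0∞)) := by
      refine (pk_cut_le p V _ _).trans ?_
      rw [pdt_singleWF_eq]
      exact (pk_cut_le p V _ _).trans hCs
    rw [e]
    refine (Scal.actNorm_add_le _ _ _ _ _).trans ((add_le_add le_rfl h2).trans ?_)
    unfold nP
    set N := actNorm p g V (cutA (WallFree g H0) (x.K0 - singleWF g H0 α t z)) with hN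
    calc N + Cs * ((‖t‖₊ : ℝ≥0∞) + (‖z‖₊ : ℝ≥0∞)) ≤ N + Cs * ((‖t‖₊ : ℝ≥0∞) + (‖z‖₊ : ℝ≥0∞)) + (((‖t‖₊ : ℝ≥0∞) + (‖z‖₊ : ℝ≥0∞)) + Cs * N) := le_self_add
      _ = _ := by ring
  refine ⟨h1, (pk_norm_le_cut p V (WallFree g H0) x.K0).trans (max_le (h1.trans le_self_add) le_add_self)⟩

end sizes

/-! ## 5. EXITS in the vocabulary of `Obs/PairCtx.lean` -/

section exits

variable {pm : Prm} {nm : Nm} {cT : ℝ≥0} {k0 kT : KC} {T : Tw G ℓ} {j : ℕ} {h : Ret G ℓ pm.D0 j}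

theorem pdt_n0_pos (H : Ctx pm nm cT k0 kT T h) : 1 ≤ pm.c.n0 := by
  by_contra hn
  have hn0 : pm.c.n0 = 0 := by omega
  set B : (pair h).g.I := (pair h).g.blk (B8.org G) with hB
  have h1 := (H.hyp0.geo {B} (B8.w_conn_singleton _ _ B)).2.2 (by rw [hn0, Finset.card_singleton]; norm_num)
  have h2 : ((pair h).N.cl {B}).card = 1 := by
    unfold Nest.cl
    rw [Finset.image_singleton, Finset.card_singleton]
  rw [h2, Finset.card_singleton] at h1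
  omega

theorem pdt_hR (H : Ctx pm nm cT k0 kT T h) : pm.c.R ≤ 2 ^ ℓ := by
  have h1 := H.hL
  have h2 := pdt_n0_pos H
  have h3 : pm.c.R * 1 ≤ pm.c.R * pm.c.n0 := Nat.mul_le_mul_left _ h2
  omega

theorem pdt_hH0 (H : Ctx pm nm cT k0 kT T h) : 3 ≤ pm.zn.H0 := by
  have h1 := H.hH0
  have h2 : pp = 32 := rfl
  omega

/-- **EXIT DESIG-0, per piece** (`hpc` of `prw_row`: for wall-free `X` combine with `pdt_S_wf`) -/
theorem pdt_exit0_pc (H : Ctx pm nm cT k0 kT T h) (x : St (lev G ℓ j)) (hx : Inv pm nm.h0 x) (t z : ℂ) {X : Finset (lev G ℓ j).I}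
    (hX : X ∈ (T.step h).small pm.c) (B : (lev G ℓ j).I) :
    fnSize (nm.p0 pm.ω) (lev G ℓ (j + 1)) (T.V0 (j + 1)) {(nest G ℓ j).up B} (pc0 (T.step h) pm.ω pm.zn t z x.K0 X B)
      ≤ pdtCp pm.c k0.Cg (nm.p0 pm.ω) pm.α 0 * pdtS (nm.p0 pm.ω) (T.step h) pm.zn t z x.K0 X ∧
    (‖cn0 (T.step h) pm.ω pm.zn t z x.K0 X B‖₊ : ℝ≥0∞)
      ≤ pdtCp pm.c k0.Cg (nm.p0 pm.ω) pm.α 0 * pdtS (nm.p0 pm.ω) (T.step h) pm.zn t z x.K0 X :=
  ⟨pdt_pc0_size0 (H.to0 (pdt_hR H)) (pdt_coef_of_gain (c := pm.c) (S := T.step h) H.gain0) pm.zn (pdt_hH0 H) t z x.K0 (ok_par hx.ok0 _ _ _) hx.even0 hX B,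
    pdt_cn0_le (H.to0 (pdt_hR H)) (nm.p0 pm.ω) k0.Cg pm.zn t z x.K0 (ok_par hx.ok0 _ _ _) hX B 0⟩

/-- **EXIT DESIG-0**: the rooted size of `d0`, its admissibility.  `Cn` from `pdt_count pm.c` -/
theorem pdt_exit0 (H : Ctx pm nm cT k0 kT T h) (x : St (lev G ℓ j)) (hx : Inv pm nm.h0 x) (t z : ℂ) (Cn : ℕ)
    (hCn : DCount pm.c (T.step h) Cn) :
    (d0 (T.step h) pm.c pm.ω pm.zn t z x.K0).size (nm.p0 pm.ω) (T.V0 (j + 1))
      ≤ 2 * pdtN ℓ Cn * (pdtCp pm.c k0.Cg (nm.p0 pm.ω) pm.α 0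
          * (nP (nm.p0 pm.ω) (T.V0 j) pm.zn.H0 pm.α t z x + nW (nm.p0 pm.ω) (T.V0 j) pm.zn.H0 x)) ∧
    ((d0 (T.step h) pm.c pm.ω pm.zn t z x.K0).size (nm.p0 pm.ω) (T.V0 (j + 1)) < 1 →
      (d0 (T.step h) pm.c pm.ω pm.zn t z x.K0).Ok (nm.p0 pm.ω) pm.c.col pm.c.r) :=
  ⟨pdt_d0_size (H.to0 (pdt_hR H)) (pdt_coef_of_gain (c := pm.c) (S := T.step h) H.gain0) pm.zn (pdt_hH0 H) t z x.K0 (ok_par hx.ok0 _ _ _) hx.even0 Cn hCn _
      (fun X _ => pdt_S_le (p := nm.p0 pm.ω) (S := T.step h) (H.nmOk.AT_ge.trans H.nmOk.A_ge) pm.zn t z x X),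
    fun hs => pdt_d0_ok (H.to0 (pdt_hR H)) pm.zn t z x.K0 hs⟩

/-- **EXIT DESIG-T, per piece, shift-good inputs** (`hpc` of `prd_row`).  `hen` = second clause of `prx_lamX_energy` (helper49) -/
theorem pdt_exitT_pc (H : Ctx pm nm cT k0 kT T h) (x : St (lev G ℓ j)) (hx : Inv pm nm.h0 x) (t z : ℂ) (v : G.V → ℝ) (Ctr : ℝ) (hCtr : 0 ≤ Ctr)
    {X : Finset (lev G ℓ j).I} (hX : X ∈ (T.step h).small pm.c) (hg : ShiftGood (lev G ℓ j) pm.zn.H1 X) (B : (lev G ℓ j).I)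
    (hen : gE G ((lev G ℓ j).sites {B}) (lamX pm (lev G ℓ j) v X) ≤ Ctr * X.card) :
    fnSize (nm.pT pm.ω) (lev G ℓ (j + 1)) (T.VT (j + 1)) {(nest G ℓ j).up B} (shF (pcT (T.step h) pm.ω pm.zn t z (pm.ref G) x.K0 x.KT X B) (bg pm v))
      ≤ pdtCp pm.c k0.Cg (nm.pT pm.ω) pm.α (Ctr * pm.c.n0)
          * (nP (nm.p0 pm.ω) (T.V0 j) pm.zn.H0 pm.α t z x + nW (nm.p0 pm.ω) (T.V0 j) pm.zn.H0 x) ∧
    (‖cnT (T.step h) pm.ω pm.zn t z (pm.ref G) x.K0 x.KT X B‖₊ : ℝ≥0∞)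
      ≤ pdtCp pm.c k0.Cg (nm.pT pm.ω) pm.α (Ctr * pm.c.n0)
          * (nP (nm.p0 pm.ω) (T.V0 j) pm.zn.H0 pm.α t z x + nW (nm.p0 pm.ω) (T.V0 j) pm.zn.H0 x) := by
  have hcard : (X.card : ℝ) ≤ pm.c.n0 := by exact_mod_cast (B8.w_mem_small.1 hX).2
  obtain ⟨h1, h2⟩ := pdt_pcT_size_good (q := nm.pT pm.ω) (H.to0 (pdt_hR H)) (pdt_coef_of_gain (c := pm.c) (S := T.step h) H.gain0) H.hypT.adm.δ_pos H.hypT.adm.κ_pos
    (T.VT (j + 1)) pm.zn (pdt_hH0 H) t z (pm.ref G) (bg pm v) x.K0 x.KT (ok_par hx.ok0 _ _ _) hx.even0 hX hg B (Ctr * pm.c.n0)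
    (hen.trans (mul_le_mul_of_nonneg_left hcard hCtr))
  have h3 := mul_le_mul' (le_refl (pdtCp pm.c k0.Cg (nm.pT pm.ω) pm.α (Ctr * pm.c.n0)))
    (pdt_S_le (p := nm.p0 pm.ω) (S := T.step h) (H.nmOk.AT_ge.trans H.nmOk.A_ge) pm.zn t z x X)
  exact ⟨h1.trans h3, h2.trans h3⟩

/-- **EXIT DESIG-T**: the rooted size of the translated data `shD dT μ`, `μ = v/α`, in the unit norm, and their admissibility.
`hen` = second clause of `prx_lamX_energy` (helper49);  `href` = (R4) (helper157): the reference field minus the background is close to a constant near the small defects;  `Cn` from `pdt_count pm.c`. -/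
theorem pdt_exitT (H : Ctx pm nm cT k0 kT T h) (x : St (lev G ℓ j)) (hx : Inv pm nm.h0 x) (t z : ℂ) (v : G.V → ℝ) (Ctr : ℝ) (hCtr : 0 ≤ Ctr) (Cn : ℕ)
    (hCn : DCount pm.c (T.step h) Cn)
    (hen : ∀ X : Finset (lev G ℓ j).I, ShiftGood (lev G ℓ j) pm.zn.H1 X → ∀ B ∈ X, gE G ((lev G ℓ j).sites {B}) (lamX pm (lev G ℓ j) v X) ≤ Ctr * X.card)
    (href : ∀ X ∈ (T.step h).small pm.c, ¬ ShiftGood (lev G ℓ j) pm.zn.H1 X →
      ∃ a : ℝ, tnorm (lev G ℓ j) X (fun u => (pm.ref G - bg pm v) u - a) < nm.h0) :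
    (shD (dT (T.step h) pm.c pm.ω pm.zn t z (pm.ref G) x.K0 x.KT) (bg pm v)).size (nm.pT pm.ω) (T.VT (j + 1))
      ≤ 2 * pdtN ℓ Cn * (pdtCp pm.c k0.Cg (nm.pT pm.ω) pm.α (Ctr * pm.c.n0)
            * (nP (nm.p0 pm.ω) (T.V0 j) pm.zn.H0 pm.α t z x + nW (nm.p0 pm.ω) (T.V0 j) pm.zn.H0 x)
          + pdtK (geoT pm.c cT) * nD (nm.pT pm.ω) (T.VT j) pm.zn.H1 (bg pm v) x) ∧
    ((shD (dT (T.step h) pm.c pm.ω pm.zn t z (pm.ref G) x.K0 x.KT) (bg pm v)).size (nm.pT pm.ω) (T.VT (j + 1)) < 1 →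
      (shD (dT (T.step h) pm.c pm.ω pm.zn t z (pm.ref G) x.K0 x.KT) (bg pm v)).Ok (nm.pT pm.ω) pm.c.col pm.c.r) := by
  refine ⟨?_, fun hs => pdt_dT_ok (c := geoT pm.c cT) (p := nm.pT pm.ω) (S := T.stepT h) (H.toT (pdt_hR H)) pm.zn t z (pm.ref G) (bg pm v) x.K0 x.KT hs⟩
  refine pdt_dT_size (H.to0 (pdt_hR H)) (pdt_coef_of_gain (c := pm.c) (S := T.step h) H.gain0) cT (nm.pT pm.ω) (T.VT j) (T.VT (j + 1)) (H.toT (pdt_hR H)) rfl
    pm.zn (pdt_hH0 H) t z (pm.ref G) (bg pm v) x.K0 x.KT (ok_par hx.ok0 _ _ _) hx.even0 (prj_shA_ok (ok_par hx.okT _ _ _) _) Cn hCn (Ctr * pm.c.n0) ?_ href _ _ ?_ ?_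
  · intro X hX hg B hB
    have hcard : (X.card : ℝ) ≤ pm.c.n0 := by exact_mod_cast (B8.w_mem_small.1 hX).2
    exact (hen X hg B hB).trans (mul_le_mul_of_nonneg_left hcard hCtr)
  · intro X _ _
    exact pdt_S_le (p := nm.p0 pm.ω) (S := T.step h) (H.nmOk.AT_ge.trans H.nmOk.A_ge) pm.zn t z x X
  · intro X _ hg
    exact pdt_fnSize_le_cut (p := nm.pT pm.ω) H.nmOk.AT_ge (T.VT j) (fun X => ¬ ShiftGood (lev G ℓ j) pm.zn.H1 X) (shA x.KT (bg pm v)) hg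

end exits

end

end Claimed.Agent.R285.F6.Pr
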