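import Claimed.Agent.R285.Obs.PairTD
import Claimed.Agent.R285.Obs.PairStep
import Claimed.Agent.R285.Obs.PairEnt

/-!
# ROW 285, unit OBS, BP-OBS-L62, block ENT0 (= C7) of `Obs.pair_stop`: THE BASE CASE `j₀` OF THE INVARIANTS AND OF THE SIZES      (architect helper8)   -- KEEP

Input: `Obs.EntAll` (ENTRY in all volumes).  Output, for the entry state `Pr.ent` of a centred free square (`EntGeo`):
 (a) `pe0_inv`     : `Inv pm h₀ (ent ..)`;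
 (b) `pe0_sizes`   : `nP, nW, nD ≤ ε`, `nJ ≤ CR s^CR`, for EVERY branch `v`;
 (c) `pe0_invSq`   : `InvSq pm h₀ Em (ent .. G₀ ..) (ent .. G₁ ..)` for a centred embedding (`CenEmb`);
 (d) `pe0_invTor`  : `InvTor pm h₀ Em 0 0 (ent .. G₀ ..) Rt` for the corner chart of a big torus (`TorEmb`), `Rt` = the entry activity of the torus up to `EqOn`;
 (e) `pe0_tnorm_emb`: THE SHARED LEMMA `tnorm g₁ (X.map E.e) f = tnorm g₀ X (f ∘ E.s)` on wall-free supports.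
Engine of (c), (d): `pe0_copyX` (`F4b.CopyAt` + locality with collar `0` ⇒ `CopyX`).
Helper lemmas: prefix `pe0_`.  Edit ONLY your theorems, pull before landing.
-/

set_option autoImplicit false

namespace Claimed.Agent.R285.F6.Pr

open scoped BigOperators ENNReal NNReal
open MeasureTheory
open Claimed.Agent.R285 Claimed.Agent.R285.RG Claimed.Agent.R285.B4 Claimed.Agent.R285.B8 Claimed.Agent.R285.F4a Claimed.Agent.R285.Obs Claims.C0459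

noncomputable section

/-! ## 0. The volume of ENTRY in a centred free square -/

/-- the arithmetic of ENTRY in one centred free square: `q R s = L^{j₀}`, the centre is a junction of entry blocks, the two lower bounds of the side -/
structure EntGeo (E : EntQ) (kq kR ks ℓ j0 : ℕ) (G : Geom) : Prop where
  free : G.bc = BC.free
  side : 2 ^ kq * 2 ^ kR * 2 ^ ks = (2 ^ ℓ) ^ j0
  cen : 2 * (2 ^ ℓ) ^ j0 ∣ G.M
  big : 2 ^ ks * (2 ^ kR) ^ 5 ≤ G.M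
  mkd : E.cmk * (2 ^ ks * (2 ^ kR) ^ 5) ≤ G.M

section vol

variable {E : EntQ} {kq kR ks ℓ j0 : ℕ} {G : Geom}

theorem pe0_side (h : EntGeo E kq kR ks ℓ j0 G) : side G ℓ j0 = (2 ^ ℓ) ^ j0 :=
  side_eq ((Dvd.intro_left 2 rfl).trans h.cen)

theorem pe0_hs (h : EntGeo E kq kR ks ℓ j0 G) : 2 ^ ks ∣ side G ℓ j0 := by
  rw [pe0_side h, ← h.side]
  exact Dvd.intro_left _ rfl

theorem pe0_adm (h : EntGeo E kq kR ks ℓ j0 G) (hs : 2 ^ ks ∣ side G ℓ j0) : (volE G ℓ j0 (2 ^ ks) hs).Adm (2 ^ kq) (2 ^ kR) (2 ^ ks) where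
  hs := rfl
  hm := by
    show side G ℓ j0 = _
    rw [pe0_side h, h.side]
  side := h.big
  centred := fun _ => by
    show 2 * side G ℓ j0 ∣ G.M
    rw [pe0_side h]
    exact h.cen

end vol


/-! ## 1. Sites of wall-free supports, charts -/

section geo

variable {G : Geom}

/-- the sites of a wall-free support stay `H` blocks away from the walls -/
theorem pe0_site_range {g : Grid G} (hg : Std g) (H : ℕ) (X : Finset g.I) (hX : WallFree g H X) (v : G.V) (hv : v ∈ g.sites X) :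
    H * g.m ≤ (v.1 : ℕ) ∧ (v.1 : ℕ) + H * g.m < G.M ∧ H * g.m ≤ (v.2 : ℕ) ∧ (v.2 : ℕ) + H * g.m < G.M := by
  have hb : g.blk v ∈ X := by simpa [Grid.sites] using hv
  obtain ⟨w1, w2, w3, w4⟩ := hX _ hb
  have b1 : (((g.blk v).1 : Fin g.n) : ℕ) = (v.1 : ℕ) / g.m := hg.blk v.1
  have b2 : (((g.blk v).2 : Fin g.n) : ℕ) = (v.2 : ℕ) / g.m := hg.blk v.2
  rw [b1] at w1 w2
  rw [b2] at w3 w4
  have key : ∀ i : ℕ, H ≤ i / g.m → i / g.m + H < g.n → H * g.m ≤ i ∧ i + H * g.m < G.M := by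
    intro i h1 h2
    have e1 : g.m * (i / g.m) ≤ i := Nat.mul_div_le i g.m
    have e2 : i < g.m * (i / g.m) + g.m := by
      have := Nat.lt_mul_div_succ i hg.pos
      rw [Nat.mul_add, Nat.mul_one] at this
      exact this
    have e3 : g.m * H ≤ g.m * (i / g.m) := Nat.mul_le_mul_left _ h1
    have e4 : g.m * (i / g.m + H + 1) ≤ g.m * g.n := Nat.mul_le_mul_left _ h2
    have e5 : G.M = g.m * g.n := by rw [hg.card, Nat.mul_comm]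
    rw [Nat.mul_add, Nat.mul_add, Nat.mul_one] at e4
    rw [Nat.mul_comm H g.m]
    constructor <;> omega
  exact ⟨(key _ w1 w2).1, (key _ w1 w2).2, (key _ w3 w4).1, (key _ w3 w4).2⟩

theorem pe0_blk_surj {g : Grid G} (hg : Std g) (b : g.I) : ∃ v, g.blk v = b := by
  have hlt : ∀ c : Fin g.n, (c : ℕ) * g.m < G.M := by
    intro c
    rw [hg.card]
    exact Nat.mul_lt_mul_of_pos_right c.2 hg.pos
  refine ⟨(⟨(b.1 : ℕ) * g.m, hlt b.1⟩, ⟨(b.2 : ℕ) * g.m, hlt b.2⟩), Prod.ext (Fin.ext ?_) (Fin.ext ?_)⟩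
  · show ((g.blk1 _ : Fin g.n) : ℕ) = _
    rw [hg.blk]
    exact Nat.mul_div_cancel _ hg.pos
  · show ((g.blk1 _ : Fin g.n) : ℕ) = _
    rw [hg.blk]
    exact Nat.mul_div_cancel _ hg.pos

theorem pe0_mem_sites {g : Grid G} {X : Finset g.I} {v : G.V} : v ∈ g.sites X ↔ g.blk v ∈ X := by
  simp [Grid.sites]

/-- the plane set of the sites of `X` in the chart `o` folds back to `X` -/
theorem pe0_foldS₀ {g : Grid G} (hg : Std g) (o : ℤ × ℤ) (X : Finset g.I) :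
    g.foldS (((g.sites X).image fun v => G.ι v - o).image (· + o)) = X := by
  ext b
  simp only [Grid.foldS, Finset.mem_image]
  constructor
  · rintro ⟨x, ⟨y, ⟨v, hv, rfl⟩, rfl⟩, rfl⟩
    rw [sub_add_cancel, Reg.reg_pi_iota]
    exact pe0_mem_sites.1 hv
  · intro hb
    obtain ⟨v, rfl⟩ := pe0_blk_surj hg b
    exact ⟨G.ι v, ⟨G.ι v - o, ⟨v, pe0_mem_sites.2 hb, rfl⟩, sub_add_cancel _ _⟩, by rw [Reg.reg_pi_iota]⟩

theorem pe0_fits₀ {g : Grid G} (hG : G.bc = BC.free) (hg : Std g) (H r : ℕ) (hr : r ≤ H * g.m) (X : Finset g.I) (hX : WallFree g H X) (o : ℤ × ℤ) :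
    F4b.Fits G o r ((g.sites X).image fun v => G.ι v - o) := by
  refine ⟨fun h => (by rw [hG] at h; cases h), fun _ x hx => ?_⟩
  obtain ⟨v, hv, rfl⟩ := Finset.mem_image.1 hx
  obtain ⟨a1, a2, a3, a4⟩ := pe0_site_range hg H X hX v hv
  rw [sub_add_cancel]
  simp only [Geom.ι]
  omega

/-- distance `0` -/
theorem pe0_dist_zero {v w : G.V} (h : G.dist v w ≤ 0) : w = v := by
  obtain ⟨x, hx, hd⟩ := Reg.regl_dist_spec G v w
  rw [hd] at h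
  have h1 := (le_max_left _ _).trans h
  have h2 := (le_max_right _ _).trans h
  have e : x = G.ι v := Prod.ext (by omega) (by omega)
  rw [← hx, e, Reg.reg_pi_iota]

end geo

section emb

variable {G₀ G₁ : Geom} {g₀ : Grid G₀} {g₁ : Grid G₁}

theorem pe0_foldS₁ (E : GEmb g₀ g₁) (hE : E.Ok) (hg : Std g₀) (o₀ o₁ : ℤ × ℤ) (hsh : Shift E.s (o₁ - o₀)) (X : Finset g₀.I) :
    g₁.foldS (((g₀.sites X).image fun v => G₀.ι v - o₀).image (· + o₁)) = X.map E.e := by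
  have key : ∀ v, G₀.ι v - o₀ + o₁ = G₁.ι (E.s v) := fun v => by rw [hsh v]; abel
  ext b
  simp only [Grid.foldS, Finset.mem_image, Finset.mem_map]
  constructor
  · rintro ⟨x, ⟨y, ⟨v, hv, rfl⟩, rfl⟩, rfl⟩
    rw [key, Reg.reg_pi_iota, hE.blk]
    exact ⟨g₀.blk v, pe0_mem_sites.1 hv, rfl⟩
  · rintro ⟨a, ha, rfl⟩
    obtain ⟨v, rfl⟩ := pe0_blk_surj hg a
    exact ⟨_, ⟨_, ⟨v, pe0_mem_sites.2 ha, rfl⟩, rfl⟩, by rw [key, Reg.reg_pi_iota, hE.blk]⟩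

theorem pe0_fits₁ (E : GEmb g₀ g₁) (hE : E.Ok) (hg₀ : Std g₀) (hg₁ : Std g₁) (hM : G₀.M ≤ G₁.M) (o₀ o₁ : ℤ × ℤ) (hsh : Shift E.s (o₁ - o₀))
    (H r : ℕ) (hr : r ≤ H * g₀.m) (X : Finset g₀.I) (hne : X.Nonempty) (hX : WallFree g₀ H X)
    (hX₁ : G₁.bc = BC.free → WallFree g₁ H (X.map E.e)) :
    F4b.Fits G₁ o₁ r ((g₀.sites X).image fun v => G₀.ι v - o₀) := by
  refine ⟨fun _ => ?_, fun h x hx => ?_⟩
  · obtain ⟨a, ha⟩ := hne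
    obtain ⟨u, rfl⟩ := pe0_blk_surj hg₀ a
    obtain ⟨u1, u2, u3, u4⟩ := pe0_site_range hg₀ H X hX u (pe0_mem_sites.2 ha)
    have hd : pdiam ((g₀.sites X).image fun v => G₀.ι v - o₀) ≤ G₀.M - 1 - 2 * (H * g₀.m) := by
      unfold pdiam
      refine Finset.sup_le fun x hx => Finset.sup_le fun y hy => ?_
      obtain ⟨v, hv, rfl⟩ := Finset.mem_image.1 hx
      obtain ⟨w, hw, rfl⟩ := Finset.mem_image.1 hy
      obtain ⟨a1, a2, a3, a4⟩ := pe0_site_range hg₀ H X hX v hv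
      obtain ⟨b1, b2, b3, b4⟩ := pe0_site_range hg₀ H X hX w hw
      simp only [Geom.ι, Prod.fst_sub, Prod.snd_sub]
      refine max_le ?_ ?_ <;> omega
    omega
  · obtain ⟨v, hv, rfl⟩ := Finset.mem_image.1 hx
    have key : G₀.ι v - o₀ + o₁ = G₁.ι (E.s v) := by rw [hsh v]; abel
    have hv1 : E.s v ∈ g₁.sites (X.map E.e) := by
      rw [pe0_mem_sites, hE.blk]
      exact Finset.mem_map_of_mem _ (pe0_mem_sites.1 hv)
    obtain ⟨a1, a2, a3, a4⟩ := pe0_site_range hg₁ H _ (hX₁ h) _ hv1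
    rw [hE.side] at a1 a2 a3 a4
    rw [key]
    simp only [Geom.ι]
    omega

/-- **(e), the missing half**: `tnorm` of the image is bounded by `tnorm` of the support (the other half is `tnorm_emb_le`, helper208) -/
theorem pe0_tnorm_emb_ge (E : GEmb g₀ g₁) (hE : E.Ok) (hG : G₀.bc = BC.free) (hg : Std g₀) (hm : 2 ≤ g₀.m) (H : ℕ) (hH : 3 ≤ H)
    (X : Finset g₀.I) (hX : WallFree g₀ H X) (hnb : ∀ a ∈ X, ∀ b', g₁.idist (E.e a) b' ≤ 2 → b' ∈ Set.range E.e) (f : G₁.V → ℝ) :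
    tnorm g₁ (X.map E.e) f ≤ tnorm g₀ X (fun v => f (E.s v)) := by
  rw [Hol.tnorm_le_iff]
  intro v' hv'
  obtain ⟨a', ha', hav⟩ := (prg_mem_Dm g₁ _ v').1 hv'
  obtain ⟨a, ha, rfl⟩ := Finset.mem_map.1 ha'
  obtain ⟨b, hb⟩ := hnb a ha _ hav
  obtain ⟨v, rfl⟩ := hE.full v' b hb.symm
  have hbv : g₀.blk v = b := E.e.injective (by rw [← hE.blk, hb])
  have hv : v ∈ g₀.Dm X := (prg_mem_Dm g₀ X v).2 ⟨a, ha, by rw [← hE.dist, ← hE.blk]; exact hav⟩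
  obtain ⟨s0, s1, s2⟩ := Hol.tnorm_spec g₀ X (fun v => f (E.s v)) v hv
  have hl : ∀ y : ℤ × ℤ, y.1.natAbs + y.2.natAbs ≤ 2 →
      G₁.lift f (G₁.ι (E.s v) + y) = G₀.lift (fun v => f (E.s v)) (G₀.ι v + y) := by
    intro y hy
    show f (G₁.π (G₁.ι (E.s v) + y)) = f (E.s (G₀.π (G₀.ι v + y)))
    rw [hE.lat v y (inBox_of_wallFree hG g₀ hg hm H hH X hX v hv y hy)]
  refine ⟨s0, fun a => ?_, fun a => ?_⟩
  · rw [difs_congr_box a _ (G₀.lift fun v => f (E.s v)) (G₁.ι (E.s v)) (G₀.ι v) (fun y hy => hl y (by omega)), hE.side]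
    exact s1 a
  · rw [difs_congr_box a _ (G₀.lift fun v => f (E.s v)) (G₁.ι (E.s v)) (G₀.ι v) hl, hE.side]
    exact s2 a

/-- **(e) THE SHARED LEMMA** -/
theorem pe0_tnorm_emb (E : GEmb g₀ g₁) (hE : E.Ok) (hG : G₀.bc = BC.free) (hg : Std g₀) (hm : 2 ≤ g₀.m) (H : ℕ) (hH : 3 ≤ H)
    (X : Finset g₀.I) (hX : WallFree g₀ H X) (hnb : ∀ a ∈ X, ∀ b', g₁.idist (E.e a) b' ≤ 2 → b' ∈ Set.range E.e) (f : G₁.V → ℝ) :
    tnorm g₁ (X.map E.e) f = tnorm g₀ X (fun v => f (E.s v)) :=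
  le_antisymm (pe0_tnorm_emb_ge E hE hG hg hm H hH X hX hnb f) (tnorm_emb_le E hE hG hg hm H hH X hX f)

/-- the blocks within `H` of the image of a block which is `H` away from the walls are in the range (centred embedding) -/
theorem pe0_nb_cen {E : GEmb g₀ g₁} (hE : CenEmb E) (H : ℕ) (a : g₀.I) (h : WallFree g₀ H {a}) (b' : g₁.I) (hd : g₁.idist (E.e a) b' ≤ H) :
    b' ∈ Set.range E.e := by
  obtain ⟨d1, d2, d3, d4⟩ := prg_idist_le hE.free₁ g₁ hd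
  obtain ⟨w1, w2, w3, w4⟩ := h a (Finset.mem_singleton_self a)
  obtain ⟨v1, v2⟩ := hE.val a
  rw [v1] at d1 d2
  rw [v2] at d3 d4
  refine ⟨(⟨(b'.1 : ℕ) - (g₁.n / 2 - g₀.n / 2), by omega⟩, ⟨(b'.2 : ℕ) - (g₁.n / 2 - g₀.n / 2), by omega⟩), Prod.ext (Fin.ext ?_) (Fin.ext ?_)⟩
  · rw [(hE.val _).1]
    show (b'.1 : ℕ) - (g₁.n / 2 - g₀.n / 2) + (g₁.n / 2 - g₀.n / 2) = _
    omega
  · rw [(hE.val _).2]
    show (b'.2 : ℕ) - (g₁.n / 2 - g₀.n / 2) + (g₁.n / 2 - g₀.n / 2) = _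
    omega

/-- the same in the corner chart of a big torus -/
theorem pe0_nb_tor {E : GEmb g₀ g₁} (hE : TorEmb E) (H : ℕ) (a : g₀.I) (h : WallFree g₀ H {a}) (b' : g₁.I) (hd : g₁.idist (E.e a) b' ≤ H) :
    b' ∈ Set.range E.e := by
  obtain ⟨w1, w2, w3, w4⟩ := h a (Finset.mem_singleton_self a)
  obtain ⟨v1, v2⟩ := hE.val a
  have hle := hE.le
  have d1 := (le_max_left _ _).trans hd
  have d2 := (le_max_right _ _).trans hd
  rw [prg_idist1_per hE.per₁] at d1 d2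
  have q1 := b'.1.2
  have q2 := b'.2.2
  refine ⟨(⟨(b'.1 : ℕ), by omega⟩, ⟨(b'.2 : ℕ), by omega⟩), Prod.ext (Fin.ext ?_) (Fin.ext ?_)⟩
  · rw [(hE.val _).1]
  · rw [(hE.val _).2]

/-- **THE ENGINE of (c), (d)**: a copy in the sense of ENTRY (`F4b.CopyAt`, agreement on the whole `r`-neighbourhood) of activities which are local with collar `0` is a copy in the sense of `CopyX`
(agreement on the dependence set only): replace `z₁` by the extension of `z₀` -/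
theorem pe0_copyX (E : GEmb g₀ g₁) (hE : E.Ok) (hG : G₀.bc = BC.free) (hg₀ : Std g₀) (hg₁ : Std g₁) (hm : 2 ≤ g₀.m) (hM : G₀.M ≤ G₁.M)
    (o₀ o₁ : ℤ × ℤ) (hsh : Shift E.s (o₁ - o₀)) (H : ℕ) (hH : 3 ≤ H) (r : ℕ) (hr : r ≤ H * g₀.m) (h0 : ℝ≥0) (col : ℕ)
    (K₀ : Act g₀) (K₁ : Act g₁) (hc : F4b.CopyAt h0 r g₀ g₁ o₀ o₁ K₀ K₁)
    (X : Finset g₀.I) (hne : X.Nonempty) (hX : WallFree g₀ H X) (hX₁ : G₁.bc = BC.free → WallFree g₁ H (X.map E.e))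
    (hnb : ∀ a ∈ X, ∀ b', g₁.idist (E.e a) b' ≤ 2 → b' ∈ Set.range E.e)
    (hloc : ∀ z ∈ strip h0 g₁ (X.map E.e), ∀ z' ∈ strip h0 g₁ (X.map E.e), (∀ v ∈ g₁.sites (X.map E.e), z v = z' v) →
      K₁ (X.map E.e) z = K₁ (X.map E.e) z') :
    CopyX E h0 col 0 K₀ K₁ X := by
  intro z₀ hz₀ z₁ hz₁ hag
  have e₀ := pe0_foldS₀ hg₀ o₀ X
  have e₁ := pe0_foldS₁ E hE hg₀ o₀ o₁ hsh X
  have F₀ := pe0_fits₀ hG hg₀ H r hr X hX o₀
  have F₁ := pe0_fits₁ E hE hg₀ hg₁ hM o₀ o₁ hsh H r hr X hne hX hX₁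
  have hext : ∀ v, Function.extend E.s z₀ 0 (E.s v) = z₀ v := fun v => E.s.injective.extend_apply _ _ _
  have hz₁' : Function.extend E.s z₀ 0 ∈ strip h0 g₁ (X.map E.e) := by
    show tnorm g₁ (X.map E.e) (fun v => (Function.extend E.s z₀ 0 v).im) < h0
    refine (pe0_tnorm_emb_ge E hE hG hg₀ hm H hH X hX hnb _).trans_lt ?_
    simp only [hext]
    exact hz₀
  have h := hc _ F₀ F₁ z₀ (by rw [e₀]; exact hz₀) (Function.extend E.s z₀ 0) (by rw [e₁]; exact hz₁') (by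
    rintro x ⟨y, hy, hxy⟩
    obtain ⟨v, hv, rfl⟩ := Finset.mem_image.1 hy
    obtain ⟨a1, a2, a3, a4⟩ := pe0_site_range hg₀ H X hX v hv
    have h1 := (le_max_left _ _).trans hxy
    have h2 := (le_max_right _ _).trans hxy
    simp only [Geom.ι, Prod.fst_sub, Prod.snd_sub] at h1 h2
    have q₀ : x + o₀ = G₀.ι v + (x - (G₀.ι v - o₀)) := by abel
    have q₁ : x + o₁ = G₁.ι (E.s v) + (x - (G₀.ι v - o₀)) := by rw [hsh v]; abel
    have hbox : InBox G₀ (G₀.ι v + (x - (G₀.ι v - o₀))) := by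
      unfold InBox
      simp only [Geom.ι, Prod.fst_add, Prod.snd_add, Prod.fst_sub, Prod.snd_sub]
      omega
    rw [q₀, q₁, hE.lat v _ hbox, hext])
  rw [e₀, e₁] at h
  show K₀ X z₀ = K₁ (X.map E.e) z₁
  rw [h]
  refine hloc _ hz₁' _ hz₁ fun v' hv' => ?_
  obtain ⟨a, ha, hav⟩ := Finset.mem_map.1 (pe0_mem_sites.1 hv')
  obtain ⟨v, rfl⟩ := hE.full v' a hav.symm
  have hbv : g₀.blk v = a := E.e.injective (by rw [← hE.blk, hav])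
  have hv : v ∈ g₀.sites X := pe0_mem_sites.2 (by rw [hbv]; exact ha)
  rw [hext, hag v ⟨v, hv, by rw [Reg.reg_dist_self]; exact Nat.zero_le _⟩]
  simp

end emb

/-! ## 2. (a) the invariants of one square -/

section one

variable {G : Geom}

/-- a larger collar; `δ, κ, A` are not seen -/
theorem pe0_ok_col {p : Par} {R : ℕ} {g : Grid G} {K : Act g} (h : Act.Ok p 0 R K) (h0 : ℝ≥0) (ω : ℝ) (col : ℕ) (hh : p.h0 = h0) (hω : p.ω = ω) :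
    Act.Ok ⟨0, 0, h0, 0, ω⟩ col R K := by
  subst hh hω
  exact ⟨fun X => ⟨(h.fn X).hol, fun z hz z' hz' e => (h.fn X).loc z hz z' hz' (fun v hv => e v (by
    obtain ⟨w, hw, hd⟩ := hv
    exact ⟨w, hw, hd.trans (Nat.zero_le _)⟩)), (h.fn X).per⟩, h.poly⟩

/-- locality with collar `0` in the form used by `pe0_copyX` -/
theorem pe0_loc0 {p : Par} {R : ℕ} {g : Grid G} {K : Act g} (h : Act.Ok p 0 R K) (X : Finset g.I) :
    ∀ z ∈ strip p.h0 g X, ∀ z' ∈ strip p.h0 g X, (∀ v ∈ g.sites X, z v = z' v) → K X z = K X z' := by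
  intro z hz z' hz' e
  refine (h.fn X).loc z hz z' hz' fun v hv => ?_
  obtain ⟨w, hw, hd⟩ := hv
  rw [pe0_dist_zero hd]
  exact e w hw

/-- the block under the centre is the upper right central block -/
theorem pe0_ctr_blk (𝒱 : F4b.Vol) : ((𝒱.bemb 𝒱.ctr (0, 0)).1 : ℕ) = 𝒱.g.n / 2 ∧ ((𝒱.bemb 𝒱.ctr (0, 0)).2 : ℕ) = 𝒱.g.n / 2 := by
  have hM := 𝒱.G.hM
  have hf : ((𝒱.G.fold ((𝒱.m : ℤ) * 0 + ((𝒱.G.M / 2 : ℕ) : ℤ)) : ℕ) : ℤ) = (𝒱.m : ℤ) * 0 + ((𝒱.G.M / 2 : ℕ) : ℤ) :=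
    prg_fold_val 𝒱.G _ (by positivity) (by omega)
  have hf' : (𝒱.G.fold ((𝒱.m : ℤ) * 0 + ((𝒱.G.M / 2 : ℕ) : ℤ)) : ℕ) = 𝒱.G.M / 2 := by omega
  have e : 𝒱.G.M / 2 / 𝒱.m = 𝒱.G.M / 𝒱.m / 2 := by rw [Nat.div_div_eq_div_mul, Nat.div_div_eq_div_mul, Nat.mul_comm]
  constructor
  · show (𝒱.G.fold ((𝒱.m : ℤ) * 0 + ((𝒱.G.M / 2 : ℕ) : ℤ)) : ℕ) / 𝒱.m = 𝒱.G.M / 𝒱.m / 2
    rw [hf', e]
  · show (𝒱.G.fold ((𝒱.m : ℤ) * 0 + ((𝒱.G.M / 2 : ℕ) : ℤ)) : ℕ) / 𝒱.m = 𝒱.G.M / 𝒱.m / 2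
    rw [hf', e]

theorem pe0_alpha {pm : Prm} (hω : pm.ω = ω8) : pm.α = Real.sqrt k0 := by
  have h1 : 0 < Real.sqrt k0 := Real.sqrt_pos.2 (by unfold k0; positivity)
  unfold Prm.α B8.Step.alpha
  rw [hω]
  unfold ω8
  field_simp

end one

/-- **EXIT (a)**: the structural invariants at the entry level -/
theorem pe0_inv (D : F4b.EntryData) (p pT : Par) (o oT : ObsPar) (E : EntQ) (kq kR ks ℓ j0 : ℕ) (hE : EntAll D p pT o oT E kq kR ks)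
    (G : Geom) (hG : EntGeo E kq kR ks ℓ j0 G) (hs : 2 ^ ks ∣ side G ℓ j0) (pm : Prm) (hR : pm.c.R = RR) (hω : pm.ω = ω8)
    (hp : p.ω = ω8) (hpT : pT.ω = ω8) (hh : pT.h0 = p.h0) :
    Inv pm p.h0 (ent D xyCritical G ℓ j0 (2 ^ ks) hs) := by
  have hA := pe0_adm hG hs
  have hB := hE.bulk _ hA
  have hU := hE.unit _ hA hG.free hG.mkd
  have hr : 0 < E.cR / ((2 : ℝ) ^ ks) ^ 2 := div_pos hE.cR_pos (by positivity)
  have hb : ((xyCritical : ℝ) : ℂ) ∈ Metric.ball ((xyCritical : ℝ) : ℂ) (E.cR / ((2 : ℝ) ^ ks) ^ 2) := Metric.mem_ball_self hr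
  refine ⟨?_, ?_, ?_, ?_, hU.realK, hU.realJ, hB.even _ hb, ?_, ?_⟩
  · rw [hR]; exact pe0_ok_col (hB.ok _ hb) _ _ _ rfl (hp.trans hω.symm)
  · rw [hR]; exact pe0_ok_col hU.okK _ _ _ hh (hpT.trans hω.symm)
  · rw [hR]; exact pe0_ok_col hU.okJ _ _ _ hh (hpT.trans hω.symm)
  · exact hB.real xyCritical (by rw [sub_self, abs_zero]; exact hr)
  · intro X _ κ hκ z hz
    have := hU.transl X κ hκ z (by rw [hh]; exact hz)
    rw [hω]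
    exact this
  · intro X hX z _
    have h0 : D.JT (volE G ℓ j0 (2 ^ ks) hs) X = 0 := by
      refine hU.supp X fun hsub => hX ⟨_, hsub (Finset.mem_image_of_mem _ (?_ : ((0, 0) : ℤ × ℤ) ∈ _)), ?_⟩
      · rw [hA.hm]
        exact hE.cst.2 (by simp)
      · obtain ⟨c1, c2⟩ := pe0_ctr_blk (volE G ℓ j0 (2 ^ ks) hs)
        refine ⟨?_, ?_, ?_, ?_⟩
        · exact (le_of_eq c1.symm).trans (Nat.le_succ _)
        · exact (lt_of_le_of_lt (le_of_eq c1) (Nat.lt_succ_self _))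
        · exact (le_of_eq c2.symm).trans (Nat.le_succ _)
        · exact (lt_of_le_of_lt (le_of_eq c2) (Nat.lt_succ_self _))
    show D.JT (volE G ℓ j0 (2 ^ ks) hs) X z = 0
    rw [h0]
    rfl

/-! ## 3. (b) the sizes -/

theorem pe0_singleWF_zero {G : Geom} (g : Grid G) (H0 : ℕ) (α : ℝ) : singleWF g H0 α 0 0 = 0 := by
  funext X
  unfold singleWF
  simp

/-- **EXIT (b)**: the four sizes at the entry level, for every branch `v` -/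
theorem pe0_sizes (D : F4b.EntryData) (p pT : Par) (o oT : ObsPar) (E : EntQ) (kq kR ks ℓ j0 : ℕ) (hE : EntAll D p pT o oT E kq kR ks)
    (G : Geom) (hG : EntGeo E kq kR ks ℓ j0 G) (hs : 2 ^ ks ∣ side G ℓ j0) (pm : Prm) (hω : pm.ω = ω8)
    (T : Tw G ℓ) (cl : Grid G) (hcl : ∃ hd, cl = torusGrid G (2 ^ ks) hd) (hT : T.IsObs o oT cl j0) (H0 H1 : ℕ) (α : ℝ)
    (v : G.V → ℝ) (hv : IsBranch G v) :
    nP p (T.V0 j0) H0 α 0 0 (ent D xyCritical G ℓ j0 (2 ^ ks) hs) ≤ ENNReal.ofReal E.ε ∧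
    nW p (T.V0 j0) H0 (ent D xyCritical G ℓ j0 (2 ^ ks) hs) ≤ ENNReal.ofReal E.ε ∧
    nD pT (T.VT j0) H1 (bg pm v) (ent D xyCritical G ℓ j0 (2 ^ ks) hs) ≤ ENNReal.ofReal E.ε ∧
    nJ pT (T.VT j0) (bg pm v) (ent D xyCritical G ℓ j0 (2 ^ ks) hs) ≤ ENNReal.ofReal (E.CR * ((2 : ℝ) ^ ks) ^ E.CR) := by
  have hA := pe0_adm hG hs
  have hB := hE.bulk _ hA
  have hU := hE.unit _ hA hG.free hG.mkd
  have hr : 0 < E.cR / ((2 : ℝ) ^ ks) ^ 2 := div_pos hE.cR_pos (by positivity)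
  have hb : ((xyCritical : ℝ) : ℂ) ∈ Metric.ball ((xyCritical : ℝ) : ℂ) (E.cR / ((2 : ℝ) ^ ks) ^ 2) := Metric.mem_ball_self hr
  obtain ⟨hd, rfl⟩ := hcl
  have h0 := hB.norm _ hb (T.V0 j0) (hT.V0 j0 le_rfl)
  have hco : (Top.full (volE G ℓ j0 (2 ^ ks) hs).c).CoClosed ((Top.full (volE G ℓ j0 (2 ^ ks) hs).c).eta (tauU (volE G ℓ j0 (2 ^ ks) hs).c) v) :=
    (pen_coclosed_iff (volE G ℓ j0 (2 ^ ks) hs) hG.free (hA.centred hG.free) (by show 0 < 2 ^ ks; positivity) v).2 hv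
  have hK := hU.normK v hco (T.VT j0) (hT.VT j0 le_rfl)
  have hJ := hU.normJ v hco (T.VT j0) (hT.VT j0 le_rfl)
  have hbg : bg pm v = fun x => v x / Real.sqrt k0 := by
    unfold bg
    rw [pe0_alpha hω]
  refine ⟨?_, (pk_cut_le _ _ _ _).trans h0, ?_, ?_⟩
  · unfold nP
    rw [pe0_singleWF_zero, sub_zero]
    simp only [nnnorm_zero, ENNReal.coe_zero, zero_add]
    exact (pk_cut_le _ _ _ _).trans h0
  · unfold nD
    rw [hbg]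
    exact (pk_cut_le _ _ _ _).trans hK
  · unfold nJ
    rw [hbg]
    exact hJ

/-! ## 4. (c), (d) the copies -/

section copies

variable {G₀ G₁ : Geom} {g₀ : Grid G₀} {g₁ : Grid G₁}

theorem pe0_not_conn_empty {G : Geom} (g : Grid G) (R : ℕ) : ¬ g.Conn R ∅ := fun h => by
  simpa using h.1

/-- `pe0_copyX` for a centred embedding, charts at the centres -/
theorem pe0_copyX_cen {E : GEmb g₀ g₁} (hE : CenEmb E) (hm : 2 ≤ g₀.m) (H : ℕ) (hH : 3 ≤ H) (c0 : ℕ) (hc0 : c0 ≤ H) (col R : ℕ) (p p' : Par) (hp : p'.h0 = p.h0)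
    (K₀ : Act g₀) (K₁ : Act g₁) (hK₀ : Act.Ok p 0 R K₀) (hK₁ : Act.Ok p' 0 R K₁)
    (hc : F4b.CopyAt p.h0 (c0 * g₀.m) g₀ g₁ (((G₀.M / 2 : ℕ) : ℤ), ((G₀.M / 2 : ℕ) : ℤ)) (((G₁.M / 2 : ℕ) : ℤ), ((G₁.M / 2 : ℕ) : ℤ)) K₀ K₁)
    (X : Finset g₀.I) (hX : WallFree g₀ H X) : CopyX E p.h0 col 0 K₀ K₁ X := by
  rcases X.eq_empty_or_nonempty with rfl | hne
  · intro z₀ _ z₁ _ _
    rw [hK₀.poly _ (pe0_not_conn_empty g₀ R), Finset.map_empty, hK₁.poly _ (pe0_not_conn_empty g₁ R)]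
    rfl
  · have hM : G₀.M ≤ G₁.M := by
      rw [hE.std₀.card, hE.std₁.card, hE.ok.side]
      exact Nat.mul_le_mul_right _ hE.le
    refine pe0_copyX E hE.ok hE.free₀ hE.std₀ hE.std₁ hm hM (((G₀.M / 2 : ℕ) : ℤ), ((G₀.M / 2 : ℕ) : ℤ)) (((G₁.M / 2 : ℕ) : ℤ), ((G₁.M / 2 : ℕ) : ℤ)) hE.cen H hH _ (Nat.mul_le_mul_right _ hc0) p.h0 col K₀ K₁ hc X hne hX
      (fun _ => prz_wallFree_map hE H X hX) (fun a ha b' hb' => ?_) ?_
    · exact pe0_nb_cen hE H a (fun b hb => by rw [Finset.mem_singleton.1 hb]; exact hX a ha) b' (hb'.trans (by omega))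
    · rw [← hp]
      exact pe0_loc0 hK₁ _

/-- `pe0_copyX` for the corner chart of a big torus, charts at the origin -/
theorem pe0_copyX_tor {E : GEmb g₀ g₁} (hE : TorEmb E) (hm : 2 ≤ g₀.m) (H : ℕ) (hH : 3 ≤ H) (c0 : ℕ) (hc0 : c0 ≤ H) (col R : ℕ) (p p' : Par) (hp : p'.h0 = p.h0)
    (K₀ : Act g₀) (K₁ : Act g₁) (hK₀ : Act.Ok p 0 R K₀) (hK₁ : Act.Ok p' 0 R K₁)
    (hc : F4b.CopyAt p.h0 (c0 * g₀.m) g₀ g₁ 0 0 K₀ K₁)
    (X : Finset g₀.I) (hX : WallFree g₀ H X) : CopyX E p.h0 col 0 K₀ K₁ X := by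
  rcases X.eq_empty_or_nonempty with rfl | hne
  · intro z₀ _ z₁ _ _
    rw [hK₀.poly _ (pe0_not_conn_empty g₀ R), Finset.map_empty, hK₁.poly _ (pe0_not_conn_empty g₁ R)]
    rfl
  · have hM : G₀.M ≤ G₁.M := by
      rw [hE.std₀.card, hE.std₁.card, hE.ok.side]
      exact Nat.mul_le_mul_right _ (by have := hE.le; omega)
    refine pe0_copyX E hE.ok hE.free₀ hE.std₀ hE.std₁ hm hM 0 0 (by rw [sub_zero]; exact hE.sh) H hH _ (Nat.mul_le_mul_right _ hc0) p.h0 col K₀ K₁ hc X hne hX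
      (fun h => by rw [hE.per₁] at h; cases h) (fun a ha b' hb' => ?_) ?_
    · exact pe0_nb_tor hE H a (fun b hb => by rw [Finset.mem_singleton.1 hb]; exact hX a ha) b' (hb'.trans (by omega))
    · rw [← hp]
      exact pe0_loc0 hK₁ _

end copies

/-- **EXIT (c)**: two centred squares -/
theorem pe0_invSq (D : F4b.EntryData) (p pT : Par) (o oT : ObsPar) (E : EntQ) (kq kR ks ℓ j0 : ℕ) (hE : EntAll D p pT o oT E kq kR ks)
    (G₀ G₁ : Geom) (hG₀ : EntGeo E kq kR ks ℓ j0 G₀) (hG₁ : EntGeo E kq kR ks ℓ j0 G₁)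
    (hs₀ : 2 ^ ks ∣ side G₀ ℓ j0) (hs₁ : 2 ^ ks ∣ side G₁ ℓ j0) (hh : pT.h0 = p.h0) (hm : 2 ≤ (2 ^ ℓ) ^ j0)
    (pm : Prm) (hH : 3 ≤ pm.zn.H0) (hc0 : E.c0E ≤ pm.zn.H0) (Em : GEmb (lev G₀ ℓ j0) (lev G₁ ℓ j0)) (hEm : CenEmb Em) :
    InvSq pm p.h0 Em (ent D xyCritical G₀ ℓ j0 (2 ^ ks) hs₀) (ent D xyCritical G₁ ℓ j0 (2 ^ ks) hs₁) := by
  have hA₀ := pe0_adm hG₀ hs₀
  have hA₁ := pe0_adm hG₁ hs₁
  have hB₀ := hE.bulk _ hA₀
  have hB₁ := hE.bulk _ hA₁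
  have hU₀ := hE.unit _ hA₀ hG₀.free hG₀.mkd
  have hU₁ := hE.unit _ hA₁ hG₁.free hG₁.mkd
  have hC := hE.copy _ _ hA₀ hA₁
  have hr : 0 < E.cR / ((2 : ℝ) ^ ks) ^ 2 := div_pos hE.cR_pos (by positivity)
  have hb : ((xyCritical : ℝ) : ℂ) ∈ Metric.ball ((xyCritical : ℝ) : ℂ) (E.cR / ((2 : ℝ) ^ ks) ^ 2) := Metric.mem_ball_self hr
  have hm' : 2 ≤ (lev G₀ ℓ j0).m := by
    show 2 ≤ side G₀ ℓ j0
    rw [pe0_side hG₀]; exact hm
  have hdv : ∀ (G : Geom), EntGeo E kq kR ks ℓ j0 G → ((side G₀ ℓ j0 : ℕ) : ℤ) ∣ ((G.M / 2 : ℕ) : ℤ) := by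
    intro G hG
    rw [pe0_side hG₀]
    obtain ⟨k, hk⟩ := hG.cen
    refine Int.natCast_dvd_natCast.2 ⟨k, ?_⟩
    rw [hk, mul_assoc, Nat.mul_div_cancel_left _ (by norm_num : 0 < 2)]
  refine ⟨fun X hX => ?_, fun X hX => ?_, fun X hX => ?_⟩
  · exact pe0_copyX_cen hEm hm' _ hH _ hc0 _ RR p p rfl _ _ (hB₀.ok _ hb) (hB₁.ok _ hb)
      (hC.bulk _ hb _ _ (hdv G₀ hG₀) (hdv G₀ hG₀) (hdv G₁ hG₁) (hdv G₁ hG₁)) X hX
  · have := pe0_copyX_cen hEm hm' _ hH _ hc0 pm.c.col RR pT pT rfl _ _ hU₀.okK hU₁.okK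
      (by rw [hh]; exact hC.unitK hG₀.free hG₁.free hG₀.mkd hG₁.mkd) X hX
    rw [hh] at this
    exact this
  · have := pe0_copyX_cen hEm hm' _ hH _ hc0 pm.c.col RR pT pT rfl _ _ hU₀.okJ hU₁.okJ
      (by rw [hh]; exact hC.unitJ hG₀.free hG₁.free hG₀.mkd hG₁.mkd) X hX
    rw [hh] at this
    exact this

/-- **EXIT (d)**: the square and the plane state on a big torus -/
theorem pe0_invTor (D : F4b.EntryData) (p pT : Par) (o oT : ObsPar) (E : EntQ) (kq kR ks j0 : ℕ) (hE : EntAll D p pT o oT E kq kR ks)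
    (sc : B8.Sc) (G₀ : Geom) (hG₀ : EntGeo E kq kR ks sc.ℓ j0 G₀) (hs₀ : 2 ^ ks ∣ side G₀ sc.ℓ j0) (hm : 2 ≤ (2 ^ sc.ℓ) ^ j0)
    (h : ℕ) (hj : j0 ≤ h) (hbig : 2 ^ ks * (2 ^ kR) ^ 5 ≤ (sc.T h).M)
    (pm : Prm) (hH : 3 ≤ pm.zn.H0) (hc0 : E.c0E ≤ pm.zn.H0) (Em : GEmb (lev G₀ sc.ℓ j0) (sc.lev h j0)) (hEm : TorEmb Em)
    (Rt : Act (sc.lev h j0)) (hRt : EqOn p.h0 Rt (Asm.entAct sc D (2 ^ ks) h j0 xyCritical)) :
    InvTor pm p.h0 Em 0 0 (ent D xyCritical G₀ sc.ℓ j0 (2 ^ ks) hs₀) Rt := by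
  have hL : sc.L ^ (min j0 h) = (2 ^ sc.ℓ) ^ j0 := by rw [min_eq_left hj]; rfl
  have hsd : 2 ^ ks ∣ sc.L ^ (min j0 h) := by
    rw [hL, ← hG₀.side]
    exact Dvd.intro_left _ rfl
  have hA₀ := pe0_adm hG₀ hs₀
  have hA₁ : (Asm.vol sc (2 ^ ks) h j0 hsd).Adm (2 ^ kq) (2 ^ kR) (2 ^ ks) :=
    ⟨rfl, by show sc.L ^ (min j0 h) = _; rw [hL, hG₀.side], hbig, fun hf => by rw [show (Asm.vol sc (2 ^ ks) h j0 hsd).G.bc = BC.per from rfl] at hf; cases hf⟩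
  have hB₀ := hE.bulk _ hA₀
  have hB₁ := hE.bulk _ hA₁
  have hC := hE.copy _ _ hA₀ hA₁
  have hr : 0 < E.cR / ((2 : ℝ) ^ ks) ^ 2 := div_pos hE.cR_pos (by positivity)
  have hb : ((xyCritical : ℝ) : ℂ) ∈ Metric.ball ((xyCritical : ℝ) : ℂ) (E.cR / ((2 : ℝ) ^ ks) ^ 2) := Metric.mem_ball_self hr
  have hm' : 2 ≤ (lev G₀ sc.ℓ j0).m := by
    show 2 ≤ side G₀ sc.ℓ j0
    rw [pe0_side hG₀]; exact hm
  have hent : Asm.entAct sc D (2 ^ ks) h j0 xyCritical = D.K0 (Asm.vol sc (2 ^ ks) h j0 hsd) xyCritical :=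
    dif_pos hsd
  intro X hX z₀ hz₀ z₁ hz₁ hag
  rw [pe0_singleWF_zero, sub_zero, hRt _ z₁ hz₁, hent]
  exact pe0_copyX_tor hEm hm' _ hH _ hc0 pm.c.col RR p p rfl _ _ (hB₀.ok _ hb) (hB₁.ok _ hb)
    (hC.bulk _ hb 0 0 (dvd_zero _) (dvd_zero _) (dvd_zero _) (dvd_zero _)) X hX z₀ hz₀ z₁ hz₁ hag

end

end Claimed.Agent.R285.F6.Pr
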