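import Claimed.Agent.R285.Obs.PairCtx
import Claimed.Agent.R285.Map.WCopyM

/-!
# ROW 285, unit OBS, BP-OBS-L62, block COPY of `Obs.pair_stop`: the structural invariants are preserved by the paired step      (architect helper79)   -- KEEP

NO ESTIMATE in this file.  Everything is locality of explicit formulas + `pr_copy_step` (`Obs/PairCopy.lean`).
s1  elementary copies along a `GEmb` (`eBC`, `cBC`, `conv`, `chargeProj`, `DX`, `Loc`, `B8.Step.piece`)                       leaves L-PAIR-C1 .. C5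
s2  designations by pieces: `Small`, copy, `B8.Step.desig` IS `ofPieces`                                                        leaves L-PAIR-C6 .. C8
s3  zones and gauges under centred embeddings                                                                                  leaves L-PAIR-C9, C10
s4  the pieces of the three sectors                                                                                            leaves L-PAIR-C11 .. C15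
s5  the steps: gauge, label, square - square, square - torus                                                                   leaves L-PAIR-C16 .. C21
-/

set_option autoImplicit false

namespace Claimed.Agent.R285.F6.Pr

open scoped BigOperators ENNReal NNReal
open MeasureTheory
open Claimed.Agent.R285 Claimed.Agent.R285.RG Claimed.Agent.R285.B4 Claimed.Agent.R285.F4a

noncomputable section

/-! ## 1. Elementary copies -/

section elem

variable {G₀ G₁ : Geom} {g₀ : Grid G₀} {g₁ : Grid G₁}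

/-- the embedding of the sites is the translation by `a` in the canonical coordinates (`Centred s` is `Shift s (M₁/2 - M₀/2, M₁/2 - M₀/2)` by `Iff.rfl`; `prg_emb_tor`: `a = 0`) -/
def Shift (s : G₀.V ↪ G₁.V) (a : ℤ × ℤ) : Prop := ∀ v, G₁.ι (s v) = G₀.ι v + a

/-- the unit stencils of the sites of `B` stay in the box -/
def Inner (g : Grid G₀) (B : g.I) : Prop := ∀ v ∈ g.sites {B}, ∀ e : Fin 4, InBox G₀ (G₀.ι v + dir e)

theorem CopyFn.add {E : GEmb g₀ g₁} {h0 : ℝ≥0} {col : ℕ} {μ : G₀.V → ℝ} {X : Finset g₀.I} {F₀ F₀' : Fn G₀} {F₁ F₁' : Fn G₁}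
    (h : CopyFn E h0 col μ X F₀ F₁) (h' : CopyFn E h0 col μ X F₀' F₁') : CopyFn E h0 col μ X (F₀ + F₀') (F₁ + F₁') :=
  fun z₀ hz₀ z₁ hz₁ ha => by rw [Pi.add_apply, Pi.add_apply, h z₀ hz₀ z₁ hz₁ ha, h' z₀ hz₀ z₁ hz₁ ha]

theorem CopyFn.sub {E : GEmb g₀ g₁} {h0 : ℝ≥0} {col : ℕ} {μ : G₀.V → ℝ} {X : Finset g₀.I} {F₀ F₀' : Fn G₀} {F₁ F₁' : Fn G₁}
    (h : CopyFn E h0 col μ X F₀ F₁) (h' : CopyFn E h0 col μ X F₀' F₁') : CopyFn E h0 col μ X (F₀ - F₀') (F₁ - F₁') :=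
  fun z₀ hz₀ z₁ hz₁ ha => by rw [Pi.sub_apply, Pi.sub_apply, h z₀ hz₀ z₁ hz₁ ha, h' z₀ hz₀ z₁ hz₁ ha]

theorem CopyFn.smul {E : GEmb g₀ g₁} {h0 : ℝ≥0} {col : ℕ} {μ : G₀.V → ℝ} {X : Finset g₀.I} {F₀ : Fn G₀} {F₁ : Fn G₁}
    (h : CopyFn E h0 col μ X F₀ F₁) (a : ℂ) : CopyFn E h0 col μ X (a • F₀) (a • F₁) :=
  fun z₀ hz₀ z₁ hz₁ ha => by rw [Pi.smul_apply, Pi.smul_apply, h z₀ hz₀ z₁ hz₁ ha]

theorem CopyFn.zero (E : GEmb g₀ g₁) (h0 : ℝ≥0) (col : ℕ) (μ : G₀.V → ℝ) (X : Finset g₀.I) : CopyFn E h0 col μ X 0 0 :=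
  fun _ _ _ _ _ => rfl

theorem CopyFn.sum {E : GEmb g₀ g₁} {h0 : ℝ≥0} {col : ℕ} {μ : G₀.V → ℝ} {X : Finset g₀.I} {ι : Type} (s : Finset ι) {F₀ : ι → Fn G₀} {F₁ : ι → Fn G₁}
    (h : ∀ i ∈ s, CopyFn E h0 col μ X (F₀ i) (F₁ i)) : CopyFn E h0 col μ X (∑ i ∈ s, F₀ i) (∑ i ∈ s, F₁ i) :=
  fun z₀ hz₀ z₁ hz₁ ha => by
    rw [Finset.sum_apply, Finset.sum_apply]
    exact Finset.sum_congr rfl fun i hi => h i hi z₀ hz₀ z₁ hz₁ ha

/-- a copy on a smaller support is a copy on a larger support -/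
theorem CopyFn.mono {E : GEmb g₀ g₁} {h0 : ℝ≥0} {col : ℕ} {μ : G₀.V → ℝ} {X Y : Finset g₀.I} (hXY : X ⊆ Y) {F₀ : Fn G₀} {F₁ : Fn G₁}
    (h : CopyFn E h0 col μ X F₀ F₁) : CopyFn E h0 col μ Y F₀ F₁ :=
  fun z₀ hz₀ z₁ hz₁ ha => h z₀ (prc_strip_mono hXY hz₀) z₁ (prc_strip_mono (Finset.map_subset_map.2 hXY) hz₁)
    fun v hv => ha v (prc_dep_mono _ col hXY hv)

theorem prc_c1_sites (E : GEmb g₀ g₁) (hE : E.Ok) (B : g₀.I) : g₁.sites {E.e B} = (g₀.sites {B}).map E.s := by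
  ext v'
  simp only [Reg.reg_mem_sites, Finset.mem_singleton, Finset.mem_map]
  constructor
  · intro h
    obtain ⟨v, rfl⟩ := hE.full v' B h
    rw [hE.blk] at h
    exact ⟨v, E.e.injective h, rfl⟩
  · rintro ⟨v, hv, rfl⟩
    rw [hE.blk, hv]

theorem prc_c1_sum {α : Type} [AddCommMonoid α] (E : GEmb g₀ g₁) (hE : E.Ok) (B : g₀.I) (F : G₁.V → α) :
    ∑ v' ∈ g₁.sites {E.e B}, F v' = ∑ v ∈ g₀.sites {B}, F (E.s v) := by
  rw [prc_c1_sites E hE B, Finset.sum_map]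

theorem prc_c1_dep_self (col : ℕ) (B : g₀.I) {v : G₀.V} (hv : v ∈ g₀.sites {B}) : v ∈ dep g₀ col {B} :=
  ⟨v, hv, by rw [Reg.reg_dist_self]; exact Nat.zero_le _⟩

theorem prc_c1_dep_nb (col : ℕ) (hcol : 1 ≤ col) (B : g₀.I) {v : G₀.V} (hv : v ∈ g₀.sites {B}) (e : Fin 4) :
    G₀.π (G₀.ι v + dir e) ∈ dep g₀ col {B} := by
  refine ⟨v, hv, (Reg.regl_dist_le G₀ v (G₀.ι v + dir e)).trans (le_trans ?_ hcol)⟩
  fin_cases e <;> simp [dir]

/-- the differences at the sites of an inner block are copied -/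
theorem prc_c1_dif (E : GEmb g₀ g₁) (hE : E.Ok) (col : ℕ) (hcol : 1 ≤ col) (B : g₀.I) (hin : Inner g₀ B) {z₀ : G₀.V → ℂ} {z₁ : G₁.V → ℂ}
    (ha : Agree E col 0 {B} z₀ z₁) {v : G₀.V} (hv : v ∈ g₀.sites {B}) (e : Fin 4) :
    dif (dir e) (G₁.lift z₁) (G₁.ι (E.s v)) = dif (dir e) (G₀.lift z₀) (G₀.ι v) := by
  rw [Reg.reg_dif_lift, Reg.reg_dif_lift]
  unfold Reg.regNb
  rw [hE.lat v (dir e) (hin v hv e), ha _ (prc_c1_dep_nb col hcol B hv e), ha _ (prc_c1_dep_self col B hv)]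
  simp

/-- **LEAF L-PAIR-C1a.**  `sites {E.e B} = (sites {B}).map E.s` (`blk`, `full`); `G₁.lift z₁ (ι (E.s v) + e) = z₁ (E.s (π (ι v + e)))` (`lat`); `π (ι v + e) ∈ dep g₀ col {B}` (`G.dist v (π (ι v + e)) ≤ 1 ≤ col`). -/
theorem prc_eBC_copy (E : GEmb g₀ g₁) (hE : E.Ok) (h0 : ℝ≥0) (col : ℕ) (hcol : 1 ≤ col) (B : g₀.I) (hin : Inner g₀ B) :
    CopyFn E h0 col 0 {B} (eBC g₀ B) (eBC g₁ (E.e B)) := by
  intro z₀ _ z₁ _ ha
  unfold eBC
  rw [prc_c1_sum E hE B]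
  congr 1
  refine Finset.sum_congr rfl fun v hv => Finset.sum_congr rfl fun e _ => ?_
  rw [prc_c1_dif E hE col hcol B hin ha hv e]

/-- **LEAF L-PAIR-C1b.** -/
theorem prc_cBC_copy (E : GEmb g₀ g₁) (hE : E.Ok) (h0 : ℝ≥0) (col : ℕ) (α : ℝ) (B : g₀.I) :
    CopyFn E h0 col 0 {B} (cBC g₀ α B) (cBC g₁ α (E.e B)) := by
  intro z₀ _ z₁ _ ha
  unfold cBC
  rw [prc_c1_sum E hE B, hE.side]
  congr 1
  refine Finset.sum_congr rfl fun v hv => ?_
  rw [ha _ (prc_c1_dep_self col B hv)]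
  simp

/-- a Gaussian convolution of a copy is a copy -/
theorem prc_conv_copy (E : GEmb g₀ g₁) (h0 : ℝ≥0) (col : ℕ) (μ : G₀.V → ℝ) (X : Finset g₀.I)
    (Γ₀ : Matrix G₀.V G₀.V ℝ) (Γ₁ : Matrix G₁.V G₁.V ℝ) (hΓ₀ : Γ₀.PosSemidef) (hΓ₁ : Γ₁.PosSemidef)
    (hcov : ∀ v ∈ dep g₀ col X, ∀ w ∈ dep g₀ col X, Γ₀ v w = Γ₁ (E.s v) (E.s w)) {F₀ : Fn G₀} {F₁ : Fn G₁}
    (h : CopyFn E h0 col μ X F₀ F₁) : CopyFn E h0 col μ X (conv Γ₀ F₀) (conv Γ₁ F₁) := by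
  classical
  intro z₀ hz₀ z₁ hz₁ hag
  refine pr_conv_transport Γ₀ Γ₁ hΓ₀ hΓ₁ (κ := {v // v ∈ dep g₀ col X}) (fun x => x.1) (fun x => E.s x.1)
    Subtype.val_injective (fun x y h => Subtype.ext (E.s.injective h)) (fun x y => hcov x.1 x.2 y.1 y.2) _ _ z₀ z₁ ?_
  intro ζ₀ ζ₁ hζ
  refine h _ (Hol.strip_add_toC hz₀ ζ₀) _ (Hol.strip_add_toC hz₁ ζ₁) ?_
  intro v hv
  have h1 : z₁ (E.s v) = z₀ v + (μ v : ℂ) := hag v hv
  have h2 : ζ₀ v = ζ₁ (E.s v) := hζ ⟨v, hv⟩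
  show z₁ (E.s v) + toC ζ₁ (E.s v) = z₀ v + toC ζ₀ v + (μ v : ℂ)
  simp only [toC]
  rw [h1, h2]
  ring

/-- a charge projection of a copy is a copy -/
theorem prc_charge_copy (E : GEmb g₀ g₁) (h0 : ℝ≥0) (col : ℕ) (μ : G₀.V → ℝ) (X : Finset g₀.I) (ω : ℝ) (q : ℤ) {F₀ : Fn G₀} {F₁ : Fn G₁}
    (h : CopyFn E h0 col μ X F₀ F₁) : CopyFn E h0 col μ X (chargeProj ω q F₀) (chargeProj ω q F₁) := by
  intro z₀ hz₀ z₁ hz₁ hag
  unfold chargeProj
  congr 1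
  refine intervalIntegral.integral_congr fun t _ => ?_
  show _ * F₀ _ = _ * F₁ _
  congr 1
  refine h _ (Hol.strip_add_real hz₀ t) _ (Hol.strip_add_real hz₁ t) ?_
  intro v hv
  have h1 : z₁ (E.s v) = z₀ v + (μ v : ℂ) := hag v hv
  show z₁ (E.s v) + (t : ℂ) = z₀ v + (t : ℂ) + (μ v : ℂ)
  rw [h1]
  ring

theorem prc_c2_div (m D x y : ℕ) (hm : 0 < m) (h : ((x / m : ℕ) : ℤ) - ((y / m : ℕ) : ℤ) ≤ D) : (x : ℤ) - y ≤ (D + 1) * m := by
  have hx : ((m * (x / m) + x % m : ℕ) : ℤ) = x := by rw [Nat.div_add_mod]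
  have hy : ((m * (y / m) + y % m : ℕ) : ℤ) = y := by rw [Nat.div_add_mod]
  have hxm : ((x % m : ℕ) : ℤ) < m := by exact_mod_cast Nat.mod_lt x hm
  have hym : (0 : ℤ) ≤ ((y % m : ℕ) : ℤ) := by positivity
  have key : (m : ℤ) * (((x / m : ℕ) : ℤ) - ((y / m : ℕ) : ℤ)) ≤ m * D := mul_le_mul_of_nonneg_left h (by positivity)
  simp only [Nat.cast_add, Nat.cast_mul] at hx hy
  rw [mul_sub] at key
  linarith

theorem prc_c2_disp_free {G : Geom} (h : G.bc = BC.free) (x y : Fin G.M) : disp1 G x y = ((y : ℕ) : ℤ) - (x : ℕ) := by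
  unfold disp1
  rw [h]

theorem prc_c2_disp_small {G : Geom} (x y : Fin G.M) (h1 : 2 * (((y : ℕ) : ℤ) - (x : ℕ)) < G.M) (h2 : 2 * (((x : ℕ) : ℤ) - (y : ℕ)) < G.M) :
    disp1 G x y = ((y : ℕ) : ℤ) - (x : ℕ) := by
  rcases hbc : G.bc with _ | _
  · unfold disp1
    rw [hbc]
    exact Int.bmod_eq_of_le_mul_two (by omega) (by omega)
  · exact prc_c2_disp_free hbc x y

theorem prc_c2_idist1_free {G : Geom} (h : G.bc = BC.free) (g : Grid G) (x y : Fin g.n) : g.idist1 x y = (((x : ℕ) : ℤ) - (y : ℕ)).natAbs := by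
  unfold Grid.idist1
  rw [h]

theorem prc_c2_d1_free {G : Geom} (h : G.bc = BC.free) (x y : Fin G.M) : Reg.regD1 G x y = (((x : ℕ) : ℤ) - (y : ℕ)).natAbs := by
  unfold Reg.regD1
  rw [h]

/-- one axis: two sites whose blocks are at index distance `≤ D` -/
theorem prc_c2_axis {G : Geom} (g : Grid G) (hg : Std g) (D : ℕ) (x y : Fin G.M)
    (h : ((((g.blk1 x : Fin g.n) : ℕ) : ℤ) - ((g.blk1 y : Fin g.n) : ℕ)).natAbs ≤ D) :
    ((x : ℕ) : ℤ) - (y : ℕ) ≤ (D + 1) * g.m ∧ ((y : ℕ) : ℤ) - (x : ℕ) ≤ (D + 1) * g.m := by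
  rw [hg.blk, hg.blk] at h
  exact ⟨prc_c2_div g.m D x y hg.pos (by omega), prc_c2_div g.m D y x hg.pos (by omega)⟩

/-- **LEAF L-PAIR-C2** (geometry of `ell`).  `ell g₁ v1 i (E.s v) - ell g₀ v0 i v` does not depend on `v` in the dependence set of a support of small diameter.
`G₀` free: `disp1` is the plain difference.  `G₁` free: the same, the constant is `(a_i + v0_i - v1_i) / m`.  `G₁` periodic: `Int.bmod x M = x` for `2 |x| < M`; `v1` and `E.s v` are within `(idiam X + 1) m + col` of each other. -/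
theorem prc_ell_copy (E : GEmb g₀ g₁) (hE : E.Ok) (a : ℤ × ℤ) (hs : Shift E.s a) (h₀ : G₀.bc = BC.free) (hg₀ : Std g₀) (col : ℕ) (X : Finset g₀.I)
    (hd : 2 * ((g₀.idiam X + 1) * g₀.m + col) < G₁.M) (v0 : G₀.V) (v1 : G₁.V) (hv1 : v1 ∈ g₁.sites (X.map E.e)) (i : Fin 2) :
    ∃ c : ℝ, ∀ v ∈ dep g₀ col X, ell g₁ v1 i (E.s v) = ell g₀ v0 i v + c := by
  obtain ⟨B₁, hB₁, hb⟩ : ∃ B₁ ∈ X, g₁.blk v1 = E.e B₁ := by
    obtain ⟨B, hB, h⟩ := Finset.mem_map.1 ((Reg.reg_mem_sites g₁ _ v1).1 hv1)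
    exact ⟨B, hB, h.symm⟩
  obtain ⟨u1, rfl⟩ := hE.full v1 B₁ hb
  have hu1 : g₀.blk u1 = B₁ := E.e.injective (by rw [← hE.blk]; exact hb)
  have hc1 : ∀ v : G₀.V, (((E.s v).1 : ℕ) : ℤ) = ((v.1 : ℕ) : ℤ) + a.1 := fun v => congrArg Prod.fst (hs v)
  have hc2 : ∀ v : G₀.V, (((E.s v).2 : ℕ) : ℤ) = ((v.2 : ℕ) : ℤ) + a.2 := fun v => congrArg Prod.snd (hs v)
  obtain ⟨Q, hQ⟩ : ∃ Q : ℕ, Q = (g₀.idiam X + 1) * g₀.m := ⟨_, rfl⟩
  rw [← hQ] at hd
  have hQ' : (Q : ℤ) = ((g₀.idiam X : ℕ) + 1) * g₀.m := by rw [hQ]; push_cast; ring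
  -- the two coordinates of a site of the dependence set are close to those of `u1`
  have hbd : ∀ v ∈ dep g₀ col X,
      (((v.1 : ℕ) : ℤ) - (u1.1 : ℕ) ≤ Q + col ∧ ((u1.1 : ℕ) : ℤ) - (v.1 : ℕ) ≤ Q + col) ∧
      (((v.2 : ℕ) : ℤ) - (u1.2 : ℕ) ≤ Q + col ∧ ((u1.2 : ℕ) : ℤ) - (v.2 : ℕ) ≤ Q + col) := by
    rintro v ⟨w, hw, hwv⟩
    have hwX : g₀.blk w ∈ X := (Reg.reg_mem_sites g₀ _ w).1 hw
    have hid : g₀.idist (g₀.blk w) (g₀.blk u1) ≤ g₀.idiam X := Alg.idist_le_idiam hwX (hu1 ▸ hB₁)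
    have hi1 : g₀.idist1 (g₀.blk1 w.1) (g₀.blk1 u1.1) ≤ g₀.idiam X := (le_max_left _ _).trans hid
    have hi2 : g₀.idist1 (g₀.blk1 w.2) (g₀.blk1 u1.2) ≤ g₀.idiam X := (le_max_right _ _).trans hid
    rw [prc_c2_idist1_free h₀] at hi1 hi2
    have a1 := prc_c2_axis g₀ hg₀ _ w.1 u1.1 hi1
    have a2 := prc_c2_axis g₀ hg₀ _ w.2 u1.2 hi2
    have d1 := (Reg.reg_d1_le_dist_fst G₀ w v).trans hwv
    have d2 := (Reg.reg_d1_le_dist_snd G₀ w v).trans hwv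
    rw [prc_c2_d1_free h₀] at d1 d2
    rw [← hQ'] at a1 a2
    omega
  refine ⟨((if i = 0 then ((v0.1 : ℕ) : ℤ) - (u1.1 : ℕ) else ((v0.2 : ℕ) : ℤ) - (u1.2 : ℕ) : ℤ) : ℝ) / g₀.m, fun v hv => ?_⟩
  obtain ⟨⟨b1, b2⟩, b3, b4⟩ := hbd v hv
  have e1 : disp1 G₁ (E.s u1).1 (E.s v).1 = ((v.1 : ℕ) : ℤ) - (u1.1 : ℕ) := by
    rw [prc_c2_disp_small _ _ (by rw [hc1, hc1]; omega) (by rw [hc1, hc1]; omega), hc1, hc1]
    ring
  have e2 : disp1 G₁ (E.s u1).2 (E.s v).2 = ((v.2 : ℕ) : ℤ) - (u1.2 : ℕ) := by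
    rw [prc_c2_disp_small _ _ (by rw [hc2, hc2]; omega) (by rw [hc2, hc2]; omega), hc2, hc2]
    ring
  unfold ell
  rw [hE.side, e1, e2, prc_c2_disp_free h₀, prc_c2_disp_free h₀, ← add_div]
  congr 1
  split_ifs <;> push_cast <;> ring

theorem prc_zero_mem_strip {G : Geom} {h0 : ℝ≥0} (hh : 0 < h0) (g : Grid G) (X : Finset g.I) : (0 : G.V → ℂ) ∈ strip h0 g X := by
  show tnorm g X (fun v => ((0 : G.V → ℂ) v).im) < h0
  have : (fun v => ((0 : G.V → ℂ) v).im) = (0 : G.V → ℝ) := by ext v; simp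
  rw [this, Hol.tnorm_zero]; exact hh

/-- **LEAF L-PAIR-C3** (second derivatives of copies; tools: `B8.wcm_d2_line`, `B8.wcm_d2_copy` in `Map/WCopyM.lean`).
`DX g v0 H i j = ∂_s ∂_t H (s ℓ_i + t ℓ_j) |_0`; for small complex `s, t` the fields `z₀ = s ℓ⁰_i + t ℓ⁰_j`, `z₁ = s (ℓ¹_i - c_i) + t (ℓ¹_j - c_j)` lie in the strips (open, contain `0`) and agree on the dependence set;
`H₁` is blind to complex constants, so `H₁ (z₁) = H₁ (s ℓ¹_i + t ℓ¹_j)`. -/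
theorem prc_DX_copy (E : GEmb g₀ g₁) (p : Par) (hh : 0 < p.h0) (col : ℕ) (X : Finset g₀.I) (H₀ : Fn G₀) (H₁ : Fn G₁)
    (hH₀ : LocalFn p col g₀ X H₀) (hH₁ : LocalFn p col g₁ (X.map E.e) H₁) (hc : CopyFn E p.h0 col 0 X H₀ H₁)
    (hn : ∀ z ∈ strip p.h0 g₁ (X.map E.e), ∀ a : ℂ, (fun v => z v + a) ∈ strip p.h0 g₁ (X.map E.e) → H₁ (fun v => z v + a) = H₁ z)
    (v0 : G₀.V) (v1 : G₁.V) (hell : ∀ i : Fin 2, ∃ c : ℝ, ∀ v ∈ dep g₀ col X, ell g₁ v1 i (E.s v) = ell g₀ v0 i v + c) (i j : Fin 2) :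
    DX g₀ v0 H₀ i j = DX g₁ v1 H₁ i j := by
  obtain ⟨ci, hci⟩ := hell i
  obtain ⟨cj, hcj⟩ := hell j
  unfold DX
  have hz₀ : (0 : G₀.V → ℂ) ∈ strip p.h0 g₀ X := prc_zero_mem_strip hh g₀ X
  have hz₁ : (0 : G₁.V → ℂ) ∈ strip p.h0 g₁ (X.map E.e) := prc_zero_mem_strip hh g₁ _
  refine B8.wcm_d2_copy (B4.strip_isOpen _ _ _) (B4.strip_isOpen _ _ _) hz₀ hz₁ hH₀.hol hH₁.hol _ _ _ _ ?_
  have c₀ : Continuous fun q : ℂ × ℂ => q.1 • toC (ell g₀ v0 i) + q.2 • toC (ell g₀ v0 j) := by fun_prop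
  have c₁ : Continuous fun q : ℂ × ℂ => q.1 • toC (ell g₁ v1 i) + q.2 • toC (ell g₁ v1 j) := by fun_prop
  have c₂ : Continuous fun q : ℂ × ℂ => fun v : G₁.V => (q.1 • toC (ell g₁ v1 i) + q.2 • toC (ell g₁ v1 j)) v + (-(q.1 * ci + q.2 * cj)) := by
    fun_prop
  have e₀ : ∀ᶠ q : ℂ × ℂ in nhds 0, q.1 • toC (ell g₀ v0 i) + q.2 • toC (ell g₀ v0 j) ∈ strip p.h0 g₀ X :=
    c₀.continuousAt.eventually_mem ((B4.strip_isOpen _ _ _).mem_nhds (by simpa using hz₀))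
  have e₁ : ∀ᶠ q : ℂ × ℂ in nhds 0, q.1 • toC (ell g₁ v1 i) + q.2 • toC (ell g₁ v1 j) ∈ strip p.h0 g₁ (X.map E.e) :=
    c₁.continuousAt.eventually_mem ((B4.strip_isOpen _ _ _).mem_nhds (by simpa using hz₁))
  have e₂ : ∀ᶠ q : ℂ × ℂ in nhds 0, (fun v : G₁.V => (q.1 • toC (ell g₁ v1 i) + q.2 • toC (ell g₁ v1 j)) v + (-(q.1 * ci + q.2 * cj)))
      ∈ strip p.h0 g₁ (X.map E.e) :=
    c₂.continuousAt.eventually_mem ((B4.strip_isOpen _ _ _).mem_nhds (by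
      have : (fun v : G₁.V => (((0 : ℂ × ℂ)).1 • toC (ell g₁ v1 i) + ((0 : ℂ × ℂ)).2 • toC (ell g₁ v1 j)) v
          + (-(((0 : ℂ × ℂ)).1 * ci + ((0 : ℂ × ℂ)).2 * cj))) = (0 : G₁.V → ℂ) := by
        funext v
        simp
      rw [this]
      exact hz₁))
  filter_upwards [e₀, e₁, e₂] with q h₀ h₁ h₂
  have hA := hc _ h₀ _ h₂ (fun v hv => by
    show (q.1 • toC (ell g₁ v1 i) + q.2 • toC (ell g₁ v1 j)) (E.s v) + (-(q.1 * ci + q.2 * cj))
      = (q.1 • toC (ell g₀ v0 i) + q.2 • toC (ell g₀ v0 j)) v + (((0 : G₀.V → ℝ) v : ℝ) : ℂ)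
    simp only [Pi.add_apply, Pi.smul_apply, toC, smul_eq_mul, Pi.zero_apply, Complex.ofReal_zero, add_zero]
    rw [hci v hv, hcj v hv]
    push_cast
    ring)
  rw [hA]
  have hB := hn _ h₂ (q.1 * ci + q.2 * cj) (by
    have : (fun v : G₁.V => ((q.1 • toC (ell g₁ v1 i) + q.2 • toC (ell g₁ v1 j)) v + (-(q.1 * ci + q.2 * cj))) + (q.1 * ci + q.2 * cj))
        = q.1 • toC (ell g₁ v1 i) + q.2 • toC (ell g₁ v1 j) := by
      funext v
      ring
    rw [this]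
    exact h₁)
  rw [← hB]
  congr 1
  funext v
  ring

/-- **LEAF L-PAIR-C4.**  `Loc` is an explicit polynomial in the differences of `z` at the sites of `B`: same reindexing as in C1a (`pvec` uses `dif (dir _) (lift z) (ι v)`); `(X.map E.e).card = X.card`, `g₁.m = g₀.m`. -/
theorem prc_Loc_copy (E : GEmb g₀ g₁) (hE : E.Ok) (h0 : ℝ≥0) (col : ℕ) (hcol : 1 ≤ col) (X : Finset g₀.I) (B : g₀.I) (hin : Inner g₀ B)
    (v0 : G₀.V) (v1 : G₁.V) (H₀ : Fn G₀) (H₁ : Fn G₁) (h0' : H₀ 0 = H₁ 0) (hD : ∀ i j, DX g₀ v0 H₀ i j = DX g₁ v1 H₁ i j) :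
    CopyFn E h0 col 0 {B} (Loc g₀ X v0 H₀ B) (Loc g₁ (X.map E.e) v1 H₁ (E.e B)) := by
  intro z₀ _ z₁ _ ha
  have hp : ∀ v ∈ g₀.sites {B}, ∀ (ε : Fin 2 → Bool) (i : Fin 2), pvec g₁ z₁ (E.s v) ε i = pvec g₀ z₀ v ε i := by
    intro v hv ε i
    unfold pvec
    rw [prc_c1_dif E hE col hcol B hin ha hv, hE.side]
  unfold Loc
  rw [prc_c1_sum E hE B, Finset.card_map, hE.side, h0']
  congr 3
  refine Finset.sum_congr rfl fun v hv => ?_
  congr 1
  refine Finset.sum_congr rfl fun ε _ => Finset.sum_congr rfl fun i _ => Finset.sum_congr rfl fun j _ => ?_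
  rw [hp v hv, hp v hv, hD]

end elem

/-! ## 2. Designations by pieces -/

/-- singletons are connected -/
theorem prc_conn_single {G : Geom} (g : Grid G) (R : ℕ) (B : g.I) : g.Conn R {B} := by
  refine ⟨Finset.singleton_nonempty B, fun a ha b hb => ?_⟩
  rw [Finset.mem_singleton] at ha hb
  rw [ha, hb]

/-- the singleton terms of a double sum over polymers and their blocks -/
theorem prc_sum_single {I J M : Type} [Fintype I] [DecidableEq I] [DecidableEq J] [AddCommMonoid M] (up : I → J) (b : J) (T : Finset (Finset I)) (f : I → M) :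
    ∑ X ∈ T, ∑ B ∈ X.filter (fun B => up B = b), (if X = {B} then f B else 0)
      = ∑ B ∈ Finset.univ.filter (fun B => up B = b), if ({B} : Finset I) ∈ T then f B else 0 := by
  have h1 : ∀ X ∈ T, ∑ B ∈ X.filter (fun B => up B = b), (if X = {B} then f B else 0)
      = ∑ B ∈ Finset.univ.filter (fun B => up B = b), (if X = {B} then f B else 0) := by
    intro X _
    refine Finset.sum_subset (fun B hB => ?_) (fun B hB hB' => ?_)
    · exact Finset.mem_filter.2 ⟨Finset.mem_univ _, (Finset.mem_filter.1 hB).2⟩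
    · rw [if_neg]
      intro h
      apply hB'
      rw [Finset.mem_filter]
      exact ⟨by rw [h]; exact Finset.mem_singleton_self _, (Finset.mem_filter.1 hB).2⟩
  rw [Finset.sum_congr rfl h1, Finset.sum_comm]
  refine Finset.sum_congr rfl fun B _ => ?_
  rw [Finset.sum_ite_eq']

section pieces

variable {G : Geom} {D0 ℓ : ℕ} (S : B8.Step G D0 ℓ) (c : B8.Geo)

/-- closure geometry of the small polymers (`F4a.StepHyp.geo`, `B8.StepOK.diam`) -/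
def SmallGeo : Prop := ∀ X ∈ S.small c, S.P.g'.Conn c.r (S.P.N.cl X) ∧ S.P.g'.idiam (S.P.N.cl X) ≤ 1

/-- **LEAF L-PAIR-C6.**  If `¬ (Conn r Y ∧ idiam Y ≤ 1 ∧ b ∈ Y)` then for every small `X` with `cl X = Y` there is no `B ∈ X` over `b`: all inner sums are empty. -/
theorem pr_ofPieces_small (hg : SmallGeo S c) (pc : Finset S.P.g.I → S.P.g.I → Fn G) (cn : Finset S.P.g.I → S.P.g.I → ℂ) :
    (ofPieces S c pc cn).Small c.r S.P.g' := by
  classical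
  intro Y b h
  show ∑ X ∈ (S.small c).filter (fun X => S.P.N.cl X = Y), ∑ B ∈ X.filter (fun B => S.P.N.up B = b), pc X B = 0
  refine Finset.sum_eq_zero fun X hX => ?_
  obtain ⟨hXs, hXY⟩ := Finset.mem_filter.1 hX
  have hemp : X.filter (fun B => S.P.N.up B = b) = ∅ := by
    refine Finset.filter_eq_empty_iff.2 fun B hB hb => h ?_
    obtain ⟨h1, h2⟩ := hg X hXs
    rw [hXY] at h1 h2
    refine ⟨h1, h2, ?_⟩
    rw [← hXY, ← hb]
    exact Finset.mem_image_of_mem _ hB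
  rw [hemp, Finset.sum_empty]

/-- the affine family of two small designations is small -/
theorem pr_dLin_small {g' : Grid G} {r : ℕ} {d dd : Desig g' (Fn G)} (hd : d.Small r g') (hdd : dd.Small r g') (s : ℂ) : (dLin d dd s).Small r g' := by
  intro Y b h
  show d.F Y b + s • dd.F Y b = 0
  rw [hd Y b h, hdd Y b h, smul_zero, add_zero]

variable (ω : ℝ) (t z : ℂ)

open Classical in
/-- the plane rule: `B8.Step.piece` of the remainder + the whole expectation of the singletons -/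
def pcPl (Rm : Act S.P.g) (X : Finset S.P.g.I) (B : S.P.g.I) : Fn G :=
  S.piece ω true Rm X B + if X = {B} then conv S.Γ ((t / 2) • eBC S.P.g B + z • cBC S.P.g (B8.Step.alpha ω) B) else 0

open Classical in
/-- the constant of the plane rule -/
def cnPl (Rm : Act S.P.g) (X : Finset S.P.g.I) (B : S.P.g.I) : ℂ :=
  (1 / (X.card : ℂ)) * S.Hq ω 0 Rm X 0 + if X = {B} then (t / 2) * conv S.Γ (eBC S.P.g B) 0 else 0

theorem pc0_wf (zn : Zn) (K0 : Act S.P.g) {X : Finset S.P.g.I} (B : S.P.g.I) (h : WallFree S.P.g zn.H0 X) :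
    pc0 S ω zn t z K0 X B = pcPl S ω t z (R0 S ω zn t z K0) X B := by
  unfold pc0 pcPl
  rw [if_pos h]

theorem cn0_wf (zn : Zn) (K0 : Act S.P.g) {X : Finset S.P.g.I} (B : S.P.g.I) (h : WallFree S.P.g zn.H0 X) :
    cn0 S ω zn t z K0 X B = cnPl S ω t (R0 S ω zn t z K0) X B := by
  unfold cn0 cnPl
  rw [if_pos h]

/-- **LEAF L-PAIR-C7**: the designated data of the weak map ARE designations by pieces.  `{B} ∈ S.small c` (`Conn R {B}`, `1 ≤ n0`), `cl {B} = {up B}`;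
`∑_{X small, cl X = Y} ∑_{B ∈ X, up B = b} [X = {B}] f B = [Y = {b}] ∑_{B, up B = b} f B`.  Two structures with equal fields (`Desig.mk.injEq`, `funext`). -/
theorem pr_desig_eq (hn0 : 1 ≤ c.n0) (Rm : Act S.P.g) :
    S.desig c ω true (t, z, Rm) = ofPieces S c (pcPl S ω t z Rm) (cnPl S ω t Rm) := by
  classical
  have hsing : ∀ B : S.P.g.I, ({B} : Finset S.P.g.I) ∈ S.small c := by
    intro B
    unfold B8.Step.small
    rw [Finset.mem_filter]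
    exact ⟨Finset.mem_univ _, prc_conn_single _ _ _, by rw [Finset.card_singleton]; exact hn0⟩
  unfold B8.Step.desig ofPieces
  rw [Desig.mk.injEq]
  constructor
  · funext Y b
    simp only [pcPl]
    simp only [Finset.sum_add_distrib]
    congr 1
    rw [prc_sum_single S.P.N.up b ((S.small c).filter fun X => S.P.N.cl X = Y)]
    by_cases hY : Y = {b}
    · rw [if_pos hY]
      refine Finset.sum_congr rfl fun B hB => ?_
      rw [if_pos]
      rw [Finset.mem_filter]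
      refine ⟨hsing B, ?_⟩
      rw [hY, ← (Finset.mem_filter.1 hB).2]
      exact Finset.image_singleton _ _
    · rw [if_neg hY]
      symm
      refine Finset.sum_eq_zero fun B hB => ?_
      rw [if_neg]
      rw [Finset.mem_filter]
      rintro ⟨-, h⟩
      apply hY
      rw [← h, ← (Finset.mem_filter.1 hB).2]
      exact (Finset.image_singleton _ _).symm
  · funext b
    simp only [cnPl]
    simp only [Finset.sum_add_distrib]
    congr 1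
    rw [prc_sum_single S.P.N.up b (S.small c)]
    refine Finset.sum_congr rfl fun B _ => ?_
    rw [if_pos (hsing B)]

end pieces

section piecesCopy

variable {G₀ G₁ : Geom} {D0 D0' ℓ : ℕ} (S₀ : B8.Step G₀ D0 ℓ) (S₁ : B8.Step G₁ D0' ℓ) (E : PEmb S₀.P S₁.P)

/-- a copy on a fine support is a copy on every coarse support above it -/
theorem CopyFn.coarse {S₀ : B8.Step G₀ D0 ℓ} {S₁ : B8.Step G₁ D0' ℓ} {E : PEmb S₀.P S₁.P} (hE : E.Ok) {h0 : ℝ≥0} {col : ℕ} {μ : G₀.V → ℝ}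
    {X : Finset S₀.P.g.I} {Y : Finset S₀.P.g'.I} (hXY : S₀.P.N.cl X ⊆ Y) {F₀ : Fn G₀} {F₁ : Fn G₁}
    (h : CopyFn E.fine h0 col μ X F₀ F₁) : CopyFn E.coarse h0 col μ Y F₀ F₁ := by
  intro z₀ hz₀ z₁ hz₁ ha
  refine h z₀ (prc_strip_coarse S₀.P hXY hz₀) z₁ (prc_strip_coarse S₁.P ?_ hz₁) fun v hv => ha v (prc_dep_coarse S₀.P col hXY hv)
  show S₁.P.N.cl (X.map E.f) ⊆ Y.map E.c
  rw [hE.cl_map]
  exact Finset.map_subset_map.2 hXY

/-- reindexing of the small polymers of the second volume which have a block over `E.c b` -/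
theorem prc_small_reindex (hE : E.Ok) (c : B8.Geo) (hg₁ : SmallGeo S₁ c) (b : S₀.P.g'.I)
    (hnb : ∀ b' : S₁.P.g'.I, S₁.P.g'.idist (E.c b) b' ≤ 1 → b' ∈ Set.range E.c)
    {M : Type} [AddCommMonoid M] (q : Finset S₁.P.g'.I → Prop) [DecidablePred q]
    (f : Finset S₁.P.g.I → S₁.P.g.I → M) :
    ∑ X₁ ∈ (S₁.small c).filter (fun X₁ => q (S₁.P.N.cl X₁)), ∑ B₁ ∈ X₁.filter (fun B₁ => S₁.P.N.up B₁ = E.c b), f X₁ B₁
      = ∑ X ∈ (S₀.small c).filter (fun X => q ((S₀.P.N.cl X).map E.c)), ∑ B ∈ X.filter (fun B => S₀.P.N.up B = b), f (X.map E.f) (E.f B) := by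
  classical
  have hin : ∀ X : Finset S₀.P.g.I, ∑ B ∈ X.filter (fun B => S₀.P.N.up B = b), f (X.map E.f) (E.f B)
      = ∑ B₁ ∈ (X.map E.f).filter (fun B₁ => S₁.P.N.up B₁ = E.c b), f (X.map E.f) B₁ := by
    intro X
    rw [Finset.filter_map, Finset.sum_map]
    refine Finset.sum_congr (Finset.filter_congr fun B _ => ?_) fun _ _ => rfl
    show _ ↔ S₁.P.N.up (E.f B) = E.c b
    rw [hE.up]
    exact ⟨fun h => by rw [h], fun h => E.c.injective h⟩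
  rw [Finset.sum_congr rfl fun X _ => hin X]
  have hm := Finset.sum_map ((S₀.small c).filter (fun X => q ((S₀.P.N.cl X).map E.c))) (Finset.mapEmbedding E.f).toEmbedding
    (fun X₁ => ∑ B₁ ∈ X₁.filter (fun B₁ => S₁.P.N.up B₁ = E.c b), f X₁ B₁)
  refine Eq.trans ?_ hm
  symm
  refine Finset.sum_subset (fun X₁ hX₁ => ?_) (fun X₁ hX₁ hn => ?_)
  · obtain ⟨X, hX, rfl⟩ := Finset.mem_map.1 hX₁
    show X.map E.f ∈ _
    rw [Finset.mem_filter] at hX ⊢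
    unfold B8.Step.small at hX ⊢
    rw [Finset.mem_filter] at hX ⊢
    refine ⟨⟨Finset.mem_univ _, (pra_conn_map E.f hE.fine.dist _ X).2 hX.1.2.1, by rw [Finset.card_map]; exact hX.1.2.2⟩, ?_⟩
    rw [hE.cl_map]
    exact hX.2
  · refine Finset.sum_eq_zero fun B₁ hB₁ => absurd ?_ hn
    rw [Finset.mem_filter] at hB₁ hX₁
    have hcl : E.c b ∈ S₁.P.N.cl X₁ := by rw [← hB₁.2]; exact Finset.mem_image_of_mem _ hB₁.1
    have hr : ∀ B' ∈ X₁, B' ∈ Set.range E.f := by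
      intro B' hB'
      have h1 : S₁.P.N.up B' ∈ S₁.P.N.cl X₁ := Finset.mem_image_of_mem _ hB'
      have h2 : S₁.P.g'.idist (E.c b) (S₁.P.N.up B') ≤ 1 := by
        refine le_trans ?_ (hg₁ X₁ hX₁.1).2
        unfold Grid.idiam
        exact le_trans (Finset.le_sup (f := fun y => S₁.P.g'.idist (E.c b) y) h1)
          (Finset.le_sup (f := fun x => (S₁.P.N.cl X₁).sup fun y => S₁.P.g'.idist x y) hcl)
      obtain ⟨b', hb'⟩ := hnb _ h2
      exact hE.fib B' b' hb'.symm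
    have hX : X₁ = (Finset.univ.filter fun B => E.f B ∈ X₁).map E.f := by
      ext B'
      rw [Finset.mem_map]
      constructor
      · intro hB'
        obtain ⟨B, rfl⟩ := hr B' hB'
        exact ⟨B, Finset.mem_filter.2 ⟨Finset.mem_univ _, hB'⟩, rfl⟩
      · rintro ⟨B, hB, rfl⟩
        exact (Finset.mem_filter.1 hB).2
    rw [Finset.mem_map]
    refine ⟨Finset.univ.filter fun B => E.f B ∈ X₁, ?_, hX.symm⟩
    have hs := hX₁.1
    have hq := hX₁.2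
    unfold B8.Step.small at hs ⊢
    rw [Finset.mem_filter] at hs
    rw [hX] at hs hq
    rw [Finset.mem_filter, Finset.mem_filter]
    refine ⟨⟨Finset.mem_univ _, (pra_conn_map E.f hE.fine.dist _ _).1 hs.2.1, by have := hs.2.2; rwa [Finset.card_map] at this⟩, ?_⟩
    rwa [hE.cl_map] at hq

/-- **LEAF L-PAIR-C8: designations by pieces are copies if the pieces are.**
The small `X₁` of the second volume with a block over `E.c b` are exactly the `X.map E.f`, `X` small with a block over `b`: `cl X₁` has diameter `≤ 1` and contains `E.c b`, so it lies in the range of `E.c` (`hnb`), so `X₁` lies in the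
range of `E.f` (`PEmb.Ok.fib`); `Conn`, `card`, `cl` are transported by `pra_conn_map`, `Finset.card_map`, `PEmb.Ok.cl_map`, `PEmb.Ok.up`.  All other `X₁` contribute empty inner sums. -/
theorem pr_ofPieces_copy (hE : E.Ok) (c : B8.Geo) (hg₁ : SmallGeo S₁ c) (h0 : ℝ≥0) (col : ℕ) (μ : G₀.V → ℝ)
    (pc₀ : Finset S₀.P.g.I → S₀.P.g.I → Fn G₀) (cn₀ : Finset S₀.P.g.I → S₀.P.g.I → ℂ)
    (pc₁ : Finset S₁.P.g.I → S₁.P.g.I → Fn G₁) (cn₁ : Finset S₁.P.g.I → S₁.P.g.I → ℂ) (b : S₀.P.g'.I)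
    (hnb : ∀ b' : S₁.P.g'.I, S₁.P.g'.idist (E.c b) b' ≤ 1 → b' ∈ Set.range E.c)
    (hpc : ∀ X ∈ S₀.small c, ∀ B ∈ X, S₀.P.N.up B = b → CopyFn E.coarse h0 col μ {b} (pc₀ X B) (pc₁ (X.map E.f) (E.f B)))
    (hcn : ∀ X ∈ S₀.small c, ∀ B ∈ X, S₀.P.N.up B = b → cn₀ X B = cn₁ (X.map E.f) (E.f B)) :
    (∀ Y', CopyFn E.coarse h0 col μ {b} ((ofPieces S₀ c pc₀ cn₀).F Y' b) ((ofPieces S₁ c pc₁ cn₁).F (Y'.map E.c) (E.c b))) ∧
      (ofPieces S₀ c pc₀ cn₀).a b = (ofPieces S₁ c pc₁ cn₁).a (E.c b) := by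
  classical
  constructor
  · intro Y'
    have e1 : (ofPieces S₁ c pc₁ cn₁).F (Y'.map E.c) (E.c b)
        = ∑ X ∈ (S₀.small c).filter (fun X => S₀.P.N.cl X = Y'), ∑ B ∈ X.filter (fun B => S₀.P.N.up B = b), pc₁ (X.map E.f) (E.f B) := by
      unfold ofPieces
      simp only
      rw [prc_small_reindex S₀ S₁ E hE c hg₁ b hnb (fun Z => Z = Y'.map E.c) pc₁]
      refine Finset.sum_congr (Finset.filter_congr fun X _ => ?_) fun _ _ => rfl
      exact Finset.map_inj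
    rw [e1]
    unfold ofPieces
    simp only
    refine CopyFn.sum _ fun X hX => CopyFn.sum _ fun B hB => ?_
    rw [Finset.mem_filter] at hX hB
    exact hpc X hX.1 B hB.1 hB.2
  · have e1 : (ofPieces S₁ c pc₁ cn₁).a (E.c b)
        = ∑ X ∈ S₀.small c, ∑ B ∈ X.filter (fun B => S₀.P.N.up B = b), cn₁ (X.map E.f) (E.f B) := by
      have := prc_small_reindex S₀ S₁ E hE c hg₁ b hnb (fun _ => True) cn₁
      simp only [Finset.filter_true] at this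
      unfold ofPieces
      simp only
      exact this
    rw [e1]
    unfold ofPieces
    simp only
    refine Finset.sum_congr rfl fun X hX => Finset.sum_congr rfl fun B hB => ?_
    rw [Finset.mem_filter] at hB
    exact hcn X hX B hB.1 hB.2

/-- regularity and neutrality of the neutral parts `H_0 = E (Rm X)_0 (· + ζ)` on a class of supports.  Producers: squares `pr_HqReg_sq` below; tori `B8.w_Hq_local`, `B8.w_Hq_const` (`Map/WInt.lean`) -/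
def HqReg {G : Geom} {D0 ℓ : ℕ} (p : Par) (col : ℕ) (S : B8.Step G D0 ℓ) (Rm : Act S.P.g) (X : Finset S.P.g.I) : Prop :=
  LocalFn p col S.P.g X (S.Hq p.ω 0 Rm X) ∧
    ∀ w ∈ strip p.h0 S.P.g X, ∀ a : ℂ, (fun v => w v + a) ∈ strip p.h0 S.P.g X → S.Hq p.ω 0 Rm X (fun v => w v + a) = S.Hq p.ω 0 Rm X w

/-- **LEAF L-PAIR-C5: the plane rule is copied** (from C1-C4, `prc_conv_copy`, `prc_charge_copy`).
`Hq q` of copies are copies on `X`; their values at `0` agree (`0` lies in the strips, `0 < h₀`); `DX` by C2 + C3 with the anchors `B8.anchor` (the anchor of `X.map E.f` is a site of it: the set of sites is nonempty because `B ∈ X`, `g.Ok.surj`);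
`Loc` by C4; `cBC`, `eBC` by C1; `X.map E.f = {E.f B} ↔ X = {B}`; the covariances agree on `dep {B} ⊆ dep X`. -/
theorem pr_pcPl_copy (hE : E.Ok) (a : ℤ × ℤ) (hs : Shift E.s a) (h₀ : G₀.bc = BC.free) (hstd : Std S₀.P.g) (p : Par) (hh : 0 < p.h0) (col : ℕ) (hcol : 1 ≤ col)
    (hΓ₀ : S₀.Γ.PosSemidef) (hΓ₁ : S₁.Γ.PosSemidef) (t z : ℂ) (Rm₀ : Act S₀.P.g) (Rm₁ : Act S₁.P.g) (X : Finset S₀.P.g.I) (B : S₀.P.g.I) (hB : B ∈ X)
    (hin : Inner S₀.P.g B) (hd : 2 * ((S₀.P.g.idiam X + 1) * S₀.P.g.m + col) < G₁.M)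
    (hcov : ∀ v ∈ dep S₀.P.g col X, ∀ w ∈ dep S₀.P.g col X, S₀.Γ v w = S₁.Γ (E.s v) (E.s w))
    (hR : CopyX E.fine p.h0 col 0 Rm₀ Rm₁ X) (hH₀ : HqReg p col S₀ Rm₀ X) (hH₁ : HqReg p col S₁ Rm₁ (X.map E.f)) :
    CopyFn E.fine p.h0 col 0 {B} (pcPl S₀ p.ω t z Rm₀ X B) (pcPl S₁ p.ω t z Rm₁ (X.map E.f) (E.f B)) ∧
      cnPl S₀ p.ω t Rm₀ X B = cnPl S₁ p.ω t Rm₁ (X.map E.f) (E.f B) := by
  classical
  -- the charge sectors are copies
  have hq : ∀ q : ℤ, CopyFn E.fine p.h0 col 0 X (S₀.Hq p.ω q Rm₀ X) (S₁.Hq p.ω q Rm₁ (X.map E.f)) := fun q =>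
    prc_conv_copy E.fine p.h0 col 0 X S₀.Γ S₁.Γ hΓ₀ hΓ₁ hcov (prc_charge_copy E.fine p.h0 col 0 X p.ω q hR)
  have hq0 : ∀ q : ℤ, S₀.Hq p.ω q Rm₀ X 0 = S₁.Hq p.ω q Rm₁ (X.map E.f) 0 := fun q =>
    hq q 0 (prc_zero_mem_strip hh _ _) 0 (prc_zero_mem_strip hh _ _) (fun v _ => by simp)
  -- the anchors
  have hne : (S₁.P.g.sites (X.map E.f)).Nonempty := by
    obtain ⟨v, hv⟩ := prc_blk_surj S₁.P.ok (E.f B)
    refine ⟨v, ?_⟩
    simp only [Grid.sites, Finset.mem_filter, Finset.mem_univ, true_and]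
    rw [hv]
    exact Finset.mem_map_of_mem _ hB
  have hanc : B8.anchor S₁.P.g (X.map E.f) ∈ S₁.P.g.sites (X.map E.f) := by
    unfold B8.anchor
    rw [dif_pos hne]
    exact hne.choose_spec
  have hell : ∀ i : Fin 2, ∃ c : ℝ, ∀ v ∈ dep S₀.P.g col X,
      ell S₁.P.g (B8.anchor S₁.P.g (X.map E.f)) i (E.fine.s v) = ell S₀.P.g (B8.anchor S₀.P.g X) i v + c := fun i =>
    prc_ell_copy E.fine hE.fine a hs h₀ hstd col X hd _ _ hanc i
  have hDX : ∀ i j, DX S₀.P.g (B8.anchor S₀.P.g X) (S₀.Hq p.ω 0 Rm₀ X) i j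
      = DX S₁.P.g (B8.anchor S₁.P.g (X.map E.f)) (S₁.Hq p.ω 0 Rm₁ (X.map E.f)) i j := fun i j =>
    prc_DX_copy E.fine p hh col X _ _ hH₀.1 hH₁.1 (hq 0) hH₁.2 _ _ hell i j
  have hLoc := prc_Loc_copy E.fine hE.fine p.h0 col hcol X B hin (B8.anchor S₀.P.g X) (B8.anchor S₁.P.g (X.map E.f))
    (S₀.Hq p.ω 0 Rm₀ X) (S₁.Hq p.ω 0 Rm₁ (X.map E.f)) (hq0 0) hDX
  have hcB := prc_cBC_copy E.fine hE.fine p.h0 col (B8.Step.alpha p.ω) B
  have heB := prc_eBC_copy E.fine hE.fine p.h0 col hcol B hin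
  have hcard : ((X.map E.f).card : ℂ) = (X.card : ℂ) := by rw [Finset.card_map]
  have hsing : X.map E.f = {E.f B} ↔ X = {B} := by
    rw [← Finset.map_singleton, Finset.map_inj]
  have hsub : ({B} : Finset S₀.P.g.I) ⊆ X := Finset.singleton_subset_iff.2 hB
  have hcovB : ∀ v ∈ dep S₀.P.g col {B}, ∀ w ∈ dep S₀.P.g col {B}, S₀.Γ v w = S₁.Γ (E.fine.s v) (E.fine.s w) := fun v hv w hw =>
    hcov v (prc_dep_mono _ col hsub hv) w (prc_dep_mono _ col hsub hw)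
  constructor
  · unfold pcPl B8.Step.piece
    simp only [if_true]
    refine CopyFn.add (CopyFn.add hLoc ?_) ?_
    · rw [hcard, ← hq0 1, ← hq0 (-1)]
      exact hcB.smul _
    · by_cases hX : X = {B}
      · rw [if_pos hX, if_pos (hsing.2 hX)]
        exact prc_conv_copy E.fine p.h0 col 0 {B} S₀.Γ S₁.Γ hΓ₀ hΓ₁ hcovB ((heB.smul _).add (hcB.smul _))
      · rw [if_neg hX, if_neg (fun h => hX (hsing.1 h))]
        exact CopyFn.zero _ _ _ _ _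
  · unfold cnPl
    rw [hcard, ← hq0 0]
    congr 1
    by_cases hX : X = {B}
    · rw [if_pos hX, if_pos (hsing.2 hX)]
      congr 1
      exact prc_conv_copy E.fine p.h0 col 0 {B} S₀.Γ S₁.Γ hΓ₀ hΓ₁ hcovB heB 0 (prc_zero_mem_strip hh _ _) 0 (prc_zero_mem_strip hh _ _)
        (fun v _ => by simp)
    · rw [if_neg hX, if_neg (fun h => hX (hsing.1 h))]

end piecesCopy

end

end Claimed.Agent.R285.F6.Pr
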