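import Claimed.Agent.R285.Obs.PairGeo
import Claimed.Agent.R285.Obs.PairShD
import Claimed.Agent.R285.F4a.Label
import Claimed.Agent.R285.Map.WGain

/-!
# ROW 285, unit OBS, BP-OBS-L62, block EST-J: [F] Lemma 6.2 (iii), (obs:label-recurrence), ONE STEP      (architect helper8)   -- KEEP

`vJ' ≤ (θ + C (ε + η_r)) vJ`, `vJ = actNorm p (shA JT lam)`, `lam = v_n / α`, in ONE square, ANY boundary convention, explicit constants (no quantifier order to respect).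
Everything is stated in the variable `ψ = Ψ - lam`:  `J := shA JT lam`, `Kt := shA KT lam`, `μ := Ψ_ref - lam` (`= - δ_n`).
CHAIN
 1. translations commute with `conv`, `chargeProj`, `Hq`, `Kprime` (`prj_*_shift`): `shA (next ..).JT lam = F4a.labJ .. Kt J (shD dT lam) (dJ μ J)`      (`prj_next_shift`);
 2. `F4a.StepGain.label` (helper241, PROVED): `‖J' - Klin (J, dJ)‖ ≤ Cnl ε (‖J‖ + ‖dJ‖)`;
 3. `Klin (J, dJ) = prjL J + prjS μ J` (large inputs + small inputs minus the neutral constant at `μ`): EXACT identity of functions, pure finite algebra      (`prj_Klin_dJ`);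
 4. one small input minus its neutral constant at a displaced reference point (`prj_small_gain`; NO evenness; also what EST-D needs on small defects):
    neutral `C_g L⁻¹` (`StepGain.neutral`) + displacement `2 (η_r / h₀) cst^{|X|}` (Schwarz lemma along `s ↦ H (s μ~)`, `prj_neutral_ref`) + charges `4 C_g (Cγ L⁻²) e^{h₀ αmax}` (`StepGain.charge`, `B8.wg_geom`, free diagonal);
 5. `O (1)` placements (`prg_count_label`): `‖prjS‖ ≤ Cp gJ ‖J‖` (`prj_small_norm`), `‖dJ‖ ≤ 2 Cp cst^{n0} ‖J‖` (`prj_dJ_size`); large inputs: `StepGain.large`.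
EXIT: `prj_label_step`.   Extra: `prj_label_loc` (location of the label is propagated).
Helper lemmas: prefix `prj_`.  Edit ONLY your theorems, pull before landing.
-/

set_option autoImplicit false

namespace Claimed.Agent.R285.F6.Pr

open scoped BigOperators ENNReal NNReal
open MeasureTheory
open Claimed.Agent.R285 Claimed.Agent.R285.RG Claimed.Agent.R285.B4 Claimed.Agent.R285.F4a

noncomputable section

variable {G : Geom} {D0 ℓ : ℕ}

/-! ## 1. Translations -/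

/-! `shD` (translation of designated data) lives in `Obs/PairShD.lean`. -/

theorem prj_conv_shift (Γ : Matrix G.V G.V ℝ) (F : Fn G) (lam : G.V → ℝ) : conv Γ (shF F lam) = shF (conv Γ F) lam := by
  funext z
  unfold conv shF
  refine integral_congr_ae (Filter.Eventually.of_forall fun ζ => ?_)
  simp only
  rw [add_right_comm]

theorem prj_charge_shift (ω : ℝ) (q : ℤ) (F : Fn G) (lam : G.V → ℝ) : chargeProj ω q (shF F lam) = shF (chargeProj ω q F) lam := by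
  funext z
  unfold chargeProj shF
  have h : ∀ t : ℝ, ((fun v => z v + (t : ℂ)) + toC lam : G.V → ℂ) = fun v => (z + toC lam) v + (t : ℂ) := by
    intro t
    funext v
    simp only [Pi.add_apply]
    ring
  simp only [h]

theorem prj_Hq_shift (S : B8.Step G D0 ℓ) (ω : ℝ) (q : ℤ) (K : Act S.P.g) (X : Finset S.P.g.I) (lam : G.V → ℝ) :
    S.Hq ω q (shA K lam) X = shF (S.Hq ω q K X) lam := by
  unfold B8.Step.Hq shA
  rw [prj_charge_shift, prj_conv_shift]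

/-- the class of pairs `(x true, x false)` with `x true = x false (· + lam)` -/
def prjShCls (g' : Grid G) (lam : G.V → ℝ) : Scal.FamCls Bool (Fn G) g' where
  mem := fun _ x => ∀ z, x true z = x false (z + toC lam)
  sc := fun c => c true = c false
  mono := fun _ h => h
  zero := fun _ _ => rfl
  one := fun _ _ => rfl
  add := fun hx hy z => by simp only [Pi.add_apply, hx z, hy z]
  sub := fun hx hy z => by simp only [Pi.sub_apply, hx z, hy z]
  mul := fun hx hy z => by simp only [Pi.mul_apply, hx z, hy z]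
  smul := fun hc hx z => by simp only [Pi.smul_apply, hx z, hc]
  sc_one := rfl
  sc_mul := fun hc hc' => by simp only [hc, hc']

theorem prj_shF_prod {ι : Type} (s : Finset ι) (F : ι → Fn G) (lam : G.V → ℝ) : ∏ i ∈ s, shF (F i) lam = shF (∏ i ∈ s, F i) lam := by
  funext z
  simp only [shF, Finset.prod_apply]

/-- **translation covariance of the RG map** (no hypothesis).  plan: closure principle `Scal.FamCls` with `T = Bool`, `mem X x := ∀ z, x true z = x false (z + toC lam)`, `sc c := c true = c false`. -/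
theorem prj_Kprime_shift (P : Pair G D0 ℓ) (r R : ℕ) (Γ : Matrix G.V G.V ℝ) (K : Act P.g) (d : Desig P.g' (Fn G)) (lam : G.V → ℝ) :
    Kprime P r R (conv Γ) (shA K lam) (shD d lam) = shA (Kprime P r R (conv Γ) K d) lam := by
  funext Y z
  have h := (prjShCls P.g' lam).kprime r R (fun _ => conv Γ) (fun t => cond t (shA K lam) K) (fun t => cond t (shD d lam) d)
    (fun V z => by
      simp only [cond_true, cond_false]
      unfold shA
      rw [prj_shF_prod, prj_conv_shift]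
      rfl)
    (fun Y b z => rfl) (fun b => rfl) Y z
  exact h

variable (S : B8.Step G D0 ℓ) (c : B8.Geo)

/-- the designated data in the label direction only see `J = shA JT lam` and `μ = Ψ - lam` -/
theorem prj_dJ_shift (ω : ℝ) (Ψ lam : G.V → ℝ) (JT : Act S.P.g) : dJ S c ω Ψ JT = dJ S c ω (Ψ - lam) (shA JT lam) := by
  have h : cnJ S ω (Ψ - lam) (shA JT lam) = cnJ S ω Ψ JT := by
    funext X B
    unfold cnJ
    rw [prj_Hq_shift]
    have h1 : toC (Ψ - lam) + toC lam = toC Ψ := by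
      funext v
      simp [toC]
    simp only [shF, h1]
  unfold dJ
  rw [h]

/-- the new label in the variable `ψ` is the labelled step of `F4a/Label.lean` for the translated data -/
theorem prj_next_shift (ω : ℝ) (zn : Zn) (t z : ℂ) (Ψ lam : G.V → ℝ) (x : St S.P.g) :
    shA (next S c ω zn t z Ψ x).JT lam
      = labJ S.P S.Γ c.r c.R (shA x.KT lam) (shA x.JT lam) (shD (dT S c ω zn t z Ψ x.K0 x.KT) lam) (dJ S c ω (Ψ - lam) (shA x.JT lam)) := by
  funext Y w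
  have hd : shD (dJ S c ω Ψ x.JT) lam = dJ S c ω Ψ x.JT := by
    unfold shD dJ ofPieces
    congr 1
    funext Y b z
    simp only [shF, Finset.sum_apply]
  have hK : ∀ s : ℂ, shA (x.KT + s • x.JT) lam = shA x.KT lam + s • shA x.JT lam := fun s => by
    funext X z
    rfl
  have hD : ∀ (d dd : Desig S.P.g' (Fn G)) (s : ℂ), shD (dLin d dd s) lam = labD (shD d lam) (shD dd lam) s := fun d dd s => by
    unfold shD dLin labD
    congr 1
  have hs : ∀ s : ℂ, famT S c ω zn t z Ψ x s Y (w + toC lam)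
      = labFam S.P S.Γ c.r c.R (shA x.KT lam) (shA x.JT lam) (shD (dT S c ω zn t z Ψ x.K0 x.KT) lam)
          (dJ S c ω (Ψ - lam) (shA x.JT lam)) s Y w := by
    intro s
    have h1 : famT S c ω zn t z Ψ x s Y (w + toC lam)
        = shA (Kprime S.P c.r c.R (conv S.Γ) (x.KT + s • x.JT)
            (dLin (dT S c ω zn t z Ψ x.K0 x.KT) (dJ S c ω Ψ x.JT) s)) lam Y w := rfl
    rw [h1, ← prj_Kprime_shift, hK, hD, hd, ← prj_dJ_shift]
    rfl
  have h2 : shA (next S c ω zn t z Ψ x).JT lam Y w = deriv (fun s : ℂ => famT S c ω zn t z Ψ x s Y (w + toC lam)) 0 := rfl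
  rw [h2]
  simp only [hs]
  rfl

/-! ## 2. The context -/

/-- standing hypotheses on one step, any boundary convention -/
structure JCtx (c : B8.Geo) (p : Par) (S : B8.Step G D0 ℓ) : Prop where
  hyp : StepHyp p c.ρ c.r c.R c.n0 c.Ck c.ck c.cst S.P S.Γ S.Vf S.Vc
  hω : 0 < p.ω
  hh : 0 < p.h0
  hA : 1 ≤ p.A
  hR : max 5 S.Vf.sep ≤ c.R

/-- the constants of the charge sum: amplitude `β ≤ α ≤ αmax`, FREE DIAGONAL `L² e^{-β² Γ(v,v)/2} ≤ Cγ`, `L` large -/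
structure JChg (p : Par) (S : B8.Step G D0 ℓ) (β Cγ αmax : ℝ) : Prop where
  β_pos : 0 < β
  β_le : β ≤ 2 * Real.pi / p.ω
  α_le : 2 * Real.pi / p.ω ≤ αmax
  diag : ∀ v, ((2 : ℝ) ^ ℓ) ^ 2 * Real.exp (-β ^ 2 * S.Γ v v / 2) ≤ Cγ
  large : (Cγ / ((2 : ℝ) ^ ℓ) ^ 2) ^ 2 * Real.exp (p.h0 * αmax) ≤ 1 / 2

/-- `max (1, cst)^{n0}` -/
def cstN (c : B8.Geo) : ℝ≥0∞ := ((max 1 c.cst : ℝ≥0) : ℝ≥0∞) ^ c.n0

/-- the gain of one small input minus its neutral constant at a displaced reference point -/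
def gJ (c : B8.Geo) (p : Par) (ℓ : ℕ) (Cg : ℝ≥0) (Cγ αmax : ℝ) (ηr : ℝ≥0) : ℝ≥0∞ :=
  Cg * (2 ^ ℓ : ℝ≥0∞)⁻¹ + 2 * ((ηr : ℝ≥0∞) / p.h0) * cstN c + Cg * ENNReal.ofReal (4 * (Cγ / ((2 : ℝ) ^ ℓ) ^ 2) * Real.exp (p.h0 * αmax))

theorem cstN_gJ_cite : True := by
  have := @cstN.eq_1
  have := @gJ.eq_1
  trivial

variable {S c} {p : Par}

/-! ## 3. One small input -/

/-- neutrality of `E F_0`: blind to real constants -/
theorem prj_neutral_const (h : JCtx c p S) {X : Finset S.P.g.I} {F : Fn G} (hF : LocalFn p c.col S.P.g X F) {z : G.V → ℂ} (a : ℝ)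
    (hz : z ∈ strip p.h0 S.P.g X) :
    conv S.Γ (chargeProj p.ω 0 F) (fun v => z v + (a : ℂ)) = conv S.Γ (chargeProj p.ω 0 F) z := by
  unfold conv
  refine integral_congr_ae (Filter.Eventually.of_forall fun ζ => ?_)
  simp only
  have e : (fun v => z v + (a : ℂ)) + toC ζ = fun v => (z + toC ζ) v + (a : ℂ) := by
    funext v
    simp only [Pi.add_apply]
    ring
  have h1 := (B4.charge_proj p h.hω c.col S.P.g S.Vf X F hF 0).2.2 (z + toC ζ) a (Hol.strip_add_toC hz ζ)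
    (Hol.strip_add_real (Hol.strip_add_toC hz ζ) a)
  rw [e, h1]
  simp

/-- `E F_0` on the polydisc of radius `h₀` around `0`, FINE norm of the displacement -/
theorem prj_neutral_disc (h : JCtx c p S) {X : Finset S.P.g.I} {F : Fn G} (hF : LocalFn p c.col S.P.g X F) (hfin : fnSize p S.P.g S.Vf X F ≠ ⊤)
    (f : G.V → ℂ) (hf : tnorm S.P.g X f < p.h0) :
    (‖conv S.Γ (chargeProj p.ω 0 F) f‖₊ : ℝ≥0∞) ≤ (c.cst : ℝ≥0∞) ^ X.card * fnSize p S.P.g S.Vf X F := by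
  have hcp := B4.charge_proj p h.hω c.col S.P.g S.Vf X F hF 0
  have hfin0 : fnSize p S.P.g S.Vf X (chargeProj p.ω 0 F) ≠ ⊤ := ne_top_of_le_ne_top hfin hcp.2.1
  have e0 : toC (0 : G.V → ℝ) + f = f := by rw [Hol.toC_zero, zero_add]
  calc (‖conv S.Γ (chargeProj p.ω 0 F) f‖₊ : ℝ≥0∞)
      = (‖conv S.Γ (chargeProj p.ω 0 F) (toC (0 : G.V → ℝ) + f)‖₊ : ℝ≥0∞) := by rw [e0]
    _ ≤ ptNorm p.h0 S.P.g X (conv S.Γ (chargeProj p.ω 0 F)) 0 := Hol.le_ptNorm _ _ _ _ _ f hf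
    _ ≤ ∫⁻ ζ, ptNorm p.h0 S.P.g X (chargeProj p.ω 0 F) (0 + ζ) ∂(gauss G S.Γ) := Hol.ptNorm_conv _ _ _ _ _ _
    _ ≤ ∫⁻ ζ, fnSize p S.P.g S.Vf X (chargeProj p.ω 0 F) * ENNReal.ofReal (Wt S.P.g p.δ p.κ S.Vf X (0 + ζ)) ∂(gauss G S.Γ) :=
        lintegral_mono fun ζ => Hol.ptNorm_le_fnSize_mul p S.P.g S.Vf X _ (0 + ζ)
    _ = fnSize p S.P.g S.Vf X (chargeProj p.ω 0 F) * ∫⁻ ζ, ENNReal.ofReal (Wt S.P.g p.δ p.κ S.Vf X (0 + ζ)) ∂(gauss G S.Γ) :=
        lintegral_const_mul' _ _ hfin0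
    _ ≤ fnSize p S.P.g S.Vf X F * ((c.cst : ℝ≥0∞) ^ X.card * ENNReal.ofReal (Wt S.P.g' p.δ p.κ S.Vc (S.P.N.cl X) 0)) :=
        mul_le_mul' hcp.2.1 (h.hyp.reg.main X _ (Finset.Subset.refl _) 0)
    _ = _ := by rw [Loc.loc_Wt_zero, ENNReal.ofReal_one, mul_one, mul_comm]

/-- **LEAF `L-PAIR-J2`: the neutral part at a displaced reference point** (shared with EST-D).  `H = E F_0`, `μ~ = μ - a`, `‖μ~‖_{m, D_m (X)} ≤ η_r < h₀`.
plan: `H (toC μ) = H (toC μ~)` (neutrality: `B4.charge_proj` 3rd clause with `q = 0` under the integral, as `B8.w_Hq_const`).  For `|s| < T := h₀ / η_r`: `tnorm (s • toC μ~) = |s| tnorm μ~ < h₀`, so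
`|H (s • toC μ~)| ≤ ptNorm h₀ g X H 0 ≤ ∫ ptNorm F ζ ≤ fnSize F ∫ Wt (X, ζ) ≤ cst^{|X|} fnSize F * Wt' (cl X, 0) = cst^{|X|} fnSize F` (`Hol.ptNorm_conv`, `RegStable.main`, `Loc.loc_Wt_zero`; cf. the proof of `B8.w_conv_size`);
`s ↦ H (s • toC μ~)` is holomorphic on the ball (`Scal.localFn_conv`, the imaginary part is `Im s • μ~`);  `Scal.schwarz_line` gives `|H (toC μ~) - H 0| ≤ 2 M / T`. -/
theorem prj_neutral_ref (h : JCtx c p S) {X : Finset S.P.g.I} {F : Fn G} (hF : LocalFn p c.col S.P.g X F) (hfin : fnSize p S.P.g S.Vf X F ≠ ⊤)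
    (μ : G.V → ℝ) (a : ℝ) (ηr : ℝ≥0) (hη0 : 0 < ηr) (hη : ηr < p.h0) (hμ : tnorm S.P.g X (fun v => μ v - a) ≤ ηr) :
    (‖conv S.Γ (chargeProj p.ω 0 F) (toC μ)‖₊ : ℝ≥0∞) ≤ (c.cst : ℝ≥0∞) ^ X.card * fnSize p S.P.g S.Vf X F ∧
    (‖conv S.Γ (chargeProj p.ω 0 F) 0 - conv S.Γ (chargeProj p.ω 0 F) (toC μ)‖₊ : ℝ≥0∞)
      ≤ 2 * ((ηr : ℝ≥0∞) / p.h0) * ((c.cst : ℝ≥0∞) ^ X.card * fnSize p S.P.g S.Vf X F) := by
  set H : Fn G := conv S.Γ (chargeProj p.ω 0 F) with hH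
  set μt : G.V → ℝ := fun v => μ v - a with hμt
  set M : ℝ≥0∞ := (c.cst : ℝ≥0∞) ^ X.card * fnSize p S.P.g S.Vf X F with hM
  have hMfin : M ≠ ⊤ := ENNReal.mul_ne_top (ENNReal.pow_ne_top ENNReal.coe_ne_top) hfin
  have hcp := B4.charge_proj p h.hω c.col S.P.g S.Vf X F hF 0
  have hHloc : LocalFn p c.col S.P.g X H :=
    Scal.localFn_conv S.Vf S.Γ hcp.1 (ne_top_of_le_ne_top hfin hcp.2.1) (Scal.lintegral_Wt_ne_top ENNReal.coe_ne_top h.hyp.reg X)
  have htn : tnorm S.P.g X (toC μt) ≤ ηr := by rw [Hol.tnorm_toC]; exact hμ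
  have hstrip : ∀ f : G.V → ℂ, tnorm S.P.g X f < p.h0 → f ∈ strip p.h0 S.P.g X := fun f hf =>
    lt_of_le_of_lt (Hol.tnorm_im_le S.P.g X f) hf
  have e1 : H (toC μ) = H (toC μt) := by
    have e : toC μ = fun v => toC μt v + (a : ℂ) := by
      funext v
      simp only [toC, hμt]
      push_cast
      ring
    rw [e]
    exact prj_neutral_const h hF a (hstrip _ (lt_of_le_of_lt htn hη))
  rw [e1]
  refine ⟨prj_neutral_disc h hF hfin _ (lt_of_le_of_lt htn hη), ?_⟩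
  -- the Schwarz lemma
  have hηr : (0 : ℝ) < ηr := by exact_mod_cast hη0
  have hh0 : (0 : ℝ) < p.h0 := by exact_mod_cast h.hh
  set T : ℝ := (p.h0 : ℝ) / ηr with hT
  have hT1 : 1 < T := by
    rw [hT, one_lt_div hηr]
    exact_mod_cast hη
  have hball : ∀ s ∈ Metric.ball (0 : ℂ) T, tnorm S.P.g X (s • toC μt) < p.h0 := by
    intro s hs
    have h1 : ‖s‖ < T := by simpa using hs
    rw [hT, lt_div_iff₀ hηr] at h1
    rw [Hol.tnorm_smul]
    have h2 : ‖s‖₊ * ηr < p.h0 := by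
      rw [← NNReal.coe_lt_coe]
      push_cast
      exact h1
    exact lt_of_le_of_lt (mul_le_mul' le_rfl htn) h2
  have hd : DifferentiableOn ℂ (fun s : ℂ => H (s • toC μt)) (Metric.ball 0 T) := by
    have h1 : DifferentiableOn ℂ (fun s : ℂ => s • toC μt) (Metric.ball 0 T) := by fun_prop
    exact hHloc.hol.comp h1 fun s hs => hstrip _ (hball s hs)
  have hb : ∀ s ∈ Metric.ball (0 : ℂ) T, ‖H (s • toC μt)‖ ≤ M.toReal := by
    intro s hs
    have h1 := prj_neutral_disc h hF hfin _ (hball s hs)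
    have h2 := ENNReal.toReal_mono hMfin h1
    simpa using h2
  have key := Scal.schwarz_line (fun s : ℂ => H (s • toC μt)) T M.toReal hT1 hd hb
  simp only [one_smul, zero_smul] at key
  rw [← enorm_eq_nnnorm, ← ofReal_norm, norm_sub_rev]
  refine (ENNReal.ofReal_le_ofReal key).trans (le_of_eq ?_)
  have e2 : 2 * M.toReal / T = 2 * ((ηr : ℝ) / p.h0) * M.toReal := by
    rw [hT]
    field_simp
  rw [e2, ENNReal.ofReal_mul (by positivity), ENNReal.ofReal_mul (by norm_num), ENNReal.ofReal_toReal hMfin,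
    ENNReal.ofReal_div_of_pos hh0, ENNReal.ofReal_coe_nnreal, ENNReal.ofReal_coe_nnreal]
  norm_num

/-- **LEAF `L-PAIR-J3`: the sum over the charges `q ≠ 0`** (shared with EST-W/D).
plan: `StepGain.charge` at any `v0 ∈ sites X` (non-empty: `X` is a polymer, `Grid.Ok.surj`), `B8.w_fnSize_kappa_mono` (`κ/2 → κ`), `B8.wg_exp_le` with `k = β²`, `a = β`, `γ = Γ v0 v0 ≥ 0` (`PosSemidef.diag_nonneg`),
`y := e^{-β² Γ v0 v0 / 2} ≤ Cγ / L²`, `E := e^{h₀ αmax}`, `B8.wg_geom 1` (monotone in `y`: apply it with `y := Cγ / L²`). -/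
theorem prj_charge_sum (h : JCtx c p S) {Cg Cd Cnl ε0 η : ℝ≥0} {β Cγ αmax : ℝ} (hg : StepGain p c.r c.R c.n0 Cg Cd Cnl ε0 η β S.P S.Γ S.Vf S.Vc)
    (hc : JChg p S β Cγ αmax) {X : Finset S.P.g.I} (hX : X ∈ S.small c) {F : Fn G} (hF : LocalFn p c.col S.P.g X F) :
    ∑' q : ℤ, (if q = 0 then 0 else fnSize p S.P.g' S.Vc (S.P.N.cl X) (conv S.Γ (chargeProj p.ω q F)))
      ≤ Cg * ENNReal.ofReal (4 * (Cγ / ((2 : ℝ) ^ ℓ) ^ 2) * Real.exp (p.h0 * αmax)) * fnSize p S.P.g S.Vf X F := by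
  obtain ⟨hconn, hcard⟩ := B8.w_mem_small.1 hX
  set u := fnSize p S.P.g S.Vf X F with hu
  have hin : LocalInput p c.col c.R c.n0 S.P.g S.Vf X F u := ⟨hconn, hcard, hF, le_rfl⟩
  obtain ⟨B, hB⟩ := hconn.1
  obtain ⟨i, hi⟩ := S.P.ok.surj B.1
  obtain ⟨j, hj⟩ := S.P.ok.surj B.2
  have hv0 : ((i, j) : G.V) ∈ S.P.g.sites X := by
    unfold Grid.sites
    simp only [Finset.mem_filter, Finset.mem_univ, true_and]
    have : S.P.g.blk (i, j) = B := Prod.ext hi hj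
    rw [this]
    exact hB
  have hγ0 : 0 ≤ S.Γ (i, j) (i, j) := h.hyp.shell.psd.diag_nonneg
  have hL2 : (0 : ℝ) < ((2 : ℝ) ^ ℓ) ^ 2 := by positivity
  have hy0 : 0 < Real.exp (-β ^ 2 * S.Γ (i, j) (i, j) / 2) := Real.exp_pos _
  have hyY : Real.exp (-β ^ 2 * S.Γ (i, j) (i, j) / 2) ≤ Cγ / ((2 : ℝ) ^ ℓ) ^ 2 := by
    rw [le_div_iff₀ hL2, mul_comm]
    exact hc.diag (i, j)
  have hY0 : 0 ≤ Cγ / ((2 : ℝ) ^ ℓ) ^ 2 := hy0.le.trans hyY
  have hE0 : 0 < Real.exp (p.h0 * αmax) := Real.exp_pos _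
  have key : ∀ q : ℤ, (if q = 0 then 0 else fnSize p S.P.g' S.Vc (S.P.N.cl X) (conv S.Γ (chargeProj p.ω q F)))
      ≤ Cg * u * (if 1 ≤ q.natAbs then ENNReal.ofReal ((Cγ / ((2 : ℝ) ^ ℓ) ^ 2) ^ (2 * q.natAbs - 1) * Real.exp (p.h0 * αmax) ^ q.natAbs) else 0) := by
    intro q
    by_cases hq : q = 0
    · rw [if_pos hq]
      exact zero_le
    · have hn : 1 ≤ q.natAbs := by omega
      rw [if_neg hq, if_pos hn]
      refine (B8.w_fnSize_kappa_mono p.δ p.κ (p.κ / 2) p.h0 p.A p.A p.ω p.ω h.hyp.adm.δ_pos.le (by linarith [h.hyp.adm.κ_pos]) S.P.g' S.Vc _ _).trans ?_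
      refine (hg.charge c.col X F u hin (i, j) hv0 q hq).trans (mul_le_mul' le_rfl (ENNReal.ofReal_le_ofReal ?_))
      have eq : |(q : ℝ)| = (q.natAbs : ℝ) := by rw [Nat.cast_natAbs, Int.cast_abs]
      rw [eq]
      refine (B8.wg_exp_le (β ^ 2) β (2 * Real.pi / p.ω) αmax (S.Γ (i, j) (i, j)) p.h0 q.natAbs hn rfl hc.β_pos.le hc.β_le hc.α_le hγ0
        (NNReal.coe_nonneg _)).trans ?_
      exact mul_le_mul_of_nonneg_right (pow_le_pow_left₀ hy0.le hyY _) (by positivity)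
  refine (ENNReal.tsum_le_tsum key).trans ?_
  rw [ENNReal.tsum_mul_left]
  refine (mul_le_mul' le_rfl (B8.wg_geom 1 le_rfl _ _ hY0 hE0.le hc.large)).trans (le_of_eq ?_)
  have e : 4 * (Cγ / ((2 : ℝ) ^ ℓ) ^ 2) ^ (2 * 1 - 1) * Real.exp (p.h0 * αmax) ^ 1 = 4 * (Cγ / ((2 : ℝ) ^ ℓ) ^ 2) * Real.exp (p.h0 * αmax) := by
    norm_num
  rw [e]
  ring

/-- **LEAF `L-PAIR-J4`: one small input minus its neutral constant at `μ`** (shared with EST-D).
plan: on the strip of `(g', cl X)` (contained in the strip of `(g, X)`): `E F = ∑_q E F_q` (`B4.charge_inversion` for `conv Γ F` + `B8.w_charge_conv_gen`, as `B8.w_conv_hasSum`); subtract the constant in the term `q = 0`;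
`B8.w_fnSize_tsum_le`; `q = 0`: `(H - H 0) + (H 0 - H μ)`: `StepGain.neutral` (first clause) + `prj_neutral_ref` (`B8.w_fnSize_le_of_bound` for the constant; `cst^{|X|} ≤ cstN`); `q ≠ 0`: `prj_charge_sum`. -/
theorem prj_small_gain (h : JCtx c p S) {Cg Cd Cnl ε0 η : ℝ≥0} {β Cγ αmax : ℝ} (hg : StepGain p c.r c.R c.n0 Cg Cd Cnl ε0 η β S.P S.Γ S.Vf S.Vc)
    (hc : JChg p S β Cγ αmax) {X : Finset S.P.g.I} (hX : X ∈ S.small c) {F : Fn G} (hF : LocalFn p c.col S.P.g X F) (hfin : fnSize p S.P.g S.Vf X F ≠ ⊤)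
    (μ : G.V → ℝ) (a : ℝ) (ηr : ℝ≥0) (hη0 : 0 < ηr) (hη : ηr < p.h0) (hμ : tnorm S.P.g X (fun v => μ v - a) ≤ ηr) :
    fnSize p S.P.g' S.Vc (S.P.N.cl X) (fun w => conv S.Γ F w - conv S.Γ (chargeProj p.ω 0 F) (toC μ))
      ≤ gJ c p ℓ Cg Cγ αmax ηr * fnSize p S.P.g S.Vf X F := by
  obtain ⟨hconn, hcard⟩ := B8.w_mem_small.1 hX
  set u := fnSize p S.P.g S.Vf X F with hu
  have hin : LocalInput p c.col c.R c.n0 S.P.g S.Vf X F u := ⟨hconn, hcard, hF, le_rfl⟩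
  have hint : ∀ φ : G.V → ℝ, ∫⁻ ζ, ENNReal.ofReal (Wt S.P.g p.δ p.κ S.Vf X (φ + ζ)) ∂(gauss G S.Γ) ≠ ⊤ :=
    Scal.lintegral_Wt_ne_top ENNReal.coe_ne_top h.hyp.reg X
  obtain ⟨H, hH⟩ : ∃ H : Fn G, H = conv S.Γ (chargeProj p.ω 0 F) := ⟨_, rfl⟩
  rw [← hH]
  obtain ⟨T, hT⟩ : ∃ T : ℤ → Fn G, T = fun q => if q = 0 then (fun w => H w - H (toC μ)) else conv S.Γ (chargeProj p.ω q F) := ⟨_, rfl⟩
  have hT0 : T 0 = fun w => H w - H (toC μ) := by rw [hT]; simp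
  have hTq : ∀ q : ℤ, q ≠ 0 → T q = conv S.Γ (chargeProj p.ω q F) := fun q hq => by rw [hT]; simp [hq]
  have hsum : ∀ z ∈ strip p.h0 S.P.g' (S.P.N.cl X), HasSum (fun q => T q z) (conv S.Γ F z - H (toC μ)) := by
    intro z hz
    have hz' := B8.w_strip_coarse S.P p.h0 (Finset.Subset.refl _) hz
    have h1 := B4.charge_inversion p h.hω c.col S.P.g X (conv S.Γ F) (Scal.localFn_conv S.Vf S.Γ hF hfin hint) z hz'
    have h2 : (fun q : ℤ => chargeProj p.ω q (conv S.Γ F) z) = fun q : ℤ => conv S.Γ (chargeProj p.ω q F) z :=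
      funext fun q => B8.w_charge_conv_gen p h.hω S.P.g S.Vf X S.Γ F hF.hol hfin hint q hz'
    rw [h2] at h1
    have h3 : HasSum (fun q : ℤ => if q = 0 then H (toC μ) else 0) (H (toC μ)) := hasSum_ite_eq 0 _
    have h4 := h1.sub h3
    have e : (fun q => T q z) = fun q : ℤ => conv S.Γ (chargeProj p.ω q F) z - (if q = 0 then H (toC μ) else 0) := by
      funext q
      by_cases hq : q = 0
      · subst hq
        rw [hT0, if_pos rfl, hH]
      · rw [hTq q hq, if_neg hq, sub_zero]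
    rw [e]
    exact h4
  refine (B8.w_fnSize_tsum_le p S.P.g' S.Vc (S.P.N.cl X) T _ hsum).trans ?_
  have e1 : ∀ q : ℤ, fnSize p S.P.g' S.Vc (S.P.N.cl X) (T q)
      = (if q = 0 then fnSize p S.P.g' S.Vc (S.P.N.cl X) (T 0) else 0)
        + (if q = 0 then 0 else fnSize p S.P.g' S.Vc (S.P.N.cl X) (conv S.Γ (chargeProj p.ω q F))) := by
    intro q
    by_cases hq : q = 0
    · subst hq
      simp
    · rw [if_neg hq, if_neg hq, zero_add, hTq q hq]
  rw [tsum_congr e1, ENNReal.tsum_add, tsum_ite_eq]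
  have hcst : (c.cst : ℝ≥0∞) ^ X.card ≤ cstN c := by
    unfold cstN
    have h1 : (c.cst : ℝ≥0∞) ≤ ((max 1 c.cst : ℝ≥0) : ℝ≥0∞) := ENNReal.coe_le_coe.2 (le_max_right _ _)
    have h2 : (1 : ℝ≥0∞) ≤ ((max 1 c.cst : ℝ≥0) : ℝ≥0∞) := by
      rw [← ENNReal.coe_one]
      exact ENNReal.coe_le_coe.2 (le_max_left _ _)
    exact (pow_le_pow_left' h1 _).trans (pow_le_pow_right₀ h2 hcard)
  have hb0 : fnSize p S.P.g' S.Vc (S.P.N.cl X) (T 0) ≤ Cg * u * (2 ^ ℓ : ℝ≥0∞)⁻¹ + 2 * ((ηr : ℝ≥0∞) / p.h0) * (cstN c * u) := by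
    have e : T 0 = (fun w => H w - H 0) + (fun _ => H 0 - H (toC μ)) := by
      rw [hT0]
      funext w
      simp
    rw [e]
    refine (Scal.fnSize_add_le _ _ _ _ _ _).trans (add_le_add (hg.neutral c.col X F u hin H hH).1 ?_)
    refine B8.w_fnSize_le_of_bound p h.hyp.adm.δ_pos.le h.hyp.adm.κ_pos.le S.P.g' S.Vc _ _ _ fun z _ => ?_
    have h5 := (prj_neutral_ref h hF hfin μ a ηr hη0 hη hμ).2
    rw [← hH] at h5
    exact h5.trans (mul_le_mul' le_rfl (mul_le_mul' hcst le_rfl))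
  refine (add_le_add hb0 (prj_charge_sum h hg hc hX hF)).trans (le_of_eq ?_)
  unfold gJ
  ring

/-! ## 4. The linear part of the label map -/

variable (S c)

open Classical in
/-- the large inputs (`= B8.ClinL`) -/
def prjL (J : Act S.P.g) : Act S.P.g' := fun Y =>
  ∑ X ∈ Finset.univ.filter (fun X : Finset S.P.g.I => S.P.g.Conn c.R X ∧ c.n0 < X.card ∧ S.P.N.cl X = Y), conv S.Γ (J X)

open Classical in
/-- the small inputs minus their neutral constants at `μ` -/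
def prjS (ω : ℝ) (μ : G.V → ℝ) (J : Act S.P.g) : Act S.P.g' := fun Y =>
  ∑ X ∈ (S.small c).filter (fun X => S.P.N.cl X = Y), fun w => conv S.Γ (J X) w - S.Hq ω 0 J X (toC μ)

theorem prjL_prjS_cite : True := by
  have := @prjL.eq_1
  have := @prjS.eq_1
  trivial

/-- **LEAF `L-PAIR-J5`: the linear part, EXACT identity of functions** (pure finite algebra, no hypothesis).
plan: as `B8.w_clin_split`.  `Y` not a polymer: all vanish (`B8.w_conn_cl`).  `Y` a polymer: `F4a.Klin_apply`; `B8.wlin_split_sum`; the bracket at `Y = {b}` vanishes: `B8.wlin_labels` gives `∑_{Y' ∋ b} F Y' b = a b`;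
`∑_{b ∈ Y} F Y b = ∑_{X small, cl X = Y} ∑_{B ∈ X} cnJ X B` (`Finset.sum_comm`, `Finset.sum_fiberwise_of_maps_to`) `= ∑_X Hq 0 J X (toC μ)` (`X ≠ ∅`). -/
theorem prj_Klin_dJ (ω : ℝ) (μ : G.V → ℝ) (J : Act S.P.g) :
    Klin S.P c.R (conv S.Γ) J (dJ S c ω μ J) = prjL S c J + prjS S c ω μ J := by
  classical
  funext Y w
  have hF : ∀ (Y' : Finset S.P.g'.I) (b : S.P.g'.I), (dJ S c ω μ J).F Y' b w
      = ∑ X ∈ (S.small c).filter (fun X => S.P.N.cl X = Y'), ∑ B ∈ X.filter (fun B => S.P.N.up B = b), cnJ S ω μ J X B := by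
    intro Y' b
    unfold dJ ofPieces
    simp only [Finset.sum_apply]
  by_cases hY : S.P.g'.Conn c.R Y
  · rw [Klin_apply c.R (conv S.Γ) J _ hY w, B8.wlin_split_sum, Pi.add_apply, Pi.add_apply]
    -- the bracket vanishes
    have e1 : ∀ b : S.P.g'.I, (∑ Y' : Finset S.P.g'.I, if b ∈ Y' then (dJ S c ω μ J).F Y' b w else 0) - (dJ S c ω μ J).a b = 0 := by
      intro b
      simp only [hF]
      rw [B8.wlin_labels S.P (S.small c) b (cnJ S ω μ J)]
      exact sub_self _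
    have e2 : (∑ b ∈ Y, if Y = {b} then (∑ Y' : Finset S.P.g'.I, if b ∈ Y' then (dJ S c ω μ J).F Y' b w else 0) - (dJ S c ω μ J).a b else 0) = 0 :=
      Finset.sum_eq_zero fun b _ => by rw [e1 b, ite_self]
    -- the labels
    have e3 : ∑ b ∈ Y, (dJ S c ω μ J).F Y b w
        = ∑ X ∈ (S.small c).filter (fun X => S.P.N.cl X = Y), S.Hq ω 0 J X (toC μ) := by
      simp only [hF]
      rw [Finset.sum_comm]
      refine Finset.sum_congr rfl fun X hX => ?_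
      obtain ⟨hXs, hcl⟩ := Finset.mem_filter.1 hX
      have hne : X.Nonempty := (B8.w_mem_small.1 hXs).1.1
      rw [Finset.sum_fiberwise_of_maps_to (g := fun B => S.P.N.up B) (fun B hB => by
        rw [← hcl]
        exact Finset.mem_image_of_mem _ hB)]
      unfold cnJ
      rw [Finset.sum_const, nsmul_eq_mul, ← mul_assoc, mul_one_div, div_self, one_mul]
      exact_mod_cast hne.card_pos.ne'
    rw [e2, e3, add_zero]
    unfold prjL prjS
    rw [Finset.sum_apply, Finset.sum_apply]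
    simp only [Finset.sum_sub_distrib]
    ring
  · have e0 : Klin S.P c.R (conv S.Γ) J (dJ S c ω μ J) Y = 0 := by
      unfold Klin
      rw [if_neg hY]
    rw [e0, Pi.add_apply, Pi.add_apply]
    unfold prjL prjS
    rw [Finset.sum_eq_zero, Finset.sum_eq_zero]
    · simp
    · intro X hX
      have hX' := Finset.mem_filter.1 hX
      exact absurd (hX'.2 ▸ B8.w_conn_cl S.P c.R (B8.w_mem_small.1 hX'.1).1) hY
    · intro X hX
      have hX' := (Finset.mem_filter.1 hX).2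
      exact absurd (hX'.2.2 ▸ B8.w_conn_cl S.P c.R hX'.1) hY

variable {S c}

/-- a labelled activity in the variable `ψ` and the displaced reference point `μ = Ψ_ref - v_n / α` -/
structure JIn (c : B8.Geo) (p : Par) (S : B8.Step G D0 ℓ) (J : Act S.P.g) (μ : G.V → ℝ) (ηr : ℝ≥0) : Prop where
  ok : Act.Ok p c.col c.R J
  fin : actNorm p S.P.g S.Vf J ≠ ⊤
  /-- every non-zero `J X` has one of the four central blocks (IN THE STRIP, as `Inv.label`: outside, activities are junk) -/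
  loc : ∀ X, ¬ NearUnit S.P.g 1 X → ∀ z ∈ strip p.h0 S.P.g X, J X z = 0
  /-- REG (R4): after removing a constant, `‖Ψ_ref - v_n / α‖_{m_j, D (X)} ≤ C m_j / n` -/
  ref : ∀ X ∈ S.small c, NearUnit S.P.g 1 X → ∃ a : ℝ, tnorm S.P.g X (fun v => μ v - a) ≤ ηr
  η_pos : 0 < ηr
  η_lt : ηr < p.h0

/-- the number of small labelled inputs -/
def JCount (c : B8.Geo) (S : B8.Step G D0 ℓ) (Cp : ℕ) : Prop :=
  (open Classical in (Finset.univ.filter fun X : Finset S.P.g.I => S.P.g.Conn c.R X ∧ X.card ≤ c.n0 ∧ NearUnit S.P.g 1 X).card) ≤ Cp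

theorem prj_conv_zero_strip {h0 : ℝ≥0} {g : Grid G} {X : Finset g.I} (Γ : Matrix G.V G.V ℝ) {F : Fn G}
    (hF : ∀ z ∈ strip h0 g X, F z = 0) {z : G.V → ℂ} (hz : z ∈ strip h0 g X) : conv Γ F z = 0 := by
  rw [Scal.conv_congr_strip Γ (F' := 0) hF hz, B8.wlin_conv_zero]
  rfl

theorem prj_charge_zero_strip {h0 : ℝ≥0} {g : Grid G} {X : Finset g.I} (ω : ℝ) (q : ℤ) {F : Fn G}
    (hF : ∀ z ∈ strip h0 g X, F z = 0) {z : G.V → ℂ} (hz : z ∈ strip h0 g X) : chargeProj ω q F z = 0 := by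
  unfold chargeProj
  have : ∀ t : ℝ, F (fun v => z v + (t : ℂ)) = 0 := fun t => hF _ (Hol.strip_add_real hz t)
  simp [this]

theorem prj_Hq_zero {h0 : ℝ≥0} (hh : 0 < h0) (ω : ℝ) {J : Act S.P.g} {X : Finset S.P.g.I} (h : ∀ z ∈ strip h0 S.P.g X, J X z = 0)
    (μ : G.V → ℝ) : S.Hq ω 0 J X (toC μ) = 0 := by
  unfold B8.Step.Hq
  exact prj_conv_zero_strip S.Γ (fun z hz => prj_charge_zero_strip ω 0 h hz) (Scal.toC_mem_strip hh _ _ μ)

/-- the labelled small inputs inside any finite set of small inputs -/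
theorem prj_count_le {Cp : ℕ} (hCp : JCount c S Cp) (s : Finset (Finset S.P.g.I)) (hs : ∀ X ∈ s, X ∈ S.small c)
    (inst : DecidablePred fun X : Finset S.P.g.I => NearUnit S.P.g 1 X) :
    (@Finset.filter _ (fun X => NearUnit S.P.g 1 X) inst s).card ≤ Cp := by
  unfold JCount at hCp
  refine le_trans (Finset.card_le_card ?_) hCp
  intro X hX
  rw [Finset.mem_filter] at hX
  have h1 := hs X hX.1
  unfold B8.Step.small at h1
  simp only [Finset.mem_filter, Finset.mem_univ, true_and] at h1 ⊢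
  exact ⟨h1.1, h1.2, hX.2⟩

/-- sums of a quantity which vanishes off the labelled inputs -/
theorem prj_sum_le {Cp : ℕ} (hCp : JCount c S Cp) (s : Finset (Finset S.P.g.I)) (hs : ∀ X ∈ s, X ∈ S.small c)
    (f : Finset S.P.g.I → ℝ≥0∞) (M : ℝ≥0∞) (h0 : ∀ X ∈ s, ¬ NearUnit S.P.g 1 X → f X = 0) (h1 : ∀ X ∈ s, NearUnit S.P.g 1 X → f X ≤ M) :
    ∑ X ∈ s, f X ≤ Cp * M := by
  classical
  calc ∑ X ∈ s, f X = ∑ X ∈ s.filter (fun X => NearUnit S.P.g 1 X), f X := by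
        symm
        apply Finset.sum_subset (Finset.filter_subset _ _)
        intro X hX hX'
        exact h0 X hX fun hn => hX' (Finset.mem_filter.2 ⟨hX, hn⟩)
    _ ≤ ∑ _X ∈ s.filter (fun X => NearUnit S.P.g 1 X), M :=
        Finset.sum_le_sum fun X hX => h1 X (Finset.mem_filter.1 hX).1 (Finset.mem_filter.1 hX).2
    _ = ((s.filter (fun X => NearUnit S.P.g 1 X)).card : ℝ≥0∞) * M := by rw [Finset.sum_const, nsmul_eq_mul]
    _ ≤ Cp * M := mul_le_mul' (by exact_mod_cast prj_count_le hCp s hs _) le_rfl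

/-- **LEAF `L-PAIR-J6`**.  plan: as `B8.w_clinS_norm`; the terms with `¬ NearUnit X` vanish IN THE STRIP (`J X = 0` on the strip of `X`, so `conv Γ (J X) w = 0` and `Hq 0 J X (toC μ) = 0`: integrands vanish; `B8.w_fnSize_congr`); the others: `prj_small_gain`; `|cl X| ≤ |X|`, `A ≥ 1`. -/
theorem prj_small_norm (h : JCtx c p S) {Cg Cd Cnl ε0 η : ℝ≥0} {β Cγ αmax : ℝ} (hg : StepGain p c.r c.R c.n0 Cg Cd Cnl ε0 η β S.P S.Γ S.Vf S.Vc)
    (hc : JChg p S β Cγ αmax) {J : Act S.P.g} {μ : G.V → ℝ} {ηr : ℝ≥0} (hJ : JIn c p S J μ ηr) {Cp : ℕ} (hCp : JCount c S Cp) :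
    actNorm p S.P.g' S.Vc (prjS S c p.ω μ J) ≤ Cp * gJ c p ℓ Cg Cγ αmax ηr * actNorm p S.P.g S.Vf J := by
  rw [B8.w_actNorm_le_iff]
  intro Y
  unfold prjS
  generalize hs : @Finset.filter _ (fun X => S.P.N.cl X = Y) _ (S.small c) = s
  have hmem : ∀ X ∈ s, X ∈ S.small c ∧ S.P.N.cl X = Y := by
    intro X hX
    rw [← hs, Finset.mem_filter] at hX
    exact hX
  calc ENNReal.ofReal (p.A ^ Y.card) * fnSize p S.P.g' S.Vc Y
        (∑ X ∈ s, fun w => conv S.Γ (J X) w - S.Hq p.ω 0 J X (toC μ))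
      ≤ ENNReal.ofReal (p.A ^ Y.card) * ∑ X ∈ s, fnSize p S.P.g' S.Vc Y
          (fun w => conv S.Γ (J X) w - S.Hq p.ω 0 J X (toC μ)) :=
        mul_le_mul' le_rfl (B8.w_fnSize_sum_le p S.P.g' S.Vc Y s _)
    _ = ∑ X ∈ s, ENNReal.ofReal (p.A ^ Y.card) * fnSize p S.P.g' S.Vc Y
          (fun w => conv S.Γ (J X) w - S.Hq p.ω 0 J X (toC μ)) := Finset.mul_sum _ _ _
    _ ≤ Cp * (gJ c p ℓ Cg Cγ αmax ηr * actNorm p S.P.g S.Vf J) := by
        refine prj_sum_le hCp s (fun X hX => (hmem X hX).1) _ _ ?_ ?_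
        · intro X hX hn
          have h0 := hJ.loc X hn
          have e : fnSize p S.P.g' S.Vc Y (fun w => conv S.Γ (J X) w - S.Hq p.ω 0 J X (toC μ))
              = fnSize p S.P.g' S.Vc Y 0 := by
            refine B8.w_fnSize_congr p S.P.g' S.Vc Y fun w hw => ?_
            have hw' : w ∈ strip p.h0 S.P.g X := B8.w_strip_coarse S.P p.h0 (hmem X hX).2.subset hw
            rw [prj_Hq_zero h.hh p.ω h0, prj_conv_zero_strip S.Γ h0 hw']
            simp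
          rw [e, B8.w_fnSize_zero, mul_zero]
        · intro X hX hn
          obtain ⟨hXs, hXY⟩ := hmem X hX
          obtain ⟨a, ha⟩ := hJ.ref X hXs hn
          have hfin : fnSize p S.P.g S.Vf X (J X) ≠ ⊤ :=
            ne_top_of_le_ne_top hJ.fin (B8.w_fnSize_le_actNorm p h.hA S.P.g S.Vf J X)
          have h1 := prj_small_gain h hg hc hXs (hJ.ok.fn X) hfin μ a ηr hJ.η_pos hJ.η_lt ha
          rw [hXY] at h1
          have h2 : Y.card ≤ X.card := by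
            rw [← hXY]
            exact Finset.card_image_le
          have h3 : ENNReal.ofReal (p.A ^ Y.card) ≤ ENNReal.ofReal (p.A ^ X.card) :=
            ENNReal.ofReal_le_ofReal (pow_le_pow_right₀ h.hA h2)
          calc ENNReal.ofReal (p.A ^ Y.card) * fnSize p S.P.g' S.Vc Y
                (fun w => conv S.Γ (J X) w - S.Hq p.ω 0 J X (toC μ))
              ≤ ENNReal.ofReal (p.A ^ X.card) * (gJ c p ℓ Cg Cγ αmax ηr * fnSize p S.P.g S.Vf X (J X)) := mul_le_mul' h3 h1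
            _ = gJ c p ℓ Cg Cγ αmax ηr * (ENNReal.ofReal (p.A ^ X.card) * fnSize p S.P.g S.Vf X (J X)) := by ring
            _ ≤ _ := mul_le_mul' le_rfl (B8.w_le_actNorm p S.P.g S.Vf J X)
    _ = _ := by ring

/-- **LEAF `L-PAIR-J7`**: the labels of `dJ` are closures of small polymers.  plan: unfold `dJ`, `ofPieces`; if `F Y b ≠ 0` there are `X` small, `cl X = Y`, `B ∈ X`, `up B = b`; `StepHyp.geo`. -/
theorem prj_dJ_small (h : JCtx c p S) (ω : ℝ) (μ : G.V → ℝ) (J : Act S.P.g) : (dJ S c ω μ J).Small c.r S.P.g' := by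
  classical
  intro Y b hYb
  unfold dJ ofPieces
  refine Finset.sum_eq_zero fun X hX => ?_
  obtain ⟨hXs, hcl⟩ := Finset.mem_filter.1 hX
  obtain ⟨hconn, hcard⟩ := B8.w_mem_small.1 hXs
  obtain ⟨g1, g2, -⟩ := h.hyp.geo X hconn
  have hemp : X.filter (fun B => S.P.N.up B = b) = ∅ := by
    rw [Finset.filter_eq_empty_iff]
    intro B hB hup
    apply hYb
    rw [← hcl]
    exact ⟨g1, g2 hcard, hup ▸ Finset.mem_image_of_mem _ hB⟩
  rw [hemp, Finset.sum_empty]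

theorem prj_dJ_fn (col : ℕ) (ω : ℝ) (μ : G.V → ℝ) (J : Act S.P.g) (Y : Finset S.P.g'.I) (b : S.P.g'.I) :
    LocalFn p col S.P.g' {b} ((dJ S c ω μ J).F Y b) := by
  classical
  unfold dJ ofPieces
  exact Scal.localFn_sum _ _ fun X _ => Scal.localFn_sum _ _ fun B _ => Scal.localFn_const p col S.P.g' {b} _

/-- the modulus of the neutral constant of one small input -/
theorem prj_Hq_bound (h : JCtx c p S) {J : Act S.P.g} {μ : G.V → ℝ} {ηr : ℝ≥0} (hJ : JIn c p S J μ ηr) {X : Finset S.P.g.I} (hX : X ∈ S.small c)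
    (hn : NearUnit S.P.g 1 X) : (‖S.Hq p.ω 0 J X (toC μ)‖₊ : ℝ≥0∞) ≤ cstN c * actNorm p S.P.g S.Vf J := by
  obtain ⟨a, ha⟩ := hJ.ref X hX hn
  have hfin : fnSize p S.P.g S.Vf X (J X) ≠ ⊤ :=
    ne_top_of_le_ne_top hJ.fin (B8.w_fnSize_le_actNorm p h.hA S.P.g S.Vf J X)
  have h1 := (prj_neutral_ref h (hJ.ok.fn X) hfin μ a ηr hJ.η_pos hJ.η_lt ha).1
  refine h1.trans (mul_le_mul' ?_ (B8.w_fnSize_le_actNorm p h.hA S.P.g S.Vf J X))
  have hcard : X.card ≤ c.n0 := by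
    unfold B8.Step.small at hX
    simp only [Finset.mem_filter, Finset.mem_univ, true_and] at hX
    exact hX.2
  unfold cstN
  calc (c.cst : ℝ≥0∞) ^ X.card ≤ ((max 1 c.cst : ℝ≥0) : ℝ≥0∞) ^ X.card :=
        pow_le_pow_left' (by exact_mod_cast le_max_right _ _) _
    _ ≤ _ := pow_le_pow_right₀ (by exact_mod_cast le_max_left _ _) hcard

/-- the pieces of one input over one coarse block -/
theorem prj_cnJ_sum_le (ω : ℝ) (μ : G.V → ℝ) (J : Act S.P.g) (X : Finset S.P.g.I) (t : Finset S.P.g.I) (ht : t ⊆ X) :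
    (‖∑ B ∈ t, cnJ S ω μ J X B‖₊ : ℝ≥0∞) ≤ ‖S.Hq ω 0 J X (toC μ)‖₊ := by
  unfold cnJ
  rw [Finset.sum_const, nsmul_eq_mul, ← mul_assoc, nnnorm_mul, ENNReal.coe_mul]
  have h1 : ‖(t.card : ℂ) * (1 / (X.card : ℂ))‖₊ ≤ 1 := by
    rw [← NNReal.coe_le_coe, coe_nnnorm, norm_mul, norm_div, norm_one, Complex.norm_natCast, Complex.norm_natCast]
    have hc : (t.card : ℝ) ≤ (X.card : ℝ) := by exact_mod_cast Finset.card_le_card ht
    rcases Nat.eq_zero_or_pos X.card with h0 | h0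
    · rw [h0]
      simp
    · have h0' : (0 : ℝ) < (X.card : ℝ) := by exact_mod_cast h0
      rw [NNReal.coe_one, mul_one_div, div_le_one h0']
      exact hc
  calc (‖(t.card : ℂ) * (1 / (X.card : ℂ))‖₊ : ℝ≥0∞) * ‖S.Hq ω 0 J X (toC μ)‖₊ ≤ 1 * ‖S.Hq ω 0 J X (toC μ)‖₊ :=
        mul_le_mul' (by exact_mod_cast h1) le_rfl
    _ = _ := one_mul _

/-- **LEAF `L-PAIR-J8`: the rooted size of `dJ`**.  plan: `fnSize` of a constant `≤` its modulus (`B8.w_fnSize_le_of_bound`); `∑_Y ∑_{X small, cl X = Y} = ∑_{X small}` (`Finset.sum_fiberwise`);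
`∑_{B ∈ X, up B = b} |cnJ X B| ≤ |Hq 0 J X (toC μ)|`; this vanishes unless `NearUnit X`, and is `≤ cst^{|X|} fnSize (J X) ≤ cstN ‖J‖` (`prj_neutral_ref`, first clause). -/
theorem prj_dJ_size (h : JCtx c p S) {J : Act S.P.g} {μ : G.V → ℝ} {ηr : ℝ≥0} (hJ : JIn c p S J μ ηr) {Cp : ℕ} (hCp : JCount c S Cp) :
    (dJ S c p.ω μ J).size p S.Vc ≤ 2 * Cp * cstN c * actNorm p S.P.g S.Vf J := by
  classical
  have hδ : 0 ≤ p.δ := h.hyp.adm.δ_pos.le
  have hκ : 0 ≤ p.κ := h.hyp.adm.κ_pos.le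
  have hsum : ∑ X ∈ S.small c, (‖S.Hq p.ω 0 J X (toC μ)‖₊ : ℝ≥0∞) ≤ Cp * (cstN c * actNorm p S.P.g S.Vf J) := by
    refine prj_sum_le hCp _ (fun X hX => hX) _ _ ?_ ?_
    · intro X _ hn
      rw [prj_Hq_zero h.hh p.ω (hJ.loc X hn)]
      simp
    · intro X hX hn
      exact prj_Hq_bound h hJ hX hn
  unfold Desig.size
  refine iSup_le fun b => ?_
  have hF : ∑ Y : Finset S.P.g'.I, fnSize p S.P.g' S.Vc {b} ((dJ S c p.ω μ J).F Y b)
      ≤ ∑ X ∈ S.small c, (‖S.Hq p.ω 0 J X (toC μ)‖₊ : ℝ≥0∞) := by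
    rw [← Finset.sum_fiberwise (S.small c) (fun X => S.P.N.cl X)]
    refine Finset.sum_le_sum fun Y _ => ?_
    show fnSize p S.P.g' S.Vc {b} (∑ X ∈ (S.small c).filter (fun X => S.P.N.cl X = Y),
      ∑ B ∈ X.filter (fun B => S.P.N.up B = b), fun _ => cnJ S p.ω μ J X B) ≤ _
    refine (B8.w_fnSize_sum_le p S.P.g' S.Vc {b} _ _).trans (Finset.sum_le_sum fun X _ => ?_)
    refine B8.w_fnSize_le_of_bound p hδ hκ _ _ _ _ _ fun z _ => ?_
    have e : (∑ B ∈ X.filter (fun B => S.P.N.up B = b), fun _ => cnJ S p.ω μ J X B : Fn G) z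
        = ∑ B ∈ X.filter (fun B => S.P.N.up B = b), cnJ S p.ω μ J X B := by
      rw [Finset.sum_apply]
    rw [e]
    exact prj_cnJ_sum_le p.ω μ J X _ (Finset.filter_subset _ _)
  have ha : (‖(dJ S c p.ω μ J).a b‖₊ : ℝ≥0∞) ≤ ∑ X ∈ S.small c, (‖S.Hq p.ω 0 J X (toC μ)‖₊ : ℝ≥0∞) := by
    show (‖∑ X ∈ S.small c, ∑ B ∈ X.filter (fun B => S.P.N.up B = b), cnJ S p.ω μ J X B‖₊ : ℝ≥0∞) ≤ _
    calc (‖∑ X ∈ S.small c, ∑ B ∈ X.filter (fun B => S.P.N.up B = b), cnJ S p.ω μ J X B‖₊ : ℝ≥0∞)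
        ≤ ∑ X ∈ S.small c, (‖∑ B ∈ X.filter (fun B => S.P.N.up B = b), cnJ S p.ω μ J X B‖₊ : ℝ≥0∞) := by
          exact_mod_cast nnnorm_sum_le _ _
      _ ≤ _ := Finset.sum_le_sum fun X _ => prj_cnJ_sum_le p.ω μ J X _ (Finset.filter_subset _ _)
  calc _ ≤ Cp * (cstN c * actNorm p S.P.g S.Vf J) + Cp * (cstN c * actNorm p S.P.g S.Vf J) :=
        add_le_add (hF.trans hsum) (ha.trans hsum)
    _ = _ := by ring

/-- the paired step does not see the regulators: the SAME `next` is estimated in the two norms -/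
theorem prj_next_reg (P : Pair G D0 ℓ) (Γ : Matrix G.V G.V ℝ) (Vf Vf' : Extra P.g) (Vc Vc' : Extra P.g') (c : B8.Geo) (ω : ℝ) (zn : Zn) (t z : ℂ)
    (Ψ : G.V → ℝ) (x : St P.g) : next (⟨P, Γ, Vf, Vc⟩ : B8.Step G D0 ℓ) c ω zn t z Ψ x = next (⟨P, Γ, Vf', Vc'⟩ : B8.Step G D0 ℓ) c ω zn t z Ψ x := rfl

/-- `O (1)` small labelled inputs (PROVED from `prg_count_label`) -/
theorem prj_count (c : B8.Geo) : ∃ Cp : ℕ, ∀ (G : Geom) (D0 ℓ : ℕ) (S : B8.Step G D0 ℓ), JCount c S Cp := by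
  obtain ⟨C, hC⟩ := prg_count_label c.R c.n0
  exact ⟨C, fun G D0 ℓ S => hC G S.P.g S.P.ok⟩

/-! ## 5. EXIT -/

/-- **EST-J, one step** = [F] (obs:label-recurrence) with explicit constants; PROVED from the leaves.
`ε ≥ ‖K^τ‖` (full unit norm, `≤ C (U + w + d)` by EST-D / REG R2), `‖d^τ‖ ≤ Cd ε` (EST-S). -/
theorem prj_label_step (h : JCtx c p S) {Cg Cd Cnl ε0 η : ℝ≥0} {β Cγ αmax : ℝ} (hg : StepGain p c.r c.R c.n0 Cg Cd Cnl ε0 η β S.P S.Γ S.Vf S.Vc)
    (hc : JChg p S β Cγ αmax) (zn : Zn) (t z : ℂ) (Ψ lam : G.V → ℝ) (x : St S.P.g) {ηr : ℝ≥0} (hJ : JIn c p S (shA x.JT lam) (Ψ - lam) ηr)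
    {Cp : ℕ} (hCp : JCount c S Cp) (hCd : 0 < Cd) {ε : ℝ≥0} (hε : ε < ε0)
    (hK : Act.Ok p c.col c.R (shA x.KT lam)) (hKε : actNorm p S.P.g S.Vf (shA x.KT lam) ≤ ε)
    (hd : (shD (dT S c p.ω zn t z Ψ x.K0 x.KT) lam).Ok p c.col c.r) (hdε : (shD (dT S c p.ω zn t z Ψ x.K0 x.KT) lam).size p S.Vc ≤ Cd * ε) :
    Act.Ok p c.col c.R (shA (next S c p.ω zn t z Ψ x).JT lam) ∧
    actNorm p S.P.g' S.Vc (shA (next S c p.ω zn t z Ψ x).JT lam)
      ≤ (Cp * gJ c p ℓ Cg Cγ αmax ηr + η + Cnl * ε * (1 + 2 * Cp * cstN c)) * actNorm p S.P.g S.Vf (shA x.JT lam) := by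
  rw [prj_next_shift S c p.ω zn t z Ψ lam x]
  set Kt := shA x.KT lam with hKt
  set J := shA x.JT lam with hJdef
  set dt := shD (dT S c p.ω zn t z Ψ x.K0 x.KT) lam with hdt
  set dj := dJ S c p.ω (Ψ - lam) J with hdj
  have H : LabHyp p c.col c.r c.R c.n0 c.cst S.P S.Γ S.Vf S.Vc Kt J dt dj :=
    ⟨lt_of_lt_of_le one_pos h.hA, h.hR, h.hyp.reg, hK, ne_top_of_le_ne_top ENNReal.coe_ne_top hKε, hJ.ok, hJ.fin, hd,
      prj_dJ_small h _ _ _, prj_dJ_fn _ _ _ _⟩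
  have hsz : dj.size p S.Vc ≤ 2 * Cp * cstN c * actNorm p S.P.g S.Vf J := prj_dJ_size h hJ hCp
  have hcN : cstN c ≠ ⊤ := by
    unfold cstN
    exact ENNReal.pow_ne_top ENNReal.coe_ne_top
  have hszfin : dj.size p S.Vc ≠ ⊤ :=
    ne_top_of_le_ne_top (ENNReal.mul_ne_top (ENNReal.mul_ne_top (ENNReal.mul_ne_top (by norm_num) (ENNReal.natCast_ne_top _)) hcN) hJ.fin) hsz
  have h1 := hg.label H hCd hε hKε hdε hszfin
  refine ⟨lab_ok H, ?_⟩
  have h2 : labJ S.P S.Γ c.r c.R Kt J dt dj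
      = (labJ S.P S.Γ c.r c.R Kt J dt dj - Klin S.P c.R (conv S.Γ) J dj) + (prjL S c J + prjS S c p.ω (Ψ - lam) J) := by
    rw [← prj_Klin_dJ]
    abel
  rw [h2]
  have h3 : actNorm p S.P.g' S.Vc (prjL S c J) ≤ η * actNorm p S.P.g S.Vf J := hg.large J
  have h4 := prj_small_norm h hg hc hJ hCp
  calc actNorm p S.P.g' S.Vc ((labJ S.P S.Γ c.r c.R Kt J dt dj - Klin S.P c.R (conv S.Γ) J dj) + (prjL S c J + prjS S c p.ω (Ψ - lam) J))
      ≤ actNorm p S.P.g' S.Vc (labJ S.P S.Γ c.r c.R Kt J dt dj - Klin S.P c.R (conv S.Γ) J dj)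
          + (actNorm p S.P.g' S.Vc (prjL S c J) + actNorm p S.P.g' S.Vc (prjS S c p.ω (Ψ - lam) J)) :=
        (Scal.actNorm_add_le _ _ _ _ _).trans (add_le_add le_rfl (Scal.actNorm_add_le _ _ _ _ _))
    _ ≤ Cnl * ε * (actNorm p S.P.g S.Vf J + 2 * Cp * cstN c * actNorm p S.P.g S.Vf J)
          + (η * actNorm p S.P.g S.Vf J + Cp * gJ c p ℓ Cg Cγ αmax ηr * actNorm p S.P.g S.Vf J) :=
        add_le_add (h1.trans (mul_le_mul' le_rfl (add_le_add le_rfl hsz))) (add_le_add h3 h4)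
    _ = _ := by ring

/-- the neutral constant of an input which vanishes in its strip vanishes -/
theorem prj_cnJ_zero (h0 : ℝ≥0) (hh : 0 < h0) (ω : ℝ) (Ψ : G.V → ℝ) (JT : Act S.P.g) (X : Finset S.P.g.I) (B : S.P.g.I)
    (h : ∀ w ∈ strip h0 S.P.g X, JT X w = 0) : cnJ S ω Ψ JT X B = 0 := by
  have h1 : ∀ w ∈ strip h0 S.P.g X, chargeProj ω 0 (JT X) w = (0 : Fn G) w := by
    intro w hw
    have e : ∀ t : ℝ, JT X (fun v => w v + (t : ℂ)) = 0 := fun t => h _ (Hol.strip_add_real hw t)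
    simp [chargeProj, e]
  have h2 : conv S.Γ (0 : Fn G) = 0 := by
    funext w
    simp [conv]
  unfold cnJ B8.Step.Hq
  rw [Scal.conv_congr_strip S.Γ h1 (Scal.toC_mem_strip hh S.P.g X Ψ), h2]
  simp

/-- **LEAF `L-PAIR-J9`: the location of the label is propagated** (no estimate; v2 18:40Z: IN THE STRIPS = `Inv.label`).
plan: `pr_Kprime_transport` (identity embeddings, `φ₀ = φ₁ =` evaluation at `w`, `Pi.evalRingHom`) between `(KT + s JT, dT + s dJ)` and `(KT, dT)` on `Y`: for `cl V ⊆ Y` no component `X` of `V` is `NearUnit` (`prg_near_cl`), so `JT X = 0` on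
`strip h0 g X ∋ w + toC ζ` (`Scal.conv_congr_strip`, `Scal.strip_coarse`);  for `b ∈ Y`: `b` is not central, so `dJ.F Y' b = 0`, `dJ.a b = 0` (`prg_label_central`: a small `NearUnit` input sits over central blocks;
`JT X = 0` on real fields `⟹ chargeProj ω 0 (JT X) = 0` on real fields `⟹ cnJ X B = 0`).  Then `famT s Y w` does not depend on `s`: `deriv_const`. -/
theorem prj_label_loc (hcen : Cen S.P) (hL : c.R * c.n0 + 1 ≤ 2 ^ ℓ) (h0 : ℝ≥0) (hh : 0 < h0) (ω : ℝ) (zn : Zn) (t z : ℂ) (Ψ : G.V → ℝ) (x : St S.P.g)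
    (hsm : (dT S c ω zn t z Ψ x.K0 x.KT).Small c.r S.P.g') (hsmJ : (dJ S c ω Ψ x.JT).Small c.r S.P.g')
    (hloc : ∀ X, ¬ NearUnit S.P.g 1 X → ∀ w ∈ strip h0 S.P.g X, x.JT X w = 0) :
    ∀ Y, ¬ NearUnit S.P.g' 1 Y → ∀ w ∈ strip h0 S.P.g' Y, (next S c ω zn t z Ψ x).JT Y w = 0 := by
  classical
  intro Y hY w hw
  -- the pieces in the label direction vanish at the blocks of `Y`
  have hcn : ∀ b ∈ Y, ∀ X ∈ S.small c, ∀ B ∈ X.filter (fun B => S.P.N.up B = b), cnJ S ω Ψ x.JT X B = 0 := by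
    intro b hb X hX B hB
    refine prj_cnJ_zero h0 hh ω Ψ x.JT X B (hloc X fun hn => hY ?_)
    obtain ⟨hB1, hB2⟩ := Finset.mem_filter.1 hB
    obtain ⟨hc1, hc2⟩ := (Finset.mem_filter.1 hX).2
    exact ⟨b, hb, hB2 ▸ prg_label_central hcen c.R c.n0 hL X hc1 hc2 hn B hB1⟩
  have hJF : ∀ b ∈ Y, ∀ Y', (dJ S c ω Ψ x.JT).F Y' b = 0 := by
    intro b hb Y'
    show ∑ X ∈ (S.small c).filter (fun X => S.P.N.cl X = Y'), ∑ B ∈ X.filter (fun B => S.P.N.up B = b),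
      (fun _ => cnJ S ω Ψ x.JT X B : Fn G) = 0
    refine Finset.sum_eq_zero fun X hX => Finset.sum_eq_zero fun B hB => ?_
    rw [hcn b hb X (Finset.mem_filter.1 hX).1 B hB]
    rfl
  have hJa : ∀ b ∈ Y, (dJ S c ω Ψ x.JT).a b = 0 := by
    intro b hb
    show ∑ X ∈ S.small c, ∑ B ∈ X.filter (fun B => S.P.N.up B = b), cnJ S ω Ψ x.JT X B = 0
    exact Finset.sum_eq_zero fun X hX => Finset.sum_eq_zero fun B hB => hcn b hb X hX B hB
  have key : ∀ s : ℂ, famT S c ω zn t z Ψ x s Y w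
      = Kprime S.P c.r c.R (conv S.Γ) x.KT (dT S c ω zn t z Ψ x.K0 x.KT) Y w := by
    intro s
    have hd₀ : (dLin (dT S c ω zn t z Ψ x.K0 x.KT) (dJ S c ω Ψ x.JT) s).Small c.r S.P.g' := by
      intro Y' b hb
      show (dT S c ω zn t z Ψ x.K0 x.KT).F Y' b + s • (dJ S c ω Ψ x.JT).F Y' b = 0
      rw [hsm Y' b hb, hsmJ Y' b hb, smul_zero, add_zero]
    have := pr_Kprime_transport (Pi.evalRingHom (fun _ : G.V → ℂ => ℂ) w) (Pi.evalRingHom (fun _ : G.V → ℂ => ℂ) w)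
      (Function.Embedding.refl S.P.g.I) (Function.Embedding.refl S.P.g'.I) (fun _ _ => rfl) (fun _ _ => rfl) (fun _ => rfl)
      (fun a' _ _ => ⟨a', rfl⟩) c.r c.R (conv S.Γ) (conv S.Γ) (x.KT + s • x.JT) x.KT
      (dLin (dT S c ω zn t z Ψ x.K0 x.KT) (dJ S c ω Ψ x.JT) s) (dT S c ω zn t z Ψ x.K0 x.KT) hd₀ hsm Y
      (fun _ _ b' _ => ⟨b', rfl⟩) ?_ ?_ ?_
    · rw [Finset.map_refl] at this
      exact this
    · intro V hV
      simp only [Pi.evalRingHom_apply]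
      refine Scal.conv_congr_strip S.Γ (fun y hy => ?_) hw
      rw [Finset.prod_apply, Finset.prod_apply]
      refine Finset.prod_congr rfl fun X hX => ?_
      have hXY : S.P.N.cl X ⊆ Y := (Finset.image_subset_image (Alg.comps_subset hX)).trans hV
      have hX0 : x.JT X y = 0 := by
        refine hloc X (fun hn => hY ?_) y (Scal.strip_coarse h0 S.P hXY hy)
        obtain ⟨b, hb, hb'⟩ := prg_near_cl hcen X hn
        exact ⟨b, hXY hb, hb'⟩
      rw [Finset.map_refl]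
      show x.KT X y + s • x.JT X y = x.KT X y
      rw [hX0, smul_zero, add_zero]
    · intro b hb Y'
      congr 1
      rw [Finset.map_refl]
      show (dT S c ω zn t z Ψ x.K0 x.KT).F Y' b + s • (dJ S c ω Ψ x.JT).F Y' b = (dT S c ω zn t z Ψ x.K0 x.KT).F Y' b
      rw [hJF b hb Y', smul_zero, add_zero]
    · intro b hb
      have e : (dLin (dT S c ω zn t z Ψ x.K0 x.KT) (dJ S c ω Ψ x.JT) s).a b
          = (dT S c ω zn t z Ψ x.K0 x.KT).a ((Function.Embedding.refl S.P.g'.I) b) := by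
        show (dT S c ω zn t z Ψ x.K0 x.KT).a b + s • (dJ S c ω Ψ x.JT).a b = (dT S c ω zn t z Ψ x.K0 x.KT).a b
        rw [hJa b hb, smul_zero, add_zero]
      rw [e]
  show deriv (fun s : ℂ => famT S c ω zn t z Ψ x s Y w) 0 = 0
  simp only [key]
  exact deriv_const _ _

end

end Claimed.Agent.R285.F6.Pr
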