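import Mathlib

/-!
# ROW 285, unit OBS, block REC of `Obs.pair_stop` ([F] L6.2 ⟹ (obs:label-stop), (obs:unlabelled-stop), bound of `D_ex`): ABSTRACT REAL SEQUENCES.      (architect helper94)

Paper-free, Mathlib only.  Stage `k` = absolute index `j0 + k`; horizon `i` = the stop.  `U k = |t| + |z| + ‖𝓡‖` (plane state, `≤ C u k`, `u k` = the norm used in `F6.StepIneq`), `w k` = wall size, `d k` = defect size,
`vJ k` = label size, `Dx k` = the partial product `D_ex` over the steps `< k`.  The rows are only assumed as long as the state is in the ball `σ k = U k + w k + d k ≤ ρ` (the theorem proves that it stays there).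
`gcv θ ε u k = θ^k ε + ∑_{l ≤ k} θ^{k-l} u l` is `F6.cvl θ ε u k` (`Obs/CenterFlow.lean`) by `rfl`.

## Leaf REC-A `pair_rec`.   Constants.  `ρ1 = min ρ ((1 - θ) / (4 C))`; `θ1 = θ + C ρ1 ≤ (3 θ + 1)/4`... precisely: while `σ ≤ ρ1`: `C (U + w)² ≤ C ρ1 (U + w)`, `C σ² ≤ C ρ1 σ`, so
  `w' ≤ θ1 w + 2 C U`,   `d' ≤ θ1 d + 2 C (U + w)`   (`C ρ1 ≤ 1 ≤ C`).
LYAPUNOV: `S = w + η d`, `η = (1 - θ1) / (4 C)`:  `S' ≤ (θ1 + 2 C η) w + θ1 η d + 2 C (1 + η) U ≤ θ' S + 4 C U`, `θ' = (1 + θ1) / 2 < 1`.  Hence `S k ≤ θ'^k S 0 + 4 C ∑_{l < k} θ'^{k-1-l} U l`, `S 0 ≤ 2 C ε`,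
  `σ k ≤ U k + S k / η ≤ C' gcv θ' ε u k`, `C' = C + (2 C + 4 C² / θ') / η`.   BALL: `gcv θ' ε u k ≤ c + c / (1 - θ')`, so `σ k ≤ ρ1` if `c = ρ1 (1 - θ') / (2 C')`.   Induction on `k` (strong: all `l ≤ k`).
LABEL: `θ + C σ ≤ θ e^{C σ / θ}`, so `vJ k Dx k ≤ vJ 0 θ^k exp ((C/θ + C) ∑_{l<k} σ l) ≤ vJ 0 θ'^k exp (C'' ∑_{l<k} gcv θ' ε u l)`, `C'' = (C/θ + C) C'`.  Return `max C' C''`.
-/

set_option autoImplicit false

namespace Claimed.Agent.R285.F6.Pr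

/-- geometric convolution (`= F6.cvl`) -/
def gcv (θ ε : ℝ) (u : ℕ → ℝ) (k : ℕ) : ℝ := θ ^ k * ε + ∑ l ∈ Finset.range (k + 1), θ ^ (k - l) * u l

/-- the four recurrences of [F] Lemma 6.2, up to the stop `i`, conditional on the small ball `ρ` -/
structure Rows (θ C ρ : ℝ) (i : ℕ) (U w d vJ Dx : ℕ → ℝ) : Prop where
  U0 : ∀ k, 0 ≤ U k
  w0 : ∀ k, 0 ≤ w k
  d0 : ∀ k, 0 ≤ d k
  J0 : ∀ k, 0 ≤ vJ k
  D0 : ∀ k, 0 ≤ Dx k
  /-- (obs:wall-recurrence) -/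
  w_row : ∀ k, k < i → U k + w k + d k ≤ ρ → w (k + 1) ≤ θ * w k + C * U k + C * (U k + w k) ^ 2
  /-- (obs:defect-recurrence) -/
  d_row : ∀ k, k < i → U k + w k + d k ≤ ρ → d (k + 1) ≤ θ * d k + C * (U k + w k) + C * (U k + w k + d k) ^ 2
  /-- (obs:label-recurrence) -/
  J_row : ∀ k, k < i → U k + w k + d k ≤ ρ → vJ (k + 1) ≤ (θ + C * (U k + w k + d k)) * vJ k
  /-- (obs:scalar-log-bound), all affected blocks of one step together -/
  D_row : ∀ k, k < i → U k + w k + d k ≤ ρ → Dx (k + 1) ≤ Dx k * Real.exp (C * (U k + w k + d k))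

theorem gcv_zero (θ ε : ℝ) (u : ℕ → ℝ) : gcv θ ε u 0 = ε + u 0 := by
  simp [gcv]

theorem gcv_succ (θ ε : ℝ) (u : ℕ → ℝ) (k : ℕ) : gcv θ ε u (k + 1) = θ * gcv θ ε u k + u (k + 1) := by
  unfold gcv
  have e : ∀ l ∈ Finset.range (k + 1), θ ^ (k + 1 - l) * u l = θ * (θ ^ (k - l) * u l) := by
    intro l hl
    have hl' : l ≤ k := Nat.lt_succ_iff.1 (Finset.mem_range.1 hl)
    rw [Nat.succ_sub hl', pow_succ']
    ring
  rw [Finset.sum_range_succ _ (k + 1), Finset.sum_congr rfl e, ← Finset.mul_sum, Nat.sub_self, pow_zero, one_mul, pow_succ']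
  ring

/-- one step of the Lyapunov function `S = w + η d` inside the ball `ρ1` -/
theorem pair_rec_step (θ C ρ1 θ1 η θ' U w d w' d' : ℝ) (hC : 1 ≤ C) (hκ : C * ρ1 ≤ 1) (hθ1 : θ1 = θ + C * ρ1)
    (hη0 : 0 ≤ η) (hη1 : η ≤ 1) (hθ' : θ1 + 2 * C * η = θ') (hU : 0 ≤ U) (hw : 0 ≤ w) (hd : 0 ≤ d) (hσ : U + w + d ≤ ρ1)
    (h1 : w' ≤ θ * w + C * U + C * (U + w) ^ 2) (h2 : d' ≤ θ * d + C * (U + w) + C * (U + w + d) ^ 2) :
    w' + η * d' ≤ θ' * (w + η * d) + 4 * C * U := by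
  have hC0 : 0 ≤ C := by linarith
  have a1 : (U + w) ^ 2 ≤ ρ1 * (U + w) := by nlinarith
  have a2 : (U + w + d) ^ 2 ≤ ρ1 * (U + w + d) := by nlinarith
  have a3 := mul_le_mul_of_nonneg_left a1 hC0
  have a4 := mul_le_mul_of_nonneg_left a2 hC0
  have k1 : C * ρ1 * U ≤ C * U := by
    have := mul_le_mul_of_nonneg_right (hκ.trans hC) hU
    linarith
  have k2 : C * ρ1 * (U + w) ≤ C * (U + w) := by
    have := mul_le_mul_of_nonneg_right (hκ.trans hC) (add_nonneg hU hw)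
    linarith
  have b1 : w' ≤ θ1 * w + 2 * C * U := by
    rw [hθ1]
    have e : C * (ρ1 * (U + w)) = C * ρ1 * U + C * ρ1 * w := by ring
    linarith
  have b2 : d' ≤ θ1 * d + 2 * C * (U + w) := by
    rw [hθ1]
    have e : C * (ρ1 * (U + w + d)) = C * ρ1 * (U + w) + C * ρ1 * d := by ring
    linarith
  have b3 := mul_le_mul_of_nonneg_left b2 hη0
  have c1 : θ1 * (η * d) ≤ θ' * (η * d) := by
    refine mul_le_mul_of_nonneg_right ?_ (mul_nonneg hη0 hd)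
    have : 0 ≤ 2 * C * η := by positivity
    linarith
  have c2 : η * (C * U) ≤ C * U := by
    have := mul_le_mul_of_nonneg_right hη1 (mul_nonneg hC0 hU)
    linarith
  have e1 : η * (θ1 * d + 2 * C * (U + w)) = θ1 * (η * d) + 2 * (η * (C * U)) + 2 * C * η * w := by ring
  have e2 : θ' * (w + η * d) = θ1 * w + 2 * C * η * w + θ' * (η * d) := by rw [← hθ']; ring
  linarith

/-- bounds of the geometric convolution -/
theorem pair_rec_G (θ' c ε : ℝ) (u : ℕ → ℝ) (i : ℕ) (h0 : 0 < θ') (h1 : θ' < 1) (hc : 0 < c) (hε0 : 0 ≤ ε) (hεc : ε ≤ c)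
    (hu : ∀ k, k ≤ i → 0 ≤ u k ∧ u k < c) :
    ∀ k, k ≤ i → u k ≤ gcv θ' ε u k ∧ gcv θ' ε u k ≤ 2 * c / (1 - θ') := by
  have h1θ' : 0 < 1 - θ' := by linarith
  intro k
  induction k with
  | zero =>
    intro hk
    obtain ⟨a1, a2⟩ := hu 0 hk
    rw [gcv_zero]
    refine ⟨by linarith, ?_⟩
    rw [le_div_iff₀ h1θ']
    have : (ε + u 0) * (1 - θ') ≤ (ε + u 0) * 1 := mul_le_mul_of_nonneg_left (by linarith) (by linarith)
    linarith
  | succ k ih =>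
    intro hk
    obtain ⟨i1, i2⟩ := ih (by omega)
    obtain ⟨a1, -⟩ := hu k (by omega)
    obtain ⟨b1, b2⟩ := hu (k + 1) hk
    have h3 : 0 ≤ θ' * gcv θ' ε u k := mul_nonneg h0.le (a1.trans i1)
    rw [gcv_succ]
    refine ⟨by linarith, ?_⟩
    have h4 := mul_le_mul_of_nonneg_left i2 h0.le
    have h5 : θ' * (2 * c / (1 - θ')) + c ≤ 2 * c / (1 - θ') := by
      rw [le_div_iff₀ h1θ']
      have e : (θ' * (2 * c / (1 - θ')) + c) * (1 - θ') = θ' * (2 * c) + c * (1 - θ') := by field_simp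
      rw [e]
      have : c * θ' ≤ c * 1 := mul_le_mul_of_nonneg_left h1.le hc.le
      linarith
    linarith

/-- from the invariant to the size -/
theorem pair_rec_ball (C η A B C1 U w d u G : ℝ) (hC0 : 0 < C) (hη0 : 0 < η) (hη1 : η ≤ 1) (hB0 : 0 ≤ B) (hC1η : η * C1 = η * C + A)
    (hw : 0 ≤ w) (hu0 : 0 ≤ u) (hU : U ≤ C * u) (hG : u ≤ G) (hinv : w + η * d + B * u ≤ A * G) : U + w + d ≤ C1 * G := by
  have h1 := mul_le_mul_of_nonneg_left hU hη0.le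
  have h2 : η * w ≤ w := by
    have := mul_le_mul_of_nonneg_right hη1 hw
    linarith
  have h3 : 0 ≤ B * u := mul_nonneg hB0 hu0
  have h4 : η * (C * u) ≤ η * (C * G) := mul_le_mul_of_nonneg_left (mul_le_mul_of_nonneg_left hG hC0.le) hη0.le
  have h5 : η * (U + w + d) ≤ η * (C1 * G) := by
    have e : η * (C1 * G) = η * (C * G) + A * G := by
      rw [← mul_assoc, hC1η]; ring
    have e2 : η * (U + w + d) = η * U + η * w + η * d := by ring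
    rw [e, e2]
    linarith
  exact le_of_mul_le_mul_left h5 hη0

/-- one step of the invariant `S + B u ≤ A G` -/
theorem pair_rec_inv (C θ' A B S S' U u u' G : ℝ) (hC0 : 0 < C) (hθ'0 : 0 < θ') (hBθ : θ' * B = 4 * C ^ 2) (hA : A = 2 * C + B)
    (hu' : 0 ≤ u') (hU : U ≤ C * u) (hst : S' ≤ θ' * S + 4 * C * U) (ih : S + B * u ≤ A * G) :
    S' + B * u' ≤ A * (θ' * G + u') := by
  have h1 : 4 * C * U ≤ θ' * (B * u) := by
    have h2 := mul_le_mul_of_nonneg_left hU (by positivity : 0 ≤ 4 * C)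
    have e : θ' * (B * u) = 4 * C * (C * u) := by
      rw [← mul_assoc, hBθ]; ring
    rw [e]; exact h2
  have h3 := mul_le_mul_of_nonneg_left ih hθ'0.le
  have h4 : B * u' ≤ A * u' := by
    refine mul_le_mul_of_nonneg_right ?_ hu'
    rw [hA]; linarith
  have e1 : θ' * (S + B * u) = θ' * S + θ' * (B * u) := by ring
  have e2 : A * (θ' * G + u') = θ' * (A * G) + A * u' := by ring
  linarith

/-- one step of the labels -/
theorem pair_rec_lab (θ θ' C C1 C2 σ G J J' D D' X : ℝ) (hθ0 : 0 < θ) (hθ' : θ ≤ θ') (hC0 : 0 < C) (hC2 : C2 = (C / θ + C) * C1)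
    (hσ0 : 0 ≤ σ) (hσ : σ ≤ C1 * G) (hJ0 : 0 ≤ J) (hD0 : 0 ≤ D) (hD'0 : 0 ≤ D') (hJ : J' ≤ (θ + C * σ) * J)
    (hD : D' ≤ D * Real.exp (C * σ)) (ih : J * D ≤ X) : J' * D' ≤ θ' * Real.exp (C2 * G) * X := by
  have hfac0 : 0 ≤ θ + C * σ := by positivity
  have h1 : J' * D' ≤ ((θ + C * σ) * J) * (D * Real.exp (C * σ)) := mul_le_mul hJ hD hD'0 (mul_nonneg hfac0 hJ0)
  have h2 : θ + C * σ ≤ θ * Real.exp (C * σ / θ) := by
    have h3 := Real.add_one_le_exp (C * σ / θ)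
    have h4 := mul_le_mul_of_nonneg_left h3 hθ0.le
    have e : θ * (C * σ / θ + 1) = θ + C * σ := by
      field_simp
      ring
    linarith
  have h5 : (θ + C * σ) * Real.exp (C * σ) ≤ θ' * Real.exp (C2 * G) := by
    have h6 : (θ + C * σ) * Real.exp (C * σ) ≤ θ * Real.exp (C * σ / θ) * Real.exp (C * σ) :=
      mul_le_mul_of_nonneg_right h2 (Real.exp_pos _).le
    have h7 : θ * Real.exp (C * σ / θ) * Real.exp (C * σ) = θ * Real.exp ((C / θ + C) * σ) := by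
      rw [mul_assoc, ← Real.exp_add]
      congr 2
      ring
    have h8 : (C / θ + C) * σ ≤ C2 * G := by
      rw [hC2, mul_assoc]
      exact mul_le_mul_of_nonneg_left hσ (by positivity)
    have h9 : θ * Real.exp ((C / θ + C) * σ) ≤ θ' * Real.exp (C2 * G) :=
      mul_le_mul hθ' (Real.exp_le_exp.2 h8) (Real.exp_pos _).le (hθ0.le.trans hθ')
    linarith
  have hvd : 0 ≤ J * D := mul_nonneg hJ0 hD0
  calc J' * D' ≤ ((θ + C * σ) * J) * (D * Real.exp (C * σ)) := h1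
    _ = ((θ + C * σ) * Real.exp (C * σ)) * (J * D) := by ring
    _ ≤ (θ' * Real.exp (C2 * G)) * (J * D) := mul_le_mul_of_nonneg_right h5 hvd
    _ ≤ (θ' * Real.exp (C2 * G)) * X :=
        mul_le_mul_of_nonneg_left ih (mul_nonneg (hθ0.le.trans hθ') (Real.exp_pos _).le)

/-- the induction, all constants abstract -/
theorem pair_rec_core (θ C ρ ρ1 θ1 η θ' A B C1 C2 c : ℝ) (hθ0 : 0 < θ) (hC : 1 ≤ C) (hρ1ρ : ρ1 ≤ ρ) (hκ : C * ρ1 ≤ 1)
    (hθ1 : θ1 = θ + C * ρ1) (hη0 : 0 < η) (hη1 : η ≤ 1) (hθ'c : θ1 + 2 * C * η = θ') (hθθ' : θ ≤ θ') (hθ'b : θ' < 1)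
    (hB0 : 0 < B) (hBθ : θ' * B = 4 * C ^ 2) (hA : A = 2 * C + B) (hC10 : 0 < C1) (hC1η : η * C1 = η * C + A)
    (hC2 : C2 = (C / θ + C) * C1) (hC21 : C1 ≤ C2) (hc0 : 0 < c) (hcC : C1 * (2 * c / (1 - θ')) = ρ1)
    (i : ℕ) (U w d vJ Dx u : ℕ → ℝ) (ε : ℝ) (hR : Rows θ C ρ i U w d vJ Dx)
    (hε0 : 0 ≤ ε) (hεc : ε ≤ c) (hw0 : w 0 ≤ C * ε) (hd0 : d 0 ≤ C * ε) (hD0 : Dx 0 ≤ 1)
    (hu : ∀ k, k ≤ i → U k ≤ C * u k ∧ u k < c) :
    ∀ k, k ≤ i →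
      U k + w k + d k ≤ C2 * gcv θ' ε u k ∧ U k + w k + d k ≤ ρ ∧
      vJ k * Dx k ≤ vJ 0 * θ' ^ k * Real.exp (C2 * ∑ l ∈ Finset.range k, gcv θ' ε u l) := by
  have hC0 : 0 < C := by linarith
  have hθ'0 : 0 < θ' := by linarith
  have hu0 : ∀ k, k ≤ i → 0 ≤ u k := fun k hk => by
    have h1 := (hu k hk).1
    have h2 := hR.U0 k
    by_contra hcon
    push_neg at hcon
    have := mul_neg_of_pos_of_neg hC0 hcon
    linarith
  have hGb := pair_rec_G θ' c ε u i hθ'0 hθ'b hc0 hε0 hεc (fun k hk => ⟨hu0 k hk, (hu k hk).2⟩)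
  have hball : ∀ k, k ≤ i → w k + η * d k + B * u k ≤ A * gcv θ' ε u k →
      U k + w k + d k ≤ C1 * gcv θ' ε u k ∧ U k + w k + d k ≤ ρ1 := by
    intro k hk hinv
    obtain ⟨g1, g2⟩ := hGb k hk
    have h6 := pair_rec_ball C η A B C1 (U k) (w k) (d k) (u k) _ hC0 hη0 hη1 hB0.le hC1η (hR.w0 k) (hu0 k hk) (hu k hk).1 g1 hinv
    refine ⟨h6, h6.trans ?_⟩
    rw [← hcC]
    exact mul_le_mul_of_nonneg_left g2 hC10.le
  have hinv : ∀ k, k ≤ i → w k + η * d k + B * u k ≤ A * gcv θ' ε u k := by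
    intro k
    induction k with
    | zero =>
      intro hk
      have h0 := hu0 0 hk
      rw [gcv_zero, hA]
      have h1 : η * d 0 ≤ C * ε := by
        have h2 := mul_le_mul_of_nonneg_right hη1 (hR.d0 0)
        linarith
      have h3 : 0 ≤ B * ε := mul_nonneg hB0.le hε0
      have h4 : 0 ≤ C * u 0 := mul_nonneg hC0.le h0
      have e : (2 * C + B) * (ε + u 0) = 2 * (C * ε) + 2 * (C * u 0) + B * ε + B * u 0 := by ring
      rw [e]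
      linarith
    | succ k ih =>
      intro hk
      have ihk := ih (by omega)
      obtain ⟨s1, s2⟩ := hball k (by omega) ihk
      have hlt : k < i := by omega
      have hst := pair_rec_step θ C ρ1 θ1 η θ' (U k) (w k) (d k) (w (k + 1)) (d (k + 1)) hC hκ hθ1 hη0.le hη1 hθ'c
        (hR.U0 k) (hR.w0 k) (hR.d0 k) s2 (hR.w_row k hlt (s2.trans hρ1ρ)) (hR.d_row k hlt (s2.trans hρ1ρ))
      rw [gcv_succ]
      exact pair_rec_inv C θ' A B _ _ (U k) (u k) (u (k + 1)) _ hC0 hθ'0 hBθ hA (hu0 (k + 1) hk) (hu k (by omega)).1 hst ihk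
  have hlab : ∀ k, k ≤ i → 0 ≤ ∑ l ∈ Finset.range k, gcv θ' ε u l ∧
      vJ k * Dx k ≤ vJ 0 * θ' ^ k * Real.exp (C2 * ∑ l ∈ Finset.range k, gcv θ' ε u l) := by
    intro k
    induction k with
    | zero =>
      intro _
      refine ⟨by simp, ?_⟩
      simp only [Finset.range_zero, Finset.sum_empty, mul_zero, Real.exp_zero, pow_zero, mul_one]
      have := mul_le_mul_of_nonneg_left hD0 (hR.J0 0)
      linarith
    | succ k ih =>
      intro hk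
      obtain ⟨p1, p2⟩ := ih (by omega)
      obtain ⟨s1, s2⟩ := hball k (by omega) (hinv k (by omega))
      obtain ⟨g1, -⟩ := hGb k (by omega)
      have hGk : 0 ≤ gcv θ' ε u k := (hu0 k (by omega)).trans g1
      have hlt : k < i := by omega
      have hσ0 : 0 ≤ U k + w k + d k := add_nonneg (add_nonneg (hR.U0 k) (hR.w0 k)) (hR.d0 k)
      have h := pair_rec_lab θ θ' C C1 C2 _ _ (vJ k) (vJ (k + 1)) (Dx k) (Dx (k + 1)) _ hθ0 hθθ' hC0 hC2 hσ0 s1 (hR.J0 k) (hR.D0 k)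
        (hR.D0 (k + 1)) (hR.J_row k hlt (s2.trans hρ1ρ)) (hR.D_row k hlt (s2.trans hρ1ρ)) p2
      refine ⟨by rw [Finset.sum_range_succ]; linarith, h.trans (le_of_eq ?_)⟩
      rw [Finset.sum_range_succ, mul_add, Real.exp_add, pow_succ]
      ring
  intro k hk
  obtain ⟨s1, s2⟩ := hball k hk (hinv k hk)
  obtain ⟨g1, -⟩ := hGb k hk
  have hGk : 0 ≤ gcv θ' ε u k := (hu0 k hk).trans g1
  exact ⟨s1.trans (mul_le_mul_of_nonneg_right hC21 hGk), s2.trans hρ1ρ, (hlab k hk).2⟩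

/-- **(obs:unlabelled-stop), (obs:label-stop) and the bound of `D_ex`** -/
theorem pair_rec (θ C ρ : ℝ) (hθ0 : 0 < θ) (hθ : θ < 1) (hC : 1 ≤ C) (hρ : 0 < ρ) :
    ∃ θ' C' c : ℝ, θ < θ' ∧ θ' < 1 ∧ 1 ≤ C' ∧ 0 < c ∧
    ∀ (i : ℕ) (U w d vJ Dx u : ℕ → ℝ) (ε : ℝ), Rows θ C ρ i U w d vJ Dx →
      0 ≤ ε → ε ≤ c → w 0 ≤ C * ε → d 0 ≤ C * ε → Dx 0 ≤ 1 →
      (∀ k, k ≤ i → U k ≤ C * u k ∧ u k < c) →
      ∀ k, k ≤ i →
        U k + w k + d k ≤ C' * gcv θ' ε u k ∧ U k + w k + d k ≤ ρ ∧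
        vJ k * Dx k ≤ vJ 0 * θ' ^ k * Real.exp (C' * ∑ l ∈ Finset.range k, gcv θ' ε u l) := by
  have hC0 : 0 < C := by linarith
  obtain ⟨ρ1, hρ1⟩ : ∃ ρ1, ρ1 = min ρ ((1 - θ) / (4 * C)) := ⟨_, rfl⟩
  have hρ1pos : 0 < ρ1 := by
    rw [hρ1]
    exact lt_min hρ (div_pos (by linarith) (by positivity))
  have hρ1ρ : ρ1 ≤ ρ := by rw [hρ1]; exact min_le_left _ _
  have hκ : C * ρ1 ≤ (1 - θ) / 4 := by
    have h : ρ1 ≤ (1 - θ) / (4 * C) := by rw [hρ1]; exact min_le_right _ _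
    calc C * ρ1 ≤ C * ((1 - θ) / (4 * C)) := mul_le_mul_of_nonneg_left h hC0.le
      _ = (1 - θ) / 4 := by field_simp
  obtain ⟨θ1, hθ1⟩ : ∃ θ1, θ1 = θ + C * ρ1 := ⟨_, rfl⟩
  have hθ1a : θ < θ1 := by
    have := mul_pos hC0 hρ1pos
    rw [hθ1]; linarith
  have hθ1b : θ1 < 1 := by rw [hθ1]; linarith
  obtain ⟨η, hη⟩ : ∃ η, η = (1 - θ1) / (4 * C) := ⟨_, rfl⟩
  have hη0 : 0 < η := by rw [hη]; exact div_pos (by linarith) (by positivity)
  have hηC : 4 * C * η = 1 - θ1 := by rw [hη]; field_simp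
  have hη1 : η ≤ 1 := by
    have := mul_le_mul_of_nonneg_right hC hη0.le
    linarith
  obtain ⟨θ', hθ'⟩ : ∃ θ', θ' = (1 + θ1) / 2 := ⟨_, rfl⟩
  have hθ'a : θ1 < θ' := by rw [hθ']; linarith
  have hθ'b : θ' < 1 := by rw [hθ']; linarith
  have hθ'c : θ1 + 2 * C * η = θ' := by rw [hθ']; linarith
  have hθ'0 : 0 < θ' := by linarith
  have h1θ' : 0 < 1 - θ' := by linarith
  obtain ⟨B, hB⟩ : ∃ B, B = 4 * C ^ 2 / θ' := ⟨_, rfl⟩
  have hB0 : 0 < B := by rw [hB]; positivity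
  have hBθ : θ' * B = 4 * C ^ 2 := by rw [hB]; field_simp
  obtain ⟨A, hA⟩ : ∃ A, A = 2 * C + B := ⟨_, rfl⟩
  have hA0 : 0 < A := by rw [hA]; positivity
  obtain ⟨C1, hC1⟩ : ∃ C1, C1 = C + A / η := ⟨_, rfl⟩
  have hC1C : C ≤ C1 := by
    have : 0 < A / η := by positivity
    rw [hC1]; linarith
  have hC10 : 0 < C1 := by linarith
  have hC1η : η * C1 = η * C + A := by rw [hC1]; field_simp
  obtain ⟨C2, hC2⟩ : ∃ C2, C2 = (C / θ + C) * C1 := ⟨_, rfl⟩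
  have hC21 : C1 ≤ C2 := by
    have h1 : 0 < C / θ := by positivity
    have h2 : 1 * C1 ≤ (C / θ + C) * C1 := mul_le_mul_of_nonneg_right (by linarith) hC10.le
    rw [hC2]; linarith
  obtain ⟨c, hc⟩ : ∃ c, c = ρ1 * (1 - θ') / (2 * C1) := ⟨_, rfl⟩
  have hc0 : 0 < c := by rw [hc]; positivity
  have hcC : C1 * (2 * c / (1 - θ')) = ρ1 := by rw [hc]; field_simp
  refine ⟨θ', C2, c, by linarith, hθ'b, by linarith, hc0, ?_⟩
  intro i U w d vJ Dx u ε hR hε0 hεc hw0 hd0 hD0 hu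
  exact pair_rec_core θ C ρ ρ1 θ1 η θ' A B C1 C2 c hθ0 hC hρ1ρ (by linarith) hθ1 hη0 hη1 hθ'c (by linarith) hθ'b hB0 hBθ hA hC10
    hC1η hC2 hC21 hc0 hcC i U w d vJ Dx u ε hR hε0 hεc hw0 hd0 hD0 hu

end Claimed.Agent.R285.F6.Pr
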