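import Claimed.Agent.R285.Obs.PairTD
import Claimed.Agent.R285.Obs.PairChain
import Claimed.Agent.R285.Obs.PairStep
import Claimed.Agent.R285.Obs.PairRec

/-!
# ROW 285, unit OBS: THE MASTER of `Obs.pair_atStop`, part 1: INTERFACE + the induction in ONE square      (chief helper271)   -- KEEP

Vocabulary: `Obs/PairDefs.lean`, `Obs/PairCtx.lean` (helper79).  Prefix `pmm_`.
1. sizes `zP zW zD zJ` of a state; `StepOut` = everything one paired step delivers; **`OneStep`** = THE interface of the estimates (W), (D), (J), (S), DESIG, COPY-in-one-square; `TotBd`, `CtxAll`, `TermInt`.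
2. `Run` = one centred free square with its equipment; sizes `qP qW qD qJ` along the history; `pmm_single` = the induction (REC inside).
-/

set_option autoImplicit false

namespace Claimed.Agent.R285.F6.Pr

open scoped BigOperators ENNReal NNReal
open MeasureTheory
open Claimed.Agent.R285 Claimed.Agent.R285.RG Claimed.Agent.R285.B4 Claimed.Agent.R285.F4a

noncomputable section

/-! ## 1. Interface -/

section iface

variable (pm : Prm) (nm : Nm)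

section sizes

variable {G : Geom} {ℓ : ℕ} (T : Tw G ℓ) (v : G.V → ℝ) (j : ℕ) (t z : ℂ) (x : St (lev G ℓ j))

/-- plane size -/
def zP : ℝ≥0∞ := nP (nm.p0 pm.ω) (T.V0 j) pm.zn.H0 pm.α t z x

/-- wall size -/
def zW : ℝ≥0∞ := nW (nm.p0 pm.ω) (T.V0 j) pm.zn.H0 x

/-- defect size -/
def zD : ℝ≥0∞ := nD (nm.pT pm.ω) (T.VT j) pm.zn.H1 (bg pm v) x

/-- label size -/
def zJ : ℝ≥0∞ := nJ (nm.pT pm.ω) (T.VT j) (bg pm v) x

end sizes

/-- **everything which one paired step delivers** (`x' = next x`; `P W D J` = sizes of `x`) -/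
structure StepOut {G : Geom} {ℓ : ℕ} (T : Tw G ℓ) (v : G.V → ℝ) {j : ℕ} (h : Ret G ℓ pm.D0 j) (t z : ℂ) (x : St (lev G ℓ j)) (θ C : ℝ≥0) : Prop where
  inv : Inv pm nm.h0 (next (T.step h) pm.c pm.ω pm.zn t z (pm.ref G) x)
  /-- (obs:wall-recurrence) -/
  rowW : zW pm nm T (j + 1) (next (T.step h) pm.c pm.ω pm.zn t z (pm.ref G) x)
    ≤ θ * zW pm nm T j x + C * zP pm nm T j t z x + C * (zP pm nm T j t z x + zW pm nm T j x) ^ 2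
  /-- (obs:defect-recurrence) -/
  rowD : zD pm nm T v (j + 1) (next (T.step h) pm.c pm.ω pm.zn t z (pm.ref G) x)
    ≤ θ * zD pm nm T v j x + C * (zP pm nm T j t z x + zW pm nm T j x) + C * (zP pm nm T j t z x + zW pm nm T j x + zD pm nm T v j x) ^ 2
  /-- (obs:label-recurrence) -/
  rowJ : zJ pm nm T v (j + 1) (next (T.step h) pm.c pm.ω pm.zn t z (pm.ref G) x)
    ≤ (θ + C * (zP pm nm T j t z x + zW pm nm T j x + zD pm nm T v j x)) * zJ pm nm T v j x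
  sc_real : ∀ b, ((d0 (T.step h) pm.c pm.ω pm.zn t z x.K0).a b).im = 0 ∧ ((dT (T.step h) pm.c pm.ω pm.zn t z (pm.ref G) x.K0 x.KT).a b).im = 0 ∧
    ((dJ (T.step h) pm.c pm.ω (pm.ref G) x.JT).a b).im = 0
  sc_half : ∀ b, ‖(d0 (T.step h) pm.c pm.ω pm.zn t z x.K0).a b‖ ≤ 1 / 2 ∧ ‖(dT (T.step h) pm.c pm.ω pm.zn t z (pm.ref G) x.K0 x.KT).a b‖ ≤ 1 / 2
  /-- (obs:scalar-difference) -/
  sc_diff : ∀ b, (‖(dT (T.step h) pm.c pm.ω pm.zn t z (pm.ref G) x.K0 x.KT).a b - (d0 (T.step h) pm.c pm.ω pm.zn t z x.K0).a b‖₊ : ℝ≥0∞)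
    ≤ C * (zP pm nm T j t z x + zW pm nm T j x + zD pm nm T v j x)
  /-- (obs:factor-outside) -/
  sc_off : ∀ b, b ∉ Aff (lev G ℓ (j + 1)) 1 →
    (dT (T.step h) pm.c pm.ω pm.zn t z (pm.ref G) x.K0 x.KT).a b = (d0 (T.step h) pm.c pm.ω pm.zn t z x.K0).a b ∧
      (dJ (T.step h) pm.c pm.ω (pm.ref G) x.JT).a b = 0
  d0_ok : (d0 (T.step h) pm.c pm.ω pm.zn t z x.K0).Ok (nm.p0 pm.ω) pm.c.col pm.c.r
  dT_ok : (shD (dT (T.step h) pm.c pm.ω pm.zn t z (pm.ref G) x.K0 x.KT) (bg pm v)).Ok (nm.pT pm.ω) pm.c.col pm.c.r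
  dT_small : (dT (T.step h) pm.c pm.ω pm.zn t z (pm.ref G) x.K0 x.KT).Small pm.c.r (lev G ℓ (j + 1))
  dJ_small : (dJ (T.step h) pm.c pm.ω (pm.ref G) x.JT).Small pm.c.r (lev G ℓ (j + 1))
  dJ_fn : ∀ Y b, LocalFn (nm.pT pm.ω) pm.c.col (lev G ℓ (j + 1)) {b} ((shD (dJ (T.step h) pm.c pm.ω (pm.ref G) x.JT) (bg pm v)).F Y b)

variable (k0 kT : KC) (o oT : ObsPar) (ℓ : ℕ)

/-- **THE INTERFACE OF THE ESTIMATES**: [F] Lemma 6.2 for one step of one centred free square, uniform constants `θ < 1`, `C`, radius `ρ` -/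
def OneStep (θ C ρ : ℝ≥0) : Prop :=
  ∀ (G : Geom) (T : Tw G ℓ) (cl : Grid G) (v : G.V → ℝ) (sd j0 j : ℕ) (h : Ret G ℓ pm.D0 j),
    Ctx pm nm pm.c.cst k0 kT T h → 0 < sd → sd ∣ (2 ^ ℓ) ^ j0 → (∃ hd, cl = torusGrid G sd hd) → T.IsObs o oT cl j0 → 1 ≤ j0 → j0 ≤ j → IsBranch G v →
    ∀ (t z : ℂ) (x : St (lev G ℓ j)), t.im = 0 → z.im = 0 → Inv pm nm.h0 x → zJ pm nm T v j x ≠ ⊤ →
      zP pm nm T j t z x + zW pm nm T j x + zD pm nm T v j x ≤ ρ → StepOut pm nm T v h t z x θ C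

/-- total norms from the sizes, at ANY level of a centred free square (no retained step is needed: this is used at the stop) -/
def TotBd (C : ℝ≥0) : Prop :=
  ∀ (G : Geom) (T : Tw G ℓ) (cl : Grid G) (v : G.V → ℝ) (j0 j : ℕ), G.bc = BC.free → 2 * (2 ^ ℓ) ^ j ∣ G.M → T.IsObs o oT cl j0 → 1 ≤ j0 → j0 ≤ j →
    IsBranch G v → ∀ (t z : ℂ) (x : St (lev G ℓ j)), Inv pm nm.h0 x →
      actNorm (nm.p0 pm.ω) (lev G ℓ j) (T.V0 j) x.K0 ≤ C * (zP pm nm T j t z x + zW pm nm T j x) ∧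
      actNorm (nm.pT pm.ω) (lev G ℓ j) (T.VT j) x.K0 ≤ C * (zP pm nm T j t z x + zW pm nm T j x) ∧
      actNorm (nm.pT pm.ω) (lev G ℓ j) (T.VT j) (shA x.KT (bg pm v)) ≤ C * (zP pm nm T j t z x + zW pm nm T j x + zD pm nm T v j x) ∧
      ∀ X, WallFree (lev G ℓ j) pm.zn.H0 X →
        ENNReal.ofReal (nm.AT ^ X.card) * fnSize (nm.pT pm.ω) (lev G ℓ j) (T.VT j) X ((x.K0 - singleWF (lev G ℓ j) pm.zn.H0 pm.α t z) X)
          ≤ actNorm (nm.p0 pm.ω) (lev G ℓ j) (T.V0 j) (cutA (WallFree (lev G ℓ j) pm.zn.H0) (x.K0 - singleWF (lev G ℓ j) pm.zn.H0 pm.α t z))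

/-- the context holds at every retained level of every centred free square -/
def CtxAll : Prop :=
  ∀ (G : Geom) (T : Tw G ℓ) (cl : Grid G) (sd j0 j : ℕ) (h : Ret G ℓ pm.D0 j), G.bc = BC.free → 2 * (2 ^ ℓ) ^ (j + 1) ∣ G.M →
    0 < sd → sd ∣ (2 ^ ℓ) ^ j0 → (∃ hd, cl = torusGrid G sd hd) → T.IsObs o oT cl j0 → 1 ≤ j0 → j0 ≤ j → Ctx pm nm pm.c.cst k0 kT T h

/-- `Obs.terminal_regulator` in the two norms -/
def TermInt : Prop :=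
  ∀ (G : Geom) (cl g : Grid G), Whole cl → g.Ok → Nonempty (Nest cl g) → 2 * g.m ≤ G.M → ∀ Γ : Matrix G.V G.V ℝ, IsTerminal G Fam.entry g.m Γ →
    (∀ V : Extra g, IsObs o cl g V → ∫⁻ ζ, ENNReal.ofReal (Wt g nm.δ nm.κ V Finset.univ ζ) ∂(gauss G Γ) ≠ ⊤) ∧
    (∀ V : Extra g, IsObs oT cl g V → ∫⁻ ζ, ENNReal.ofReal (Wt g nm.δ nm.κT V Finset.univ ζ) ∂(gauss G Γ) ≠ ⊤)

end iface

/-! ## 2. One square -/

section single

variable (pm : Prm) (nm : Nm) (k0 kT : KC) (o oT : ObsPar) {ℓ : ℕ} {G : Geom} (T : Tw G ℓ) (cl : Grid G) (v : G.V → ℝ) (sd j0 i : ℕ) (t z : ℕ → ℂ)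

/-- **one centred free square with its equipment**, retained up to the stop `j0 + i`, driven by real scalars -/
structure Run : Prop where
  free : G.bc = BC.free
  j0_pos : 1 ≤ j0
  sd_pos : 0 < sd
  sd_dvd : sd ∣ (2 ^ ℓ) ^ j0
  cells : ∃ hd, cl = torusGrid G sd hd
  obs : T.IsObs o oT cl j0
  br : IsBranch G v
  cen : 2 * (2 ^ ℓ) ^ (j0 + i) ∣ G.M
  ret : ∀ k, k < i → Ret G ℓ pm.D0 (j0 + k)
  ctx : ∀ k (hk : k < i), Ctx pm nm pm.c.cst k0 kT T (ret k hk)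
  real : ∀ j, (t j).im = 0 ∧ (z j).im = 0

variable (x0 : St (lev G ℓ j0))

/-- the sizes along the history -/
def qP (k : ℕ) : ℝ≥0∞ := zP pm nm T (j0 + k) (t (j0 + k)) (z (j0 + k)) (hist pm T t z j0 x0 k)

def qW (k : ℕ) : ℝ≥0∞ := zW pm nm T (j0 + k) (hist pm T t z j0 x0 k)

def qD (k : ℕ) : ℝ≥0∞ := zD pm nm T v (j0 + k) (hist pm T t z j0 x0 k)

def qJ (k : ℕ) : ℝ≥0∞ := zJ pm nm T v (j0 + k) (hist pm T t z j0 x0 k)

/-- what the induction delivers at the stage `k` -/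
structure Out1 (Q : ℕ → Prop) (ρ : ℝ≥0) (θ' C' ε : ℝ) (u : ℕ → ℝ) (k : ℕ) : Prop where
  inv : Inv pm nm.h0 (hist pm T t z j0 x0 k)
  q : Q k
  ball : qP pm nm T j0 t z x0 k + qW pm nm T j0 t z x0 k + qD pm nm T v j0 t z x0 k ≤ ρ
  bd : qP pm nm T j0 t z x0 k + qW pm nm T j0 t z x0 k + qD pm nm T v j0 t z x0 k ≤ ENNReal.ofReal (C' * gcv θ' ε u k)
  finJ : qJ pm nm T v j0 t z x0 k ≠ ⊤
  lab : (qJ pm nm T v j0 t z x0 k).toReal * ‖Dex pm T t z j0 x0 k‖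
    ≤ (qJ pm nm T v j0 t z x0 0).toReal * θ' ^ k * Real.exp (C' * ∑ l ∈ Finset.range k, gcv θ' ε u l)

/-- the stage of the induction -/
structure Stg (Q : ℕ → Prop) (k : ℕ) : Prop where
  inv : Inv pm nm.h0 (hist pm T t z j0 x0 k)
  q : Q k
  finW : qW pm nm T j0 t z x0 k ≠ ⊤
  finD : qD pm nm T v j0 t z x0 k ≠ ⊤
  finJ : qJ pm nm T v j0 t z x0 k ≠ ⊤

end single

theorem pmm_sum3 {a b c : ℝ≥0∞} (ha : a ≠ ⊤) (hb : b ≠ ⊤) (hc : c ≠ ⊤) {r : ℝ} (hr : 0 ≤ r) :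
    a + b + c ≤ ENNReal.ofReal r ↔ a.toReal + b.toReal + c.toReal ≤ r := by
  have h : a + b + c ≠ ⊤ := ENNReal.add_ne_top.2 ⟨ENNReal.add_ne_top.2 ⟨ha, hb⟩, hc⟩
  rw [← ENNReal.toReal_add ha hb, ← ENNReal.toReal_add (ENNReal.add_ne_top.2 ⟨ha, hb⟩) hc]
  exact ENNReal.le_ofReal_iff_toReal_le h hr

theorem pmm_real_W {a P W : ℝ≥0∞} {θ C : ℝ≥0} (hP : P ≠ ⊤) (hW : W ≠ ⊤) (h : a ≤ θ * W + C * P + C * (P + W) ^ 2) :
    a.toReal ≤ θ * W.toReal + 8 * C * P.toReal + 8 * C * (P.toReal + W.toReal) ^ 2 := by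
  lift P to ℝ≥0 using hP
  lift W to ℝ≥0 using hW
  have h2 : a ≤ ((θ * W + C * P + C * (P + W) ^ 2 : ℝ≥0) : ℝ≥0∞) := by
    push_cast
    exact h
  have h3 := ENNReal.toReal_mono ENNReal.coe_ne_top h2
  rw [ENNReal.coe_toReal] at h3
  push_cast at h3
  simp only [ENNReal.coe_toReal]
  have e1 : 0 ≤ (C : ℝ) * P := by positivity
  have e2 : 0 ≤ (C : ℝ) * ((P : ℝ) + W) ^ 2 := by positivity
  linarith

theorem pmm_real_D {a P W D : ℝ≥0∞} {θ C : ℝ≥0} (hP : P ≠ ⊤) (hW : W ≠ ⊤) (hD : D ≠ ⊤)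
    (h : a ≤ θ * D + C * (P + W) + C * (P + W + D) ^ 2) :
    a.toReal ≤ θ * D.toReal + 8 * C * (P.toReal + W.toReal) + 8 * C * (P.toReal + W.toReal + D.toReal) ^ 2 := by
  lift P to ℝ≥0 using hP
  lift W to ℝ≥0 using hW
  lift D to ℝ≥0 using hD
  have h2 : a ≤ ((θ * D + C * (P + W) + C * (P + W + D) ^ 2 : ℝ≥0) : ℝ≥0∞) := by
    push_cast
    exact h
  have h3 := ENNReal.toReal_mono ENNReal.coe_ne_top h2
  rw [ENNReal.coe_toReal] at h3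
  push_cast at h3
  simp only [ENNReal.coe_toReal]
  have e1 : 0 ≤ (C : ℝ) * ((P : ℝ) + W) := by positivity
  have e2 : 0 ≤ (C : ℝ) * ((P : ℝ) + W + D) ^ 2 := by positivity
  linarith

theorem pmm_real_J {a P W D J : ℝ≥0∞} {θ C : ℝ≥0} (hP : P ≠ ⊤) (hW : W ≠ ⊤) (hD : D ≠ ⊤) (hJ : J ≠ ⊤)
    (h : a ≤ (θ + C * (P + W + D)) * J) :
    a.toReal ≤ (θ + 8 * C * (P.toReal + W.toReal + D.toReal)) * J.toReal := by
  lift P to ℝ≥0 using hP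
  lift W to ℝ≥0 using hW
  lift D to ℝ≥0 using hD
  lift J to ℝ≥0 using hJ
  have h2 : a ≤ (((θ + C * (P + W + D)) * J : ℝ≥0) : ℝ≥0∞) := by
    push_cast
    exact h
  have h3 := ENNReal.toReal_mono ENNReal.coe_ne_top h2
  rw [ENNReal.coe_toReal] at h3
  push_cast at h3
  simp only [ENNReal.coe_toReal]
  have e1 : 0 ≤ (C : ℝ) * ((P : ℝ) + W + D) * J := by positivity
  nlinarith

theorem pmm_real_S {w : ℂ} {P W D : ℝ≥0∞} {C : ℝ≥0} (hP : P ≠ ⊤) (hW : W ≠ ⊤) (hD : D ≠ ⊤)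
    (h : (‖w‖₊ : ℝ≥0∞) ≤ C * (P + W + D)) : ‖w‖ ≤ C * (P.toReal + W.toReal + D.toReal) := by
  lift P to ℝ≥0 using hP
  lift W to ℝ≥0 using hW
  lift D to ℝ≥0 using hD
  have h2 : (‖w‖₊ : ℝ≥0∞) ≤ ((C * (P + W + D) : ℝ≥0) : ℝ≥0∞) := by
    push_cast
    exact h
  have h3 : ‖w‖₊ ≤ C * (P + W + D) := ENNReal.coe_le_coe.1 h2
  have h4 : ((‖w‖₊ : ℝ≥0) : ℝ) ≤ ((C * (P + W + D) : ℝ≥0) : ℝ) := NNReal.coe_le_coe.2 h3
  simp only [ENNReal.coe_toReal]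
  push_cast at h4
  exact h4

section single2

variable {pm : Prm} {nm : Nm} {k0 kT : KC} {o oT : ObsPar} {ℓ : ℕ} {G : Geom} {T : Tw G ℓ} {cl : Grid G} {v : G.V → ℝ} {sd j0 i : ℕ} {t z : ℕ → ℂ}
  {x0 : St (lev G ℓ j0)} {θ C ρ : ℝ≥0} {Q : ℕ → Prop} {u : ℕ → ℝ}

/-- one step at the stage `k`, in the ball -/
theorem pmm_stepOut (hone : OneStep pm nm k0 kT o oT ℓ θ C ρ) (hrun : Run pm nm k0 kT o oT T cl v sd j0 i t z) {k : ℕ} (hk : k < i)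
    (hinv : Inv pm nm.h0 (hist pm T t z j0 x0 k)) (hJ : qJ pm nm T v j0 t z x0 k ≠ ⊤)
    (hball : qP pm nm T j0 t z x0 k + qW pm nm T j0 t z x0 k + qD pm nm T v j0 t z x0 k ≤ ρ) :
    StepOut pm nm T v (hrun.ret k hk) (t (j0 + k)) (z (j0 + k)) (hist pm T t z j0 x0 k) θ C :=
  hone G T cl v sd j0 (j0 + k) (hrun.ret k hk) (hrun.ctx k hk) hrun.sd_pos hrun.sd_dvd hrun.cells hrun.obs hrun.j0_pos (Nat.le_add_right _ _) hrun.br
    _ _ _ (hrun.real _).1 (hrun.real _).2 hinv hJ hball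

/-- **LEAF `L-MST-ROWS`** (paper-free, ~150 l.): the four rows of `Pr.Rows` up to the horizon `n`, from `OneStep` at the stages `k < n`.
PLAN.  Non-negativity: `ENNReal.toReal_nonneg`, `norm_nonneg`.  Fix `k < n` and the real hypothesis `σ_k ≤ ρ`.  `qP k ≠ ⊤` by `hQb k _ (hst k _).q` (`ENNReal.ofReal_ne_top`); `pmm_sum3` (with `ENNReal.ofReal_coe_nnreal`) turns it into the ENNReal ball;
`S := pmm_stepOut hone hrun (hk.trans_le hn) ..`; `prs_hist_succ pm T t z j0 x0 k (hrun.ret k _)` rewrites `hist .. (k + 1)` (unfold `qW qD qJ`; `j0 + (k + 1) = j0 + k + 1` by `rfl`).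
Rows (W), (D), (J): apply `ENNReal.toReal_mono` (right side finite) to `S.rowW`, `S.rowD`, `S.rowJ`, then `ENNReal.toReal_add`, `ENNReal.toReal_mul`, `ENNReal.toReal_pow`, `ENNReal.coe_toReal`; finally `C ≤ 8 C`.
Row of `D_ex`: `prs_Dex_succ` (`Obs/PairS.lean`; or unfold `Dex`, `Finset.prod_range_succ`), `norm_mul`, `prs_factor` (`Obs/PairS.lean`) with `e := C σ_k` and `prs_scal_eq`, `S.sc_real`, `S.sc_half`, `S.sc_diff` (ENNReal to real as in `prs_scal_small`). -/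
theorem pmm_rows (hone : OneStep pm nm k0 kT o oT ℓ θ C ρ) (hrun : Run pm nm k0 kT o oT T cl v sd j0 i t z)
    (hQb : ∀ k ≤ i, Q k → qP pm nm T j0 t z x0 k ≤ ENNReal.ofReal (3 * u k)) (n : ℕ) (hn : n ≤ i)
    (hst : ∀ k ≤ n, Stg pm nm T v j0 t z x0 Q k) :
    Rows θ (8 * C) ρ n (fun k => (qP pm nm T j0 t z x0 k).toReal) (fun k => (qW pm nm T j0 t z x0 k).toReal)
      (fun k => (qD pm nm T v j0 t z x0 k).toReal) (fun k => (qJ pm nm T v j0 t z x0 k).toReal) (fun k => ‖Dex pm T t z j0 x0 k‖) := by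
  have key : ∀ k, k < n →
      (qP pm nm T j0 t z x0 k).toReal + (qW pm nm T j0 t z x0 k).toReal + (qD pm nm T v j0 t z x0 k).toReal ≤ ρ →
      ∃ hk' : k < i, qP pm nm T j0 t z x0 k ≠ ⊤ ∧ qW pm nm T j0 t z x0 k ≠ ⊤ ∧ qD pm nm T v j0 t z x0 k ≠ ⊤ ∧
        qJ pm nm T v j0 t z x0 k ≠ ⊤ ∧
        StepOut pm nm T v (hrun.ret k hk') (t (j0 + k)) (z (j0 + k)) (hist pm T t z j0 x0 k) θ C := by
    intro k hk hb
    have hs := hst k hk.le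
    have hP : qP pm nm T j0 t z x0 k ≠ ⊤ := ne_top_of_le_ne_top ENNReal.ofReal_ne_top (hQb k (hk.le.trans hn) hs.q)
    have hball := (pmm_sum3 hP hs.finW hs.finD (r := (ρ : ℝ)) ρ.coe_nonneg).2 hb
    rw [ENNReal.ofReal_coe_nnreal] at hball
    exact ⟨hk.trans_le hn, hP, hs.finW, hs.finD, hs.finJ, pmm_stepOut hone hrun (hk.trans_le hn) hs.inv hs.finJ hball⟩
  refine ⟨fun _ => ENNReal.toReal_nonneg, fun _ => ENNReal.toReal_nonneg, fun _ => ENNReal.toReal_nonneg,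
    fun _ => ENNReal.toReal_nonneg, fun _ => norm_nonneg _, ?_, ?_, ?_, ?_⟩
  · intro k hk hb
    obtain ⟨hk', hP, hW, hD, hJ, S⟩ := key k hk hb
    refine pmm_real_W hP hW ?_
    have := S.rowW
    rw [← prs_hist_succ pm T t z j0 x0 k (hrun.ret k hk')] at this
    exact this
  · intro k hk hb
    obtain ⟨hk', hP, hW, hD, hJ, S⟩ := key k hk hb
    refine pmm_real_D hP hW hD ?_
    have := S.rowD
    rw [← prs_hist_succ pm T t z j0 x0 k (hrun.ret k hk')] at this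
    exact this
  · intro k hk hb
    obtain ⟨hk', hP, hW, hD, hJ, S⟩ := key k hk hb
    refine pmm_real_J hP hW hD hJ ?_
    have := S.rowJ
    rw [← prs_hist_succ pm T t z j0 x0 k (hrun.ret k hk')] at this
    exact this
  · intro k hk hb
    obtain ⟨hk', hP, hW, hD, hJ, S⟩ := key k hk hb
    show ‖Dex pm T t z j0 x0 (k + 1)‖ ≤ ‖Dex pm T t z j0 x0 k‖ * _
    rw [prs_Dex_succ, norm_mul]
    refine mul_le_mul_of_nonneg_left ?_ (norm_nonneg _)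
    have he : 0 ≤ (C : ℝ) * ((qP pm nm T j0 t z x0 k).toReal + (qW pm nm T j0 t z x0 k).toReal + (qD pm nm T v j0 t z x0 k).toReal) :=
      mul_nonneg C.coe_nonneg (add_nonneg (add_nonneg ENNReal.toReal_nonneg ENNReal.toReal_nonneg) ENNReal.toReal_nonneg)
    obtain ⟨r, hr1, hr2, hr3⟩ := prs_factor (Aff (lev G ℓ (j0 + k + 1)) 1) (prs_Aff_card _)
      (fun b => (scal pm T t z j0 x0 k b).1) (fun b => (scal pm T t z j0 x0 k b).2.1) _ he (fun b _ => by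
        simp only [prs_scal_eq pm T t z j0 x0 k (hrun.ret k hk') b]
        exact ⟨(S.sc_real b).1, (S.sc_real b).2.1, (S.sc_half b).1, (S.sc_half b).2, pmm_real_S hP hW hD (S.sc_diff b)⟩)
    rw [hr3, Complex.norm_real, Real.norm_eq_abs, abs_of_nonneg ((Real.exp_pos _).le.trans hr1)]
    refine hr2.trans (le_of_eq ?_)
    congr 1
    ring

/-- **LEAF `L-MST-SUCC`** (paper-free, ~60 l.): the next stage.  `S := pmm_stepOut ..`; rewrite `hist .. (k + 1)` by `prs_hist_succ`; `inv := S.inv`; `q := hQs k hk hst.q hst.inv _` (`qP k ≤ ρ < ⊤`);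
finiteness: the right sides of `S.rowW`, `S.rowD`, `S.rowJ` are finite (`ENNReal.add_ne_top`, `ENNReal.mul_ne_top`, `ENNReal.pow_ne_top`, `ENNReal.coe_ne_top`; all sizes are `≤ ρ` or finite by `hst`). -/
theorem pmm_succ (hone : OneStep pm nm k0 kT o oT ℓ θ C ρ) (hrun : Run pm nm k0 kT o oT T cl v sd j0 i t z)
    (hQs : ∀ k < i, Q k → Inv pm nm.h0 (hist pm T t z j0 x0 k) → qP pm nm T j0 t z x0 k ≠ ⊤ → Q (k + 1)) {k : ℕ} (hk : k < i)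
    (hst : Stg pm nm T v j0 t z x0 Q k)
    (hball : qP pm nm T j0 t z x0 k + qW pm nm T j0 t z x0 k + qD pm nm T v j0 t z x0 k ≤ ρ) : Stg pm nm T v j0 t z x0 Q (k + 1) := by
  have hρt : (ρ : ℝ≥0∞) ≠ ⊤ := ENNReal.coe_ne_top
  have hP0 : qP pm nm T j0 t z x0 k ≠ ⊤ := ne_top_of_le_ne_top hρt ((le_add_right (le_add_right le_rfl)).trans hball)
  have S := pmm_stepOut hone hrun hk hst.inv hst.finJ hball
  have e := prs_hist_succ pm T t z j0 x0 k (hrun.ret k hk)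
  have hP : zP pm nm T (j0 + k) (t (j0 + k)) (z (j0 + k)) (hist pm T t z j0 x0 k) ≠ ⊤ := hP0
  have hW : zW pm nm T (j0 + k) (hist pm T t z j0 x0 k) ≠ ⊤ := hst.finW
  have hD : zD pm nm T v (j0 + k) (hist pm T t z j0 x0 k) ≠ ⊤ := hst.finD
  have hJ : zJ pm nm T v (j0 + k) (hist pm T t z j0 x0 k) ≠ ⊤ := hst.finJ
  have hPW := ENNReal.add_ne_top.2 ⟨hP, hW⟩
  have hPWD := ENNReal.add_ne_top.2 ⟨hPW, hD⟩
  have hc : ∀ (a : ℝ≥0) {b : ℝ≥0∞}, b ≠ ⊤ → (a : ℝ≥0∞) * b ≠ ⊤ := fun a b hb => ENNReal.mul_ne_top ENNReal.coe_ne_top hb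
  refine ⟨?_, hQs k hk hst.q hst.inv hP0, ?_, ?_, ?_⟩
  · rw [e]
    exact S.inv
  · unfold qW
    rw [e]
    exact ne_top_of_le_ne_top (ENNReal.add_ne_top.2 ⟨ENNReal.add_ne_top.2 ⟨hc θ hW, hc C hP⟩, hc C (ENNReal.pow_ne_top hPW)⟩) S.rowW
  · unfold qD
    rw [e]
    exact ne_top_of_le_ne_top (ENNReal.add_ne_top.2 ⟨ENNReal.add_ne_top.2 ⟨hc θ hD, hc C hPW⟩, hc C (ENNReal.pow_ne_top hPWD)⟩) S.rowD
  · unfold qJ
    rw [e]
    exact ne_top_of_le_ne_top (ENNReal.mul_ne_top (ENNReal.add_ne_top.2 ⟨ENNReal.coe_ne_top, hc C hPWD⟩) hJ) S.rowJ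

end single2

/-- **THE INDUCTION IN ONE SQUARE** (REC inside).  `Q k` = any invariant which is propagated by the step as long as the state is admissible and finite, and which controls the plane size (`Q` := the copy of the plane history, `InvTor`). -/
theorem pmm_single (θ C ρ : ℝ≥0) (hθ0 : 0 < θ) (hθ1 : θ < 1) (hC : 1 ≤ C) (hρ : 0 < ρ) :
    ∃ θ' C' c : ℝ, (θ : ℝ) < θ' ∧ θ' < 1 ∧ 1 ≤ C' ∧ 0 < c ∧
    ∀ (pm : Prm) (nm : Nm) (k0 kT : KC) (o oT : ObsPar) (ℓ : ℕ), OneStep pm nm k0 kT o oT ℓ θ C ρ →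
    ∀ (G : Geom) (T : Tw G ℓ) (cl : Grid G) (v : G.V → ℝ) (sd j0 i : ℕ) (t z : ℕ → ℂ), Run pm nm k0 kT o oT T cl v sd j0 i t z →
    ∀ (x0 : St (lev G ℓ j0)) (u : ℕ → ℝ) (ε : ℝ) (Q : ℕ → Prop), Inv pm nm.h0 x0 →
      qW pm nm T j0 t z x0 0 ≤ ENNReal.ofReal ε → qD pm nm T v j0 t z x0 0 ≤ ENNReal.ofReal ε → qJ pm nm T v j0 t z x0 0 ≠ ⊤ →
      0 ≤ ε → ε ≤ c → (∀ k ≤ i, 0 ≤ u k ∧ u k < c) → Q 0 →
      (∀ k < i, Q k → Inv pm nm.h0 (hist pm T t z j0 x0 k) → qP pm nm T j0 t z x0 k ≠ ⊤ → Q (k + 1)) →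
      (∀ k ≤ i, Q k → qP pm nm T j0 t z x0 k ≤ ENNReal.ofReal (3 * u k)) →
      ∀ k ≤ i, Out1 pm nm T v j0 t z x0 Q ρ θ' C' ε u k := by
  have hC1 : (1 : ℝ) ≤ C := by exact_mod_cast hC
  obtain ⟨θ', C', c, h1, h2, h3, h4, H⟩ := pair_rec (θ : ℝ) (8 * C) ρ (by exact_mod_cast hθ0) (by exact_mod_cast hθ1) (by linarith)
    (by exact_mod_cast hρ)
  refine ⟨θ', C', c, h1, h2, h3, h4, ?_⟩
  intro pm nm k0 kT o oT ℓ hone G T cl v sd j0 i t z hrun x0 u ε Q hinv hW hD hJ hε0 hεc hu hQ0 hQs hQb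
  have hfP : ∀ k ≤ i, Q k → qP pm nm T j0 t z x0 k ≠ ⊤ := fun k hk hq => ne_top_of_le_ne_top ENNReal.ofReal_ne_top (hQb k hk hq)
  have hw0 : (qW pm nm T j0 t z x0 0).toReal ≤ 8 * C * ε := by
    have := ENNReal.toReal_le_of_le_ofReal hε0 hW
    nlinarith
  have hd0 : (qD pm nm T v j0 t z x0 0).toReal ≤ 8 * C * ε := by
    have := ENNReal.toReal_le_of_le_ofReal hε0 hD
    nlinarith
  have hDx0 : ‖Dex pm T t z j0 x0 0‖ ≤ 1 := by simp [Dex]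
  -- the consequence of REC at the horizon `n`
  have hrec : ∀ n ≤ i, (∀ k ≤ n, Stg pm nm T v j0 t z x0 Q k) → ∀ k ≤ n,
      (qP pm nm T j0 t z x0 k).toReal + (qW pm nm T j0 t z x0 k).toReal + (qD pm nm T v j0 t z x0 k).toReal ≤ C' * gcv θ' ε u k ∧
      (qP pm nm T j0 t z x0 k).toReal + (qW pm nm T j0 t z x0 k).toReal + (qD pm nm T v j0 t z x0 k).toReal ≤ ρ ∧
      (qJ pm nm T v j0 t z x0 k).toReal * ‖Dex pm T t z j0 x0 k‖
        ≤ (qJ pm nm T v j0 t z x0 0).toReal * θ' ^ k * Real.exp (C' * ∑ l ∈ Finset.range k, gcv θ' ε u l) := by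
    intro n hn hst
    refine H n _ _ _ _ _ u ε (pmm_rows hone hrun hQb n hn hst) hε0 hεc hw0 hd0 hDx0 fun k hk => ⟨?_, (hu k (hk.trans hn)).2⟩
    have hu0 := (hu k (hk.trans hn)).1
    have := ENNReal.toReal_le_of_le_ofReal (by positivity) (hQb k (hk.trans hn) (hst k hk).q)
    show (qP pm nm T j0 t z x0 k).toReal ≤ 8 * C * u k
    nlinarith
  have stage : ∀ n ≤ i, ∀ k ≤ n, Stg pm nm T v j0 t z x0 Q k := by
    intro n
    induction n with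
    | zero =>
      intro _ k hk
      obtain rfl : k = 0 := by omega
      exact ⟨hinv, hQ0, ne_top_of_le_ne_top ENNReal.ofReal_ne_top hW, ne_top_of_le_ne_top ENNReal.ofReal_ne_top hD, hJ⟩
    | succ n ih =>
      intro hn k hk
      have ihn := ih (by omega)
      rcases Nat.lt_or_ge k (n + 1) with hlt | hge
      · exact ihn k (by omega)
      · obtain rfl : k = n + 1 := by omega
        have hs := ihn n le_rfl
        have hb := (hrec n (by omega) ihn n le_rfl).2.1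
        refine pmm_succ hone hrun hQs (by omega) hs ?_
        have := (pmm_sum3 (hfP n (by omega) hs.q) hs.finW hs.finD (r := (ρ : ℝ)) ρ.coe_nonneg).2 hb
        rwa [ENNReal.ofReal_coe_nnreal] at this
  intro k hk
  have hst := stage i le_rfl
  obtain ⟨r1, r2, r3⟩ := hrec i le_rfl hst k hk
  have hs := hst k hk
  have hg : 0 ≤ C' * gcv θ' ε u k := le_trans (by positivity) r1
  refine ⟨hs.inv, hs.q, ?_, (pmm_sum3 (hfP k hk hs.q) hs.finW hs.finD hg).2 r1, hs.finJ, r3⟩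
  have := (pmm_sum3 (hfP k hk hs.q) hs.finW hs.finD (r := (ρ : ℝ)) ρ.coe_nonneg).2 r2
  rwa [ENNReal.ofReal_coe_nnreal] at this

/-! ## 3. The constants: THE TARGET OF THE CHAIN OF CONSTANTS (producer: `Obs/PairOne.lean`, helper254 + `Obs/PairCst.lean`, helper241) -/

/-- the parameters of the paired map in `Obs.PairAtStopStmt`; `Dsq` = clearance of the squares, in coarse blocks -/
def pmOf (c : B8.Geo) (H0 H1 Dsq : ℕ) (vinf : ℤ × ℤ → ℝ) : Prm := ⟨c, B8.ω8, ⟨H0, H1, 1, 1⟩, Dsq, vinf⟩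

/-- the two norms of `Obs.PairAtStopStmt`: `(nmOf ..).p0 ω8 = ⟨δ, κ, h0, A, ω8⟩`, `(nmOf ..).pT ω8 = Obs.parT ⟨δ, κ, h0, A, ω8⟩ qA` by `rfl` -/
def nmOf (δ κ : ℝ) (h0 : ℝ≥0) (A qA : ℝ) : Nm := ⟨δ, κ, 2 * κ, h0, A, A / qA⟩

/-- everything which depends on the constants only -/
structure PackOK (o oT : ObsPar) (c : B8.Geo) (δ κ : ℝ) (h0 : ℝ≥0) (A qA : ℝ) (H0 H1 ℓ : ℕ) (vinf : ℤ × ℤ → ℝ) (Dsq : ℕ) (k0 kT : KC)
    (θ C ρ : ℝ≥0) : Prop where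
  ctx : CtxAll (pmOf c H0 H1 Dsq vinf) (nmOf δ κ h0 A qA) k0 kT o oT ℓ
  one : OneStep (pmOf c H0 H1 Dsq vinf) (nmOf δ κ h0 A qA) k0 kT o oT ℓ θ C ρ
  tot : TotBd (pmOf c H0 H1 Dsq vinf) (nmOf δ κ h0 A qA) o oT ℓ C
  int : TermInt (nmOf δ κ h0 A qA) o oT

/-- **THE CHAIN OF CONSTANTS**, in the order of `Obs.PairAtStopStmt`.
`δ0, κ0`: `Obs.terminal_regulator o`, `oT` (at `2κ`), `B4.regulator_mono`, `δ ≤ 1`;  `h0min`: `F4a.local_map_core` (`Csh β ≤ h₀`, `β = √k₀`), `pgn_gain`;  `qA = exp (shC ..)` (`prt_normLe`);  `H0 ≥ c0 + 4`, `H1 ≥ 3`;  `vinf`: `prt_eta_ok`;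
`ℓ0`: cores, gains, counts, zones;  `η ≤ 1/4`, `A0` (both norms: `A / qA ≥ A0T`);  `Cd`, then `Cnl, ε0`;  `Dsq ≥ D1R`, cores, `64`, zones;  `θ, C, ρ`. -/
def PairConstStmt : Prop := ∀ (o oT : ObsPar), Obs.ObsPair o oT →
    ∃ δ0 > (0 : ℝ), ∀ δ ∈ Set.Ioc 0 δ0, ∃ κ0 > (0 : ℝ), ∀ κ ∈ Set.Ioc 0 κ0, ∀ (c : B8.Geo) (c0 : ℕ), Obs.GeoFit c → 2 * (c.ρ + 4) ≤ c0 →
    ∃ (h0min : ℝ≥0) (qA : ℝ) (H0 H1 : ℕ) (vinf : ℤ × ℤ → ℝ), 0 < h0min ∧ 1 ≤ qA ∧ c0 + 4 ≤ H0 ∧ 3 ≤ H1 ∧ ∀ h0 ≥ h0min, ∃ ℓ0 : ℕ, 2 ≤ ℓ0 ∧ ∀ ℓ ≥ ℓ0,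
    ∃ A0 : ℝ, qA ≤ A0 ∧ ∀ A ≥ A0, ∀ D1R : ℕ, Obs.SqHyp c δ κ o ℓ D1R → Obs.SqHyp c δ (2 * κ) oT ℓ D1R →
    ∃ (Dsq : ℕ) (k0 kT : KC) (θ C ρ : ℝ≥0), 0 < θ ∧ θ < 1 ∧ 1 ≤ C ∧ 0 < ρ ∧ PackOK o oT c δ κ h0 A qA H0 H1 ℓ vinf Dsq k0 kT θ C ρ

end

end Claimed.Agent.R285.F6.Pr
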