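import Claimed.Agent.R285.Obs.PairConv
import Claimed.Agent.R285.Obs.PairKer
import Claimed.Agent.R285.Obs.TermA

/-!
# ROW 285, unit OBS, BP-OBS-L62, block REG, exit (R1): THE REGULATORS ARE LOCAL      (architect helper49)   -- KEEP

`prr_R1` : if `F₀` (support `X`, wall-free in the free square `G₀`) is the copy of `F₁` (support `E X` in the volume `G₁`: a bigger centred square or a torus), then `fnSize p g₀ V₀ X F₀ ≤ fnSize p g₁ V₁ (E X) F₁`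
for the observation regulators with the same parameters `o` and corresponding cells.  `prr_R1_act`: the same for activities.
MECHANISM.  All objects are PULLED BACK along the site embedding `s`: for a field `φ` of `G₁`, `tnorm`, `U`, `bondE`, `openE`, `VobsD` on the image of a domain only see `φ ∘ s`.  A field of `G₀` is extended by zero (`extS`).
The covariance `C_{<m}` enters `VobsD` only through its block on `D × D` (`ov_project`); the blocks agree by `pkr_cov_transl` (K4 = `prr_low_copy`).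
Prefix `prr_`.  Everything is paper-free.
-/

set_option autoImplicit false

namespace Claimed.Agent.R285.F6.Pr

open scoped BigOperators ENNReal NNReal
open MeasureTheory
open Claimed.Agent.R285 Claimed.Agent.R285.RG Claimed.Agent.R285.B4 Claimed.Agent.R285.F4a Claimed.Agent.R285.Obs Claimed.Agent.R285.Entry

noncomputable section

variable {G₀ G₁ : Geom}

/-! ## 1. Domains -/

/-- extension by zero along the site embedding -/
def extS {α : Type} [Zero α] (s : G₀.V ↪ G₁.V) (u : G₀.V → α) : G₁.V → α := Function.extend s u 0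

theorem prr_extS {α : Type} [Zero α] (s : G₀.V ↪ G₁.V) (u : G₀.V → α) (v : G₀.V) : extS s u (s v) = u v :=
  s.injective.extend_apply u 0 v

/-- the site embedding respects the stencils of radius `2` issued from `D` -/
def StepOn (s : G₀.V ↪ G₁.V) (D : Finset G₀.V) : Prop :=
  ∀ v ∈ D, ∀ y : ℤ × ℤ, y.1.natAbs + y.2.natAbs ≤ 2 → G₁.π (G₁.ι (s v) + y) = s (G₀.π (G₀.ι v + y))

/-- corresponding grids of cells: `ec` is compatible with `s`, with full fibres -/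
structure CellOn (s : G₀.V ↪ G₁.V) (c₀ : Grid G₀) (c₁ : Grid G₁) (ec : c₀.I ↪ c₁.I) : Prop where
  blk : ∀ v, c₁.blk (s v) = ec (c₀.blk v)
  full : ∀ v' a, c₁.blk v' = ec a → v' ∈ Set.range s
  ne : ∀ c' : c₁.I, (c₁.sites {c'}).Nonempty

theorem prr_defs_eqns_cite : True := by
  have := @extS.eq_1; have := @StepOn.eq_1; trivial

theorem prr_lift {α : Type} {s : G₀.V ↪ G₁.V} {D : Finset G₀.V} (hs : StepOn s D) (u : G₁.V → α) (v : G₀.V) (hv : v ∈ D) (y : ℤ × ℤ)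
    (hy : y.1.natAbs + y.2.natAbs ≤ 2) : G₁.lift u (G₁.ι (s v) + y) = G₀.lift (fun v => u (s v)) (G₀.ι v + y) := by
  show u (G₁.π (G₁.ι (s v) + y)) = u (s (G₀.π (G₀.ι v + y)))
  rw [hs v hv y hy]

/-- **LEAF `L-REG-V1`** (~50 l.).  `unfold bondE`; `Finset.sum_map`; for `v ∈ D`, `e`: `G₁.π (G₁.ι (s v) + dir e) = s (G₀.π (G₀.ι v + dir e))` (`hs`, `dir_natAbs` of `PairConv.lean`), so the membership in `D.map s` is the membership in `D`
(`Finset.mem_map'`); `dif (dir e) (G₁.lift u) (G₁.ι (s v)) = dif (dir e) (G₀.lift (u ∘ s)) (G₀.ι v)`: unfold `dif`, `prr_lift` at `y = dir e` and `y = 0` (`add_zero`). -/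
theorem prr_bondE {s : G₀.V ↪ G₁.V} {D : Finset G₀.V} (hs : StepOn s D) (u : G₁.V → ℝ) : bondE (D.map s) u = bondE D (fun v => u (s v)) := by
  unfold bondE
  rw [Finset.sum_map]
  congr 1
  refine Finset.sum_congr rfl fun v hv => Finset.sum_congr rfl fun e _ => ?_
  have hd : (dir e).1.natAbs + (dir e).2.natAbs ≤ 2 := (dir_natAbs e).trans (by norm_num)
  have h1 : G₁.π (G₁.ι (s v) + dir e) = s (G₀.π (G₀.ι v + dir e)) := hs v hv (dir e) hd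
  have h2 : dif (dir e) (G₁.lift u) (G₁.ι (s v)) = dif (dir e) (G₀.lift (fun v => u (s v))) (G₀.ι v) := by
    unfold dif
    have a1 := prr_lift hs u v hv (dir e) hd
    have a2 := prr_lift hs u v hv 0 (by simp)
    rw [add_zero, add_zero] at a2
    rw [a1, a2]
  rw [h1, h2]
  by_cases hm : G₀.π (G₀.ι v + dir e) ∈ D
  · rw [if_pos hm, if_pos (Finset.mem_map_of_mem s hm)]
  · rw [if_neg hm, if_neg (fun hh => hm ((Finset.mem_map' s).1 hh))]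

/-- **LEAF `L-REG-V2`** (~80 l.).  (1) `c₁.sites {ec c} = (c₀.sites {c}).map s`: `ext w`; `Grid.sites`, `Finset.mem_filter`, `Finset.mem_singleton`, `Finset.mem_map`; `⊆`: `hc.full`, then `hc.blk` and injectivity of `ec`; `⊇`: `hc.blk`.
(2) `cellAvg`: `unfold cellAvg`, (1), `Finset.sum_map`, `Finset.card_map`.
(3) `cellsIn`: `ext c'`; if `c₁.sites {c'} ⊆ D.map s`, take a site `w` of `c'` (`hc.ne`), `w = s v`, so `c' = ec (c₀.blk v)` (`hc.blk`), and (1) + injectivity of `s` give `c₀.sites {c} ⊆ D`; conversely (1) and `Finset.map_subset_map`. -/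
theorem prr_cells {s : G₀.V ↪ G₁.V} {c₀ : Grid G₀} {c₁ : Grid G₁} {ec : c₀.I ↪ c₁.I} (hc : CellOn s c₀ c₁ ec) :
    (∀ c : c₀.I, c₁.sites {ec c} = (c₀.sites {c}).map s) ∧
    (∀ (u : G₁.V → ℝ) (c : c₀.I), cellAvg c₁ u (ec c) = cellAvg c₀ (fun v => u (s v)) c) ∧
    (∀ D : Finset G₀.V, cellsIn c₁ (D.map s) = (cellsIn c₀ D).map ec) := by
  classical
  have h1 : ∀ c : c₀.I, c₁.sites {ec c} = (c₀.sites {c}).map s := by
    intro c
    ext w
    simp only [Grid.sites, Finset.mem_filter, Finset.mem_univ, true_and, Finset.mem_singleton, Finset.mem_map]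
    constructor
    · intro hw
      obtain ⟨v, rfl⟩ := hc.full w c hw
      rw [hc.blk] at hw
      exact ⟨v, ec.injective hw, rfl⟩
    · rintro ⟨v, hv, rfl⟩
      rw [hc.blk, hv]
  refine ⟨h1, fun u c => ?_, fun D => ?_⟩
  · unfold cellAvg
    rw [h1, Finset.sum_map, Finset.card_map]
  · ext c'
    simp only [cellsIn, Finset.mem_filter, Finset.mem_univ, true_and, Finset.mem_map]
    constructor
    · intro hsub
      obtain ⟨w, hw⟩ := hc.ne c'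
      obtain ⟨v, -, rfl⟩ := Finset.mem_map.1 (hsub hw)
      have hb : c₁.blk (s v) = c' := by
        simpa only [Grid.sites, Finset.mem_filter, Finset.mem_univ, true_and, Finset.mem_singleton] using hw
      rw [hc.blk] at hb
      refine ⟨c₀.blk v, ?_, hb⟩
      rw [← hb, h1] at hsub
      exact (Finset.map_subset_map).1 hsub
    · rintro ⟨c, hcD, rfl⟩
      rw [h1]
      exact Finset.map_subset_map.2 hcD

/-- **LEAF `L-REG-V3`** (~60 l.).  `unfold openE`.  For every `u : G₁.V → ℝ` the value in `G₁` is the value in `G₀` at `u ∘ s` (`prr_bondE`, `prr_cells`, `Finset.sum_map`); `u ↦ u ∘ s` is surjective (`extS`, `prr_extS`):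
`Function.Surjective.iInf_comp` (or `le_antisymm` with `ciInf_mono`-type arguments: `ov_bdd`, `ov_openE_le` of `VReg.lean`; no positivity of `a` is needed with `iInf_comp`). -/
theorem prr_openE {s : G₀.V ↪ G₁.V} {D : Finset G₀.V} (hs : StepOn s D) {c₀ : Grid G₀} {c₁ : Grid G₁} {ec : c₀.I ↪ c₁.I} (hc : CellOn s c₀ c₁ ec)
    (a : ℝ) (y : c₁.I → ℝ) : openE a c₁ (D.map s) y = openE a c₀ D (fun c => y (ec c)) := by
  unfold openE
  have hsurj : Function.Surjective (fun (u : G₁.V → ℝ) (v : G₀.V) => u (s v)) := fun u => ⟨extS s u, funext fun v => prr_extS s u v⟩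
  rw [← hsurj.iInf_comp]
  refine iInf_congr fun u => ?_
  rw [prr_bondE hs u, (prr_cells hc).2.2 D, Finset.sum_map]
  congr 1
  exact Finset.sum_congr rfl fun c _ => by rw [(prr_cells hc).2.1 u c]

/-- `openE` only sees the observation on the cells inside `D` -/
theorem prr_openE_congr {G : Geom} (a : ℝ) (gs : Grid G) (D : Finset G.V) (y y' : gs.I → ℝ) (h : ∀ c ∈ cellsIn gs D, y c = y' c) :
    openE a gs D y = openE a gs D y' := by
  unfold openE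
  congr 1
  funext u
  congr 1
  exact Finset.sum_congr rfl fun c hc => by rw [h c hc]

/-- the block `D × D` of the covariance acts in the same way in both volumes -/
theorem prr_mulVec_blk {s : G₀.V ↪ G₁.V} {D : Finset G₀.V} (C₀ : Matrix G₀.V G₀.V ℝ) (C₁ : Matrix G₁.V G₁.V ℝ)
    (hcov : ∀ v ∈ D, ∀ w ∈ D, C₁ (s v) (s w) = C₀ v w) (y₁ : G₁.V → ℝ) (hy : ∀ v, v ∉ D.map s → y₁ v = 0) (v : G₀.V) (hv : v ∈ D) :
    C₀.mulVec (fun v => if v ∈ D then y₁ (s v) else 0) v = C₁.mulVec y₁ (s v) := by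
  classical
  simp only [Matrix.mulVec, dotProduct]
  rw [← Finset.sum_subset (Finset.subset_univ D), ← Finset.sum_subset (Finset.subset_univ (D.map s)), Finset.sum_map]
  · exact Finset.sum_congr rfl fun w hw => by rw [if_pos hw, hcov v hv w hw]
  · intro w _ hw
    rw [hy w hw, mul_zero]
  · intro w _ hw
    rw [if_neg hw, mul_zero]

/-- **LEAF `L-REG-V4`: the observation regulator only sees the block `D × D` of the covariance** (~200 l.).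
`rw [ov_vobsD_def, ov_vobsD_def]`, `mul_le_mul_of_nonneg_left (ciSup_le fun x => ?_)`.  Given `x = (ξ₁, e₁)`: `ov_project C₁ hC₁ (D.map s) ξ₁` gives `y₁` supported in `D.map s`, `C₁ y₁ = C₁ ξ₁` on `D.map s`, `⟨y₁, C₁ y₁⟩ ≤ ⟨ξ₁, C₁ ξ₁⟩`.
`ξ₀ v := if v ∈ D then y₁ (s v) else 0`, `e₀ c := e₁ (ec c)`.  CLAIM `ovF .. c₁ C₁ (D.map s) φ x ≤ ovF .. c₀ C₀ D (φ ∘ s) (ξ₀, e₀)`, then `le_ciSup (ov_F_bdd h c₀ C₀ hC₀ hcac D _)`.
 (i) for `v ∈ D`: `(C₀ ξ₀) v = (C₁ y₁) (s v)`: both are `∑_{w ∈ D} C₀ v w * y₁ (s w)` (`Matrix.mulVec`, `dotProduct`; restrict the sums to `D`, resp. `D.map s`: `Finset.sum_subset`; `Finset.sum_map`; `hcov`);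
 (ii) `⟨ξ₀, C₀ ξ₀⟩ = ⟨y₁, C₁ y₁⟩` (same restrictions + (i));   (iii) `∑_c e₀ c ^ 2 ≤ ∑_{c'} e₁ c' ^ 2` (`Finset.sum_map` on `Finset.univ.map ec`, `Finset.sum_le_sum_of_subset_of_nonneg`);
 (iv) `prr_openE`; `openE a c₀ D` only sees `y` on `cellsIn c₀ D` (`unfold openE`, `Finset.sum_congr`); for `c ∈ cellsIn c₀ D`: `prr_cells` (2), `ov_cellAvg_congr` (the sites of `c` are in `D`), (i), `C₁ y₁ = C₁ ξ₁` on `D.map s`;
 (v) `unfold ovF`; `0 < p1⁻¹` (`h.p1_gt`). -/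
theorem prr_vobsD {a hs p1 : ℝ} (h : OPar a hs p1) {s : G₀.V ↪ G₁.V} {D : Finset G₀.V} (hst : StepOn s D) {c₀ : Grid G₀} {c₁ : Grid G₁}
    {ec : c₀.I ↪ c₁.I} (hc : CellOn s c₀ c₁ ec) (C₀ : Matrix G₀.V G₀.V ℝ) (C₁ : Matrix G₁.V G₁.V ℝ) (hC₀ : C₀.PosSemidef) (hcac : Cac C₀)
    (hC₁ : C₁.PosSemidef) (hcov : ∀ v ∈ D, ∀ w ∈ D, C₁ (s v) (s w) = C₀ v w) (φ : G₁.V → ℝ) :
    VobsD a hs p1 c₁ C₁ (D.map s) φ ≤ VobsD a hs p1 c₀ C₀ D (fun v => φ (s v)) := by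
  classical
  rw [ov_vobsD_def, ov_vobsD_def]
  refine mul_le_mul_of_nonneg_left (ciSup_le fun x => ?_) (by norm_num)
  obtain ⟨y₁, hy0, hyC, hyq⟩ := ov_project C₁ hC₁ (D.map s) x.1
  obtain ⟨ξ₀, hξ₀⟩ : ∃ ξ₀ : G₀.V → ℝ, ξ₀ = fun v => if v ∈ D then y₁ (s v) else 0 := ⟨_, rfl⟩
  refine le_trans ?_ (le_ciSup (ov_F_bdd h c₀ C₀ hC₀ hcac D _) (ξ₀, fun c => x.2 (ec c)))
  have e1 : ∀ v ∈ D, C₀.mulVec ξ₀ v = C₁.mulVec y₁ (s v) := fun v hv => by
    rw [hξ₀]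
    exact prr_mulVec_blk C₀ C₁ hcov y₁ hy0 v hv
  have e2 : ξ₀ ⬝ᵥ C₀.mulVec ξ₀ = y₁ ⬝ᵥ C₁.mulVec y₁ := by
    simp only [dotProduct]
    rw [← Finset.sum_subset (Finset.subset_univ D), ← Finset.sum_subset (Finset.subset_univ (D.map s)), Finset.sum_map]
    · refine Finset.sum_congr rfl fun w hw => ?_
      rw [e1 w hw, hξ₀]
      simp only [if_pos hw]
    · intro w _ hw
      rw [hy0 w hw, zero_mul]
    · intro w _ hw
      rw [hξ₀]
      simp only [if_neg hw, zero_mul]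
  have e3 : ∑ c, x.2 (ec c) ^ 2 ≤ ∑ c', x.2 c' ^ 2 := by
    rw [← Finset.sum_map Finset.univ ec (fun c' => x.2 c' ^ 2)]
    exact Finset.sum_le_sum_of_subset_of_nonneg (Finset.subset_univ _) fun _ _ _ => sq_nonneg _
  have e4 : openE a c₁ (D.map s) (fun c => cellAvg c₁ (fun v => Real.sqrt a * (φ v + C₁.mulVec x.1 v)) c + x.2 c)
      = openE a c₀ D (fun c => cellAvg c₀ (fun v => Real.sqrt a * (φ (s v) + C₀.mulVec ξ₀ v)) c + x.2 (ec c)) := by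
    rw [prr_openE hst hc]
    refine prr_openE_congr _ _ _ _ _ fun c hcD => ?_
    rw [(prr_cells hc).2.1]
    congr 1
    refine ov_cellAvg_congr _ _ _ _ fun v hv => ?_
    have hvD : v ∈ D := (Finset.mem_filter.1 hcD).2 hv
    rw [e1 v hvD, hyC (s v) (Finset.mem_map_of_mem _ hvD)]
  have hp : 0 < p1⁻¹ := inv_pos.2 (by linarith [h.p1_gt])
  have e5 := mul_le_mul_of_nonneg_left (add_le_add hyq e3) hp.le
  unfold ovF
  dsimp only
  rw [e4, e2]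
  linarith

/-! ## 2. Blocks -/

variable {g₀ : Grid G₀} {g₁ : Grid G₁}

/-- the collar of the image of `X` is covered by the embedding -/
def Cov2 (E : GEmb g₀ g₁) (X : Finset g₀.I) : Prop := ∀ b' ∈ g₁.collar (X.map E.e), b' ∈ Set.range E.e

/-- one axis of `prr_cov2` -/
theorem prr_cov2_one (g₁ : Grid G₁) (n₀ t a : ℕ) (x b' : Fin g₁.n) (hx : (x : ℕ) = a + t) (h3 : 3 ≤ a) (ha : a + 3 < n₀) (hn : a + 3 + t < g₁.n)
    (hd : g₁.idist1 x b' ≤ 2) : t ≤ (b' : ℕ) ∧ (b' : ℕ) - t < n₀ := by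
  have hb := b'.is_lt
  cases hbc : G₁.bc with
  | per =>
    rw [prg_idist1_per hbc] at hd
    omega
  | free =>
    rw [prg_idist1_free hbc] at hd
    omega

/-- **LEAF `L-REG-B1`** (index arithmetic, ~80 l.).  `b' ∈ collar`: `∃ a ∈ X, g₁.idist (E.e a) b' ≤ 2` (`Grid.collar`, `Finset.mem_filter`, `Finset.mem_map`).  `Grid.idist = max` of the two `idist1`; `prg_idist1_free`, `prg_idist1_per` (`PairGeo.lean`),
cases on `G₁.bc`.  `a` is `H ≥ 3` blocks away from the walls of `g₀`: `3 ≤ a.1`, `a.1 + 3 < g₀.n`; the block `(a.1 + 3, a.2)` of `g₀` has an image, so `a.1 + 3 + t < g₁.n` (`he`, `Fin.is_lt`).  Hence `|Δ| ≤ 2` gives `b'.1 - t ∈ [a.1 - 2, a.1 + 2] ⊆ [0, g₀.n)`,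
and the wrap-around alternative `g₁.n - |Δ| ≤ 2` of the torus is impossible (`3 + t ≤ a.1 + t ≤ g₁.n - 4`, `b'.1 < g₁.n`); `omega` after `Int.natAbs` case splits.  Then `b' = E.e (⟨b'.1 - t, _⟩, ⟨b'.2 - t, _⟩)` (`Prod.ext`, `Fin.ext`, `he`). -/
theorem prr_cov2 (E : GEmb g₀ g₁) (t : ℕ) (he : ∀ b, ((E.e b).1 : ℕ) = (b.1 : ℕ) + t ∧ ((E.e b).2 : ℕ) = (b.2 : ℕ) + t) (H : ℕ) (hH : 3 ≤ H)
    (X : Finset g₀.I) (hX : WallFree g₀ H X) : Cov2 E X := by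
  classical
  intro b' hb'
  unfold Grid.collar at hb'
  rw [Finset.mem_filter] at hb'
  obtain ⟨-, a', ha', hd⟩ := hb'
  rw [Finset.mem_map] at ha'
  obtain ⟨a, ha, rfl⟩ := ha'
  obtain ⟨h1, h2, h3, h4⟩ := hX a ha
  have hd1 : g₁.idist1 (E.e a).1 b'.1 ≤ 2 := le_trans (le_max_left _ _) hd
  have hd2 : g₁.idist1 (E.e a).2 b'.2 ≤ 2 := le_trans (le_max_right _ _) hd
  have i1 := (he (⟨a.1 + 3, by omega⟩, a.2)).1
  have i1' := (E.e (⟨a.1 + 3, by omega⟩, a.2)).1.is_lt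
  have i2 := (he (a.1, ⟨a.2 + 3, by omega⟩)).2
  have i2' := (E.e (a.1, ⟨a.2 + 3, by omega⟩)).2.is_lt
  rw [i1] at i1'
  rw [i2] at i2'
  obtain ⟨p1, p2⟩ := prr_cov2_one g₁ g₀.n t a.1 (E.e a).1 b'.1 (he a).1 (by omega) (by omega) i1' hd1
  obtain ⟨q1, q2⟩ := prr_cov2_one g₁ g₀.n t a.2 (E.e a).2 b'.2 (he a).2 (by omega) (by omega) i2' hd2
  refine ⟨(⟨b'.1 - t, p2⟩, ⟨b'.2 - t, q2⟩), ?_⟩
  apply Prod.ext <;> apply Fin.ext
  · rw [(he _).1]
    exact Nat.sub_add_cancel p1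
  · rw [(he _).2]
    exact Nat.sub_add_cancel q1

/-- **LEAF `L-REG-B2`** (~100 l.).  (1) `ext b'`: `⊆` by `hc` and `hE.dist`; `⊇` by `hE.dist`.  (2) `ext w`: `Grid.sites`; `⊆`: `hE.full`, `hE.blk`, injectivity of `E.e`; `⊇`: `hE.blk`.  (3) `Grid.Dm = sites (collar ..)`; (1) and the argument of (2). -/
theorem prr_Dm (E : GEmb g₀ g₁) (hE : E.Ok) (X : Finset g₀.I) (hc : Cov2 E X) :
    g₁.collar (X.map E.e) = (g₀.collar X).map E.e ∧ (∀ b : g₀.I, g₁.sites {E.e b} = (g₀.sites {b}).map E.s) ∧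
    g₁.Dm (X.map E.e) = (g₀.Dm X).map E.s := by
  classical
  have h1 : g₁.collar (X.map E.e) = (g₀.collar X).map E.e := by
    ext b'
    constructor
    · intro hb
      obtain ⟨b, rfl⟩ := hc b' hb
      unfold Grid.collar at hb ⊢
      rw [Finset.mem_filter] at hb
      obtain ⟨-, a', ha', hd⟩ := hb
      obtain ⟨a, ha, rfl⟩ := Finset.mem_map.1 ha'
      rw [hE.dist] at hd
      exact Finset.mem_map_of_mem _ (Finset.mem_filter.2 ⟨Finset.mem_univ _, a, ha, hd⟩)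
    · intro hb
      obtain ⟨b, hb0, rfl⟩ := Finset.mem_map.1 hb
      unfold Grid.collar at hb0 ⊢
      obtain ⟨-, a, ha, hd⟩ := Finset.mem_filter.1 hb0
      exact Finset.mem_filter.2 ⟨Finset.mem_univ _, E.e a, Finset.mem_map_of_mem _ ha, by rw [hE.dist]; exact hd⟩
  have h2 : ∀ Y : Finset g₀.I, g₁.sites (Y.map E.e) = (g₀.sites Y).map E.s := by
    intro Y
    ext w
    unfold Grid.sites
    simp only [Finset.mem_filter, Finset.mem_univ, true_and, Finset.mem_map]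
    constructor
    · rintro ⟨a, ha, hw⟩
      obtain ⟨v, rfl⟩ := hE.full w a hw.symm
      rw [hE.blk] at hw
      have := E.e.injective hw
      exact ⟨v, this ▸ ha, rfl⟩
    · rintro ⟨v, hv, rfl⟩
      exact ⟨_, hv, (hE.blk v).symm⟩
  refine ⟨h1, fun b => ?_, ?_⟩
  · have := h2 {b}
    rwa [Finset.map_singleton] at this
  · unfold Grid.Dm
    rw [h1, h2]

theorem prr_stepOn (E : GEmb g₀ g₁) (hE : E.Ok) (hG : G₀.bc = BC.free) (hg : Std g₀) (hm : 2 ≤ g₀.m) (H : ℕ) (hH : 3 ≤ H) (X : Finset g₀.I)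
    (hX : WallFree g₀ H X) : StepOn E.s (g₀.Dm X) :=
  fun v hv y hy => hE.lat v y (inBox_of_wallFree hG g₀ hg hm H hH X hX v hv y hy)

/-- **LEAF `L-REG-B3`** (~60 l.): the converse of `tnorm_emb_le` (`PairConv.lean`), same proof: `Hol.tnorm_le_iff`; a site of `g₁.Dm (X.map E.e)` is `E.s v`, `v ∈ g₀.Dm X` (`hD`, `Finset.mem_map`); `Hol.tnorm_spec g₀ X (f ∘ E.s) v`;
`difs_congr_box` with `prr_lift`; `hside`. -/
theorem prr_tnorm {α : Type} [NormedAddCommGroup α] (E : GEmb g₀ g₁) (hside : g₁.m = g₀.m) (X : Finset g₀.I) (hs : StepOn E.s (g₀.Dm X))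
    (hD : g₁.Dm (X.map E.e) = (g₀.Dm X).map E.s) (f : G₁.V → α) : tnorm g₁ (X.map E.e) f ≤ tnorm g₀ X (fun v => f (E.s v)) := by
  rw [Hol.tnorm_le_iff]
  intro v' hv'
  rw [hD] at hv'
  obtain ⟨v, hv, rfl⟩ := Finset.mem_map.1 hv'
  obtain ⟨s0, s1, s2⟩ := Hol.tnorm_spec g₀ X (fun v => f (E.s v)) v hv
  refine ⟨s0, fun a => ?_, fun a => ?_⟩
  · rw [difs_congr_box a (G₁.lift f) (G₀.lift fun v => f (E.s v)) (G₁.ι (E.s v)) (G₀.ι v)
      (fun y hy => prr_lift hs f v hv y (by omega)), hside]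
    exact s1 a
  · rw [difs_congr_box a (G₁.lift f) (G₀.lift fun v => f (E.s v)) (G₁.ι (E.s v)) (G₀.ι v)
      (fun y hy => prr_lift hs f v hv y hy), hside]
    exact s2 a

/-- **LEAF `L-REG-B4`** (~150 l.).  `unfold U`; three equalities.  `gE`: `unfold gE`, `hD.2.2`, `Finset.sum_map`, `dif` by `prr_lift` (as in `prr_bondE`).  `PE`: the same with the indicator (`hs`, `Finset.mem_map'`), `hside`.
`TE`: `unfold TE`, `hD.1`, `Finset.sum_map`, `hD.2.1`, `Finset.sup_map`; `nab 2 (G₁.lift φ) (G₁.ι (E.s v)) = nab 2 (G₀.lift (φ ∘ E.s)) (G₀.ι v)` for `v ∈ g₀.Dm X` (`unfold nab`, `difs_congr_box`, `prr_lift`);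
the sites of a block of the collar are in `D_m (X)` (`Grid.Dm`, `Grid.sites`). -/
theorem prr_U (E : GEmb g₀ g₁) (hside : g₁.m = g₀.m) (X : Finset g₀.I) (hs : StepOn E.s (g₀.Dm X))
    (hD : g₁.collar (X.map E.e) = (g₀.collar X).map E.e ∧ (∀ b : g₀.I, g₁.sites {E.e b} = (g₀.sites {b}).map E.s) ∧
      g₁.Dm (X.map E.e) = (g₀.Dm X).map E.s) (δ : ℝ) (φ : G₁.V → ℝ) :
    U g₁ δ (X.map E.e) φ = U g₀ δ X (fun v => φ (E.s v)) := by
  classical
  obtain ⟨hD1, hD2, hD3⟩ := hD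
  have hdir : ∀ e : Fin 4, (dir e).1.natAbs + (dir e).2.natAbs ≤ 2 := by
    intro e
    fin_cases e <;> simp [dir]
  have hdif : ∀ v ∈ g₀.Dm X, ∀ e : Fin 4,
      dif (dir e) (G₁.lift φ) (G₁.ι (E.s v)) = dif (dir e) (G₀.lift fun v => φ (E.s v)) (G₀.ι v) := by
    intro v hv e
    unfold dif
    have h1 := prr_lift hs φ v hv (dir e) (hdir e)
    have h0 := prr_lift hs φ v hv 0 (by simp)
    rw [add_zero, add_zero] at h0
    rw [h1, h0]
  have hg : gE G₁ (g₁.Dm (X.map E.e)) φ = gE G₀ (g₀.Dm X) (fun v => φ (E.s v)) := by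
    unfold gE
    rw [hD3, Finset.sum_map]
    congr 1
    exact Finset.sum_congr rfl fun v hv => Finset.sum_congr rfl fun e _ => by rw [hdif v hv e]
  have hP : PE G₁ g₁.m (g₁.Dm (X.map E.e)) φ = PE G₀ g₀.m (g₀.Dm X) (fun v => φ (E.s v)) := by
    unfold PE
    rw [hD3, Finset.sum_map, hside]
    congr 1
    refine Finset.sum_congr rfl fun v hv => Finset.sum_congr rfl fun e _ => ?_
    rw [hs v hv (dir e) (hdir e), hdif v hv e]
    by_cases hm : G₀.π (G₀.ι v + dir e) ∈ g₀.Dm X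
    · rw [if_pos hm, if_pos (Finset.mem_map_of_mem _ hm)]
    · rw [if_neg hm, if_neg (fun h => hm ((Finset.mem_map' _).1 h))]
  have hT : TE g₁ (g₁.collar (X.map E.e)) φ = TE g₀ (g₀.collar X) (fun v => φ (E.s v)) := by
    unfold TE
    rw [hD1, Finset.sum_map]
    refine Finset.sum_congr rfl fun b hb => ?_
    rw [hD2 b, Finset.sup_map, hside]
    have hsup : ((g₀.sites {b}).sup ((fun v => nab 2 (G₁.lift φ) (G₁.ι v)) ∘ E.s))
        = (g₀.sites {b}).sup fun v => nab 2 (G₀.lift fun v => φ (E.s v)) (G₀.ι v) := by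
      refine Finset.sup_congr rfl fun v hv => ?_
      have hv' : v ∈ g₀.Dm X := by
        simp only [Grid.Dm, Grid.sites, Finset.mem_filter, Finset.mem_univ, true_and, Finset.mem_singleton] at hv ⊢
        rw [hv]
        exact hb
      show nab 2 (G₁.lift φ) (G₁.ι (E.s v)) = nab 2 (G₀.lift fun v => φ (E.s v)) (G₀.ι v)
      unfold nab
      refine Finset.sup_congr rfl fun a _ => ?_
      rw [difs_congr_box a (G₁.lift φ) (G₀.lift fun v => φ (E.s v)) (G₁.ι (E.s v)) (G₀.ι v)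
        (fun y hy => prr_lift hs φ v hv' y hy)]
    rw [hsup]
  unfold U
  rw [hg, hP, hT]

/-! ## 3. K4: the accumulated covariance -/

/-- the sites of `D_m (X)`, `X` wall-free with `H ≥ d + 3`, are `d + 1` blocks away from the walls.
**LEAF `L-REG-K1`** (~60 l.): as `pkr_dep_box` (`PairKer.lean`) / `inBox_of_wallFree` (`PairConv.lean`): `prg_mem_Dm`, `prg_idist_le`, `hg.blk`, `hg.card`, `Nat.div_mul_le_self`, `Nat.lt_mul_div_succ`. -/
theorem prr_Dm_core (hG : G₀.bc = BC.free) (hg : Std g₀) (d H : ℕ) (hH : d + 3 ≤ H) (X : Finset g₀.I) (hX : WallFree g₀ H X) (v : G₀.V)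
    (hv : v ∈ g₀.Dm X) : InCore G₀ (d * g₀.m) v := by
  obtain ⟨a, ha, hav⟩ := (prg_mem_Dm g₀ X v).1 hv
  obtain ⟨w1, w2, w3, w4⟩ := hX a ha
  obtain ⟨d1, d2, d3, d4⟩ := prg_idist_le hG g₀ hav
  have b1 : (((g₀.blk v).1 : Fin g₀.n) : ℕ) = (v.1 : ℕ) / g₀.m := hg.blk v.1
  have b2 : (((g₀.blk v).2 : Fin g₀.n) : ℕ) = (v.2 : ℕ) / g₀.m := hg.blk v.2
  rw [b1] at d1 d2
  rw [b2] at d3 d4
  have key : ∀ i : ℕ, d ≤ i / g₀.m → i / g₀.m + d + 1 ≤ g₀.n → d * g₀.m ≤ i ∧ i + d * g₀.m < G₀.M := by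
    intro i h1 h2
    have q1 : i / g₀.m * g₀.m ≤ i := Nat.div_mul_le_self _ _
    have q2 : i < (i / g₀.m + 1) * g₀.m := by
      have := Nat.lt_mul_div_succ i hg.pos
      rwa [mul_comm] at this
    have q3 : d * g₀.m ≤ i / g₀.m * g₀.m := Nat.mul_le_mul_right _ h1
    have q4 : (i / g₀.m + 1 + d) * g₀.m ≤ g₀.n * g₀.m := Nat.mul_le_mul_right _ (by omega)
    have q5 : (i / g₀.m + 1 + d) * g₀.m = (i / g₀.m + 1) * g₀.m + d * g₀.m := by ring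
    rw [hg.card]
    omega
  obtain ⟨k1, k2⟩ := key (v.1 : ℕ) (by omega) (by omega)
  obtain ⟨k3, k4⟩ := key (v.2 : ℕ) (by omega) (by omega)
  exact ⟨k1, k2, k3, k4⟩

/-- **K4** -/
theorem prr_low_copy (s : G₀.V → G₁.V) (τ : ℤ × ℤ) (hs : ∀ v, G₁.ι (s v) = G₀.ι v + τ) (u : ℕ) (v w : G₀.V) (hv : InCore G₀ (pp * u) v) :
    low G₀ Fam.entry u v w = low G₁ Fam.entry u (s v) (s w) :=
  pkr_cov_transl _ s τ hs v w (hv.mono (by
    have := Ker.ker_lowP_natDegree Fam.entry 0 Ker.ker_entry_adm.deg u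
    simpa using this))

/-- **LEAF `L-REG-I1`: the cells** (~120 l.).  `τ.1, τ.2 ≥ 0` (`hs` at the site `(0, 0)`; `G₀.hM`); write `τ = (sd * t₁, sd * t₂)`, `t_i : ℕ`.  `ec a := (⟨a.1 + t₁, _⟩, ⟨a.2 + t₂, _⟩)`: the last site of the cell `a` has an image, so `(a.1 + 1) * sd + sd * t₁ ≤ G₁.M`.
The block of a site of `torusGrid G sd _` is `(v.1 / sd, v.2 / sd)` by `rfl` (`prg_std_torusGrid`).  `blk`: `Nat.add_mul_div_left`.  `full`: `v'.1 / sd = a.1 + t₁` gives `sd * t₁ ≤ v'.1 < sd * t₁ + G₀.M`; `v' = s (⟨v'.1 - sd * t₁, _⟩, ..)` (`Prod.ext`, `Fin.ext`, `hs`, `Geom.ι`).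
`ne`: `obs_cells_nonempty` with `B8.torusGrid_ok`. -/
theorem prr_cellOn (s : G₀.V ↪ G₁.V) (τ : ℤ × ℤ) (hs : ∀ v, G₁.ι (s v) = G₀.ι v + τ) (sd : ℕ) (hsd : 0 < sd) (h1 : (sd : ℤ) ∣ τ.1) (h2 : (sd : ℤ) ∣ τ.2)
    (hd₀ : sd ∣ G₀.M) (hd₁ : sd ∣ G₁.M) : ∃ ec, CellOn s (torusGrid G₀ sd hd₀) (torusGrid G₁ sd hd₁) ec := by
  have c1 : ∀ x : G₀.V, (((s x).1 : ℕ) : ℤ) = ((x.1 : ℕ) : ℤ) + τ.1 := fun x => congrArg Prod.fst (hs x)
  have c2 : ∀ x : G₀.V, (((s x).2 : ℕ) : ℤ) = ((x.2 : ℕ) : ℤ) + τ.2 := fun x => congrArg Prod.snd (hs x)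
  have hM0 := G₀.hM
  have hsdZ : (0 : ℤ) < (sd : ℤ) := by exact_mod_cast hsd
  have n1 : 0 ≤ τ.1 := by
    have z := c1 (⟨0, G₀.hM⟩, ⟨0, G₀.hM⟩)
    have z' : (((s (⟨0, G₀.hM⟩, ⟨0, G₀.hM⟩)).1 : ℕ) : ℤ) = ((0 : ℕ) : ℤ) + τ.1 := z
    omega
  have n2 : 0 ≤ τ.2 := by
    have z := c2 (⟨0, G₀.hM⟩, ⟨0, G₀.hM⟩)
    have z' : (((s (⟨0, G₀.hM⟩, ⟨0, G₀.hM⟩)).2 : ℕ) : ℤ) = ((0 : ℕ) : ℤ) + τ.2 := z
    omega
  obtain ⟨k1, hk1⟩ := h1
  obtain ⟨k2, hk2⟩ := h2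
  have hk1n : 0 ≤ k1 := by
    rw [hk1] at n1
    exact nonneg_of_mul_nonneg_right n1 hsdZ
  have hk2n : 0 ≤ k2 := by
    rw [hk2] at n2
    exact nonneg_of_mul_nonneg_right n2 hsdZ
  obtain ⟨t1, rfl⟩ := Int.eq_ofNat_of_zero_le hk1n
  obtain ⟨t2, rfl⟩ := Int.eq_ofNat_of_zero_le hk2n
  have e1 : ∀ x : G₀.V, ((s x).1 : ℕ) = (x.1 : ℕ) + sd * t1 := by
    intro x
    have := c1 x
    rw [hk1] at this
    exact_mod_cast this
  have e2 : ∀ x : G₀.V, ((s x).2 : ℕ) = (x.2 : ℕ) + sd * t2 := by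
    intro x
    have := c2 x
    rw [hk2] at this
    exact_mod_cast this
  have hlast : G₀.M - 1 < G₀.M := by omega
  have top1 : G₀.M + sd * t1 ≤ G₁.M := by
    have z : ((s (⟨G₀.M - 1, hlast⟩, ⟨G₀.M - 1, hlast⟩)).1 : ℕ) = (G₀.M - 1) + sd * t1 := e1 _
    have hlt := (s (⟨G₀.M - 1, hlast⟩, ⟨G₀.M - 1, hlast⟩)).1.2
    omega
  have top2 : G₀.M + sd * t2 ≤ G₁.M := by
    have z : ((s (⟨G₀.M - 1, hlast⟩, ⟨G₀.M - 1, hlast⟩)).2 : ℕ) = (G₀.M - 1) + sd * t2 := e2 _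
    have hlt := (s (⟨G₀.M - 1, hlast⟩, ⟨G₀.M - 1, hlast⟩)).2.2
    omega
  have nb1 : G₀.M / sd + t1 ≤ G₁.M / sd := by
    rw [Nat.le_div_iff_mul_le hsd, add_mul, Nat.div_mul_cancel hd₀, mul_comm t1]
    exact top1
  have nb2 : G₀.M / sd + t2 ≤ G₁.M / sd := by
    rw [Nat.le_div_iff_mul_le hsd, add_mul, Nat.div_mul_cancel hd₀, mul_comm t2]
    exact top2
  let ef : (torusGrid G₀ sd hd₀).I → (torusGrid G₁ sd hd₁).I := fun a =>
    (⟨(a.1 : ℕ) + t1, by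
        have h : (a.1 : ℕ) < G₀.M / sd := a.1.2
        show (a.1 : ℕ) + t1 < G₁.M / sd
        omega⟩,
     ⟨(a.2 : ℕ) + t2, by
        have h : (a.2 : ℕ) < G₀.M / sd := a.2.2
        show (a.2 : ℕ) + t2 < G₁.M / sd
        omega⟩)
  have hinj : Function.Injective ef := by
    intro a b hab
    have q1 : (a.1 : ℕ) + t1 = (b.1 : ℕ) + t1 := congrArg (fun z => ((z.1 : Fin _) : ℕ)) hab
    have q2 : (a.2 : ℕ) + t2 = (b.2 : ℕ) + t2 := congrArg (fun z => ((z.2 : Fin _) : ℕ)) hab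
    exact Prod.ext (Fin.ext (by omega)) (Fin.ext (by omega))
  refine ⟨⟨ef, hinj⟩, ⟨fun v => ?_, fun v' a h => ?_, fun c' => obs_cells_nonempty _ (B8.torusGrid_ok G₁ sd hd₁ hsd) c'⟩⟩
  · refine Prod.ext (Fin.ext ?_) (Fin.ext ?_)
    · show ((s v).1 : ℕ) / sd = (v.1 : ℕ) / sd + t1
      rw [e1, Nat.add_mul_div_left _ _ hsd]
    · show ((s v).2 : ℕ) / sd = (v.2 : ℕ) / sd + t2
      rw [e2, Nat.add_mul_div_left _ _ hsd]
  · have q1 : (v'.1 : ℕ) / sd = (a.1 : ℕ) + t1 := congrArg (fun z => ((z.1 : Fin _) : ℕ)) h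
    have q2 : (v'.2 : ℕ) / sd = (a.2 : ℕ) + t2 := congrArg (fun z => ((z.2 : Fin _) : ℕ)) h
    have key : ∀ (i a t : ℕ), i / sd = a + t → a < G₀.M / sd → sd * t ≤ i ∧ i - sd * t < G₀.M := by
      intro i a t hi ha
      have r1 : sd * (i / sd) ≤ i := Nat.mul_div_le i sd
      have r2 : i < sd * (i / sd) + sd := by
        have := Nat.lt_mul_div_succ i hsd
        rw [Nat.mul_add, Nat.mul_one] at this
        exact this
      have r3 : sd * (a + 1) ≤ sd * (G₀.M / sd) := Nat.mul_le_mul_left _ ha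
      rw [Nat.mul_div_cancel' hd₀, Nat.mul_add, Nat.mul_one] at r3
      rw [hi, Nat.mul_add] at r1 r2
      omega
    obtain ⟨u1, u2⟩ := key _ _ _ q1 a.1.2
    obtain ⟨u3, u4⟩ := key _ _ _ q2 a.2.2
    refine ⟨(⟨(v'.1 : ℕ) - sd * t1, u2⟩, ⟨(v'.2 : ℕ) - sd * t2, u4⟩), Prod.ext (Fin.ext ?_) (Fin.ext ?_)⟩
    · rw [e1]
      show (v'.1 : ℕ) - sd * t1 + sd * t1 = v'.1
      omega
    · rw [e2]
      show (v'.2 : ℕ) - sd * t2 + sd * t2 = v'.2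
      omega

/-! ## 4. The exits -/

/-- the hypotheses of (R1) on the pair of volumes: `E` = blocks, `ec` = cells, `τ` = the translation -/
structure RegEmb (E : GEmb g₀ g₁) (c₀ : Grid G₀) (c₁ : Grid G₁) (ec : c₀.I ↪ c₁.I) : Prop where
  ok : E.Ok
  free : G₀.bc = BC.free
  std : Std g₀
  ok₀ : g₀.Ok
  ok₁ : g₁.Ok
  m_ge : 2 ≤ g₀.m
  shift : ∃ t : ℕ, ∀ b, ((E.e b).1 : ℕ) = (b.1 : ℕ) + t ∧ ((E.e b).2 : ℕ) = (b.2 : ℕ) + t
  transl : ∃ τ : ℤ × ℤ, ∀ v, G₁.ι (E.s v) = G₀.ι v + τ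
  cells : CellOn E.s c₀ c₁ ec

/-- the total regulator at a field of `G₁` -/
theorem prr_wt {E : GEmb g₀ g₁} {c₀ : Grid G₀} {c₁ : Grid G₁} {ec : c₀.I ↪ c₁.I} (h : RegEmb E c₀ c₁ ec) (o : ObsPar) (V₀ : Extra g₀) (V₁ : Extra g₁)
    (hV₀ : IsObs o c₀ g₀ V₀) (hV₁ : IsObs o c₁ g₁ V₁) (H : ℕ) (hH : pp + 3 ≤ H) (X : Finset g₀.I) (hX : WallFree g₀ H X) (δ κ : ℝ) (φ : G₁.V → ℝ) :
    Wt g₁ δ κ V₁ (X.map E.e) φ ≤ Wt g₀ δ κ V₀ X (fun v => φ (E.s v)) := by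
  have hH3 : 3 ≤ H := by omega
  obtain ⟨t, ht⟩ := h.shift
  obtain ⟨τ, hτ⟩ := h.transl
  have hst := prr_stepOn E h.ok h.free h.std h.m_ge H hH3 X hX
  have hD := prr_Dm E h.ok X (prr_cov2 E t ht H hH3 X hX)
  rw [ta_wt_eq o c₁ g₁ V₁ hV₁, ta_wt_eq o c₀ g₀ V₀ hV₀, prr_U E h.ok.side X hst hD, vobs_eq, vobs_eq, hD.2.2, h.ok.side]
  refine Real.exp_le_exp.2 (add_le_add le_rfl ?_)
  refine prr_vobsD (ta_opar o) hst h.cells _ _ (B4.low_psd G₀ _ B4.entry_adm _ h.ok₀.pos) (obs_low_cac G₀ _ h.ok₀.pos)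
    (B4.low_psd G₁ _ B4.entry_adm _ h.ok₀.pos) (fun v hv w _ => ?_) φ
  exact (prr_low_copy E.s τ hτ g₀.m v w (prr_Dm_core h.free h.std pp H hH X hX v hv)).symm

/-- **(R1)** -/
theorem prr_R1 {E : GEmb g₀ g₁} {c₀ : Grid G₀} {c₁ : Grid G₁} {ec : c₀.I ↪ c₁.I} (h : RegEmb E c₀ c₁ ec) (o : ObsPar) (V₀ : Extra g₀) (V₁ : Extra g₁)
    (hV₀ : IsObs o c₀ g₀ V₀) (hV₁ : IsObs o c₁ g₁ V₁) (H : ℕ) (hH : pp + 3 ≤ H) (X : Finset g₀.I) (hX : WallFree g₀ H X) (p : Par) (col : ℕ)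
    (F₀ : Fn G₀) (F₁ : Fn G₁) (hF : CopyFn E p.h0 col 0 X F₀ F₁) : fnSize p g₀ V₀ X F₀ ≤ fnSize p g₁ V₁ (X.map E.e) F₁ := by
  have hH3 : 3 ≤ H := by omega
  obtain ⟨t, ht⟩ := h.shift
  have hst := prr_stepOn E h.ok h.free h.std h.m_ge H hH3 X hX
  have hD := prr_Dm E h.ok X (prr_cov2 E t ht H hH3 X hX)
  rw [Hol.fnSize_le_iff]
  intro φ f hf
  have e1 : (fun v => extS E.s f (E.s v)) = f := funext fun v => prr_extS E.s f v
  have e2 : (fun v => extS E.s φ (E.s v)) = φ := funext fun v => prr_extS E.s φ v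
  have hf1 : tnorm g₁ (X.map E.e) (extS E.s f) < p.h0 := by
    refine lt_of_le_of_lt (prr_tnorm E h.ok.side X hst hD.2.2 (extS E.s f)) ?_
    rwa [e1]
  have hc := hF (toC φ + f) (Hol.toC_add_mem_strip φ hf) (toC (extS E.s φ) + extS E.s f) (Hol.toC_add_mem_strip _ hf1) (fun v _ => by
    simp only [Pi.add_apply, toC, prr_extS, Pi.zero_apply]
    simp)
  rw [hc]
  refine (Hol.nnnorm_le_fnSize_mul p g₁ V₁ (X.map E.e) F₁ (extS E.s φ) (extS E.s f) hf1).trans ?_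
  have hw := prr_wt h o V₀ V₁ hV₀ hV₁ H hH X hX p.δ p.κ (extS E.s φ)
  rw [e2] at hw
  exact mul_le_mul_right (ENNReal.ofReal_le_ofReal hw) _

/-- **(R1) for activities**: the wall-free part of `K₀` is bounded by `K₁` -/
theorem prr_R1_act {E : GEmb g₀ g₁} {c₀ : Grid G₀} {c₁ : Grid G₁} {ec : c₀.I ↪ c₁.I} (h : RegEmb E c₀ c₁ ec) (o : ObsPar) (V₀ : Extra g₀)
    (V₁ : Extra g₁) (hV₀ : IsObs o c₀ g₀ V₀) (hV₁ : IsObs o c₁ g₁ V₁) (H : ℕ) (hH : pp + 3 ≤ H) (p : Par) (col : ℕ) (K₀ : Act g₀) (K₁ : Act g₁)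
    (hK : ∀ X, WallFree g₀ H X → CopyX E p.h0 col 0 K₀ K₁ X) : actNorm p g₀ V₀ (cutA (WallFree g₀ H) K₀) ≤ actNorm p g₁ V₁ K₁ := by
  classical
  refine iSup_le fun X => ?_
  by_cases hX : WallFree g₀ H X
  · have h1 := prr_R1 h o V₀ V₁ hV₀ hV₁ H hH X hX p col (K₀ X) (K₁ (X.map E.e)) (hK X hX)
    have h2 : ENNReal.ofReal (p.A ^ (X.map E.e).card) * fnSize p g₁ V₁ (X.map E.e) (K₁ (X.map E.e)) ≤ actNorm p g₁ V₁ K₁ :=
      le_iSup (fun Y : Finset g₁.I => ENNReal.ofReal (p.A ^ Y.card) * fnSize p g₁ V₁ Y (K₁ Y)) (X.map E.e)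
    rw [Finset.card_map] at h2
    refine le_trans ?_ h2
    unfold cutA
    rw [if_pos hX]
    exact mul_le_mul_right h1 _
  · unfold cutA
    rw [if_neg hX]
    have : fnSize p g₀ V₀ X 0 = 0 := by
      apply le_antisymm _ zero_le
      rw [Hol.fnSize_le_iff]
      intro φ f _
      simp
    rw [this, mul_zero]
    exact zero_le

end

end Claimed.Agent.R285.F6.Pr
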