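import Claimed.Agent.R285.Obs.PairS
import Claimed.Agent.R285.Obs.PairStep

/-!
# ROW 285, unit OBS, [F] L6.2 (iv), package (S), part 2: (obs:factor-copy) AND THE ROWS OF `D_ex`, `c_ex`      (architect helper205)   -- KEEP

`Pr.AtStop` (`Obs/PairConv.lean`) asks for ONE pair `(Dex, cex)` for the two squares.  Here:
1. (`prs_scal_eq`, `prs_hist_succ`: unfolding of `scal`, `hist` at a retained level: `Obs/PairChain.lean`, helper70);  `prs_central_wf`: the four central coarse blocks are wall-free;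
2. `prs_sq_scal`: one step, the three scalars at a wall-free coarse block are the same in two centred squares (hypotheses = those of `pr_sq_step`);
3. `prs_Aff_map`, `prs_Dex_copy`: the products / sums over the affected blocks agree;
4. `prs_Dex_row`: the row (obs:scalar-log-bound) in the form of `Pr.Rows.D_row` (`Obs/PairRec.lean`);  `prs_scal_small`: from the ENNReal exits of `Obs/PairS.lean` to real numbers.
Leaves `L-PAIR-S12 ..`: every `sorry`.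
-/

set_option autoImplicit false

namespace Claimed.Agent.R285.F6.Pr

open scoped BigOperators ENNReal NNReal
open MeasureTheory
open Claimed.Agent.R285 Claimed.Agent.R285.RG

noncomputable section

/-! ## 1. Unfolding -/

section one

variable {G : Geom} {ℓ : ℕ}

variable {pm : Prm} {nm : Nm} {cT : ℝ≥0} {k0 kT : KC} {T : Tw G ℓ} {j : ℕ} {h : Ret G ℓ pm.D0 j}

/-- L-PAIR-S12.  `(lev G ℓ (j+1)).n = G.M / L^{j+1} > D0` (`Ret.clear`, `side_eq h.dvd`, `Nat.lt_div_iff_mul_lt`/`Nat.div_lt_iff..`), `H.hD`; then `prg_central_wallFree` with `k = 0` (`idist b b = 0`). -/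
theorem prs_central_wf (H : Pr.Ctx pm nm cT k0 kT T h) (b : (lev G ℓ (j + 1)).I) (hb : b ∈ Aff (lev G ℓ (j + 1)) 1) :
    WallFree (lev G ℓ (j + 1)) pm.zn.H0 {b} := by
  have hn : (lev G ℓ (j + 1)).n = G.M / (2 ^ ℓ) ^ (j + 1) := by
    show G.M / side G ℓ (j + 1) = _
    rw [side_eq h.dvd]
  have hD0 : pm.D0 < (lev G ℓ (j + 1)).n := by
    rw [hn]
    exact (Nat.lt_div_iff_mul_lt' h.dvd _).2 (by rw [mul_comm]; exact h.clear)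
  have hD := H.hD
  have hNB : NearB (lev G ℓ (j + 1)) 1 b := by
    classical
    unfold Aff at hb
    exact (Finset.mem_filter.1 hb).2
  refine prg_central_wallFree H.free (lev G ℓ (j + 1)) pm.zn.H0 0 (by omega) b b hNB ?_
  rw [Hol.idist_self]

end one

/-! ## 2. One step, two squares -/

section two

variable {pm : Prm} {nm : Nm} {cT : ℝ≥0} {k0 kT : KC}

/-- L-PAIR-S13.  **(obs:factor-copy), one step.**  Hypotheses = those of `pr_sq_step` (`Obs/PairStep.lean`).  This is the hypothesis `ha` of `pr_copy_step` in the proofs of `pr_sq_step.c0 / cT / cJ` (leaves L-PAIR-C19-21, helper138, helper71):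
if they have exported `pr_sq_a0`, `pr_sq_aT`, `pr_sq_aJ`, link them.  Otherwise: `(pr_ofPieces_copy ..).2` with `E.pe h₀ h₁`, `hnb` by `prz_nb_cen`, `hcn` by `(pr_pc0_copy_cen ..).2`, `(pr_pcT_copy_cen ..).2`, `pr_cnJ_copy_cen`;
a small `X` with a block over `b` is wall-free (`Ctx.smallGeo`, `prg_wallFree_fine`); `HqReg` by `pr_HqReg_sq`; `hcov` at `cl X`. -/
theorem prs_sq_scal {G₀ G₁ : Geom} {ℓ : ℕ} {T₀ : Tw G₀ ℓ} {T₁ : Tw G₁ ℓ} {j : ℕ} {h₀ : Ret G₀ ℓ pm.D0 j} {h₁ : Ret G₁ ℓ pm.D0 j}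
    (H₀ : Pr.Ctx pm nm cT k0 kT T₀ h₀) (H₁ : Pr.Ctx pm nm cT k0 kT T₁ h₁) (E : TEmb (lev G₀ ℓ) (lev G₁ ℓ)) (hE : CenEmb (E.lv j)) (hE' : CenEmb (E.lv (j + 1)))
    (hcov : ∀ Y, WallFree (lev G₀ ℓ (j + 1)) (pm.zn.H0 - 1) Y → ∀ v ∈ dep (lev G₀ ℓ (j + 1)) pm.c.col Y, ∀ w ∈ dep (lev G₀ ℓ (j + 1)) pm.c.col Y,
      Gm G₀ ℓ j v w = Gm G₁ ℓ j (E.s v) (E.s w))
    (t z : ℂ) (x₀ : St (lev G₀ ℓ j)) (x₁ : St (lev G₁ ℓ j)) (hx₀ : Inv pm nm.h0 x₀) (hx₁ : Inv pm nm.h0 x₁)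
    (hf₀ : nP (nm.p0 pm.ω) (T₀.V0 j) pm.zn.H0 pm.α t z x₀ ≠ ⊤) (hf₁ : nP (nm.p0 pm.ω) (T₁.V0 j) pm.zn.H0 pm.α t z x₁ ≠ ⊤)
    (hc : InvSq pm nm.h0 (E.lv j) x₀ x₁) (b : (lev G₀ ℓ (j + 1)).I) (hb : WallFree (lev G₀ ℓ (j + 1)) pm.zn.H0 {b}) :
    (d0 (T₀.step h₀) pm.c pm.ω pm.zn t z x₀.K0).a b = (d0 (T₁.step h₁) pm.c pm.ω pm.zn t z x₁.K0).a (E.e (j + 1) b) ∧
    (dT (T₀.step h₀) pm.c pm.ω pm.zn t z (pm.ref G₀) x₀.K0 x₀.KT).a b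
      = (dT (T₁.step h₁) pm.c pm.ω pm.zn t z (pm.ref G₁) x₁.K0 x₁.KT).a (E.e (j + 1) b) ∧
    (dJ (T₀.step h₀) pm.c pm.ω (pm.ref G₀) x₀.JT).a b = (dJ (T₁.step h₁) pm.c pm.ω (pm.ref G₁) x₁.JT).a (E.e (j + 1) b) := by
  classical
  have hTJ := pr71_desig_copy H₀ H₁ E hE hE' hcov t z x₀ x₁ hx₀ hx₁ hf₀ hf₁ hc b hb
  refine ⟨?_, hTJ.1.2, hTJ.2.2⟩
  obtain ⟨g1, -, -, g4⟩ := pr_sq_step_geo (h₁ := h₁) H₀ E hE' hcov {b} hb
  have hbb : b ∈ ({b} : Finset (lev G₀ ℓ (j + 1)).I) := Finset.mem_singleton_self b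
  have hEok : (E.pe h₀ h₁).Ok := ⟨hE.ok, hE'.ok⟩
  have hΓ₀ : (T₀.step h₀).Γ.PosSemidef := H₀.hyp0.shell.psd
  have hΓ₁ : (T₁.step h₁).Γ.PosSemidef := H₁.hyp0.shell.psd
  have hH0 := H₀.hH0
  have key : ∀ X ∈ (T₀.step h₀).small pm.c, ∀ B ∈ X, (T₀.step h₀).P.N.up B = b →
      CopyFn (E.pe h₀ h₁).coarse nm.h0 pm.c.col 0 {b} (pc0 (T₀.step h₀) pm.ω pm.zn t z x₀.K0 X B)
        (pc0 (T₁.step h₁) pm.ω pm.zn t z x₁.K0 (X.map (E.pe h₀ h₁).f) ((E.pe h₀ h₁).f B)) ∧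
      cn0 (T₀.step h₀) pm.ω pm.zn t z x₀.K0 X B = cn0 (T₁.step h₁) pm.ω pm.zn t z x₁.K0 (X.map (E.pe h₀ h₁).f) ((E.pe h₀ h₁).f B) := by
    intro X hXs B hB hup
    obtain ⟨w1, w2, w3⟩ := g4 b hbb X hXs B hB hup
    have a1 : CenEmb (E.pe h₀ h₁).fine := hE
    have a2 : WallFree (T₀.step h₀).P.g pm.zn.H0 X := w1
    have a3 : 2 * (((T₀.step h₀).P.g.idiam X + 1) * (T₀.step h₀).P.g.m + pm.c.col) < G₁.M := w2
    have a4 : ∀ v ∈ dep (T₀.step h₀).P.g pm.c.col X, ∀ w ∈ dep (T₀.step h₀).P.g pm.c.col X,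
        (T₀.step h₀).Γ v w = (T₁.step h₁).Γ ((E.pe h₀ h₁).s v) ((E.pe h₀ h₁).s w) := w3
    have a5 : CopyX (E.pe h₀ h₁).fine (nm.p0 pm.ω).h0 pm.c.col 0 x₀.K0 x₁.K0 X := hc.c0 X w1
    have a6 : HqReg (nm.p0 pm.ω) pm.c.col (T₀.step h₀) (R0 (T₀.step h₀) (nm.p0 pm.ω).ω pm.zn t z x₀.K0) X := pr_HqReg_sq H₀ t z x₀ hx₀ hf₀ X w1
    have a7 : HqReg (nm.p0 pm.ω) pm.c.col (T₁.step h₁) (R0 (T₁.step h₁) (nm.p0 pm.ω).ω pm.zn t z x₁.K0) (X.map (E.pe h₀ h₁).f) :=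
      pr_HqReg_sq H₁ t z x₁ hx₁ hf₁ _ (prz_wallFree_map hE _ X w1)
    have h1 := pr_pc0_copy_cen (T₀.step h₀) (T₁.step h₁) (E.pe h₀ h₁) hEok a1 (nm.p0 pm.ω) H₀.nmOk.h0_pos pm.c.col H₀.geo.col_pos hΓ₀ hΓ₁
      pm.zn (by omega) t z x₀.K0 x₁.K0 X B hB a2 a3 a4 a5 a6 a7
    have hcl : (T₀.step h₀).P.N.cl {B} ⊆ {b} := by
      rw [Nest.cl, Finset.image_singleton, hup]
      exact Finset.Subset.refl _
    exact ⟨CopyFn.coarse (S₀ := T₀.step h₀) (S₁ := T₁.step h₁) (E := E.pe h₀ h₁) hEok hcl h1.1, h1.2⟩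
  exact (pr_ofPieces_copy (T₀.step h₀) (T₁.step h₁) (E.pe h₀ h₁) hEok pm.c H₁.smallGeo nm.h0 pm.c.col 0
    (pc0 (T₀.step h₀) pm.ω pm.zn t z x₀.K0) (cn0 (T₀.step h₀) pm.ω pm.zn t z x₀.K0)
    (pc0 (T₁.step h₁) pm.ω pm.zn t z x₁.K0) (cn0 (T₁.step h₁) pm.ω pm.zn t z x₁.K0) b (g1 b hbb)
    (fun X hXs B hB hup => (key X hXs B hB hup).1) (fun X hXs B hB hup => (key X hXs B hB hup).2)).2

end two

/-! ## 3. The products over the affected blocks -/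

section three

variable {G₀ G₁ : Geom}

/-- L-PAIR-S12.  `⊇`: `prz_nearB_map`.  `⊆`: a central block `b'` of `g₁` is `E.e b`, `b = b' - (n₁/2 - n₀/2)` (`hE.val`, `Prod.ext`, `Fin.ext`; `n₀ ≥ 2` because `2 ∣ n₀`, `0 < n₀` from `Std.card`, `G.hM`). -/
theorem prs_Aff_map {g₀ : Grid G₀} {g₁ : Grid G₁} {E : GEmb g₀ g₁} (hE : CenEmb E) : Aff g₁ 1 = (Aff g₀ 1).map E.e := by
  classical
  have hn0 : 0 < g₀.n := by
    have h1 := hE.std₀.card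
    have h2 := G₀.hM
    rcases Nat.eq_zero_or_pos g₀.n with h0 | h0
    · rw [h0, zero_mul] at h1
      omega
    · exact h0
  obtain ⟨a0, ha0⟩ := hE.even₀
  obtain ⟨a1, ha1⟩ := hE.even₁
  have hle := hE.le
  ext b'
  unfold Aff
  simp only [Finset.mem_filter, Finset.mem_univ, true_and, Finset.mem_map]
  constructor
  · intro hb'
    obtain ⟨e1, e2, e3, e4⟩ := hb'
    have l1 : (b'.1 : ℕ) - (g₁.n / 2 - g₀.n / 2) < g₀.n := by omega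
    have l2 : (b'.2 : ℕ) - (g₁.n / 2 - g₀.n / 2) < g₀.n := by omega
    refine ⟨(⟨_, l1⟩, ⟨_, l2⟩), ?_, ?_⟩
    · refine ⟨?_, ?_, ?_, ?_⟩ <;> simp only <;> omega
    · have hv := hE.val (⟨_, l1⟩, ⟨_, l2⟩)
      refine Prod.ext (Fin.ext ?_) (Fin.ext ?_)
      · rw [hv.1]; simp only; omega
      · rw [hv.2]; simp only; omega
  · rintro ⟨b, hb, rfl⟩
    exact (prz_nearB_map hE 1 b).2 hb

/-- **(obs:factor-copy): `D_ex`, `c_ex` are the same in the two squares** -/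
theorem prs_Dex_copy {ℓ : ℕ} (pm : Prm) (T₀ : Tw G₀ ℓ) (T₁ : Tw G₁ ℓ) (t z : ℕ → ℂ) (j0 : ℕ) (x₀ : St (lev G₀ ℓ j0)) (x₁ : St (lev G₁ ℓ j0))
    (E : TEmb (lev G₀ ℓ) (lev G₁ ℓ)) (i : ℕ) (hE : ∀ k < i, CenEmb (E.lv (j0 + k + 1)))
    (hs : ∀ k < i, ∀ b ∈ Aff (lev G₀ ℓ (j0 + k + 1)) 1, scal pm T₀ t z j0 x₀ k b = scal pm T₁ t z j0 x₁ k (E.e (j0 + k + 1) b)) :
    Dex pm T₀ t z j0 x₀ i = Dex pm T₁ t z j0 x₁ i ∧ cex pm T₀ t z j0 x₀ i = cex pm T₁ t z j0 x₁ i := by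
  constructor
  · unfold Dex
    refine Finset.prod_congr rfl fun k hk => ?_
    have hk' := Finset.mem_range.1 hk
    have e : Aff (lev G₁ ℓ (j0 + k + 1)) 1 = (Aff (lev G₀ ℓ (j0 + k + 1)) 1).map (E.e (j0 + k + 1)) := prs_Aff_map (hE k hk')
    rw [e, Finset.prod_map]
    exact Finset.prod_congr rfl fun b hb => by rw [hs k hk' b hb]
  · unfold cex
    refine Finset.sum_congr rfl fun k hk => ?_
    have hk' := Finset.mem_range.1 hk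
    have e : Aff (lev G₁ ℓ (j0 + k + 1)) 1 = (Aff (lev G₀ ℓ (j0 + k + 1)) 1).map (E.e (j0 + k + 1)) := prs_Aff_map (hE k hk')
    rw [e, Finset.sum_map]
    exact Finset.sum_congr rfl fun b hb => by rw [hs k hk' b hb]

end three

/-! ## 4. The rows -/

section four

variable {G : Geom} {ℓ : ℕ}

/-- **the row (obs:scalar-log-bound)** in the form of `Pr.Rows.D_row` with `Dx k = (Dex .. k).re` -/
theorem prs_Dex_row (pm : Prm) (T : Tw G ℓ) (t z : ℕ → ℂ) (j0 : ℕ) (x0 : St (lev G ℓ j0)) (i : ℕ) (e : ℝ) (he : 0 ≤ e)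
    (h : ∀ b ∈ Aff (lev G ℓ (j0 + i + 1)) 1,
      (scal pm T t z j0 x0 i b).1.im = 0 ∧ (scal pm T t z j0 x0 i b).2.1.im = 0 ∧ ‖(scal pm T t z j0 x0 i b).1‖ ≤ 1 / 2 ∧
      ‖(scal pm T t z j0 x0 i b).2.1‖ ≤ 1 / 2 ∧ ‖(scal pm T t z j0 x0 i b).2.1 - (scal pm T t z j0 x0 i b).1‖ ≤ e)
    (him : (Dex pm T t z j0 x0 i).im = 0) (hpos : 0 < (Dex pm T t z j0 x0 i).re) :
    (Dex pm T t z j0 x0 (i + 1)).im = 0 ∧ 0 < (Dex pm T t z j0 x0 (i + 1)).re ∧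
      (Dex pm T t z j0 x0 (i + 1)).re ≤ (Dex pm T t z j0 x0 i).re * Real.exp (8 * e) := by
  obtain ⟨r, hr1, hr2, hr⟩ := prs_factor (Aff (lev G ℓ (j0 + i + 1)) 1) (prs_Aff_card _)
    (fun b => (scal pm T t z j0 x0 i b).1) (fun b => (scal pm T t z j0 x0 i b).2.1) e he h
  have hr0 : 0 < r := lt_of_lt_of_le (Real.exp_pos _) hr1
  rw [prs_Dex_succ, hr]
  refine ⟨?_, ?_, ?_⟩
  · rw [Complex.mul_im, him, Complex.ofReal_im]; ring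
  · rw [Complex.mul_re, him, Complex.ofReal_re, Complex.ofReal_im]
    have := mul_pos hpos hr0
    linarith
  · rw [Complex.mul_re, him, Complex.ofReal_re, Complex.ofReal_im]
    have := mul_le_mul_of_nonneg_left hr2 hpos.le
    linarith

/-- from the ENNReal bounds of `prs_exit_bd` to the hypotheses of `prs_Dex_row`, `prs_factor`, `pk_desig_ok` -/
theorem prs_scal_small (a0 aT : ℂ) (C : ℝ≥0) (σ0 σ : ℝ≥0∞) (s : ℝ) (hs : 0 ≤ s) (h0 : (‖a0‖₊ : ℝ≥0∞) ≤ C * σ0) (hT : (‖aT - a0‖₊ : ℝ≥0∞) ≤ C * σ)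
    (hσ0 : σ0 ≤ σ) (hσ : σ ≤ ENNReal.ofReal s) (hsm : 4 * (C : ℝ) * s ≤ 1) :
    ‖a0‖ ≤ 1 / 2 ∧ ‖aT‖ ≤ 1 / 2 ∧ ‖aT - a0‖ ≤ C * s := by
  have key : ∀ w : ℂ, (‖w‖₊ : ℝ≥0∞) ≤ C * σ → ‖w‖ ≤ C * s := by
    intro w hw
    have h1 : (‖w‖₊ : ℝ≥0∞) ≤ ENNReal.ofReal (C * s) := by
      rw [ENNReal.ofReal_mul C.coe_nonneg, ENNReal.ofReal_coe_nnreal]
      exact hw.trans (mul_le_mul' le_rfl hσ)
    have h2 : (‖w‖₊ : ℝ≥0∞) = ENNReal.ofReal ‖w‖ := by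
      rw [← coe_nnnorm, ENNReal.ofReal_coe_nnreal]
    rw [h2] at h1
    exact (ENNReal.ofReal_le_ofReal_iff (mul_nonneg C.coe_nonneg hs)).1 h1
  have b0 := key a0 (h0.trans (mul_le_mul' le_rfl hσ0))
  have bT := key (aT - a0) hT
  refine ⟨by linarith, ?_, bT⟩
  have : ‖aT‖ ≤ ‖aT - a0‖ + ‖a0‖ := by
    have := norm_add_le (aT - a0) a0
    rwa [sub_add_cancel] at this
  linarith

end four

end

end Claimed.Agent.R285.F6.Pr
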