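import Claimed.Agent.R285.Obs.PairStep
import Claimed.Agent.R285.Obs.PairKit
import Claimed.Agent.R285.Read.B8b

/-!
# ROW 285, unit OBS, BP-OBS-L62: what `pr_tor_step` (`Obs/PairStep.lean`) consumes about the step of the big torus      (helper79)   -- KEEP.   No sorry.
`pair_tor` : `SmallGeo`, positivity of the covariance, `HqReg` of an admissible remainder of finite norm, from `B8.Cfg.TowerOK` (through the boundary-free context `Ctx0` of `Obs/PairKit.lean`; no lower bound on the clearance of the torus).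
-/

set_option autoImplicit false

namespace Claimed.Agent.R285.F6.Pr

open scoped BigOperators ENNReal NNReal
open MeasureTheory
open Claimed.Agent.R285 Claimed.Agent.R285.RG Claimed.Agent.R285.B4 Claimed.Agent.R285.F4a Claimed.Agent.R285.B8

/-- the neutral part is blind to complex constants -/
theorem ptr_Hq_const {G : Geom} {D0 ℓ : ℕ} {c : Geo} {p : Par} {S : Step G D0 ℓ} (hω : 0 < p.ω) {K : Act S.P.g} (hK : Act.Ok p c.col c.R K)
    (X : Finset S.P.g.I) {z : G.V → ℂ} (a : ℂ) (hz : z ∈ strip p.h0 S.P.g X) (hz' : (fun v => z v + a) ∈ strip p.h0 S.P.g X) :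
    S.Hq p.ω 0 K X (fun v => z v + a) = S.Hq p.ω 0 K X z := by
  unfold Step.Hq conv
  refine integral_congr_ae (Filter.Eventually.of_forall fun ζ => ?_)
  simp only
  have e : (fun v => z v + a) + toC ζ = fun v => (z + toC ζ) v + a := by
    funext v
    simp only [Pi.add_apply]
    ring
  have h1 := (B4.charge_proj p hω c.col S.P.g S.Vf X (K X) (hK.fn X) 0).2.2 (z + toC ζ) a (Hol.strip_add_toC hz ζ) (by
    have := Hol.strip_add_toC hz' ζ
    rwa [e] at this)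
  rw [e, h1]
  simp

theorem pair_tor (K : Cfg) (𝓡 : Reg K.s) (j0 : ℕ) (hT : K.TowerOK 𝓡 j0) (hc : K.c.Ok) (hω : 0 < K.p.ω) (hh : 0 < K.p.h0) (hA : 1 ≤ K.p.A)
    (hL : K.c.R ≤ 2 ^ K.s.ℓ) (h j : ℕ) (hj0 : j0 ≤ j) (hj : j < h) (Rt : Act (K.s.lev h j)) (hR : B8.Adm K.p K.c (𝓡.gs h) Rt)
    (hfin : actNorm K.p (K.s.lev h j) (𝓡.V h j) Rt ≠ ⊤) :
    SmallGeo (K.step 𝓡 h j hj) K.c ∧ (K.step 𝓡 h j hj).Γ.PosSemidef ∧
      ∀ X₁ ∈ (K.step 𝓡 h j hj).small K.c, HqReg K.p K.c.col (K.step 𝓡 h j hj) Rt X₁ := by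
  have hs := hT.step h j hj0 hj
  have hctx : Ctx0 K.c K.p (K.step 𝓡 h j hj) :=
    ⟨hc, hs.shell, hs.reg, hs.adm, hs.admf, hs.sep, hs.sepf, hs.col, hs.half, hs.diam, hω, hh, hA, hL⟩
  refine ⟨fun X hX => ?_, hctx.psd, fun X _ => ⟨pk_Hq_local hctx hR.ok hfin 0 X, fun w hw a hwa => ?_⟩⟩
  · obtain ⟨h1, h2⟩ := B8.w_mem_small.1 hX
    exact ⟨(hs.diam X h1 h2).2, (hs.diam X h1 h2).1⟩
  · exact ptr_Hq_const (c := K.c) hω hR.ok X a hw hwa

end Claimed.Agent.R285.F6.Pr
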