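import Claimed.Agent.R285.Obs.PairMst
import Claimed.Agent.R285.Obs.PairSC
import Claimed.Agent.R285.Obs.PairKer
import Claimed.Agent.R285.Obs.PairReg
import Claimed.Agent.R285.Obs.PairRegC
import Claimed.Agent.R285.Obs.PairJX
import Claimed.Agent.R285.Obs.PairTorS

/-!
# ROW 285, unit OBS: THE MASTER of `Obs.pair_atStop`, part 2: plane link, equipment      (chief helper271)   -- KEEP

All leaves are PAPER-FREE GLUE between exits which are on main.  Prefix `pmm_`.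
1. PLANE LINK: `Fit`, `QT` (= `InvTor` along the torus history `Obs.THist`), `pmm_tor_step`, `pmm_tor_size`.
2. EQUIPMENT: `pmm_torEmb`, `pmm_cenEmb`, `pmm_tw`, `pmm_run`.
(3., 4.: `Obs/PairMst3.lean`.)
-/

set_option autoImplicit false

namespace Claimed.Agent.R285.F6.Pr

open scoped BigOperators ENNReal NNReal
open MeasureTheory
open Claimed.Agent.R285 Claimed.Agent.R285.RG Claimed.Agent.R285.B4 Claimed.Agent.R285.F4a

noncomputable section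

/-! ## 1. The plane link -/

/-- `pm`, `nm` are the parameters of the plane configuration `K` (for `pmOf`, `nmOf`, `B8.cfg8`: `⟨rfl, rfl, rfl, rfl⟩`) -/
structure Fit (pm : Prm) (nm : Nm) (K : B8.Cfg) : Prop where
  c : pm.c = K.c
  p : nm.p0 pm.ω = K.p
  F : K.F = Fam.entry
  cos : K.cosOn = true

/-- the centred state at the stage `k` is the copy of the plane state `(t, z, R)` of the torus history, on the wall-free supports -/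
def QT (pm : Prm) (h0 : ℝ≥0) (K : B8.Cfg) {G : Geom} (T : Tw G K.s.ℓ) {h : ℕ} (H : Obs.THist K h) (Et : TEmb (lev G K.s.ℓ) (K.s.lev h)) (j0 : ℕ)
    (x0 : St (lev G K.s.ℓ j0)) (k : ℕ) : Prop :=
  InvTor pm h0 (Et.lv (j0 + k)) (H.t (j0 + k) : ℂ) (H.z (j0 + k) : ℂ)
    (hist pm T (fun j => (H.t j : ℂ)) (fun j => (H.z j : ℂ)) j0 x0 k) (H.R (j0 + k))

/-- the image of a polymer of a free square in the corner chart of a big torus is unwrapped -/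
theorem pmm_unwr {G₀ G₁ : Geom} {g₀ : Grid G₀} {g₁ : Grid G₁} {E : GEmb g₀ g₁} (hE : TorEmb E) (h0 : g₀.Ok) (c0 : ℕ)
    (hM : G₀.M + 2 * c0 * g₁.m ≤ G₁.M) (X : Finset g₀.I) : g₁.Unwr c0 (X.map E.e) := by
  classical
  have hι : ∀ v, G₁.π (G₀.ι v) = E.s v := fun v => by
    have h1 : G₁.ι (E.s v) = G₀.ι v := by rw [hE.sh v, add_zero]
    rw [← h1, Ker.ker_pi_iota]
  refine ⟨(g₀.sites X).image G₀.ι, ?_, ?_⟩
  · ext b
    simp only [Grid.foldS, Finset.mem_image, Finset.mem_map]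
    constructor
    · rintro ⟨x, ⟨v, hv, rfl⟩, rfl⟩
      exact ⟨g₀.blk v, (Finset.mem_filter.1 hv).2, by rw [hι, hE.ok.blk]⟩
    · rintro ⟨a, ha, rfl⟩
      obtain ⟨v1, hv1⟩ := h0.surj a.1
      obtain ⟨v2, hv2⟩ := h0.surj a.2
      have hv : g₀.blk (v1, v2) = a := Prod.ext hv1 hv2
      exact ⟨G₀.ι (v1, v2), ⟨(v1, v2), Finset.mem_filter.2 ⟨Finset.mem_univ _, by rw [hv]; exact ha⟩, rfl⟩, by rw [hι, hE.ok.blk, hv]⟩
  · have hd : pdiam ((g₀.sites X).image G₀.ι) < G₀.M := by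
      unfold pdiam
      rw [Finset.sup_lt_iff (by simpa using G₀.hM)]
      intro x hx
      rw [Finset.sup_lt_iff (by simpa using G₀.hM)]
      intro y hy
      obtain ⟨v, -, rfl⟩ := Finset.mem_image.1 hx
      obtain ⟨w, -, rfl⟩ := Finset.mem_image.1 hy
      have a1 := v.1.2
      have a2 := v.2.2
      have b1 := w.1.2
      have b2 := w.2.2
      simp only [Geom.ι]
      omega
    omega

theorem pmm_enorm_real (x u : ℝ) (h : |x| ≤ u) : (‖((x : ℝ) : ℂ)‖₊ : ℝ≥0∞) ≤ ENNReal.ofReal u := by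
  have h2 : (‖((x : ℝ) : ℂ)‖₊ : ℝ≥0∞) = ENNReal.ofReal ‖((x : ℝ) : ℂ)‖ := by
    rw [← coe_nnnorm, ENNReal.ofReal_coe_nnreal]
  rw [h2, Complex.norm_real, Real.norm_eq_abs]
  exact ENNReal.ofReal_le_ofReal h

section plane

variable {pm : Prm} {nm : Nm} {k0 kT : KC} {K : B8.Cfg} (hfit : Fit pm nm K) (𝓡 : B8.Reg K.s) {j0 i h : ℕ} (H : Obs.THist K h)
  {E0 : Act (K.s.lev h j0)} {u r : ℕ → ℝ} (hH : H.Ok 𝓡 j0 i E0 u r) {G : Geom} (T : Tw G K.s.ℓ) (Et : TEmb (lev G K.s.ℓ) (K.s.lev h))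
  (hEt : ∀ j ≤ j0 + i, TorEmb (Et.lv j)) (x0 : St (lev G K.s.ℓ j0))

include hfit hH hEt in
/-- **LEAF `L-MST-TSTEP`** (~150 l.): one step of the copy of the plane history.
PLAN.  `cases` the structures `K`, `pm` and `subst` the four equalities of `hfit` (or rewrite with them).  `S₁ := K.step 𝓡 h (j0 + k) (by have := hH.lt; omega)`, `E := (⟨Et.s, Et.e (j0 + k), Et.e (j0 + k + 1)⟩ : PEmb (pair hr) S₁.P)`;
`E.fine = Et.lv (j0 + k)`, `E.coarse = Et.lv (j0 + k + 1)` by `rfl`.  Apply `pr_tor_step hctx S₁ E (hEt _ _) (hEt _ _) hg₁ hΓ₁ hcov (H.t ..) (H.z ..) _ (H.R (j0 + k)) hinv hfin hr₁ hq`: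
 * `hg₁ : SmallGeo S₁ pm.c` from `(htow.step h (j0 + k) _ _).diam` (`B8.w_mem_small`); `hΓ₁` from `.shell.psd`;
 * `hcov` : `pkr_hcov_tor K.s h hr.dvd Et.s (TorEmb.sh: Shift .. 0, `add_zero`) pm.c.col _ (pm.zn.H0 - 1) (by have := hctx.hH0; omega) Y hY v hv w`; `S₁.Γ = shell (K.s.T h) K.F (L^j) (L^(j+1))`, `K.F = Fam.entry`;
 * `hr₁ : HqReg ..` on the torus: COPY the proof of `pr_HqReg_sq` (`Obs/PairStep.lean`: `B4.charge_proj`, `Scal.localFn_conv`, `Scal.lintegral_Wt_ne_top ENNReal.coe_ne_top (htow.step ..).reg X`) with `hloc := ((hH.adm k _).ok.fn X)`, finiteness of `fnSize` from `hH.fin k _`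
   (`A^|X| fnSize ≤ actNorm`: `le_iSup`; `1 ≤ A` from `hctx.nmOk`).  Do NOT build `B8.Ctx` (`12 ≤ D0` is NOT available);
then `K.PhiT 𝓡 h j hj x = S₁.Phi K.c K.p.ω K.cosOn x` (`rfl`), `(S₁.Phi ..).1 = (S₁.tz ..).1`, `(S₁.Phi ..).2.1 = (S₁.tz ..).2` (`rfl`): rewrite the two scalars by `(hH.step k hk).1`, `.2.1`;
replace `(S₁.Phi ..).2.2` by `H.R (j0 + k + 1)` with `(hH.step k hk).2.2 : EqOn ..` (`InvTor` only evaluates the second activity at fields of the strip of `X.map E.e`);  `prs_hist_succ` rewrites `hist .. (k + 1)`. -/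
theorem pmm_tor_step (htow : K.TowerOK 𝓡 j0) {k : ℕ} (hk : k < i) (hr : Ret G K.s.ℓ pm.D0 (j0 + k)) (hctx : Ctx pm nm pm.c.cst k0 kT T hr)
    (hinv : Inv pm nm.h0 (hist pm T (fun j => (H.t j : ℂ)) (fun j => (H.z j : ℂ)) j0 x0 k))
    (hfin : qP pm nm T j0 (fun j => (H.t j : ℂ)) (fun j => (H.z j : ℂ)) x0 k ≠ ⊤)
    (hq : QT pm nm.h0 K T H Et j0 x0 k) : QT pm nm.h0 K T H Et j0 x0 (k + 1) := by
  have hlt : j0 + k < h := by
    have := hH.lt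
    omega
  have hp : K.p = nm.p0 pm.ω := hfit.p.symm
  have hω : K.p.ω = pm.ω := by rw [hp]; rfl
  have hh0 : K.p.h0 = nm.h0 := by rw [hp]; rfl
  obtain ⟨hg₁, hΓ₁, hr₁⟩ := pair_tor K 𝓡 j0 htow (hfit.c ▸ hctx.geo) (by rw [hω]; exact hctx.ω_pos) (by rw [hh0]; exact hctx.nmOk.h0_pos)
    (by rw [hp]; exact hctx.nmOk.AT_ge.trans hctx.nmOk.A_ge) (hfit.c ▸ prs_R_le hctx) h (j0 + k) (Nat.le_add_right _ _) hlt (H.R (j0 + k))
    (hH.adm k hk.le) (hH.fin k hk.le)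
  have hcol : pm.c.col ≤ (2 ^ K.s.ℓ) ^ (j0 + k + 1) := by
    have h1 := hctx.col
    rw [side_eq hr.dvd'] at h1
    have h2 : (2 ^ K.s.ℓ) ^ (j0 + k) ≤ (2 ^ K.s.ℓ) ^ (j0 + k + 1) := Nat.pow_le_pow_right (by positivity) (Nat.le_succ _)
    omega
  have hs : ∀ v, (K.s.T h).ι (Et.s v) = G.ι v := fun v => by
    have := (hEt (j0 + k) (by omega)).sh v
    rwa [add_zero] at this
  have key := pr_tor_step hctx (K.step 𝓡 h (j0 + k) hlt) (⟨Et.s, Et.e (j0 + k), Et.e (j0 + k + 1)⟩ : PEmb (pair hr) (K.step 𝓡 h (j0 + k) hlt).P)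
    (hEt (j0 + k) (by omega)) (hEt (j0 + k + 1) (by omega)) (by rw [hfit.c]; exact hg₁) hΓ₁
    (fun Y hY v hv w _ => by
      have := pkr_hcov_tor K.s h hr.dvd Et.s hs pm.c.col hcol (pm.zn.H0 - 1) (by have := hctx.hH0; omega) Y hY v hv w
      rw [this]
      show _ = shell (K.s.T h) K.F (K.s.L ^ (j0 + k)) (K.s.L ^ (j0 + k + 1)) (Et.s v) (Et.s w)
      rw [hfit.F])
    (H.t (j0 + k) : ℂ) (H.z (j0 + k) : ℂ) _ (H.R (j0 + k)) hinv hfin (by rw [hfit.c, hfit.p]; exact hr₁) hq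
  obtain ⟨s1, s2, s3⟩ := hH.step k hk
  have ePhi : K.PhiT 𝓡 h (j0 + k) hlt ((H.t (j0 + k) : ℂ), (H.z (j0 + k) : ℂ), H.R (j0 + k))
      = (K.step 𝓡 h (j0 + k) hlt).Phi pm.c pm.ω true ((H.t (j0 + k) : ℂ), (H.z (j0 + k) : ℂ), H.R (j0 + k)) := by
    unfold B8.Cfg.PhiT
    rw [hfit.c, hfit.cos, hω]
    rfl
  rw [ePhi] at s1 s2 s3
  have t1 : ((K.step 𝓡 h (j0 + k) hlt).tz pm.c pm.ω true ((H.t (j0 + k) : ℂ), (H.z (j0 + k) : ℂ), H.R (j0 + k))).1 = (H.t (j0 + k + 1) : ℂ) := s1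
  have t2 : ((K.step 𝓡 h (j0 + k) hlt).tz pm.c pm.ω true ((H.t (j0 + k) : ℂ), (H.z (j0 + k) : ℂ), H.R (j0 + k))).2 = (H.z (j0 + k + 1) : ℂ) := s2
  rw [t1, t2] at key
  unfold QT
  rw [prs_hist_succ pm T _ _ j0 x0 k hr]
  intro Y hY z₀ hz₀ z₁ hz₁ hag
  have h1 := key Y hY z₀ hz₀ z₁ hz₁ hag
  exact h1.trans (s3 _ z₁ (by rw [hh0]; exact hz₁))

include hfit hH hEt in
/-- **LEAF `L-MST-TSIZE`** (~150 l.): the plane size is the size of the plane history (R1).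
PLAN.  `prr_R1_act (E := Et.lv (j0 + k)) hreg o (T.V0 _) (𝓡.V h _) (hobs.V0 _ _) (htow.obs h _ _ _) pm.zn.H0 hH0 (nm.p0 pm.ω) pm.c.col _ (cutW K.c0 (H.R (j0 + k))) hK` and `hfit.p`, then `(hH.bd k hk).2.2.2`.
 * `hreg : RegEmb ..` from `hEt` (`TorEmb`: `ok, free₀, std₀, val, sh`; `m_ge`: `(lev ..).m = (K.s.lev h j).m = L^j ≥ L^j0 ≥ 2` by `ok.side`, `hm`) and `prr_cellOn Et.s 0 .. sd` (cells of the torus: `htow.cells h _ _`; `sd ∣ (K.s.T h).M` because `sd ∣ G.M ∣ (K.s.T h).M`);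
 * `hK X hX` : `hq X hX` and `cutW K.c0 R (X.map e) = R (X.map e)` (`if_pos`): `(K.s.lev h j).Unwr K.c0 (X.map e)` with `S :=` the canonical lifts `G.ι v` of the sites of `X`: `foldS S = X.map e` (`GEmb.Ok.blk`, `TorEmb.sh`), `pdiam S < G.M`,
   `G.M + 2 c0 L^j ≤ 2 G.M ≤ (K.s.T h).M` (`hbig`, `h2`; `(K.s.lev h j).m = L^j` for `j ≤ h`).
Second claim: unfold `qP zP nP`; `(‖((x : ℝ) : ℂ)‖₊ : ℝ≥0∞) = ENNReal.ofReal |x|`; `(hH.bd k hk)`: `|t|, |z|, r k ≤ u k`; `ENNReal.ofReal_add`. -/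
theorem pmm_tor_size {o oT : ObsPar} {sd : ℕ} (hsd : 0 < sd) (htow : Obs.TowAll K 𝓡 o sd j0) (cl : Grid G) (hcl : ∃ hd, cl = torusGrid G sd hd)
    (hobs : T.IsObs o oT cl j0) (hH0 : pp + 3 ≤ pm.zn.H0) (hm : 2 ≤ (2 ^ K.s.ℓ) ^ j0) (hbig : 2 * K.c0 * (2 ^ K.s.ℓ) ^ (j0 + i) ≤ G.M) (h2 : 2 * G.M ≤ (K.s.T h).M)
    (hdv : G.M ∣ (K.s.T h).M) {k : ℕ} (hk : k ≤ i) (hq : QT pm nm.h0 K T H Et j0 x0 k) :
    actNorm (nm.p0 pm.ω) (lev G K.s.ℓ (j0 + k)) (T.V0 (j0 + k)) (cutA (WallFree (lev G K.s.ℓ (j0 + k)) pm.zn.H0)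
        ((hist pm T (fun j => (H.t j : ℂ)) (fun j => (H.z j : ℂ)) j0 x0 k).K0
          - singleWF (lev G K.s.ℓ (j0 + k)) pm.zn.H0 pm.α (H.t (j0 + k) : ℂ) (H.z (j0 + k) : ℂ))) ≤ ENNReal.ofReal (r k) ∧
    qP pm nm T j0 (fun j => (H.t j : ℂ)) (fun j => (H.z j : ℂ)) x0 k ≤ ENNReal.ofReal (3 * u k) := by
  have hj : j0 + k ≤ j0 + i := by omega
  have hjh : j0 + k ≤ h := by have := hH.lt; omega
  have hj0h : j0 ≤ h := by omega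
  have hE := hEt (j0 + k) hj
  have hm1 : (K.s.lev h (j0 + k)).m = (2 ^ K.s.ℓ) ^ (j0 + k) := by
    show K.s.L ^ (min (j0 + k) h) = _
    rw [min_eq_left hjh]
    rfl
  have hpos : 0 < 2 ^ K.s.ℓ := by positivity
  obtain ⟨hd, rfl⟩ := hcl
  have hd₁ : sd ∣ (K.s.T h).M := hd.trans hdv
  obtain ⟨ec, hec⟩ := prr_cellOn Et.s 0 hE.sh sd hsd (dvd_zero _) (dvd_zero _) hd hd₁
  have hok₀ : (lev G K.s.ℓ (j0 + k)).Ok := B8.torusGrid_ok _ _ _ (side_pos G K.s.ℓ (j0 + k))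
  have hreg : RegEmb (Et.lv (j0 + k)) (torusGrid G sd hd) (torusGrid (K.s.T h) sd hd₁) ec := by
    refine ⟨hE.ok, hE.free₀, hE.std₀, hok₀, K.s.lev_ok h (j0 + k), ?_, ⟨0, fun b => ?_⟩, ⟨0, hE.sh⟩, hec⟩
    · rw [← hE.ok.side, hm1]
      exact hm.trans (Nat.pow_le_pow_right hpos (Nat.le_add_right _ _))
    · simpa using hE.val b
  have hV₁ : IsObs o (torusGrid (K.s.T h) sd hd₁) (K.s.lev h (j0 + k)) (𝓡.V h (j0 + k)) := by
    rw [← htow.cells h hj0h hd₁]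
    exact htow.obs h (j0 + k) (Nat.le_add_right _ _) hjh
  have hMM : G.M + 2 * K.c0 * (K.s.lev h (j0 + k)).m ≤ (K.s.T h).M := by
    rw [hm1]
    have h3 : 2 * K.c0 * (2 ^ K.s.ℓ) ^ (j0 + k) ≤ 2 * K.c0 * (2 ^ K.s.ℓ) ^ (j0 + i) :=
      Nat.mul_le_mul_left _ (Nat.pow_le_pow_right hpos hj)
    omega
  have main := prr_R1_act hreg o (T.V0 (j0 + k)) (𝓡.V h (j0 + k)) (hobs.V0 (j0 + k) (Nat.le_add_right _ _)) hV₁ pm.zn.H0 hH0 (nm.p0 pm.ω) pm.c.col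
    ((hist pm T (fun j => (H.t j : ℂ)) (fun j => (H.z j : ℂ)) j0 x0 k).K0
      - singleWF (lev G K.s.ℓ (j0 + k)) pm.zn.H0 pm.α (H.t (j0 + k) : ℂ) (H.z (j0 + k) : ℂ)) (cutW K.c0 (H.R (j0 + k))) (fun X hX => by
      have h1 := hq X hX
      unfold CopyX at h1 ⊢
      rw [show cutW K.c0 (H.R (j0 + k)) (X.map (Et.lv (j0 + k)).e) = H.R (j0 + k) (X.map (Et.lv (j0 + k)).e) from
        if_pos (pmm_unwr hE hok₀ K.c0 hMM X)]
      exact h1)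
  have hbd := hH.bd k hk
  have first : actNorm (nm.p0 pm.ω) (lev G K.s.ℓ (j0 + k)) (T.V0 (j0 + k)) (cutA (WallFree (lev G K.s.ℓ (j0 + k)) pm.zn.H0)
        ((hist pm T (fun j => (H.t j : ℂ)) (fun j => (H.z j : ℂ)) j0 x0 k).K0
          - singleWF (lev G K.s.ℓ (j0 + k)) pm.zn.H0 pm.α (H.t (j0 + k) : ℂ) (H.z (j0 + k) : ℂ))) ≤ ENNReal.ofReal (r k) := by
    refine main.trans ?_
    rw [hfit.p]
    exact hbd.2.2.2
  refine ⟨first, ?_⟩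
  have hu0 : 0 ≤ u k := (abs_nonneg _).trans hbd.1
  have e3 : ENNReal.ofReal (3 * u k) = ENNReal.ofReal (u k) + ENNReal.ofReal (u k) + ENNReal.ofReal (u k) := by
    rw [← ENNReal.ofReal_add hu0 hu0, ← ENNReal.ofReal_add (by positivity) hu0]
    congr 1
    ring
  rw [e3]
  exact add_le_add (add_le_add (pmm_enorm_real _ _ hbd.1) (pmm_enorm_real _ _ hbd.2.1))
    (first.trans (ENNReal.ofReal_le_ofReal hbd.2.2.1))

end plane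

/-! ## 2. Equipment -/

/-- **LEAF `L-MST-EMBT`** (~60 l.): `prg_emb_tor` + the grid facts.  `sh`: `Shift s 0` is `∀ v, ι (s v) = ι v + 0`; `per₁`: `(sc.T h).bc = BC.per` (`rfl`, `RG.towerG`); `std`: `prg_lev_std`, `prg_std_torusGrid`;
`le`: `2 * (G.M / L^j) ≤ (sc.T h).M / L^j` (`side_eq`, `min_eq_left`, `Nat.mul_div_le..`, divisibility). -/
theorem pmm_torEmb (G : Geom) (hG : G.bc = BC.free) (sc : B8.Sc) (h J : ℕ) (hJ : J ≤ h) (hle : 2 * G.M ≤ (sc.T h).M) (hdvd : G.M ∣ (sc.T h).M)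
    (hd : (2 ^ sc.ℓ) ^ J ∣ G.M) : ∃ Et : TEmb (lev G sc.ℓ) (sc.lev h), ∀ j ≤ J, TorEmb (Et.lv j) := by
  obtain ⟨E, hsh, hE⟩ := prg_emb_tor G hG sc h J hJ hle hdvd hd
  refine ⟨E, fun j hj => ⟨(hE j hj).1, fun v => ?_, hG, rfl, prg_lev_std _ _ _,
    prg_std_torusGrid (sc.T h) _ _ (Nat.pow_pos sc.L_pos), ?_, (hE j hj).2⟩⟩
  · show (sc.T h).ι (E.s v) = G.ι v + 0
    rw [hsh v, add_zero]
  · have hL₀ : (2 ^ sc.ℓ) ^ j ∣ G.M := (pow_dvd_pow _ hj).trans hd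
    have hpos : 0 < (2 ^ sc.ℓ) ^ j := by positivity
    show 2 * (G.M / side G sc.ℓ j) ≤ (sc.T h).M / sc.L ^ (min j h)
    rw [side_eq hL₀, min_eq_left (hj.trans hJ)]
    show 2 * (G.M / (2 ^ sc.ℓ) ^ j) ≤ (sc.T h).M / (2 ^ sc.ℓ) ^ j
    obtain ⟨q, hq⟩ := hL₀
    rw [Nat.le_div_iff_mul_le hpos, hq, Nat.mul_div_cancel_left _ hpos]
    calc 2 * q * (2 ^ sc.ℓ) ^ j = 2 * ((2 ^ sc.ℓ) ^ j * q) := by ring
      _ = 2 * G.M := by rw [hq]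
      _ ≤ (sc.T h).M := hle

/-- **LEAF `L-MST-EMBC`** (~60 l.): `prg_emb_sq` + the grid facts (`prx_lev`, `prg_lev_std`; `le`: `G₀.M / L^j ≤ G₁.M / L^j`). -/
theorem pmm_cenEmb (G₀ G₁ : Geom) (h₀ : G₀.bc = BC.free) (h₁ : G₁.bc = BC.free) (ℓ J : ℕ) (hdvd : G₀.M ∣ G₁.M) (hd₀ : 2 * (2 ^ ℓ) ^ J ∣ G₀.M) :
    ∃ E : TEmb (lev G₀ ℓ) (lev G₁ ℓ), ∀ j ≤ J, CenEmb (E.lv j) := by
  obtain ⟨E, hcen, hE⟩ := prg_emb_sq G₀ G₁ h₀ h₁ ℓ J hdvd hd₀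
  have hev : ∀ (G : Geom) (j : ℕ), 2 * (2 ^ ℓ) ^ j ∣ G.M → (lev G ℓ j).n = G.M / (2 ^ ℓ) ^ j ∧ 2 ∣ (lev G ℓ j).n := by
    intro G j hc
    have hd : (2 ^ ℓ) ^ j ∣ G.M := dvd_trans (Dvd.intro_left _ rfl) hc
    have hs : side G ℓ j = (2 ^ ℓ) ^ j := side_eq hd
    have hpos : 0 < (2 ^ ℓ) ^ j := by positivity
    have e : (lev G ℓ j).n = G.M / (2 ^ ℓ) ^ j := by
      show G.M / side G ℓ j = _
      rw [hs]
    refine ⟨e, ?_⟩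
    rw [e]
    obtain ⟨k, hk⟩ := hc
    refine ⟨k, ?_⟩
    rw [hk, mul_comm 2, mul_assoc, Nat.mul_div_cancel_left _ hpos]
  refine ⟨E, fun j hj => ?_⟩
  have hL : 2 * (2 ^ ℓ) ^ j ∣ G₀.M := (Nat.mul_dvd_mul_left 2 (pow_dvd_pow _ hj)).trans hd₀
  obtain ⟨e₀, v₀⟩ := hev G₀ j hL
  obtain ⟨e₁, v₁⟩ := hev G₁ j (hL.trans hdvd)
  refine ⟨(hE j hj).1, hcen, h₀, h₁, prg_lev_std _ _ _, prg_lev_std _ _ _, v₀, v₁, ?_, (hE j hj).2⟩
  rw [e₀, e₁]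
  exact Nat.div_le_div_right (Nat.le_of_dvd G₁.hM hdvd)

/-- **LEAF `L-MST-TW`** (~80 l.): the observation regulators exist at all levels `j ≥ j0`.  `sd ∣ side G ℓ j = gcd (L^j) G.M` (`Nat.dvd_gcd`; `sd ∣ L^j0 ∣ L^j`, `sd ∣ G.M`), so the cells are nested in the blocks
(`Nest (torusGrid G sd _) (torusGrid G m _)` for `sd ∣ m`: copy `Pr.nest`, `Obs/PairDefs.lean`; or AVOID the nest: unfold the one-line proof of `B4.obs_extra`, `Obs.obs_extra'` needs no nest); `B4.obs_extra o cl (lev G ℓ j) _ _ N` gives `V` with `sep ≤ 2 pp + 8` and the values (`Cless G m = low G Fam.entry m`);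
`T := ⟨fun j => if h : j0 ≤ j then (choice) else Extra.zero _, ..⟩` (`Classical.choose`, `dif_pos`). -/
theorem pmm_tw (o oT : ObsPar) (G : Geom) (ℓ sd j0 : ℕ) (hsd : 0 < sd) (hdvd : sd ∣ (2 ^ ℓ) ^ j0) (cl : Grid G) (hcl : ∃ hd, cl = torusGrid G sd hd) :
    ∃ T : Tw G ℓ, T.IsObs o oT cl j0 := by
  obtain ⟨hd, rfl⟩ := hcl
  have hgs : (torusGrid G sd hd).Ok := B8.torusGrid_ok _ _ _ hsd
  have key : ∀ (o : ObsPar) (j : ℕ), ∃ V : Extra (lev G ℓ j), F4a.IsObs o (torusGrid G sd hd) (lev G ℓ j) V ∧ V.sep ≤ 2 * pp + 8 := by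
    intro o j
    have hg : (lev G ℓ j).Ok := B8.torusGrid_ok _ _ _ (side_pos G ℓ j)
    obtain ⟨V, h1, h2, _⟩ := Obs.obs_extra' (obsPar_opar o) (torusGrid G sd hd) (lev G ℓ j) hgs hg (low G Fam.entry (lev G ℓ j).m)
      (low_psd G Fam.entry entry_adm _ hg.pos) (Obs.obs_low_cac G _ hg.pos) (by simpa using low_range G Fam.entry entry_adm _ hg.pos)
    exact ⟨V, h2, h1⟩
  choose V hV using key
  exact ⟨⟨V o, V oT⟩, fun j _ => (hV o j).1, fun j _ => (hV oT j).1, fun j _ => (hV o j).2, fun j _ => (hV oT j).2⟩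

/-- the equipment of one square is a `Run` -/
theorem pmm_run {pm : Prm} {nm : Nm} {k0 kT : KC} {o oT : ObsPar} {ℓ : ℕ} (hctx : CtxAll pm nm k0 kT o oT ℓ) {G : Geom} (hG : G.bc = BC.free) (T : Tw G ℓ)
    (cl : Grid G) (v : G.V → ℝ) (sd j0 i : ℕ) (t z : ℕ → ℝ) (hj0 : 1 ≤ j0) (hsd : 0 < sd) (hdvd : sd ∣ (2 ^ ℓ) ^ j0) (hcl : ∃ hd, cl = torusGrid G sd hd)
    (hobs : T.IsObs o oT cl j0) (hv : IsBranch G v) (hcen : 2 * (2 ^ ℓ) ^ (j0 + i) ∣ G.M) (hfar : pm.D0 * (2 ^ ℓ) ^ (j0 + i) < G.M) :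
    Run pm nm k0 kT o oT T cl v sd j0 i (fun j => (t j : ℂ)) (fun j => (z j : ℂ)) := by
  have hpw : ∀ k, k < i → (2 ^ ℓ) ^ (j0 + k + 1) ∣ (2 ^ ℓ) ^ (j0 + i) := fun k hk => pow_dvd_pow _ (by omega)
  have hret : ∀ k, k < i → Ret G ℓ pm.D0 (j0 + k) := fun k hk =>
    ⟨(hpw k hk).trans ((Dvd.intro_left _ rfl).trans hcen),
      lt_of_le_of_lt (Nat.mul_le_mul_left _ (Nat.le_of_dvd (by positivity) (hpw k hk))) hfar⟩
  exact ⟨hG, hj0, hsd, hdvd, hcl, hobs, hv, hcen, hret, fun k hk => hctx G T cl sd j0 (j0 + k) (hret k hk) hG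
    ((Nat.mul_dvd_mul_left 2 (hpw k hk)).trans hcen) hsd hdvd hcl hobs hj0 (Nat.le_add_right _ _), fun j => ⟨Complex.ofReal_im _, Complex.ofReal_im _⟩⟩

end

end Claimed.Agent.R285.F6.Pr
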