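import Claimed.Agent.R285.Obs.PairMst
import Claimed.Agent.R285.Rdo.Ker
import Claimed.Agent.R285.Map.Tower

/-!
# ROW 285, unit OBS: EXIT OF THE BLOCK STOP in the vocabulary of the MASTER (`Obs/PairMst.lean`)      (architect helper16)   -- KEEP

`prs_ident` (`Obs/PairChain.lean`, helper70) asks for `SLev`, `SStp` (two `TStep`), `SScal`, reality.  Here they are PRODUCED from the interface of the master:
`OneStep` (=> `StepOut`), `TotBd`, `TermInt`, `Run` and the stage facts (`Inv`, ball, finite label) which `pmm_single` (`Out1`) delivers.  Prefix `psx_`.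
* `Gter G ℓ j`     : THE terminal covariance of the level `j` (`psx_term`);
* `psx_int`        : `TermInt` at the level `j ≥ j0` of a centred free square, both norms;
* `psx_tstep0/T`   : `TStep` from `Ctx`;   `psx_slev`, `psx_sstp`, `psx_sscal`;
* **`psx_ident`**  : `0 < D_ex` and the field `ident` of `Pr.AtStop`, with `Γ = Gter G ℓ (j0 + i)`, `μ = bg pm v`.
-/

set_option autoImplicit false

namespace Claimed.Agent.R285.F6.Pr

open scoped BigOperators ENNReal NNReal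
open MeasureTheory
open Claimed.Agent.R285 Claimed.Agent.R285.RG Claimed.Agent.R285.B4 Claimed.Agent.R285.F4a Claimed.Agent.R285.F4b

noncomputable section

/-- THE terminal covariance of the level `j` -/
def Gter (G : Geom) (ℓ j : ℕ) : Matrix G.V G.V ℝ := B8.termCov G Fam.entry (side G ℓ j)

theorem psx_term (G : Geom) (ℓ j : ℕ) : IsTerminal G Fam.entry (side G ℓ j) (Gter G ℓ j) :=
  Rdo.rdo_mult_term G _ (side_pos G ℓ j)

/-- `TermInt` at a level `j ≥ j0` of a centred square -/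
theorem psx_int {nm : Nm} {o oT : ObsPar} (hint : TermInt nm o oT) {G : Geom} {ℓ : ℕ} {T : Tw G ℓ} {cl : Grid G} {sd j0 : ℕ}
    (hsd0 : 0 < sd) (hsd : sd ∣ (2 ^ ℓ) ^ j0) (hcl : ∃ hd, cl = torusGrid G sd hd) (hobs : T.IsObs o oT cl j0) (j : ℕ) (hj : j0 ≤ j)
    (hcen : 2 * (2 ^ ℓ) ^ j ∣ G.M) :
    ∫⁻ ζ, ENNReal.ofReal (Wt (lev G ℓ j) nm.δ nm.κ (T.V0 j) Finset.univ ζ) ∂(gauss G (Gter G ℓ j)) ≠ ⊤ ∧
    ∫⁻ ζ, ENNReal.ofReal (Wt (lev G ℓ j) nm.δ nm.κT (T.VT j) Finset.univ ζ) ∂(gauss G (Gter G ℓ j)) ≠ ⊤ := by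
  obtain ⟨hd, rfl⟩ := hcl
  have hdv : (2 ^ ℓ) ^ j ∣ G.M := dvd_trans (Dvd.intro_left 2 rfl) hcen
  have hs : side G ℓ j = (2 ^ ℓ) ^ j := side_eq hdv
  have hsj : sd ∣ (2 ^ ℓ) ^ j := dvd_trans hsd (pow_dvd_pow _ hj)
  have hle : 2 * (2 ^ ℓ) ^ j ≤ G.M := Nat.le_of_dvd G.hM hcen
  have hpos : 0 < (2 ^ ℓ) ^ j := by positivity
  have hsl : sd ≤ (2 ^ ℓ) ^ j := Nat.le_of_dvd hpos hsj
  have hN : Nonempty (Nest (torusGrid G sd hd) (lev G ℓ j)) := ⟨Tow.tgNest G sd (side G ℓ j) hd (side_dvd G ℓ j) (hs ▸ hsj)⟩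
  have hm : 2 * (lev G ℓ j).m ≤ G.M := by
    show 2 * side G ℓ j ≤ G.M
    rw [hs]; exact hle
  have h := hint G (torusGrid G sd hd) (lev G ℓ j) (Tow.tw_whole G sd hd hsd0 (by omega)) (B8.torusGrid_ok _ _ _ (side_pos G ℓ j)) hN hm
    (Gter G ℓ j) (psx_term G ℓ j)
  exact ⟨h.1 _ (hobs.V0 j hj), h.2 _ (hobs.VT j hj)⟩

section ctx

variable {pm : Prm} {nm : Nm} {k0 kT : KC} {G : Geom} {ℓ : ℕ} {T : Tw G ℓ} {j : ℕ} {h : Ret G ℓ pm.D0 j}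

theorem psx_RL {cT : ℝ≥0} (H : Ctx pm nm cT k0 kT T h) : pm.c.R ≤ 2 ^ ℓ := by
  have h1 := H.hL
  have h2 := H.n0_pos
  have h3 : pm.c.R * 1 ≤ pm.c.R * pm.c.n0 := Nat.mul_le_mul_left _ h2
  omega

theorem psx_col {cT : ℝ≥0} (H : Ctx pm nm cT k0 kT T h) : 2 * pm.c.col < side G ℓ (j + 1) := by
  have h1 := H.col
  have h2 := side_pos G ℓ j
  have h3 : side G ℓ j ≤ side G ℓ (j + 1) := Nat.le_of_dvd (side_pos G ℓ (j + 1)) (side_dvd_succ G ℓ j)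
  omega

theorem psx_sep {c : B8.Geo} (hc : c.Ok) {s : ℕ} (hs : s ≤ c.sepV) : max 5 s ≤ c.R := by
  have h1 := hc.hs
  have h2 := hc.hrR
  have h3 := le_max_left 5 c.sepV
  have h4 := le_max_right 5 c.sepV
  exact max_le (by omega) (by omega)

/-- `TStep` in the centred norm -/
theorem psx_tstep0 {cT : ℝ≥0} (H : Ctx pm nm cT k0 kT T h)
    (hint : ∫⁻ ζ, ENNReal.ofReal (Wt (lev G ℓ (j + 1)) nm.δ nm.κ (T.V0 (j + 1)) Finset.univ ζ) ∂(gauss G (Gter G ℓ (j + 1))) ≠ ⊤) :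
    TStep (nm.p0 pm.ω) pm.c.col pm.c.ρ pm.c.r pm.c.R pm.c.n0 pm.c.cst (pair h) (T.V0 j) (T.V0 (j + 1)) (Gter G ℓ j) (Gter G ℓ (j + 1)) where
  hω := H.ω_pos
  hh := H.nmOk.h0_pos
  hA := lt_of_lt_of_le one_pos (H.nmOk.AT_ge.trans H.nmOk.A_ge)
  hρ := H.geo.hρ
  hrR := H.geo.hrR
  hcol := psx_col H
  hL := psx_RL H
  hR := psx_sep H.geo H.sep0.1
  hR' := psx_sep H.geo H.sep0.2
  adm := H.adm0
  adm' := H.hyp0.adm
  psd := H.hyp0.shell.psd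
  rng := H.hyp0.shell.range
  reg := H.hyp0.reg
  term := psx_term G ℓ j
  term' := psx_term G ℓ (j + 1)
  int' := hint

/-- `TStep` in the unit norm -/
theorem psx_tstepT {cT : ℝ≥0} (H : Ctx pm nm cT k0 kT T h)
    (hint : ∫⁻ ζ, ENNReal.ofReal (Wt (lev G ℓ (j + 1)) nm.δ nm.κT (T.VT (j + 1)) Finset.univ ζ) ∂(gauss G (Gter G ℓ (j + 1))) ≠ ⊤) :
    TStep (nm.pT pm.ω) pm.c.col pm.c.ρ pm.c.r pm.c.R pm.c.n0 cT (pair h) (T.VT j) (T.VT (j + 1)) (Gter G ℓ j) (Gter G ℓ (j + 1)) where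
  hω := H.ω_pos
  hh := H.nmOk.h0_pos
  hA := lt_of_lt_of_le one_pos H.nmOk.AT_ge
  hρ := H.geo.hρ
  hrR := H.geo.hrR
  hcol := psx_col H
  hL := psx_RL H
  hR := psx_sep H.geo H.sepT.1
  hR' := psx_sep H.geo H.sepT.2
  adm := H.admT
  adm' := H.hypT.adm
  psd := H.hypT.shell.psd
  rng := H.hypT.shell.range
  reg := H.hypT.reg
  term := psx_term G ℓ j
  term' := psx_term G ℓ (j + 1)
  int' := hint

end ctx

section run

variable {pm : Prm} {nm : Nm} {k0 kT : KC} {o oT : ObsPar} {ℓ : ℕ} {G : Geom} {T : Tw G ℓ} {cl : Grid G} {v : G.V → ℝ} {sd j0 i : ℕ} {t z : ℕ → ℂ}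
  {x0 : St (lev G ℓ j0)} {θ C ρ Ct : ℝ≥0}

theorem psx_cen (hrun : Run pm nm k0 kT o oT T cl v sd j0 i t z) {k : ℕ} (hk : k ≤ i) : 2 * (2 ^ ℓ) ^ (j0 + k) ∣ G.M :=
  dvd_trans (Nat.mul_dvd_mul_left 2 (pow_dvd_pow _ (by omega))) hrun.cen

/-- the total norms at the stage `k ≤ i` -/
theorem psx_tot (htot : TotBd pm nm o oT ℓ Ct) (hrun : Run pm nm k0 kT o oT T cl v sd j0 i t z) {k : ℕ} (hk : k ≤ i)
    (hinv : Inv pm nm.h0 (hist pm T t z j0 x0 k)) :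
    actNorm (nm.p0 pm.ω) (lev G ℓ (j0 + k)) (T.V0 (j0 + k)) (hist pm T t z j0 x0 k).K0 ≤ Ct * (qP pm nm T j0 t z x0 k + qW pm nm T j0 t z x0 k) ∧
    actNorm (nm.pT pm.ω) (lev G ℓ (j0 + k)) (T.VT (j0 + k)) (hist pm T t z j0 x0 k).K0 ≤ Ct * (qP pm nm T j0 t z x0 k + qW pm nm T j0 t z x0 k) ∧
    actNorm (nm.pT pm.ω) (lev G ℓ (j0 + k)) (T.VT (j0 + k)) (shA (hist pm T t z j0 x0 k).KT (bg pm v))
      ≤ Ct * (qP pm nm T j0 t z x0 k + qW pm nm T j0 t z x0 k + qD pm nm T v j0 t z x0 k) := by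
  have h := htot G T cl v j0 (j0 + k) hrun.free (psx_cen hrun hk) hrun.obs hrun.j0_pos (Nat.le_add_right _ _) hrun.br (t (j0 + k)) (z (j0 + k)) _ hinv
  exact ⟨h.1, h.2.1, h.2.2.1⟩

/-- `SLev` at the stage `k ≤ i` -/
theorem psx_slev (htot : TotBd pm nm o oT ℓ Ct) (hrun : Run pm nm k0 kT o oT T cl v sd j0 i t z) {k : ℕ} (hk : k ≤ i)
    (hinv : Inv pm nm.h0 (hist pm T t z j0 x0 k)) (hJ : qJ pm nm T v j0 t z x0 k ≠ ⊤)
    (hball : qP pm nm T j0 t z x0 k + qW pm nm T j0 t z x0 k + qD pm nm T v j0 t z x0 k ≤ ρ) :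
    SLev pm T t z j0 x0 (bg pm v) (nm.p0 pm.ω) (nm.pT pm.ω) k := by
  obtain ⟨h1, -, h3⟩ := psx_tot htot hrun hk hinv
  have f3 : qP pm nm T j0 t z x0 k + qW pm nm T j0 t z x0 k + qD pm nm T v j0 t z x0 k ≠ ⊤ := ne_top_of_le_ne_top ENNReal.coe_ne_top hball
  have f2 : qP pm nm T j0 t z x0 k + qW pm nm T j0 t z x0 k ≠ ⊤ := ne_top_of_le_ne_top f3 le_self_add
  exact ⟨ok_par hinv.ok0 nm.δ nm.κ nm.A, ne_top_of_le_ne_top (ENNReal.mul_ne_top ENNReal.coe_ne_top f2) h1,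
    prs_shA_ok _ _ _ (ok_par hinv.okT nm.δ nm.κT nm.AT) _, ne_top_of_le_ne_top (ENNReal.mul_ne_top ENNReal.coe_ne_top f3) h3,
    prs_shA_ok _ _ _ (ok_par hinv.okJ nm.δ nm.κT nm.AT) _, hJ⟩

/-- `SStp` at the stage `k < i` -/
theorem psx_sstp (hone : OneStep pm nm k0 kT o oT ℓ θ C ρ) (hint : TermInt nm o oT) (hrun : Run pm nm k0 kT o oT T cl v sd j0 i t z) {k : ℕ} (hk : k < i)
    (hinv : Inv pm nm.h0 (hist pm T t z j0 x0 k)) (hJ : qJ pm nm T v j0 t z x0 k ≠ ⊤)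
    (hball : qP pm nm T j0 t z x0 k + qW pm nm T j0 t z x0 k + qD pm nm T v j0 t z x0 k ≤ ρ) :
    SStp pm T t z j0 x0 (bg pm v) (fun k => Gter G ℓ (j0 + k)) (nm.p0 pm.ω) (nm.pT pm.ω) pm.c.cst pm.c.cst k := by
  have S := pmm_stepOut hone hrun hk hinv hJ hball
  have I := psx_int hint hrun.sd_pos hrun.sd_dvd hrun.cells hrun.obs (j0 + k + 1) (by omega) (psx_cen hrun (k := k + 1) hk)
  exact ⟨hrun.ret k hk, rfl, rfl, psx_tstep0 (hrun.ctx k hk) I.1, psx_tstepT (hrun.ctx k hk) I.2, S.d0_ok, S.dT_ok, S.dT_small, S.dJ_small, S.dJ_fn⟩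

/-- `SScal` at the stage `k < i` -/
theorem psx_sscal (hone : OneStep pm nm k0 kT o oT ℓ θ C ρ) (hrun : Run pm nm k0 kT o oT T cl v sd j0 i t z) {k : ℕ} (hk : k < i)
    (hinv : Inv pm nm.h0 (hist pm T t z j0 x0 k)) (hJ : qJ pm nm T v j0 t z x0 k ≠ ⊤)
    (hball : qP pm nm T j0 t z x0 k + qW pm nm T j0 t z x0 k + qD pm nm T v j0 t z x0 k ≤ ρ) : SScal pm T t z j0 x0 k := by
  have S := pmm_stepOut hone hrun hk hinv hJ hball
  refine ⟨fun b hb => ?_, fun b => ?_, fun b => ?_⟩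
  · rw [prs_scal_eq pm T t z j0 x0 k (hrun.ret k hk) b]
    exact S.sc_off b hb
  · rw [prs_scal_eq pm T t z j0 x0 k (hrun.ret k hk) b]
    exact S.sc_real b
  · rw [prs_scal_eq pm T t z j0 x0 k (hrun.ret k hk) b]
    exact S.sc_half b

theorem psx_real {h0 : ℝ≥0} {g : Grid G} {x : St g} (h : Inv pm h0 x) : x.Real := ⟨h.real0, h.realT, h.realJ⟩

/-- `α = √a` -/
theorem psx_alpha {a : ℝ} (ha : 0 < a) (hω : pm.ω = 2 * Real.pi / Real.sqrt a) : pm.α = Real.sqrt a := by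
  have h1 : 0 < Real.sqrt a := Real.sqrt_pos.2 ha
  have h2 := Real.pi_pos
  unfold Prm.α B8.Step.alpha
  rw [hω]
  field_simp

/-- **EXIT OF THE BLOCK STOP, vocabulary of the master**: `0 < D_ex` and (obs:extraction-identity) = the field `ident` of `Pr.AtStop` at the stop `j0 + i` of ONE centred free square.
`hst` = the fields `inv`, `ball`, `finJ` of `Out1` (`pmm_single`);  `h0`, `hT` = `F4b.BulkOK.ident`, `F4b.UnitOK.ident` of the entry state. -/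
theorem psx_ident (hone : OneStep pm nm k0 kT o oT ℓ θ C ρ) (htot : TotBd pm nm o oT ℓ Ct) (hint : TermInt nm o oT)
    (hrun : Run pm nm k0 kT o oT T cl v sd j0 i t z)
    (hst : ∀ k ≤ i, Inv pm nm.h0 (hist pm T t z j0 x0 k) ∧
      qP pm nm T j0 t z x0 k + qW pm nm T j0 t z x0 k + qD pm nm T v j0 t z x0 k ≤ ρ ∧ qJ pm nm T v j0 t z x0 k ≠ ⊤)
    (b a : ℝ) (hb : 0 < b) (ha : 0 < a) (hω : pm.ω = 2 * Real.pi / Real.sqrt a) (hR : pm.c.R = RR) (cG : ℝ)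
    (h0 : TargetOrd b a cl (lev G ℓ j0) cG x0.K0) (hT : TargetLab b a cl (lev G ℓ j0) cG 0 x0.KT x0.JT) :
    0 < (Dex pm T t z j0 x0 i).re ∧
    ∀ i0 : cl.I, Phat b cl i0 (tauU cl) (fun _ => 1) / Phat b cl i0 0 (fun _ => 1)
      = Real.exp (-Glue.unitEnergy (G.M / 2) / (2 * a)) * (Dex pm T t z j0 x0 i).re
        * (((cex pm T t z j0 x0 i).re * (F6.term pm.ω (Gter G ℓ (j0 + i)) (ZA (lev G ℓ (j0 + i)) RR (shA (hist pm T t z j0 x0 i).KT (bg pm v)))).re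
            + (F6.term pm.ω (Gter G ℓ (j0 + i)) (ZA1 (lev G ℓ (j0 + i)) RR (shA (hist pm T t z j0 x0 i).KT (bg pm v))
                (shA (hist pm T t z j0 x0 i).JT (bg pm v)))).re)
          / (F6.term pm.ω (Gter G ℓ (j0 + i)) (ZA (lev G ℓ (j0 + i)) RR (hist pm T t z j0 x0 i).K0)).re) := by
  have hbg : bg pm v = fun x => v x / Real.sqrt a := by
    unfold bg
    rw [psx_alpha ha hω]
  have hL : ∀ k ≤ i, SLev pm T t z j0 x0 (fun x => v x / Real.sqrt a) (nm.p0 pm.ω) (nm.pT pm.ω) k := fun k hk =>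
    hbg ▸ psx_slev htot hrun hk (hst k hk).1 (hst k hk).2.2 (hst k hk).2.1
  have hS : ∀ k < i, SStp pm T t z j0 x0 (fun x => v x / Real.sqrt a) (fun k => Gter G ℓ (j0 + k)) (nm.p0 pm.ω) (nm.pT pm.ω) pm.c.cst pm.c.cst k :=
    fun k hk => hbg ▸ psx_sstp hone hint hrun hk (hst k hk.le).1 (hst k hk.le).2.2 (hst k hk.le).2.1
  have hsc : ∀ k < i, SScal pm T t z j0 x0 k := fun k hk => psx_sscal hone hrun hk (hst k hk.le).1 (hst k hk.le).2.2 (hst k hk.le).2.1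
  have hc0 : 2 * (2 ^ ℓ) ^ j0 ∣ G.M := psx_cen hrun (Nat.zero_le i)
  have hs0 : side G ℓ j0 = (2 ^ ℓ) ^ j0 := side_eq (dvd_trans (Dvd.intro_left 2 rfl) hc0)
  have hsd : sd ∣ side G ℓ j0 := hs0 ▸ hrun.sd_dvd
  have hcen : 2 * side G ℓ j0 ∣ G.M := hs0 ▸ hc0
  have hsd0 := hrun.sd_pos
  have hfree := hrun.free
  have hbr := hrun.br
  obtain ⟨hd, rfl⟩ := hrun.cells
  rw [hbg]
  exact prs_ident pm T t z j0 x0 (fun k => Gter G ℓ (j0 + k)) b a hb ha hfree sd hsd0 hsd hcen hω hR v hbr (psx_term G ℓ j0) cG h0 hT i hL hS hsc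
    (psx_real (hst 0 (Nat.zero_le i)).1) (psx_real (hst i le_rfl).1)

/-- on a wall-free support the retained singletons are the plane singletons -/
theorem psx_single {g : Grid G} (H0 : ℕ) (α : ℝ) (t z : ℂ) (X : Finset g.I) (hX : WallFree g H0 X) : singleWF g H0 α t z X = B8.single g α t z X := by
  classical
  unfold singleWF B8.single
  refine Finset.sum_congr rfl fun B _ => ?_
  by_cases h : X = {B}
  · subst h
    simp [hX]
  · simp [h]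

/-- the chosen gauge of a shift-good support of a level of a centred free square -/
theorem psx_gaugeOf (hG : G.bc = BC.free) {j : ℕ} (hcen : 2 * (2 ^ ℓ) ^ j ∣ G.M) (H : ℕ) (hH : 2 ≤ H) (X : Finset (lev G ℓ j).I)
    (hX : ShiftGood (lev G ℓ j) H X) : IsGauge (lev G ℓ j) X (gaugeOf (lev G ℓ j) H X) := by
  have hs : side G ℓ j = (2 ^ ℓ) ^ j := side_eq (dvd_trans (Dvd.intro_left 2 rfl) hcen)
  have he : 2 ∣ (lev G ℓ j).n := by
    show 2 ∣ G.M / side G ℓ j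
    apply Nat.dvd_div_of_mul_dvd
    rw [hs, mul_comm]
    exact hcen
  have hex := prg_gauge_exists hG (lev G ℓ j) (prg_lev_std G ℓ j) he H X hX
  refine prg_gaugeR_gauge hG _ (prg_lev_std G ℓ j) H hH X _ ?_
  unfold gaugeOf
  rw [dif_pos hex]
  exact hex.choose_spec

/-- **ONE CENTRED FREE SQUARE AT THE STOP: all fields of `Pr.AtStop`**, `fx = ⟨nm.pT pm.ω, oT, H0, H1⟩`, `x = hist .. i`, `Γ = Gter G ℓ (j0 + i)`, `V = T.VT (j0 + i)`, `Rm = K0 - singleWF`.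
Inputs beyond `psx_ident`: the real scalars at the stop and the three bounds `hν` (REC), `hν2` (plane remainder: COPY + R1), `hvJ` (label). -/
theorem psx_atStop (hone : OneStep pm nm k0 kT o oT ℓ θ C ρ) (htot : TotBd pm nm o oT ℓ Ct) (hint : TermInt nm o oT)
    (hrun : Run pm nm k0 kT o oT T cl v sd j0 i t z)
    (hst : ∀ k ≤ i, Inv pm nm.h0 (hist pm T t z j0 x0 k) ∧
      qP pm nm T j0 t z x0 k + qW pm nm T j0 t z x0 k + qD pm nm T v j0 t z x0 k ≤ ρ ∧ qJ pm nm T v j0 t z x0 k ≠ ⊤)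
    (b : ℝ) (hb : 0 < b) (ha : 0 < oT.a) (hω : pm.ω = 2 * Real.pi / Real.sqrt oT.a) (hR : pm.c.R = RR) (hH1 : 2 ≤ pm.zn.H1) (cG : ℝ)
    (h0 : TargetOrd b oT.a cl (lev G ℓ j0) cG x0.K0) (hT : TargetLab b oT.a cl (lev G ℓ j0) cG 0 x0.KT x0.JT)
    (tr zr ν ν2 vJ : ℝ) (htr : t (j0 + i) = (tr : ℂ)) (hzr : z (j0 + i) = (zr : ℂ))
    (hν : Ct * (qP pm nm T j0 t z x0 i + qW pm nm T j0 t z x0 i + qD pm nm T v j0 t z x0 i) ≤ ENNReal.ofReal ν)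
    (hν2 : actNorm (nm.p0 pm.ω) (lev G ℓ (j0 + i)) (T.V0 (j0 + i)) (cutA (WallFree (lev G ℓ (j0 + i)) pm.zn.H0)
      ((hist pm T t z j0 x0 i).K0 - singleWF (lev G ℓ (j0 + i)) pm.zn.H0 pm.α (t (j0 + i)) (z (j0 + i)))) ≤ ENNReal.ofReal ν2)
    (hvJ : qJ pm nm T v j0 t z x0 i ≤ ENNReal.ofReal vJ) :
    AtStop ⟨nm.pT pm.ω, oT, pm.zn.H0, pm.zn.H1⟩ b (lev G ℓ (j0 + i)) cl pm.c.col (hist pm T t z j0 x0 i) (Gter G ℓ (j0 + i)) (T.VT (j0 + i)) v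
      ((hist pm T t z j0 x0 i).K0 - singleWF (lev G ℓ (j0 + i)) pm.zn.H0 pm.α (t (j0 + i)) (z (j0 + i))) tr zr ν ν2 vJ
      (Dex pm T t z j0 x0 i).re (cex pm T t z j0 x0 i).re := by
  have hinv := (hst i le_rfl).1
  have hα : pm.α = Real.sqrt oT.a := psx_alpha ha hω
  have hmu : muOf (Fix.α ⟨nm.pT pm.ω, oT, pm.zn.H0, pm.zn.H1⟩) v = bg pm v := by
    unfold muOf bg Fix.α
    rw [hα]
  obtain ⟨-, t2, t3⟩ := psx_tot htot hrun le_rfl hinv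
  have t4 := (htot G T cl v j0 (j0 + i) hrun.free (psx_cen hrun le_rfl) hrun.obs hrun.j0_pos (Nat.le_add_right _ _) hrun.br (t (j0 + i)) (z (j0 + i))
    _ hinv).2.2.2
  have hid := (psx_ident hone htot hint hrun hst b oT.a hb ha hω hR cG h0 hT).2
  refine ⟨psx_term G ℓ (j0 + i), hrun.obs.VT _ (Nat.le_add_right _ _), hR ▸ ok_par hinv.ok0 nm.δ nm.κT nm.AT, ?_, ?_, hinv.real0, ?_, ?_, hinv.even0,
    ?_, ?_, ?_, hrun.br, ?_, ?_, ?_, ?_⟩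
  · rw [hmu]
    exact hR ▸ prs_shA_ok _ _ _ (ok_par hinv.okT nm.δ nm.κT nm.AT) _
  · rw [hmu]
    exact hR ▸ prs_shA_ok _ _ _ (ok_par hinv.okJ nm.δ nm.κT nm.AT) _
  · exact prs_real_shA hinv.realT _
  · exact prs_real_shA hinv.realJ _
  · exact t2.trans ((mul_le_mul_right le_self_add _).trans hν)
  · rw [hmu]
    exact t3.trans hν
  · rw [hmu]
    exact hvJ
  · intro X hX w _
    have e : B8.single (lev G ℓ (j0 + i)) (Fix.α ⟨nm.pT pm.ω, oT, pm.zn.H0, pm.zn.H1⟩) (tr : ℂ) (zr : ℂ) X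
        = singleWF (lev G ℓ (j0 + i)) pm.zn.H0 pm.α (t (j0 + i)) (z (j0 + i)) X := by
      rw [psx_single _ _ _ _ X hX, htr, hzr, hα]
      rfl
    rw [e]
    simp only [Pi.sub_apply]
    ring
  · intro X hX
    exact (t4 X hX).trans hν2
  · intro X hX w hw
    exact hinv.gauge X hX _ (psx_gaugeOf hrun.free (psx_cen hrun le_rfl) _ hH1 X hX) w hw
  · rw [hmu]
    exact hid

end run

end

end Claimed.Agent.R285.F6.Pr
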