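import Claimed.Agent.R285.Obs.PairMst2
import Claimed.Agent.R285.Obs.PairEnt0
import Claimed.Agent.R285.Obs.PairStopX
import Claimed.Agent.R285.TopXY

/-!
# ROW 285, unit OBS: THE MASTER of `Obs.pair_atStop`, part 3: two squares, one square with its equipment, THE ASSEMBLY      (chief helper271)   -- KEEP

Prefix `pmm_`.
3. TWO SQUARES: `pmm_hcov`, `pmm_sq_chain`, `pmm_sq_scal`, `pmm_atPair`.  NO `sorry` IN THIS FILE.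
4. ONE SQUARE: `pmm_square` = equipment (`pmm_tw`, branch, `pmm_torEmb`), `Run`, entry (`pe0_*`), plane link (`pmm_tor_step`, `pmm_tor_size`), the induction (`pmm_single`).
5. THE ASSEMBLY: `pmm_final`, `pmm_tail`, **`pmm_main : PairConstStmt → Obs.PairAtStopStmt`**.  (The stop in one square = `psx_atStop`, `Obs/PairStopX.lean`, helper16.)
-/

set_option autoImplicit false

namespace Claimed.Agent.R285.F6.Pr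

open scoped BigOperators ENNReal NNReal
open MeasureTheory
open Claimed.Agent.R285 Claimed.Agent.R285.RG Claimed.Agent.R285.B4 Claimed.Agent.R285.F4a Claims.C0459

noncomputable section

/-! ## 3. Two squares -/

section two

variable {pm : Prm} {nm : Nm} {k0 kT : KC} {o oT : ObsPar} {ℓ : ℕ} {G₀ G₁ : Geom} {T₀ : Tw G₀ ℓ} {T₁ : Tw G₁ ℓ} {cl₀ : Grid G₀} {cl₁ : Grid G₁}
  {v₀ : G₀.V → ℝ} {v₁ : G₁.V → ℝ} {sd j0 i : ℕ} {t z : ℕ → ℂ} {x₀ : St (lev G₀ ℓ j0)} {x₁ : St (lev G₁ ℓ j0)}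

/-- the covariances of the two squares agree near the wall-free supports -/
theorem pmm_hcov (R₀ : Run pm nm k0 kT o oT T₀ cl₀ v₀ sd j0 i t z) (R₁ : Run pm nm k0 kT o oT T₁ cl₁ v₁ sd j0 i t z)
    (E : TEmb (lev G₀ ℓ) (lev G₁ ℓ)) (hE : ∀ j ≤ j0 + i, CenEmb (E.lv j)) {k : ℕ} (hk : k < i) :
    ∀ Y, WallFree (lev G₀ ℓ (j0 + k + 1)) (pm.zn.H0 - 1) Y → ∀ v ∈ dep (lev G₀ ℓ (j0 + k + 1)) pm.c.col Y, ∀ w ∈ dep (lev G₀ ℓ (j0 + k + 1)) pm.c.col Y,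
      Gm G₀ ℓ (j0 + k) v w = Gm G₁ ℓ (j0 + k) (E.s v) (E.s w) := by
  intro Y hY v hv w _
  have hc := R₀.ctx k hk
  have hcol : pm.c.col ≤ (2 ^ ℓ) ^ (j0 + k + 1) := by
    have h1 := hc.col
    rw [side_eq (R₀.ret k hk).dvd'] at h1
    have h2 : (2 ^ ℓ) ^ (j0 + k) ≤ (2 ^ ℓ) ^ (j0 + k + 1) := Nat.pow_le_pow_right (by positivity) (Nat.le_succ _)
    omega
  exact pkr_hcov_sq (R₀.ret k hk).dvd (R₁.ret k hk).dvd E.s (hE (j0 + k) (by omega)).cen pm.c.col hcol (pm.zn.H0 - 1)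
    (by have := hc.hH0; omega) Y hY v hv w

/-- **the copies between the two squares along the histories** -/
theorem pmm_sq_chain (R₀ : Run pm nm k0 kT o oT T₀ cl₀ v₀ sd j0 i t z) (R₁ : Run pm nm k0 kT o oT T₁ cl₁ v₁ sd j0 i t z)
    (E : TEmb (lev G₀ ℓ) (lev G₁ ℓ)) (hE : ∀ j ≤ j0 + i, CenEmb (E.lv j))
    (hi₀ : ∀ k ≤ i, Inv pm nm.h0 (hist pm T₀ t z j0 x₀ k)) (hi₁ : ∀ k ≤ i, Inv pm nm.h0 (hist pm T₁ t z j0 x₁ k))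
    (hf₀ : ∀ k ≤ i, qP pm nm T₀ j0 t z x₀ k ≠ ⊤) (hf₁ : ∀ k ≤ i, qP pm nm T₁ j0 t z x₁ k ≠ ⊤) (h0 : InvSq pm nm.h0 (E.lv j0) x₀ x₁) :
    ∀ k ≤ i, InvSq pm nm.h0 (E.lv (j0 + k)) (hist pm T₀ t z j0 x₀ k) (hist pm T₁ t z j0 x₁ k) := by
  intro k
  induction k with
  | zero => intro _; exact h0
  | succ k ih =>
    intro hk
    have hk' : k < i := hk
    rw [prs_hist_succ pm T₀ t z j0 x₀ k (R₀.ret k hk'), prs_hist_succ pm T₁ t z j0 x₁ k (R₁.ret k hk')]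
    exact pr_sq_step (R₀.ctx k hk') (R₁.ctx k hk') E (hE _ (by omega)) (hE _ (by omega)) (pmm_hcov R₀ R₁ E hE hk') _ _ _ _
      (hi₀ k hk'.le) (hi₁ k hk'.le) (hf₀ k hk'.le) (hf₁ k hk'.le) (ih hk'.le)

/-- **(obs:factor-copy)**: `D_ex`, `c_ex` are the same in the two squares -/
theorem pmm_sq_scal (R₀ : Run pm nm k0 kT o oT T₀ cl₀ v₀ sd j0 i t z) (R₁ : Run pm nm k0 kT o oT T₁ cl₁ v₁ sd j0 i t z)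
    (E : TEmb (lev G₀ ℓ) (lev G₁ ℓ)) (hE : ∀ j ≤ j0 + i, CenEmb (E.lv j))
    (hi₀ : ∀ k ≤ i, Inv pm nm.h0 (hist pm T₀ t z j0 x₀ k)) (hi₁ : ∀ k ≤ i, Inv pm nm.h0 (hist pm T₁ t z j0 x₁ k))
    (hf₀ : ∀ k ≤ i, qP pm nm T₀ j0 t z x₀ k ≠ ⊤) (hf₁ : ∀ k ≤ i, qP pm nm T₁ j0 t z x₁ k ≠ ⊤) (h0 : InvSq pm nm.h0 (E.lv j0) x₀ x₁) :
    Dex pm T₀ t z j0 x₀ i = Dex pm T₁ t z j0 x₁ i ∧ cex pm T₀ t z j0 x₀ i = cex pm T₁ t z j0 x₁ i := by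
  refine prs_Dex_copy pm T₀ T₁ t z j0 x₀ x₁ E i (fun k hk => hE _ (by omega)) fun k hk b hb => ?_
  rw [prs_scal_eq pm T₀ t z j0 x₀ k (R₀.ret k hk), prs_scal_eq pm T₁ t z j0 x₁ k (R₁.ret k hk)]
  obtain ⟨e1, e2, e3⟩ := prs_sq_scal (R₀.ctx k hk) (R₁.ctx k hk) E (hE _ (by omega)) (hE _ (by omega)) (pmm_hcov R₀ R₁ E hE hk) _ _ _ _
    (hi₀ k hk.le) (hi₁ k hk.le) (hf₀ k hk.le) (hf₁ k hk.le) (pmm_sq_chain R₀ R₁ E hE hi₀ hi₁ hf₀ hf₁ h0 k hk.le) b (prs_central_wf (R₀.ctx k hk) b hb)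
  rw [e1, e2, e3]

/-- `L-MST-ATPAIR` (proved): `ok := hE.ok`; `e_val := hE.val`; `K0`, `KT`: `hc.c0`, `hc.cT` with `hcol`, `hp`;
`s_val`: `hE.cen v : G₁.ι (s v) = G₀.ι v + (M₁/2 - M₀/2, ..)`, `Geom.ι v = ((v.1 : ℕ), (v.2 : ℕ))` (`simp only [Geom.ι]`, `Prod.ext_iff`), `G₀.M / 2 ≤ G₁.M / 2` from `hE.le`, `hE.std₀.card`, `hE.std₁.card`, `hE.ok.side`; `omega` / `push_cast`. -/
theorem pmm_atPair {g₀ : Grid G₀} {g₁ : Grid G₁} (E : GEmb g₀ g₁) (hE : CenEmb E) (hcol : pm.c.col = 1) (p : Par) (hp : p.h0 = nm.h0) (oo : ObsPar) (H1 : ℕ)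
    (y₀ : St g₀) (y₁ : St g₁) (hc : InvSq pm nm.h0 E y₀ y₁) : AtPair ⟨p, oo, pm.zn.H0, H1⟩ g₀ g₁ 1 E y₀ y₁ := by
  have hM : G₀.M / 2 ≤ G₁.M / 2 := by
    have h1 := hE.std₀.card
    have h2 := hE.std₁.card
    rw [hE.ok.side] at h2
    have h3 : g₀.n * g₀.m ≤ g₁.n * g₀.m := Nat.mul_le_mul_right _ hE.le
    omega
  refine ⟨hE.ok, fun v => ?_, hE.val, fun X hX => ?_, fun X hX => ?_⟩
  · have h := hE.cen v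
    simp only [Geom.ι, Prod.mk_add_mk, Prod.mk.injEq] at h
    omega
  · have := hc.c0 X hX
    rw [hcol, ← hp] at this
    exact this
  · have := hc.cT X hX
    rw [hcol, ← hp] at this
    exact this

end two

/-! ## 4. One square -/

/-- the tail of `pmm_single` for fixed parameters -/
def SingleOut (pm : Prm) (nm : Nm) (k0 kT : KC) (o oT : ObsPar) (ℓ : ℕ) (ρ : ℝ≥0) (θ' C' cs : ℝ) : Prop :=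
  ∀ (G : Geom) (T : Tw G ℓ) (cl : Grid G) (v : G.V → ℝ) (sd j0 i : ℕ) (t z : ℕ → ℂ), Run pm nm k0 kT o oT T cl v sd j0 i t z →
    ∀ (x0 : St (lev G ℓ j0)) (u : ℕ → ℝ) (ε : ℝ) (Q : ℕ → Prop), Inv pm nm.h0 x0 →
      qW pm nm T j0 t z x0 0 ≤ ENNReal.ofReal ε → qD pm nm T v j0 t z x0 0 ≤ ENNReal.ofReal ε → qJ pm nm T v j0 t z x0 0 ≠ ⊤ →
      0 ≤ ε → ε ≤ cs → (∀ k ≤ i, 0 ≤ u k ∧ u k < cs) → Q 0 →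
      (∀ k < i, Q k → Inv pm nm.h0 (hist pm T t z j0 x0 k) → qP pm nm T j0 t z x0 k ≠ ⊤ → Q (k + 1)) →
      (∀ k ≤ i, Q k → qP pm nm T j0 t z x0 k ≤ ENNReal.ofReal (3 * u k)) →
      ∀ k ≤ i, Out1 pm nm T v j0 t z x0 Q ρ θ' C' ε u k

/-- what ONE centred free square delivers -/
structure SqRes (pm : Prm) (nm : Nm) (k0 kT : KC) (o oT : ObsPar) {ℓ : ℕ} (ρ : ℝ≥0) (θ' C' : ℝ) (D : F4b.EntryData) (E : Obs.EntQ) (kq kR ks j0 i : ℕ)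
    (t z u r : ℕ → ℝ) {G : Geom} (cl : Grid G) (T : Tw G ℓ) (v : G.V → ℝ) (hs : 2 ^ ks ∣ side G ℓ j0) : Prop where
  geo : EntGeo E kq kR ks ℓ j0 G
  run : Run pm nm k0 kT o oT T cl v (2 ^ ks) j0 i (fun j => (t j : ℂ)) (fun j => (z j : ℂ))
  out : ∃ Q : ℕ → Prop, ∀ k ≤ i, Out1 pm nm T v j0 (fun j => (t j : ℂ)) (fun j => (z j : ℂ)) (ent D xyCritical G ℓ j0 (2 ^ ks) hs) Q ρ θ' C' E.ε u k
  lab0 : qJ pm nm T v j0 (fun j => (t j : ℂ)) (fun j => (z j : ℂ)) (ent D xyCritical G ℓ j0 (2 ^ ks) hs) 0 ≤ ENNReal.ofReal (E.CR * ((2 : ℝ) ^ ks) ^ E.CR)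
  plane : actNorm (nm.p0 pm.ω) (lev G ℓ (j0 + i)) (T.V0 (j0 + i)) (cutA (WallFree (lev G ℓ (j0 + i)) pm.zn.H0)
    ((hist pm T (fun j => (t j : ℂ)) (fun j => (z j : ℂ)) j0 (ent D xyCritical G ℓ j0 (2 ^ ks) hs) i).K0
      - singleWF (lev G ℓ (j0 + i)) pm.zn.H0 pm.α (t (j0 + i) : ℂ) (z (j0 + i) : ℂ))) ≤ ENNReal.ofReal (r i)
  tgt : ∃ cG : ℝ, TargetOrd xyCritical B8.k0 cl (lev G ℓ j0) cG (ent D xyCritical G ℓ j0 (2 ^ ks) hs).K0 ∧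
    TargetLab xyCritical B8.k0 cl (lev G ℓ j0) cG 0 (ent D xyCritical G ℓ j0 (2 ^ ks) hs).KT (ent D xyCritical G ℓ j0 (2 ^ ks) hs).JT

/-- **ONE SQUARE**: equipment, `Run`, entry, plane link, the induction -/
theorem pmm_square {pm : Prm} {nm : Nm} {k0 kT : KC} {o oT : ObsPar} {K : B8.Cfg} (hfit : Fit pm nm K) {ρ : ℝ≥0} {θ' C' cs : ℝ}
    (hctx : CtxAll pm nm k0 kT o oT K.s.ℓ) (hsing : SingleOut pm nm k0 kT o oT K.s.ℓ ρ θ' C' cs)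
    (hω : pm.ω = B8.ω8) (hR : pm.c.R = RR) (hH0 : K.c0 + 4 ≤ pm.zn.H0) (hc0 : pp ≤ K.c0) (hℓ : 1 ≤ K.s.ℓ)
    (D : F4b.EntryData) (E : Obs.EntQ) (kq kR ks j0 : ℕ) (hc0E : E.c0E ≤ K.c0)
    (hEnt : Obs.EntAll D (nm.p0 pm.ω) (nm.pT pm.ω) o oT E kq kR ks) (hside : 2 ^ kq * 2 ^ kR * 2 ^ ks = (2 ^ K.s.ℓ) ^ j0) (hj0 : 1 ≤ j0)
    (𝓡 : B8.Reg K.s) (htow : Obs.TowAll K 𝓡 o (2 ^ ks) j0) (h i : ℕ) (H : Obs.THist K h) (u r : ℕ → ℝ)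
    (hH : H.Ok 𝓡 j0 i (Asm.entAct K.s D (2 ^ ks) h j0 xyCritical) u r) (hε0 : 0 ≤ E.ε) (hεc : E.ε ≤ cs) (hu : ∀ k ≤ i, u k < cs)
    (G : Geom) (hG : G.bc = BC.free) (hcen : 2 * (2 ^ K.s.ℓ) ^ (j0 + i) ∣ G.M) (hfar : pm.D0 * (2 ^ K.s.ℓ) ^ (j0 + i) < G.M)
    (hbig : 2 * K.c0 * (2 ^ K.s.ℓ) ^ (j0 + i) ≤ G.M) (hb1 : 2 ^ ks * (2 ^ kR) ^ 5 ≤ G.M) (hb2 : E.cmk * (2 ^ ks * (2 ^ kR) ^ 5) ≤ G.M)
    (h2 : 2 * G.M ≤ (K.s.T h).M) (hdv : G.M ∣ (K.s.T h).M) (cl : Grid G) (hcl : ∃ hd, cl = torusGrid G (2 ^ ks) hd) :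
    ∃ (T : Tw G K.s.ℓ) (v : G.V → ℝ) (hs : 2 ^ ks ∣ side G K.s.ℓ j0), SqRes pm nm k0 kT o oT ρ θ' C' D E kq kR ks j0 i H.t H.z u r cl T v hs := by
  have hpw : (2 ^ K.s.ℓ) ^ j0 ∣ (2 ^ K.s.ℓ) ^ (j0 + i) := pow_dvd_pow _ (Nat.le_add_right _ _)
  have hEG : EntGeo E kq kR ks K.s.ℓ j0 G := ⟨hG, hside, (Nat.mul_dvd_mul_left 2 hpw).trans hcen, hb1, hb2⟩
  have hs := pe0_hs hEG
  have hsd : 0 < 2 ^ ks := by positivity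
  have hsdv : 2 ^ ks ∣ (2 ^ K.s.ℓ) ^ j0 := hside ▸ Dvd.intro_left _ rfl
  have hm : 2 ≤ (2 ^ K.s.ℓ) ^ j0 := by
    have h1 : 2 ^ 1 ≤ 2 ^ K.s.ℓ := Nat.pow_le_pow_right (by norm_num) hℓ
    have h2 : (2 ^ K.s.ℓ) ^ 1 ≤ (2 ^ K.s.ℓ) ^ j0 := Nat.pow_le_pow_right (by positivity) hj0
    rw [pow_one] at h1 h2
    exact h1.trans h2
  have hph : K.p.h0 = nm.h0 := by rw [← hfit.p]; rfl
  obtain ⟨T, hobs⟩ := pmm_tw o oT G K.s.ℓ (2 ^ ks) j0 hsd hsdv cl hcl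
  obtain ⟨_, _, _, _, _, _, _, _, _, hex⟩ := prt_eta_ok
  obtain ⟨v, hv, -⟩ := hex G hG ((Dvd.intro _ rfl).trans hcen)
  have hrun := pmm_run hctx hG T cl v (2 ^ ks) j0 i H.t H.z hj0 hsd hsdv hcl hobs hv hcen hfar
  obtain ⟨Et, hEt⟩ := pmm_torEmb G hG K.s h (j0 + i) hH.lt.le h2 hdv ((Dvd.intro_left 2 rfl).trans hcen)
  have hinv0 : Inv pm nm.h0 (ent D xyCritical G K.s.ℓ j0 (2 ^ ks) hs) :=
    pe0_inv D (nm.p0 pm.ω) (nm.pT pm.ω) o oT E kq kR ks K.s.ℓ j0 hEnt G hEG hs pm hR hω hω hω rfl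
  obtain ⟨-, sW, sD, sJ⟩ := pe0_sizes D (nm.p0 pm.ω) (nm.pT pm.ω) o oT E kq kR ks K.s.ℓ j0 hEnt G hEG hs pm hω T cl hcl hobs pm.zn.H0 pm.zn.H1 pm.α v hv
  have hQ0 : QT pm nm.h0 K T H Et j0 (ent D xyCritical G K.s.ℓ j0 (2 ^ ks) hs) 0 := by
    have := pe0_invTor D (nm.p0 pm.ω) (nm.pT pm.ω) o oT E kq kR ks j0 hEnt K.s G hEG hs hm h (by have := hH.lt; omega) (by omega) pm (by omega) (by omega)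
      (Et.lv j0) (hEt j0 (Nat.le_add_right _ _)) (H.R j0) (by have := hH.R0; rw [hph] at this; exact this)
    show InvTor pm nm.h0 (Et.lv j0) ((H.t j0 : ℝ) : ℂ) ((H.z j0 : ℝ) : ℂ) (ent D xyCritical G K.s.ℓ j0 (2 ^ ks) hs) (H.R j0)
    rw [hH.t0, hH.z0, Complex.ofReal_zero]
    exact this
  have hu' : ∀ k ≤ i, 0 ≤ u k ∧ u k < cs := fun k hk => ⟨(abs_nonneg _).trans (hH.bd k hk).1, hu k hk⟩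
  have hsz : ∀ k ≤ i, QT pm nm.h0 K T H Et j0 (ent D xyCritical G K.s.ℓ j0 (2 ^ ks) hs) k → _ := fun k hk hq =>
    pmm_tor_size hfit 𝓡 H hH T Et hEt (ent D xyCritical G K.s.ℓ j0 (2 ^ ks) hs) hsd htow cl hcl hobs (by omega) hm hbig h2 hdv hk hq
  have hout := hsing G T cl v (2 ^ ks) j0 i _ _ hrun (ent D xyCritical G K.s.ℓ j0 (2 ^ ks) hs) u E.ε
    (QT pm nm.h0 K T H Et j0 (ent D xyCritical G K.s.ℓ j0 (2 ^ ks) hs)) hinv0 sW sD (ne_top_of_le_ne_top ENNReal.ofReal_ne_top sJ) hε0 hεc hu' hQ0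
    (fun k hk hq hinv hfin => pmm_tor_step hfit 𝓡 H hH T Et hEt _ htow.tower hk (hrun.ret k hk) (hrun.ctx k hk) hinv hfin hq)
    (fun k hk hq => (hsz k hk hq).2)
  have hA := pe0_adm hEG hs
  have hr : 0 < E.cR / ((2 : ℝ) ^ ks) ^ 2 := div_pos hEnt.cR_pos (by positivity)
  refine ⟨T, v, hs, hEG, hrun, ⟨_, hout⟩, sJ, (hsz i le_rfl (hout i le_rfl).q).1, ?_⟩
  obtain ⟨hd, rfl⟩ := hcl
  exact ⟨_, (hEnt.bulk _ hA).ident xyCritical (by rw [sub_self, abs_zero]; exact hr), (hEnt.unit _ hA hG hb2).ident⟩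

/-! ## 5. The assembly -/

theorem pmm_final {a₀ a₁ N Dx b₀ b₁ B θ' C' Cf S : ℝ} {i : ℕ} (ha₀ : 0 ≤ a₀) (ha₁ : 0 ≤ a₁) (hDx : Dx ≤ N) (hθ : 0 ≤ θ') (hS : 0 ≤ S) (hC : C' ≤ Cf)
    (hB : 0 ≤ B) (hb₀ : b₀ ≤ B) (hb₁ : b₁ ≤ B) (h₀ : a₀ * N ≤ b₀ * θ' ^ i * Real.exp (C' * S)) (h₁ : a₁ * N ≤ b₁ * θ' ^ i * Real.exp (C' * S)) :
    max a₀ a₁ * Dx ≤ B * θ' ^ i * Real.exp (Cf * S) := by
  have hp : 0 ≤ θ' ^ i := pow_nonneg hθ i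
  have key : ∀ a b : ℝ, 0 ≤ a → b ≤ B → a * N ≤ b * θ' ^ i * Real.exp (C' * S) → a * Dx ≤ B * θ' ^ i * Real.exp (Cf * S) := by
    intro a b ha hb h
    calc a * Dx ≤ a * N := mul_le_mul_of_nonneg_left hDx ha
      _ ≤ b * θ' ^ i * Real.exp (C' * S) := h
      _ ≤ B * θ' ^ i * Real.exp (C' * S) := mul_le_mul_of_nonneg_right (mul_le_mul_of_nonneg_right hb hp) (Real.exp_pos _).le
      _ ≤ B * θ' ^ i * Real.exp (Cf * S) :=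
        mul_le_mul_of_nonneg_left (Real.exp_le_exp.2 (mul_le_mul_of_nonneg_right hC hS)) (mul_nonneg hB hp)
  rcases le_total a₀ a₁ with h | h
  · rw [max_eq_right h]; exact key a₁ b₁ ha₁ hb₁ h₁
  · rw [max_eq_left h]; exact key a₀ b₀ ha₀ hb₀ h₀

theorem pmm_nu {C : ℝ≥0} {σ : ℝ≥0∞} {C' g Cf : ℝ} (h : σ ≤ ENNReal.ofReal (C' * g)) (hg : 0 ≤ g) (hCf : (C : ℝ) * C' ≤ Cf) :
    (C : ℝ≥0∞) * σ ≤ ENNReal.ofReal (Cf * g) := by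
  calc (C : ℝ≥0∞) * σ ≤ C * ENNReal.ofReal (C' * g) := by gcongr
    _ = ENNReal.ofReal (C * (C' * g)) := by rw [ENNReal.ofReal_mul C.coe_nonneg, ENNReal.ofReal_coe_nnreal]
    _ ≤ ENNReal.ofReal (Cf * g) := ENNReal.ofReal_le_ofReal (by rw [← mul_assoc]; exact mul_le_mul_of_nonneg_right hCf hg)

theorem pmm_cast_le {a L n : ℕ} {Cf : ℝ} (ha : (a : ℝ) ≤ Cf) (h : Cf * (L : ℝ) ≤ n) : a * L ≤ n := by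
  have : ((a * L : ℕ) : ℝ) ≤ n := by
    push_cast
    exact (mul_le_mul_of_nonneg_right ha (Nat.cast_nonneg _)).trans h
  exact_mod_cast this

/-- **THE TAIL**: the two squares at the stop -/
theorem pmm_tail {pm : Prm} {nm : Nm} {k0 kT : KC} {o oT : ObsPar} {K : B8.Cfg} (hfit : Fit pm nm K) {θ C ρ : ℝ≥0} {θ' C' cs Cf : ℝ}
    (hctx : CtxAll pm nm k0 kT o oT K.s.ℓ) (hone : OneStep pm nm k0 kT o oT K.s.ℓ θ C ρ) (htot : TotBd pm nm o oT K.s.ℓ C) (hint : TermInt nm o oT)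
    (hsing : SingleOut pm nm k0 kT o oT K.s.ℓ ρ θ' C' cs) (hθ0 : 0 < θ') (hθ1 : θ' < 1) (hC : 1 ≤ C) (hC' : 1 ≤ C') (hcs : 0 < cs)
    (hCf1 : (C : ℝ) * C' ≤ Cf) (hCf2 : ((pm.D0 + 1 : ℕ) : ℝ) ≤ Cf) (hCf3 : ((2 * K.c0 : ℕ) : ℝ) ≤ Cf)
    (hω : pm.ω = B8.ω8) (hR : pm.c.R = RR) (hcol : pm.c.col = 1) (hH0 : K.c0 + 4 ≤ pm.zn.H0) (hc0 : pp ≤ K.c0) (hH1 : 2 ≤ pm.zn.H1) (hℓ : 1 ≤ K.s.ℓ)
    (haT : oT.a = B8.k0)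
    (D : F4b.EntryData) (E : Obs.EntQ) (kq kR ks j0 : ℕ) (hc0E : E.c0E ≤ K.c0)
    (hEnt : Obs.EntAll D (nm.p0 pm.ω) (nm.pT pm.ω) o oT E kq kR ks) (hside : 2 ^ kq * 2 ^ kR * 2 ^ ks = (2 ^ K.s.ℓ) ^ j0) (hj0 : 1 ≤ j0)
    (𝓡 : B8.Reg K.s) (htow : Obs.TowAll K 𝓡 o (2 ^ ks) j0) (h i : ℕ) (H : Obs.THist K h) (u r : ℕ → ℝ)
    (hH : H.Ok 𝓡 j0 i (Asm.entAct K.s D (2 ^ ks) h j0 xyCritical) u r) (hε0 : 0 ≤ E.ε) (hεc : E.ε ≤ cs) (hu : ∀ k ≤ i, u k < cs)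
    (G₀ G₁ : Geom) (n₀ : ℕ) (hG₀ : G₀.bc = BC.free) (hG₁ : G₁.bc = BC.free) (hM₀ : G₀.M = 2 * n₀) (hM₁ : G₁.M = 2 * (2 ^ K.s.ℓ * n₀))
    (hdv : (2 ^ K.s.ℓ) ^ (j0 + i) ∣ n₀) (hCn : Cf * (((2 ^ K.s.ℓ) ^ (j0 + i) : ℕ) : ℝ) ≤ n₀)
    (hb1 : 2 ^ ks * (2 ^ kR) ^ 5 ≤ 2 * n₀) (hb2 : E.cmk * (2 ^ ks * (2 ^ kR) ^ 5) ≤ 2 * n₀) (h2 : 2 * G₁.M ≤ (K.s.T h).M) (hdM : G₁.M ∣ (K.s.T h).M)
    (cl₀ : Grid G₀) (cl₁ : Grid G₁) (hcl₀ : ∃ hd, cl₀ = torusGrid G₀ (2 ^ ks) hd) (hcl₁ : ∃ hd, cl₁ = torusGrid G₁ (2 ^ ks) hd) :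
    ∃ vJ Dx cx : ℝ, 0 ≤ vJ ∧ 0 < Dx ∧
      (∃ (x₀ : St (lev G₀ K.s.ℓ (j0 + i))) (x₁ : St (lev G₁ K.s.ℓ (j0 + i))) (Γ₀ : Matrix G₀.V G₀.V ℝ) (Γ₁ : Matrix G₁.V G₁.V ℝ)
        (V₀ : Extra (lev G₀ K.s.ℓ (j0 + i))) (V₁ : Extra (lev G₁ K.s.ℓ (j0 + i))) (v₀ : G₀.V → ℝ) (v₁ : G₁.V → ℝ)
        (Rm₀ : Act (lev G₀ K.s.ℓ (j0 + i))) (Rm₁ : Act (lev G₁ K.s.ℓ (j0 + i))) (Em : GEmb (lev G₀ K.s.ℓ (j0 + i)) (lev G₁ K.s.ℓ (j0 + i))),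
        AtStop ⟨nm.pT pm.ω, oT, pm.zn.H0, pm.zn.H1⟩ xyCritical (lev G₀ K.s.ℓ (j0 + i)) cl₀ 1 x₀ Γ₀ V₀ v₀ Rm₀
          (H.t (j0 + i)) (H.z (j0 + i)) (Cf * cvl θ' E.ε u i) (r i) vJ Dx cx ∧
        AtStop ⟨nm.pT pm.ω, oT, pm.zn.H0, pm.zn.H1⟩ xyCritical (lev G₁ K.s.ℓ (j0 + i)) cl₁ 1 x₁ Γ₁ V₁ v₁ Rm₁
          (H.t (j0 + i)) (H.z (j0 + i)) (Cf * cvl θ' E.ε u i) (r i) vJ Dx cx ∧
        AtPair ⟨nm.pT pm.ω, oT, pm.zn.H0, pm.zn.H1⟩ (lev G₀ K.s.ℓ (j0 + i)) (lev G₁ K.s.ℓ (j0 + i)) 1 Em x₀ x₁) ∧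
      vJ * Dx ≤ E.CR * ((2 : ℝ) ^ ks) ^ E.CR * θ' ^ i * Real.exp (Cf * ∑ k ∈ Finset.range i, cvl θ' E.ε u k) := by
  -- arithmetic
  have hn1 : (pm.D0 + 1) * (2 ^ K.s.ℓ) ^ (j0 + i) ≤ n₀ := pmm_cast_le hCf2 hCn
  have hn2 : 2 * K.c0 * (2 ^ K.s.ℓ) ^ (j0 + i) ≤ n₀ := pmm_cast_le hCf3 hCn
  have hLpos : 0 < (2 ^ K.s.ℓ) ^ (j0 + i) := by positivity
  have hn1' : pm.D0 * (2 ^ K.s.ℓ) ^ (j0 + i) < n₀ := by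
    rw [Nat.add_mul, Nat.one_mul] at hn1
    omega
  have hLn : n₀ ≤ 2 ^ K.s.ℓ * n₀ := Nat.le_mul_of_pos_left _ (by positivity)
  have hcen₀ : 2 * (2 ^ K.s.ℓ) ^ (j0 + i) ∣ G₀.M := hM₀ ▸ Nat.mul_dvd_mul_left 2 hdv
  have hcen₁ : 2 * (2 ^ K.s.ℓ) ^ (j0 + i) ∣ G₁.M := hM₁ ▸ Nat.mul_dvd_mul_left 2 (hdv.mul_left _)
  have hM01 : G₀.M ∣ G₁.M := by rw [hM₀, hM₁]; exact Nat.mul_dvd_mul_left 2 (Dvd.intro_left _ rfl)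
  have hm : 2 ≤ (2 ^ K.s.ℓ) ^ j0 := by
    have h1 : 2 ^ 1 ≤ 2 ^ K.s.ℓ := Nat.pow_le_pow_right (by norm_num) hℓ
    have h2 : (2 ^ K.s.ℓ) ^ 1 ≤ (2 ^ K.s.ℓ) ^ j0 := Nat.pow_le_pow_right (by positivity) hj0
    rw [pow_one] at h1 h2
    exact h1.trans h2
  -- the two squares
  obtain ⟨T₀, v₀, hs₀, S₀⟩ := pmm_square hfit hctx hsing hω hR hH0 hc0 hℓ D E kq kR ks j0 hc0E hEnt hside hj0 𝓡 htow h i H u r hH hε0 hεc hu G₀ hG₀ hcen₀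
    (by omega) (by omega) (by omega) (by omega) (by omega) (hM01.trans hdM) cl₀ hcl₀
  obtain ⟨T₁, v₁, hs₁, S₁⟩ := pmm_square hfit hctx hsing hω hR hH0 hc0 hℓ D E kq kR ks j0 hc0E hEnt hside hj0 𝓡 htow h i H u r hH hε0 hεc hu G₁ hG₁ hcen₁
    (by omega) (by omega) (by omega) (by omega) h2 hdM cl₁ hcl₁
  obtain ⟨Q₀, O₀⟩ := S₀.out
  obtain ⟨Q₁, O₁⟩ := S₁.out
  obtain ⟨cG₀, tO₀, tL₀⟩ := S₀.tgt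
  obtain ⟨cG₁, tO₁, tL₁⟩ := S₁.tgt
  obtain ⟨Em, hEm⟩ := pmm_cenEmb G₀ G₁ hG₀ hG₁ K.s.ℓ (j0 + i) hM01 hcen₀
  have hsq0 : InvSq pm nm.h0 (Em.lv j0) (ent D xyCritical G₀ K.s.ℓ j0 (2 ^ ks) hs₀) (ent D xyCritical G₁ K.s.ℓ j0 (2 ^ ks) hs₁) :=
    pe0_invSq D (nm.p0 pm.ω) (nm.pT pm.ω) o oT E kq kR ks K.s.ℓ j0 hEnt G₀ G₁ S₀.geo S₁.geo hs₀ hs₁ rfl hm pm (by omega) (by omega) (Em.lv j0)
      (hEm j0 (Nat.le_add_right _ _))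
  have hf₀ : ∀ k ≤ i, qP pm nm T₀ j0 (fun j => (H.t j : ℂ)) (fun j => (H.z j : ℂ)) (ent D xyCritical G₀ K.s.ℓ j0 (2 ^ ks) hs₀) k ≠ ⊤ := fun k hk =>
    ne_top_of_le_ne_top ENNReal.coe_ne_top ((le_self_add.trans le_self_add).trans (O₀ k hk).ball)
  have hf₁ : ∀ k ≤ i, qP pm nm T₁ j0 (fun j => (H.t j : ℂ)) (fun j => (H.z j : ℂ)) (ent D xyCritical G₁ K.s.ℓ j0 (2 ^ ks) hs₁) k ≠ ⊤ := fun k hk =>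
    ne_top_of_le_ne_top ENNReal.coe_ne_top ((le_self_add.trans le_self_add).trans (O₁ k hk).ball)
  obtain ⟨eD, ec⟩ := pmm_sq_scal S₀.run S₁.run Em hEm (fun k hk => (O₀ k hk).inv) (fun k hk => (O₁ k hk).inv) hf₀ hf₁ hsq0
  have hsq := pmm_sq_chain S₀.run S₁.run Em hEm (fun k hk => (O₀ k hk).inv) (fun k hk => (O₁ k hk).inv) hf₀ hf₁ hsq0 i le_rfl
  -- numbers
  have hu' : ∀ k, k ≤ i → 0 ≤ u k ∧ u k < cs := fun k hk => ⟨(abs_nonneg _).trans (hH.bd k hk).1, hu k hk⟩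
  have hg : ∀ k ≤ i, 0 ≤ gcv θ' E.ε u k := fun k hk => (hu' k hk).1.trans (pair_rec_G θ' cs E.ε u i hθ0 hθ1 hcs hε0 hεc hu' k hk).1
  have ha : 0 < oT.a := by rw [haT]; unfold B8.k0; positivity
  have hω' : pm.ω = 2 * Real.pi / Real.sqrt oT.a := by rw [hω, haT]; rfl
  have hC1 : (1 : ℝ) ≤ C := by exact_mod_cast hC
  have hC'f : C' ≤ Cf := le_trans (by nlinarith) hCf1
  have hB : 0 ≤ E.CR * ((2 : ℝ) ^ ks) ^ E.CR := mul_nonneg ((Nat.cast_nonneg _).trans hEnt.cst.1) (by positivity)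
  have hst₀ := fun k (hk : k ≤ i) => (⟨(O₀ k hk).inv, (O₀ k hk).ball, (O₀ k hk).finJ⟩ : _ ∧ _ ∧ _)
  have hst₁ := fun k (hk : k ≤ i) => (⟨(O₁ k hk).inv, (O₁ k hk).ball, (O₁ k hk).finJ⟩ : _ ∧ _ ∧ _)
  have hDpos := (psx_ident hone htot hint S₀.run hst₀ xyCritical oT.a xy_critical_pos ha hω' hR cG₀ (haT ▸ tO₀) (haT ▸ tL₀)).1
  have A₀ := psx_atStop hone htot hint S₀.run hst₀ xyCritical xy_critical_pos ha hω' hR hH1 cG₀ (haT ▸ tO₀) (haT ▸ tL₀)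
    (H.t (j0 + i)) (H.z (j0 + i)) (Cf * cvl θ' E.ε u i) (r i)
    (max (qJ pm nm T₀ v₀ j0 (fun j => (H.t j : ℂ)) (fun j => (H.z j : ℂ)) (ent D xyCritical G₀ K.s.ℓ j0 (2 ^ ks) hs₀) i).toReal
      (qJ pm nm T₁ v₁ j0 (fun j => (H.t j : ℂ)) (fun j => (H.z j : ℂ)) (ent D xyCritical G₁ K.s.ℓ j0 (2 ^ ks) hs₁) i).toReal) rfl rfl
    (pmm_nu (O₀ i le_rfl).bd (hg i le_rfl) hCf1) S₀.plane
    ((ENNReal.ofReal_toReal (O₀ i le_rfl).finJ).symm.le.trans (ENNReal.ofReal_le_ofReal (le_max_left _ _)))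
  have A₁ := psx_atStop hone htot hint S₁.run hst₁ xyCritical xy_critical_pos ha hω' hR hH1 cG₁ (haT ▸ tO₁) (haT ▸ tL₁)
    (H.t (j0 + i)) (H.z (j0 + i)) (Cf * cvl θ' E.ε u i) (r i)
    (max (qJ pm nm T₀ v₀ j0 (fun j => (H.t j : ℂ)) (fun j => (H.z j : ℂ)) (ent D xyCritical G₀ K.s.ℓ j0 (2 ^ ks) hs₀) i).toReal
      (qJ pm nm T₁ v₁ j0 (fun j => (H.t j : ℂ)) (fun j => (H.z j : ℂ)) (ent D xyCritical G₁ K.s.ℓ j0 (2 ^ ks) hs₁) i).toReal) rfl rfl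
    (pmm_nu (O₁ i le_rfl).bd (hg i le_rfl) hCf1) S₁.plane
    ((ENNReal.ofReal_toReal (O₁ i le_rfl).finJ).symm.le.trans (ENNReal.ofReal_le_ofReal (le_max_right _ _)))
  rw [hcol] at A₀ A₁
  rw [← eD, ← ec] at A₁
  have l₁ := (O₁ i le_rfl).lab
  rw [← eD] at l₁
  refine ⟨_, _, _, le_max_of_le_left ENNReal.toReal_nonneg, hDpos, ⟨_, _, _, _, _, _, _, _, _, _, Em.lv (j0 + i), A₀, A₁,
    pmm_atPair (nm := nm) (Em.lv (j0 + i)) (hEm _ le_rfl) hcol _ rfl _ _ _ _ hsq⟩, ?_⟩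
  exact pmm_final ENNReal.toReal_nonneg ENNReal.toReal_nonneg (Complex.re_le_norm _) hθ0.le
    (Finset.sum_nonneg fun k hk => hg k (Finset.mem_range.1 hk).le) hC'f hB (ENNReal.toReal_le_of_le_ofReal hB S₀.lab0)
    (ENNReal.toReal_le_of_le_ofReal hB S₁.lab0) (O₀ i le_rfl).lab l₁

/-- **THE MASTER**: [F] Lemma 6.2 iterated + (obs:extraction-identity), from the chain of constants -/
theorem pmm_main (hC : PairConstStmt) : Obs.PairAtStopStmt := by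
  intro o oT hop
  obtain ⟨δ0, hδ0, h1⟩ := hC o oT hop
  refine ⟨δ0, hδ0, fun δ hδ => ?_⟩
  obtain ⟨κ0, hκ0, h2⟩ := h1 δ hδ
  refine ⟨κ0, hκ0, fun κ hκ c c0 hgeo hc0 => ?_⟩
  obtain ⟨h0min, qA, H0, H1, vinf, -, hqA, hH0, hH1, h3⟩ := h2 κ hκ c c0 hgeo hc0
  refine ⟨h0min, qA, H0, H1, hqA, by omega, hH1, fun h0 hh0 => ?_⟩
  obtain ⟨ℓ0, hℓ0, h4⟩ := h3 h0 hh0
  refine ⟨ℓ0, hℓ0, fun ℓ hℓ => ?_⟩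
  obtain ⟨A0, -, h5⟩ := h4 ℓ hℓ
  refine ⟨A0, fun A hA D0 hD D1R hs1 hs2 => ?_⟩
  obtain ⟨Dsq, k0, kT, θ, C, ρ, hθ0, hθ1, hC1, hρ, hP⟩ := h5 A hA D1R hs1 hs2
  obtain ⟨θ', C', cs, g1, g2, g3, g4, hS⟩ := pmm_single θ C ρ hθ0 hθ1 hC1 hρ
  have hθ' : 0 < θ' := lt_of_le_of_lt θ.coe_nonneg g1
  have hCr : (1 : ℝ) ≤ C := by exact_mod_cast hC1
  refine ⟨θ', max ((C : ℝ) * C') (max ((Dsq + 1 : ℕ) : ℝ) ((2 * c0 : ℕ) : ℝ)), cs, hθ', g2, le_max_of_le_left (by nlinarith), g4, ?_⟩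
  intro D E kq kR ks j0 hc0E hEnt hside hj0 𝓡 htow h i H u r hH hε0 hεc hu G₀ G₁ n₀ hG₀ hG₁ hM₀ hM₁ hdv hCn hb1 hb2 h2M hdM g₀ cl₀ g₁ cl₁ hg₀ hg₁ hcl₀ hcl₁
  subst hg₀ hg₁
  have hρc := hgeo.ρ
  exact pmm_tail (pm := pmOf c H0 H1 Dsq vinf) (nm := nmOf δ κ h0 A qA) (K := B8.cfg8 c δ κ h0 A c0 ℓ D0 hD) ⟨rfl, rfl, rfl, rfl⟩
    hP.ctx hP.one hP.tot hP.int (hS _ _ k0 kT o oT ℓ hP.one) hθ' g2 hC1 g3 g4 (le_max_left _ _) ((le_max_left _ _).trans (le_max_right _ _))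
    ((le_max_right _ _).trans (le_max_right _ _)) rfl hgeo.R hgeo.col hH0 (show pp ≤ c0 by omega) (show 2 ≤ H1 by omega) (show 1 ≤ ℓ by omega) hop.aT
    D E kq kR ks j0 hc0E hEnt hside hj0 𝓡 htow h i H u r hH hε0 hεc hu G₀ G₁ n₀ hG₀ hG₁ hM₀ hM₁ hdv hCn hb1 hb2 h2M hdM cl₀ cl₁ hcl₀ hcl₁

end

end Claimed.Agent.R285.F6.Pr
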