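import Claimed.Agent.R285.Obs.PairRegT

/-!
# ROW 285, unit OBS, BP-OBS-L62, block REG, exit (R4): the reference field `Ψ_ref = v_∞ / α` against the background `v_n / α` near the unit      (architect helper49)   -- KEEP.   No sorry.

`prl_R4` : for a whole-block grid `g` of a centred free square and a set `Y` of blocks within `K` blocks of the unit, `K + 4 ≤ D`, `K + 3 ≤ c0 D`, `D = g.n / 2`:
   `‖(Ψ_ref - v / α) - const‖_{m, D_m (Y)} ≤ 2 (C / α) (4 K + 12) / D`      (`C, c0, vinf` of `prt_eta_ok`, through `EtaB`).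
`prl_R4E` : `U (Y, Ψ_ref - v / α) + bondE (D_m (Y)) ≤ 11300 (C / α)² |Y|`.
Consumer forms (fine level `href` of `Obs/PairJX.lean`, coarse level on `cl X` of `Obs/PairGain.lean`, `Obs/PairSC.lean`): `Obs/PairRegM.lean`.   Prefix `prl_`.
-/

set_option autoImplicit false

namespace Claimed.Agent.R285.F6.Pr

open scoped BigOperators ENNReal NNReal
open MeasureTheory
open Claimed.Agent.R285 Claimed.Agent.R285.RG Claimed.Agent.R285.B4 Claimed.Agent.R285.F4a Claimed.Agent.R285.Obs Claimed.Agent.R285.Entry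

noncomputable section

/-! ## 1. Aligned squares -/

/-- the relative background `Ψ_ref - v_n / α` -/
def prlPsi (Q : Sq) (vinf : ℤ × ℤ → ℝ) (α : ℝ) (v : Q.G.V → ℝ) : Q.G.V → ℝ :=
  fun x => vinf (Q.G.ι x - ((Q.n : ℤ), (Q.n : ℤ))) / α - v x / α

theorem prl_defs_eqns_cite : True := by
  have := @prlPsi.eq_1; trivial

theorem prl_tau (Q : Sq) (x : Q.G.V) (d : Bool) :
    ((tauE Q.n (x, d) : ℤ) : ℝ)
      = if d = false ∧ (Q.G.ι x - ((Q.n : ℤ), (Q.n : ℤ))).2 + 1 = 0 ∧ 0 ≤ (Q.G.ι x - ((Q.n : ℤ), (Q.n : ℤ))).1 then 1 else 0 := by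
  unfold tauE
  have e1 : (Q.G.ι x - ((Q.n : ℤ), (Q.n : ℤ))).2 = ((x.2 : ℕ) : ℤ) - Q.n := rfl
  have e2 : (Q.G.ι x - ((Q.n : ℤ), (Q.n : ℤ))).1 = ((x.1 : ℕ) : ℤ) - Q.n := rfl
  rw [e1, e2]
  by_cases h : d = false ∧ (x.2 : ℕ) + 1 = Q.n ∧ Q.n ≤ (x.1 : ℕ)
  · rw [if_pos h, if_pos ⟨h.1, by omega, by omega⟩]
    simp
  · rw [if_neg h, if_neg (fun h' => h ⟨h'.1, by omega, by omega⟩)]
    simp

/-- `∇ (Ψ_ref - v / α) = (η_∞ - η_n) / α` on the bonds of the square -/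
theorem prl_rel (Q : Sq) (vinf : ℤ × ℤ → ℝ) (α : ℝ) (v : Q.G.V → ℝ) (x x' : Q.G.V) (d : Bool) (hx' : Q.G.ι x' = Q.G.ι x + bdir d) :
    prlPsi Q vinf α v x' - prlPsi Q vinf α v x
      = (etaP vinf (Q.G.ι x - ((Q.n : ℤ), (Q.n : ℤ))) d - elift (etaE Q.n v) (Q.G.ι x) d) / α := by
  have s0 : stp x d = x' := by
    unfold stp
    rw [← hx', Reg.reg_pi_iota]
  have ne0 : x' ≠ x := by
    intro h
    rw [h] at hx'
    have h2 : bdir d = 0 := by simpa using hx'.symm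
    cases d <;> simp [bdir] at h2
  have e1 : Q.G.ι x' - ((Q.n : ℤ), (Q.n : ℤ)) = Q.G.ι x - ((Q.n : ℤ), (Q.n : ℤ)) + bdir d := by
    rw [hx']
    abel
  rw [tcl_elift_fwd, s0, if_neg ne0]
  unfold etaE etaP prlPsi
  simp only
  rw [s0, prl_tau, e1]
  ring

/-- the rectangle padded by `2` of a set of blocks within `K` blocks of the unit -/
theorem prl_window (Q : Sq) (K : ℕ) (Y : Finset Q.g.I) (hY : ∀ b ∈ Y, Q.D ≤ (b.1 : ℕ) + K ∧ (b.1 : ℕ) < Q.D + K ∧ Q.D ≤ (b.2 : ℕ) + K ∧ (b.2 : ℕ) < Q.D + K)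
    (z : Q.G.V) (hz : Q.InRect 2 Y (((Q.g.blk z).1 : ℕ), ((Q.g.blk z).2 : ℕ))) :
    Q.n ≤ (z.1 : ℕ) + (K + 3) * Q.m ∧ (z.1 : ℕ) < Q.n + (K + 3) * Q.m ∧ Q.n ≤ (z.2 : ℕ) + (K + 3) * Q.m ∧ (z.2 : ℕ) < Q.n + (K + 3) * Q.m := by
  obtain ⟨⟨a1, k1, e1⟩, ⟨a2, k2, e2⟩, ⟨a3, k3, e3⟩, ⟨a4, k4, e4⟩⟩ := hz
  have b1 : ((Q.g.blk z).1 : ℕ) = (z.1 : ℕ) / Q.m := rfl
  have b2 : ((Q.g.blk z).2 : ℕ) = (z.2 : ℕ) / Q.m := rfl
  simp only [b1, b2] at e1 e2 e3 e4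
  obtain ⟨p1, -, -, -⟩ := hY a1 k1
  obtain ⟨-, p2, -, -⟩ := hY a2 k2
  obtain ⟨-, -, p3, -⟩ := hY a3 k3
  obtain ⟨-, -, -, p4⟩ := hY a4 k4
  obtain ⟨c1, c2⟩ := tcl_center_site Q (K + 2) z.1 (by omega) (by omega)
  obtain ⟨c3, c4⟩ := tcl_center_site Q (K + 2) z.2 (by omega) (by omega)
  exact ⟨c1, c2, c3, c4⟩

/-- the points at `ℓ¹`-distance `≤ 2` of a site of the window are sites -/
theorem prl_site (Q : Sq) (W : ℕ) (hW : W + 2 ≤ Q.n) (z : Q.G.V) (h1 : Q.n ≤ (z.1 : ℕ) + W) (h2 : (z.1 : ℕ) < Q.n + W) (h3 : Q.n ≤ (z.2 : ℕ) + W)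
    (h4 : (z.2 : ℕ) < Q.n + W) (y : ℤ × ℤ) (hy : tclNear y (Q.G.ι z)) : ∃ x : Q.G.V, Q.G.ι x = y := by
  unfold tclNear at hy
  have e1 : (Q.G.ι z).1 = ((z.1 : ℕ) : ℤ) := rfl
  have e2 : (Q.G.ι z).2 = ((z.2 : ℕ) : ℤ) := rfl
  rw [e1, e2] at hy
  have hM : Q.G.M = 2 * Q.n := rfl
  refine ⟨(⟨y.1.toNat, by omega⟩, ⟨y.2.toNat, by omega⟩), ?_⟩
  apply Prod.ext
  · show ((y.1.toNat : ℕ) : ℤ) = y.1
    omega
  · show ((y.2.toNat : ℕ) : ℤ) = y.2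
    omega

theorem prl_R4_sq (C c0 α : ℝ) (hα : 0 < α) (hC : 0 ≤ C) (vinf : ℤ × ℤ → ℝ) (Q : Sq) (hg : Q.g.Ok) (hm : 2 ≤ Q.m) (v : Q.G.V → ℝ)
    (hp : ∀ r ≤ 4, ∀ (a : Fin r → Fin 4) (w : Q.G.V) (d : Bool), cdist Q.n (Q.G.ι w) ≤ c0 * (Q.n : ℝ) →
      |difs a (fun x' => elift (etaE Q.n v) x' d - etaP vinf (x' - ((Q.n : ℤ), (Q.n : ℤ))) d) (Q.G.ι w)| ≤ C * ((Q.n : ℝ) ^ (1 + r))⁻¹)
    (K : ℕ) (Y : Finset Q.g.I) (hY : ∀ b ∈ Y, Q.D ≤ (b.1 : ℕ) + K ∧ (b.1 : ℕ) < Q.D + K ∧ Q.D ≤ (b.2 : ℕ) + K ∧ (b.2 : ℕ) < Q.D + K)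
    (hK : K + 4 ≤ Q.D) (hKc : (K : ℝ) + 3 ≤ c0 * (Q.D : ℝ)) :
    ∀ x0 ∈ Q.g.Dm Y, (anorm Q.g Y x0 (prlPsi Q vinf α v) : ℝ) ≤ 2 * (C / α) * (4 * K + 12) / Q.D := by
  have hn : Q.n = Q.D * Q.m := rfl
  have hnr : (Q.n : ℝ) = (Q.D : ℝ) * (Q.m : ℝ) := by rw [hn]; push_cast; ring
  have hm0 : (0 : ℝ) ≤ (Q.m : ℝ) := Nat.cast_nonneg _
  have hW : (K + 3) * Q.m + 2 ≤ Q.n := by
    have h1 : (K + 4) * Q.m ≤ Q.D * Q.m := Nat.mul_le_mul_right _ hK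
    have h2 : (K + 4) * Q.m = (K + 3) * Q.m + Q.m := by ring
    rw [hn]
    omega
  have hWr : (((K + 3) * Q.m : ℕ) : ℝ) ≤ c0 * (Q.n : ℝ) := by
    rw [hnr]
    push_cast
    have := mul_le_mul_of_nonneg_right hKc hm0
    linarith
  have hcore := (tcl_core Q hg Y (2 * K) Q.D Q.hD
    (fun a ha b hb => by
      obtain ⟨p1, -, p3, -⟩ := hY a ha
      obtain ⟨-, q2, -, q4⟩ := hY b hb
      constructor <;> omega)
    (prlPsi Q vinf α v) (fun d y => (etaP vinf (y - ((Q.n : ℤ), (Q.n : ℤ))) d - elift (etaE Q.n v) y d) / α) (C / α) (by positivity)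
    (fun z hz y d hy hy' => by
      obtain ⟨w1, w2, w3, w4⟩ := prl_window Q K Y hY z hz
      obtain ⟨x, hx⟩ := prl_site Q _ hW z w1 w2 w3 w4 y hy
      obtain ⟨x', hx'⟩ := prl_site Q _ hW z w1 w2 w3 w4 _ hy'
      have h := prl_rel Q vinf α v x x' d (by rw [hx', hx])
      rw [hx] at h
      unfold Geom.lift
      rw [← hx', ← hx, Reg.reg_pi_iota, Reg.reg_pi_iota, hx]
      exact h)
    (fun z hz r hr b d => by
      obtain ⟨w1, w2, w3, w4⟩ := prl_window Q K Y hY z hz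
      have hcd := (tcl_cdist_le Q _ z w1 w2 w3 w4).trans hWr
      have h1 := hp r (by omega) b z d hcd
      have e : (fun y => (etaP vinf (y - ((Q.n : ℤ), (Q.n : ℤ))) d - elift (etaE Q.n v) y d) / α)
          = (-α⁻¹) • (fun y => elift (etaE Q.n v) y d - etaP vinf (y - ((Q.n : ℤ), (Q.n : ℤ))) d) := by
        funext y
        simp only [Pi.smul_apply, smul_eq_mul]
        rw [div_eq_inv_mul]
        ring
      rw [e, Reg.reg_difs_smul]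
      simp only [Pi.smul_apply, smul_eq_mul]
      rw [abs_mul, abs_neg, abs_of_pos (inv_pos.2 hα), ← hnr]
      calc α⁻¹ * |difs b (fun y => elift (etaE Q.n v) y d - etaP vinf (y - ((Q.n : ℤ), (Q.n : ℤ))) d) (Q.G.ι z)|
          ≤ α⁻¹ * (C * ((Q.n : ℝ) ^ (1 + r))⁻¹) := mul_le_mul_of_nonneg_left h1 (inv_pos.2 hα).le
        _ = C / α * ((Q.n : ℝ) ^ (1 + r))⁻¹ := by
            rw [div_eq_mul_inv]
            ring)).1
  intro x0 hx0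
  refine (hcore x0 hx0).trans (le_of_eq ?_)
  push_cast
  ring

/-- the energy of the relative background near the unit -/
theorem prl_R4E_sq (C c0 α : ℝ) (hα : 0 < α) (hC : 0 ≤ C) (vinf : ℤ × ℤ → ℝ) (Q : Sq) (hg : Q.g.Ok) (hm : 2 ≤ Q.m) (v : Q.G.V → ℝ)
    (hp : ∀ r ≤ 4, ∀ (a : Fin r → Fin 4) (w : Q.G.V) (d : Bool), cdist Q.n (Q.G.ι w) ≤ c0 * (Q.n : ℝ) →
      |difs a (fun x' => elift (etaE Q.n v) x' d - etaP vinf (x' - ((Q.n : ℤ), (Q.n : ℤ))) d) (Q.G.ι w)| ≤ C * ((Q.n : ℝ) ^ (1 + r))⁻¹)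
    (K : ℕ) (Y : Finset Q.g.I) (hY : ∀ b ∈ Y, Q.D ≤ (b.1 : ℕ) + K ∧ (b.1 : ℕ) < Q.D + K ∧ Q.D ≤ (b.2 : ℕ) + K ∧ (b.2 : ℕ) < Q.D + K)
    (hK : K + 4 ≤ Q.D) (hKc : (K : ℝ) + 3 ≤ c0 * (Q.D : ℝ)) :
    ∀ δ : ℝ, δ ≤ 1 → U Q.g δ Y (prlPsi Q vinf α v) + bondE (Q.g.Dm Y) (prlPsi Q vinf α v) ≤ 11300 * (C / α) ^ 2 * Y.card := by
  have hn : Q.n = Q.D * Q.m := rfl
  have hnr : (Q.n : ℝ) = (Q.D : ℝ) * (Q.m : ℝ) := by rw [hn]; push_cast; ring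
  have hm0 : (0 : ℝ) ≤ (Q.m : ℝ) := Nat.cast_nonneg _
  have hW : (K + 3) * Q.m + 2 ≤ Q.n := by
    have h1 : (K + 4) * Q.m ≤ Q.D * Q.m := Nat.mul_le_mul_right _ hK
    have h2 : (K + 4) * Q.m = (K + 3) * Q.m + Q.m := by ring
    rw [hn]
    omega
  have hWr : (((K + 3) * Q.m : ℕ) : ℝ) ≤ c0 * (Q.n : ℝ) := by
    rw [hnr]
    push_cast
    have := mul_le_mul_of_nonneg_right hKc hm0
    linarith
  have hcore := (tcl_core Q hg Y (2 * K) Q.D Q.hD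
    (fun a ha b hb => by
      obtain ⟨p1, -, p3, -⟩ := hY a ha
      obtain ⟨-, q2, -, q4⟩ := hY b hb
      constructor <;> omega)
    (-prlPsi Q vinf α v) (fun d y => (elift (etaE Q.n v) y d - etaP vinf (y - ((Q.n : ℤ), (Q.n : ℤ))) d) / α) (C / α) (by positivity)
    (fun z hz y d hy hy' => by
      obtain ⟨w1, w2, w3, w4⟩ := prl_window Q K Y hY z hz
      obtain ⟨x, hx⟩ := prl_site Q _ hW z w1 w2 w3 w4 y hy
      obtain ⟨x', hx'⟩ := prl_site Q _ hW z w1 w2 w3 w4 _ hy'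
      have h := prl_rel Q vinf α v x x' d (by rw [hx', hx])
      rw [hx] at h
      unfold Geom.lift
      rw [← hx', ← hx, Reg.reg_pi_iota, Reg.reg_pi_iota, hx]
      simp only [Pi.neg_apply]
      have e : -prlPsi Q vinf α v x' - -prlPsi Q vinf α v x = -(prlPsi Q vinf α v x' - prlPsi Q vinf α v x) := by ring
      rw [e, h]
      ring)
    (fun z hz r hr b d => by
      obtain ⟨w1, w2, w3, w4⟩ := prl_window Q K Y hY z hz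
      have hcd := (tcl_cdist_le Q _ z w1 w2 w3 w4).trans hWr
      have h1 := hp r (by omega) b z d hcd
      have e : (fun y => (elift (etaE Q.n v) y d - etaP vinf (y - ((Q.n : ℤ), (Q.n : ℤ))) d) / α)
          = (α⁻¹) • (fun y => elift (etaE Q.n v) y d - etaP vinf (y - ((Q.n : ℤ), (Q.n : ℤ))) d) := by
        funext y
        simp only [Pi.smul_apply, smul_eq_mul]
        rw [div_eq_inv_mul]
      rw [e, Reg.reg_difs_smul]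
      simp only [Pi.smul_apply, smul_eq_mul]
      rw [abs_mul, abs_of_pos (inv_pos.2 hα), ← hnr]
      calc α⁻¹ * |difs b (fun y => elift (etaE Q.n v) y d - etaP vinf (y - ((Q.n : ℤ), (Q.n : ℤ))) d) (Q.G.ι z)|
          ≤ α⁻¹ * (C * ((Q.n : ℝ) ^ (1 + r))⁻¹) := mul_le_mul_of_nonneg_left h1 (inv_pos.2 hα).le
        _ = C / α * ((Q.n : ℝ) ^ (1 + r))⁻¹ := by
            rw [div_eq_mul_inv]
            ring)).2
  rw [neg_neg] at hcore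
  exact hcore

/-! ## 2. Whole-block grids of centred free squares -/

/-- **(R4)** -/
theorem prl_R4 (C c0 α : ℝ) (hα : 0 < α) (hC : 0 ≤ C) (vinf : ℤ × ℤ → ℝ) (G : Geom) (g : Grid G) (hG : G.bc = BC.free) (hs : Std g) (he : 2 ∣ g.n)
    (hg : g.Ok) (hm : 2 ≤ g.m) (v : G.V → ℝ) (hE : EtaB C c0 vinf G v) (K : ℕ) (Y : Finset g.I) (hY : ∀ b ∈ Y, NearB g K b) (hK : K + 4 ≤ g.n / 2)
    (hKc : (K : ℝ) + 3 ≤ c0 * ((g.n / 2 : ℕ) : ℝ)) :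
    ∀ x0 ∈ g.Dm Y, (anorm g Y x0 (fun x => psiRef G vinf α x - v x / α) : ℝ) ≤ 2 * (C / α) * (4 * K + 12) / ((g.n / 2 : ℕ) : ℝ) := by
  revert hg hm v hE K Y hY hK hKc
  refine prt_std_sq (P := fun G g => g.Ok → 2 ≤ g.m → ∀ v : G.V → ℝ, EtaB C c0 vinf G v → ∀ (K : ℕ) (Y : Finset g.I), (∀ b ∈ Y, NearB g K b) →
    K + 4 ≤ g.n / 2 → (K : ℝ) + 3 ≤ c0 * ((g.n / 2 : ℕ) : ℝ) →
    ∀ x0 ∈ g.Dm Y, (anorm g Y x0 (fun x => psiRef G vinf α x - v x / α) : ℝ) ≤ 2 * (C / α) * (4 * K + 12) / ((g.n / 2 : ℕ) : ℝ))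
    (fun Q => ?_) G g hG hs he
  intro hg hm v hE K Y hY hK hKc
  have e1 : Q.G.M / 2 = Q.n := Nat.mul_div_cancel_left _ (by norm_num)
  have e2 : Q.g.n / 2 = Q.D := Nat.mul_div_cancel_left _ (by norm_num)
  have hp := hE.plane
  rw [e1] at hp
  rw [e2] at hK hKc ⊢
  have hY' : ∀ b ∈ Y, Q.D ≤ (b.1 : ℕ) + K ∧ (b.1 : ℕ) < Q.D + K ∧ Q.D ≤ (b.2 : ℕ) + K ∧ (b.2 : ℕ) < Q.D + K := by
    intro b hb
    have := hY b hb
    unfold NearB at this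
    rwa [e2] at this
  have e3 : (fun x => psiRef Q.G vinf α x - v x / α) = prlPsi Q vinf α v := by
    funext x
    unfold psiRef prlPsi
    rw [e1]
  rw [e3]
  exact prl_R4_sq C c0 α hα hC vinf Q hg hm v hp K Y hY' hK hKc

/-- **(R4), energy form** -/
theorem prl_R4E (C c0 α : ℝ) (hα : 0 < α) (hC : 0 ≤ C) (vinf : ℤ × ℤ → ℝ) (G : Geom) (g : Grid G) (hG : G.bc = BC.free) (hs : Std g) (he : 2 ∣ g.n)
    (hg : g.Ok) (hm : 2 ≤ g.m) (v : G.V → ℝ) (hE : EtaB C c0 vinf G v) (K : ℕ) (Y : Finset g.I) (hY : ∀ b ∈ Y, NearB g K b) (hK : K + 4 ≤ g.n / 2)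
    (hKc : (K : ℝ) + 3 ≤ c0 * ((g.n / 2 : ℕ) : ℝ)) :
    ∀ δ : ℝ, δ ≤ 1 → U g δ Y (fun x => psiRef G vinf α x - v x / α) + bondE (g.Dm Y) (fun x => psiRef G vinf α x - v x / α)
      ≤ 11300 * (C / α) ^ 2 * Y.card := by
  revert hg hm v hE K Y hY hK hKc
  refine prt_std_sq (P := fun G g => g.Ok → 2 ≤ g.m → ∀ v : G.V → ℝ, EtaB C c0 vinf G v → ∀ (K : ℕ) (Y : Finset g.I), (∀ b ∈ Y, NearB g K b) →
    K + 4 ≤ g.n / 2 → (K : ℝ) + 3 ≤ c0 * ((g.n / 2 : ℕ) : ℝ) →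
    ∀ δ : ℝ, δ ≤ 1 → U g δ Y (fun x => psiRef G vinf α x - v x / α) + bondE (g.Dm Y) (fun x => psiRef G vinf α x - v x / α)
      ≤ 11300 * (C / α) ^ 2 * Y.card)
    (fun Q => ?_) G g hG hs he
  intro hg hm v hE K Y hY hK hKc
  have e1 : Q.G.M / 2 = Q.n := Nat.mul_div_cancel_left _ (by norm_num)
  have e2 : Q.g.n / 2 = Q.D := Nat.mul_div_cancel_left _ (by norm_num)
  have hp := hE.plane
  rw [e1] at hp
  rw [e2] at hK hKc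
  have hY' : ∀ b ∈ Y, Q.D ≤ (b.1 : ℕ) + K ∧ (b.1 : ℕ) < Q.D + K ∧ Q.D ≤ (b.2 : ℕ) + K ∧ (b.2 : ℕ) < Q.D + K := by
    intro b hb
    have := hY b hb
    unfold NearB at this
    rwa [e2] at this
  have e3 : (fun x => psiRef Q.G vinf α x - v x / α) = prlPsi Q vinf α v := by
    funext x
    unfold psiRef prlPsi
    rw [e1]
  rw [e3]
  exact prl_R4E_sq C c0 α hα hC vinf Q hg hm v hp K Y hY' hK hKc

end

end Claimed.Agent.R285.F6.Pr
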