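import Claimed.Agent.R285.Obs.TermB

/-!
# ROW 285, unit OBS, post BP-OBS-TERM, leaves `L-OBS-TC5`, `L-OBS-TC6`: the lattice calculus behind `tc_wall_lift` and `tc_pair_background`      (prover helper277)   -- KEEP

Everything here is stated with the bounds of `EtaOK` as explicit hypotheses, so that the file does not depend on `Obs/TermC.lean` (which imports it).  Prefix `tcl_`.
-/

set_option autoImplicit false

namespace Claimed.Agent.R285.Obs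

open scoped BigOperators ENNReal NNReal
open Claimed.Agent.R285 Claimed.Agent.R285.RG Claimed.Agent.R285.B4 Claimed.Agent.R285.F4a Claimed.Agent.R285.F6

noncomputable section

/-! ## 1. Differences on `ℤ²` -/

theorem tcl_difs_nil (a : Fin 0 → Fin 4) (f : ℤ × ℤ → ℝ) : difs a f = f := by
  unfold difs
  simp

theorem tcl_dir0 : dir 0 = bdir true := by simp [dir, bdir]
theorem tcl_dir1 : dir 1 = -bdir true := by simp [dir, bdir]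
theorem tcl_dir2 : dir 2 = bdir false := by simp [dir, bdir]
theorem tcl_dir3 : dir 3 = -bdir false := by simp [dir, bdir]

/-- every direction is `± bdir d` -/
theorem tcl_dir_cases (e : Fin 4) : ∃ d : Bool, dir e = bdir d ∨ dir e = -bdir d := by
  fin_cases e
  · exact ⟨true, Or.inl tcl_dir0⟩
  · exact ⟨true, Or.inr tcl_dir1⟩
  · exact ⟨false, Or.inl tcl_dir2⟩
  · exact ⟨false, Or.inr tcl_dir3⟩

/-- the opposite direction as a direction -/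
theorem tcl_dir_neg (d : Bool) : ∃ e : Fin 4, dir e = -bdir d := by
  cases d
  · exact ⟨3, tcl_dir3⟩
  · exact ⟨1, tcl_dir1⟩

/-- `ℓ¹`-distance `≤ 2` -/
def tclNear (y x : ℤ × ℤ) : Prop := (y.1 - x.1).natAbs + (y.2 - x.2).natAbs ≤ 2

theorem tcl_near_self (x : ℤ × ℤ) : tclNear x x := by simp [tclNear]

theorem tcl_near_dir (x : ℤ × ℤ) (e : Fin 4) : tclNear (x + dir e) x := by
  fin_cases e <;> simp [tclNear, dir]

theorem tcl_near_dir2 (x : ℤ × ℤ) (e e' : Fin 4) : tclNear (x + dir e + dir e') x := by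
  fin_cases e <;> fin_cases e' <;> simp [tclNear, dir] <;> omega

/-- first differences of `F` from its forward gradient `E` -/
theorem tcl_d1 (F : ℤ × ℤ → ℝ) (E : Bool → ℤ × ℤ → ℝ) (x : ℤ × ℤ) (B0 B1 : ℝ)
    (hFE : ∀ y d, tclNear y x → tclNear (y + bdir d) x → F (y + bdir d) - F y = E d y)
    (h0 : ∀ d, |E d x| ≤ B0) (h1 : ∀ d e, |dif (dir e) (E d) x| ≤ B1) (e : Fin 4) : |dif (dir e) F x| ≤ B0 + B1 := by
  have hB1 : 0 ≤ B1 := (abs_nonneg _).trans (h1 true 0)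
  obtain ⟨d, hd | hd⟩ := tcl_dir_cases e
  · have := hFE x d (tcl_near_self x) (by rw [← hd]; exact tcl_near_dir x e)
    unfold dif
    rw [hd, this]
    linarith [h0 d]
  · have h2 := hFE (x + dir e) d (tcl_near_dir x e) (by rw [hd]; simpa using tcl_near_self x)
    have e1 : x + dir e + bdir d = x := by rw [hd]; simp
    rw [e1] at h2
    have h3 : dif (dir e) F x = -(E d x + dif (dir e) (E d) x) := by
      unfold dif
      linarith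
    rw [h3, abs_neg]
    exact (abs_add_le _ _).trans (add_le_add (h0 d) (h1 d e))

/-- second differences of `F` from its forward gradient `E` -/
theorem tcl_d2 (F : ℤ × ℤ → ℝ) (E : Bool → ℤ × ℤ → ℝ) (x : ℤ × ℤ) (B1 B2 : ℝ)
    (hFE : ∀ y d, tclNear y x → tclNear (y + bdir d) x → F (y + bdir d) - F y = E d y)
    (h1 : ∀ d e, |dif (dir e) (E d) x| ≤ B1) (h2 : ∀ d e e', |dif (dir e) (dif (dir e') (E d)) x| ≤ B2) (e e' : Fin 4) :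
    |dif (dir e) (dif (dir e') F) x| ≤ B1 + B2 := by
  have hB2 : 0 ≤ B2 := (abs_nonneg _).trans (h2 true 0 0)
  obtain ⟨d, hd | hd⟩ := tcl_dir_cases e'
  · have a1 := hFE x d (tcl_near_self x) (by rw [← hd]; exact tcl_near_dir x e')
    have a2 := hFE (x + dir e) d (tcl_near_dir x e) (by rw [← hd]; exact tcl_near_dir2 x e e')
    have h3 : dif (dir e) (dif (dir e') F) x = dif (dir e) (E d) x := by
      unfold dif
      rw [hd, a1, a2]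
    rw [h3]
    linarith [h1 d e]
  · have a1 := hFE (x + dir e') d (tcl_near_dir x e') (by rw [hd]; simpa using tcl_near_self x)
    have a2 := hFE (x + dir e + dir e') d (tcl_near_dir2 x e e') (by rw [hd]; simpa using tcl_near_dir x e)
    have e1 : x + dir e' + bdir d = x := by rw [hd]; simp
    have e2 : x + dir e + dir e' + bdir d = x + dir e := by rw [hd]; simp
    rw [e1] at a1
    rw [e2] at a2
    have e3 : x + dir e' + dir e = x + dir e + dir e' := by abel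
    have h3 : dif (dir e) (dif (dir e') F) x = -(dif (dir e) (E d) x + dif (dir e') (dif (dir e) (E d)) x) := by
      unfold dif
      rw [e3]
      linarith
    rw [h3, abs_neg]
    exact (abs_add_le _ _).trans (add_le_add (h1 d e) (h2 d e' e))

/-! ## 2. The two norms from pointwise bounds on the differences -/

section norms

variable {G : Geom}

/-- `anorm` from pointwise bounds: gradient on the enclosing rectangle of `D_m (X)`, second differences on `D_m (X)` -/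
theorem tcl_anorm_le (g : Grid G) (X : Finset g.I) (x0 : G.V) (hx0 : x0 ∈ g.Dm X) (ψ : G.V → ℝ) (κ1 κ2 : ℝ) (hκ1 : 0 ≤ κ1)
    (hκ2 : 0 ≤ κ2) (ℓ : ℕ) (hℓ : ∀ x ∈ g.Dm X, ∀ y ∈ g.Dm X, (x.1 : ℕ) ≤ y.1 + ℓ ∧ (x.2 : ℕ) ≤ y.2 + ℓ)
    (h1 : ∀ z : G.V, (∃ x ∈ g.Dm X, ∃ y ∈ g.Dm X, min x.1 y.1 ≤ z.1 ∧ z.1 ≤ max x.1 y.1 ∧ min x.2 y.2 ≤ z.2 ∧ z.2 ≤ max x.2 y.2) →
      ∀ e, |dif (dir e) (G.lift ψ) (G.ι z)| ≤ κ1)
    (h2 : ∀ z ∈ g.Dm X, ∀ e e', |dif (dir e) (dif (dir e') (G.lift ψ)) (G.ι z)| ≤ κ2) :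
    (anorm g X x0 ψ : ℝ) ≤ (2 * ℓ + g.m) * κ1 + (g.m : ℝ) ^ 2 * κ2 := by
  have hl0 : (0 : ℝ) ≤ ℓ := Nat.cast_nonneg _
  have hm0 : (0 : ℝ) ≤ g.m := Nat.cast_nonneg _
  obtain ⟨B, hB⟩ : ∃ B : ℝ, B = (2 * ℓ + g.m) * κ1 + (g.m : ℝ) ^ 2 * κ2 := ⟨_, rfl⟩
  have hB0 : 0 ≤ B := by rw [hB]; positivity
  have hin : ∀ w ∈ g.Dm X, ∃ x ∈ g.Dm X, ∃ y ∈ g.Dm X, min x.1 y.1 ≤ w.1 ∧ w.1 ≤ max x.1 y.1 ∧ min x.2 y.2 ≤ w.2 ∧ w.2 ≤ max x.2 y.2 :=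
    fun w hw => ⟨w, hw, w, hw, by simp, by simp, by simp, by simp⟩
  have hsq : ∀ t : ℝ, |t| ≤ B → t ^ 2 ≤ B ^ 2 := fun t ht => sq_le_sq' (by linarith [(abs_le.1 ht).1]) (abs_le.1 ht).2
  have key : (anorm g X x0 ψ : ℝ) ^ 2 ≤ B ^ 2 := by
    refine tb_ld_crit g X x0 hx0 ψ _ ?_ ?_ ?_
    · intro x hx
      have hgood : ∀ z : G.V, (∃ x ∈ g.Dm X, ∃ y ∈ g.Dm X, min x.1 y.1 ≤ z.1 ∧ z.1 ≤ max x.1 y.1 ∧ min x.2 y.2 ≤ z.2 ∧ z.2 ≤ max x.2 y.2) →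
          ∀ e, |ψ (Reg.regNb G z e) - ψ z| ≤ κ1 := by
        intro z hz e
        have := h1 z hz e
        rwa [Reg.reg_dif_lift] at this
      have hH := tb_ld_segH ψ κ1 hκ1 x0.2 x0.1 x.1 ℓ (hℓ x0 hx0 x hx).1 (hℓ x hx x0 hx0).1 (fun i h1 h2 =>
        hgood (i, x0.2) ⟨x0, hx0, x, hx, h1, h2, min_le_left _ _, le_max_left _ _⟩ 0)
      have hV := tb_ld_segV ψ κ1 hκ1 x.1 x0.2 x.2 ℓ (hℓ x0 hx0 x hx).2 (hℓ x hx x0 hx0).2 (fun j h1 h2 =>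
        hgood (x.1, j) ⟨x0, hx0, x, hx, min_le_right _ _, le_max_right _ _, h1, h2⟩ 2)
      have h3 : |ψ x - ψ x0| ≤ 2 * ℓ * κ1 := by
        have := abs_sub_le (ψ (x.1, x.2)) (ψ (x.1, x0.2)) (ψ (x0.1, x0.2))
        have e1 : ψ x = ψ (x.1, x.2) := rfl
        have e2 : ψ x0 = ψ (x0.1, x0.2) := rfl
        rw [e1, e2]
        linarith
      refine hsq _ (h3.trans ?_)
      rw [hB]
      nlinarith [mul_nonneg hm0 hκ1, mul_nonneg (pow_nonneg hm0 2) hκ2]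
    · intro x hx e
      rw [← mul_pow]
      refine hsq _ ?_
      rw [abs_mul, abs_of_nonneg hm0, hB]
      have := mul_le_mul_of_nonneg_left (h1 x (hin x hx) e) hm0
      nlinarith [mul_nonneg hl0 hκ1, mul_nonneg (pow_nonneg hm0 2) hκ2]
    · intro x hx e e'
      have e4 : (g.m : ℝ) ^ 4 = ((g.m : ℝ) ^ 2) ^ 2 := by ring
      rw [e4, ← mul_pow]
      refine hsq _ ?_
      rw [abs_mul, abs_of_nonneg (pow_nonneg hm0 2), hB]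
      have := mul_le_mul_of_nonneg_left (h2 x hx e e') (pow_nonneg hm0 2)
      nlinarith [mul_nonneg hl0 hκ1, mul_nonneg hm0 hκ1]
  rw [← hB]
  exact le_of_sq_le_sq key hB0

/-- the regulator exponent and the bond energy from pointwise bounds -/
theorem tcl_energy_le (g : Grid G) (hg : g.Ok) (X : Finset g.I) (ψ : G.V → ℝ) (κ1 κ2 : ℝ) (hκ2 : 0 ≤ κ2)
    (h1 : ∀ z ∈ g.Dm X, ∀ e, |dif (dir e) (G.lift ψ) (G.ι z)| ≤ κ1)
    (h2 : ∀ z ∈ g.Dm X, ∀ e e', |dif (dir e) (dif (dir e') (G.lift ψ)) (G.ι z)| ≤ κ2) (δ : ℝ) (hδ1 : δ ≤ 1) :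
    U g δ X ψ + bondE (g.Dm X) ψ ≤ (1200 * ((g.m : ℝ) * κ1) ^ 2 + 1625 * ((g.m : ℝ) ^ 2 * κ2) ^ 2) * X.card := by
  have hm0 : (0 : ℝ) ≤ g.m := Nat.cast_nonneg _
  have hsq : ∀ t B : ℝ, |t| ≤ B → t ^ 2 ≤ B ^ 2 := fun t B ht => sq_le_sq' (by linarith [(abs_le.1 ht).1]) (abs_le.1 ht).2
  have hgE : gE G (g.Dm X) ψ ≤ 200 * ((g.m : ℝ) * κ1) ^ 2 * X.card := by
    unfold gE
    have a1 : ∑ v ∈ g.Dm X, ∑ e : Fin 4, dif (dir e) (G.lift ψ) (G.ι v) ^ 2 ≤ ∑ v ∈ g.Dm X, ∑ _e : Fin 4, κ1 ^ 2 :=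
      Finset.sum_le_sum fun v hv => Finset.sum_le_sum fun e _ => hsq _ _ (h1 v hv e)
    have a2 : ∑ v ∈ g.Dm X, ∑ _e : Fin 4, κ1 ^ 2 = ((g.Dm X).card : ℝ) * (4 * κ1 ^ 2) := by
      simp
    have a3 : ((g.Dm X).card : ℝ) ≤ 100 * (g.m : ℝ) ^ 2 * X.card := by exact_mod_cast Reg.reg_Dm_card g hg X
    have a4 := mul_le_mul_of_nonneg_right a3 (by positivity : (0 : ℝ) ≤ 4 * κ1 ^ 2)
    nlinarith
  have hbond : bondE (g.Dm X) ψ ≤ gE G (g.Dm X) ψ := by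
    unfold bondE gE
    refine mul_le_mul_of_nonneg_left ?_ (by norm_num)
    refine Finset.sum_le_sum fun v _ => Finset.sum_le_sum fun e _ => ?_
    split_ifs
    · exact le_rfl
    · positivity
  have hTE : TE g (g.collar X) ψ ≤ 25 * ((g.m : ℝ) ^ 2 * κ2) ^ 2 * X.card := by
    rw [Reg.reg_TE_eq]
    have a1 : ∑ b ∈ g.collar X, (g.m : ℝ) ^ 4 * Reg.regN2 g b ψ ^ 2 ≤ ∑ _b ∈ g.collar X, (g.m : ℝ) ^ 4 * κ2 ^ 2 := by
      refine Finset.sum_le_sum fun b hb => mul_le_mul_of_nonneg_left ?_ (by positivity)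
      refine pow_le_pow_left₀ (Reg.reg_n2_nonneg g b ψ) (Reg.reg_n2_le g b ψ hκ2 fun v hv e e' => h2 v ?_ e e') 2
      exact Reg.reg_sites_mono g (Finset.singleton_subset_iff.2 hb) hv
    have a2 : ∑ _b ∈ g.collar X, (g.m : ℝ) ^ 4 * κ2 ^ 2 = ((g.collar X).card : ℝ) * ((g.m : ℝ) ^ 4 * κ2 ^ 2) := by
      simp
    have a3 : ((g.collar X).card : ℝ) ≤ 25 * X.card := by exact_mod_cast Reg.reg_collar_card g X
    have a4 := mul_le_mul_of_nonneg_right a3 (by positivity : (0 : ℝ) ≤ (g.m : ℝ) ^ 4 * κ2 ^ 2)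
    nlinarith
  have hPE : PE G g.m (g.Dm X) ψ ≤ 4 * gE G (g.Dm X) ψ + 64 * TE g (g.collar X) ψ := Reg.reg_PE_inner g hg (g.collar X) ψ
  have hPE0 := Reg.reg_PE_nonneg g.m (g.Dm X) ψ
  have hδP : δ * PE G g.m (g.Dm X) ψ ≤ PE G g.m (g.Dm X) ψ := by nlinarith
  unfold U
  nlinarith

end norms

/-! ## 3. Folding, steps, reflected stencils -/

section fold

variable {G : Geom}

/-- the free fold moves a point at distance `≤ 2` from a site to a site at distance `≤ 2` -/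
theorem tcl_fold_near (hG : G.bc = BC.free) (hM : 2 ≤ G.M) (i : Fin G.M) (s : ℤ) (hs : s.natAbs ≤ 2) :
    ((G.fold (((i : ℕ) : ℤ) + s) : ℕ) : ℤ) ≤ ((i : ℕ) : ℤ) + 2 ∧ ((i : ℕ) : ℤ) ≤ ((G.fold (((i : ℕ) : ℤ) + s) : ℕ) : ℤ) + 2 := by
  have hi := i.2
  rw [Reg.regl_fold_free G hG]
  rcases lt_or_ge (((i : ℕ) : ℤ) + s) 0 with h | h
  · rw [Reg.regl_emod_eq (((i : ℕ) : ℤ) + s) (((i : ℕ) : ℤ) + s + 2 * G.M) (-1) (2 * G.M) (by ring) (by omega) (by omega)]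
    split_ifs <;> omega
  · rw [Int.emod_eq_of_lt h (by omega)]
    split_ifs <;> omega

/-- one step of the free fold: stay, forwards or backwards -/
theorem tcl_fold_tri (hG : G.bc = BC.free) (t : ℤ) :
    G.fold (t + 1) = G.fold t ∨ (G.fold (t + 1) : ℕ) = (G.fold t : ℕ) + 1 ∨ (G.fold t : ℕ) = (G.fold (t + 1) : ℕ) + 1 := by
  have hM := G.hM
  have h0 : (0 : ℤ) < 2 * G.M := by omega
  have h1 := Int.emod_nonneg t h0.ne'
  have h2 := Int.emod_lt_of_pos t h0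
  have e0 : t = t % (2 * G.M) + (t / (2 * G.M)) * (2 * G.M) := by
    have := Int.emod_add_mul_ediv t (2 * G.M)
    linarith
  obtain ⟨r, hr⟩ : ∃ r, r = t % (2 * G.M) := ⟨_, rfl⟩
  rw [← hr] at h1 h2 e0
  have a0 := Reg.regl_fold_free G hG t
  have a1 := Reg.regl_fold_free G hG (t + 1)
  rw [← hr] at a0
  rcases lt_or_ge (r + 1) (2 * G.M) with h | h
  · rw [Reg.regl_emod_eq (t + 1) (r + 1) (t / (2 * G.M)) (2 * G.M) (by linarith) (by omega) h] at a1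
    split_ifs at a0 a1
    · right; left; omega
    · left; apply Fin.ext; omega
    · omega
    · right; right; omega
  · rw [Reg.regl_emod_eq (t + 1) 0 (t / (2 * G.M) + 1) (2 * G.M) (by linarith) le_rfl h0] at a1
    split_ifs at a0 a1 <;> omega

theorem tcl_stp_true (z : G.V) (b : Fin G.M) (h : (b : ℕ) = z.1 + 1) : stp z true = (b, z.2) := by
  have := tb_ld_east z b h
  unfold Reg.regNb at this
  rw [tcl_dir0] at this
  exact this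

theorem tcl_stp_false (z : G.V) (b : Fin G.M) (h : (b : ℕ) = z.2 + 1) : stp z false = (z.1, b) := by
  have := tb_ld_north z b h
  unfold Reg.regNb at this
  rw [tcl_dir2] at this
  exact this

/-- a lifted bond is folded to a point, to a bond traversed forwards, or to a bond traversed backwards -/
theorem tcl_stp_tri (hG : G.bc = BC.free) (y : ℤ × ℤ) (d : Bool) :
    G.π (y + bdir d) = G.π y ∨ G.π (y + bdir d) = stp (G.π y) d ∨ stp (G.π (y + bdir d)) d = G.π y := by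
  cases d
  · have e1 : G.π (y + bdir false) = (G.fold y.1, G.fold (y.2 + 1)) := by simp [Geom.π, bdir]
    have e2 : G.π y = (G.fold y.1, G.fold y.2) := rfl
    rw [e1, e2]
    rcases tcl_fold_tri hG y.2 with h | h | h
    · left; rw [h]
    · right; left; rw [tcl_stp_false _ _ h]
    · right; right; rw [tcl_stp_false _ _ h]
  · have e1 : G.π (y + bdir true) = (G.fold (y.1 + 1), G.fold y.2) := by simp [Geom.π, bdir]
    have e2 : G.π y = (G.fold y.1, G.fold y.2) := rfl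
    rw [e1, e2]
    rcases tcl_fold_tri hG y.1 with h | h | h
    · left; rw [h]
    · right; left; rw [tcl_stp_true _ _ h]
    · right; right; rw [tcl_stp_true _ _ h]

theorem tcl_elift_fwd (η : G.V × Bool → ℝ) (x : G.V) (d : Bool) :
    elift η (G.ι x) d = if stp x d = x then 0 else η (x, d) := by
  unfold elift
  rw [Reg.reg_pi_iota]
  have h : G.π (G.ι x + bdir d) = stp x d := rfl
  rw [h, if_pos rfl]

end fold

/-! ## 4. Aligned squares: padded rectangles, extents -/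

section squares

variable (Q : Sq)

theorem tcl_free : Q.G.bc = BC.free := rfl

theorem tcl_M : Q.G.M = 2 * (Q.D * Q.m) := rfl

theorem tcl_inRect_mono {H H' : ℕ} (h : H ≤ H') (X : Finset Q.g.I) (b : ℕ × ℕ) (hb : Q.InRect H X b) : Q.InRect H' X b := by
  obtain ⟨⟨a1, h1, e1⟩, ⟨a2, h2, e2⟩, ⟨a3, h3, e3⟩, ⟨a4, h4, e4⟩⟩ := hb
  exact ⟨⟨a1, h1, by omega⟩, ⟨a2, h2, by omega⟩, ⟨a3, h3, by omega⟩, ⟨a4, h4, by omega⟩⟩

/-- one more block of padding -/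
theorem tcl_inRect_succ (H : ℕ) (X : Finset Q.g.I) (b c : ℕ × ℕ) (hb : Q.InRect H X b) (h1 : c.1 ≤ b.1 + 1) (h2 : b.1 ≤ c.1 + 1)
    (h3 : c.2 ≤ b.2 + 1) (h4 : b.2 ≤ c.2 + 1) : Q.InRect (H + 1) X c := by
  obtain ⟨⟨a1, k1, e1⟩, ⟨a2, k2, e2⟩, ⟨a3, k3, e3⟩, ⟨a4, k4, e4⟩⟩ := hb
  exact ⟨⟨a1, k1, by omega⟩, ⟨a2, k2, by omega⟩, ⟨a3, k3, by omega⟩, ⟨a4, k4, by omega⟩⟩

/-- padded rectangles are rectangles -/
theorem tcl_inRect_hull (H : ℕ) (X : Finset Q.g.I) (b b' c : ℕ × ℕ) (hb : Q.InRect H X b) (hb' : Q.InRect H X b')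
    (h1 : min b.1 b'.1 ≤ c.1) (h2 : c.1 ≤ max b.1 b'.1) (h3 : min b.2 b'.2 ≤ c.2) (h4 : c.2 ≤ max b.2 b'.2) : Q.InRect H X c := by
  obtain ⟨⟨a1, k1, e1⟩, ⟨a2, k2, e2⟩, ⟨a3, k3, e3⟩, ⟨a4, k4, e4⟩⟩ := hb
  obtain ⟨⟨a1', k1', e1'⟩, ⟨a2', k2', e2'⟩, ⟨a3', k3', e3'⟩, ⟨a4', k4', e4'⟩⟩ := hb'
  refine ⟨?_, ?_, ?_, ?_⟩
  · rcases le_total b.1 b'.1 with h | h
    · exact ⟨a1, k1, by rw [min_eq_left h] at h1; omega⟩
    · exact ⟨a1', k1', by rw [min_eq_right h] at h1; omega⟩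
  · rcases le_total b.1 b'.1 with h | h
    · exact ⟨a2', k2', by rw [max_eq_right h] at h2; omega⟩
    · exact ⟨a2, k2, by rw [max_eq_left h] at h2; omega⟩
  · rcases le_total b.2 b'.2 with h | h
    · exact ⟨a3, k3, by rw [min_eq_left h] at h3; omega⟩
    · exact ⟨a3', k3', by rw [min_eq_right h] at h3; omega⟩
  · rcases le_total b.2 b'.2 with h | h
    · exact ⟨a4', k4', by rw [max_eq_right h] at h4; omega⟩
    · exact ⟨a4, k4, by rw [max_eq_left h] at h4; omega⟩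

theorem tcl_idist (u v : Q.g.I) : Q.g.idist u v = max ((u.1 : ℤ) - v.1).natAbs ((u.2 : ℤ) - v.2).natAbs := rfl

/-- the block of a site of `D_m (X)`: an element of `X` at index distance `≤ 2` -/
theorem tcl_Dm (X : Finset Q.g.I) (w : Q.G.V) (hw : w ∈ Q.g.Dm X) :
    ∃ a ∈ X, (a.1 : ℕ) ≤ (w.1 : ℕ) / Q.m + 2 ∧ (w.1 : ℕ) / Q.m ≤ (a.1 : ℕ) + 2 ∧ (a.2 : ℕ) ≤ (w.2 : ℕ) / Q.m + 2 ∧
      (w.2 : ℕ) / Q.m ≤ (a.2 : ℕ) + 2 := by
  rw [Reg.reg_mem_Dm, Reg.regd_mem_collar] at hw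
  obtain ⟨a, ha, h⟩ := hw
  rw [tcl_idist] at h
  have h1 := (le_max_left _ _).trans h
  have h2 := (le_max_right _ _).trans h
  have e1 : ((Q.g.blk w).1 : ℕ) = (w.1 : ℕ) / Q.m := rfl
  have e2 : ((Q.g.blk w).2 : ℕ) = (w.2 : ℕ) / Q.m := rfl
  refine ⟨a, ha, ?_⟩
  omega

theorem tcl_inRect_Dm (X : Finset Q.g.I) (w : Q.G.V) (hw : w ∈ Q.g.Dm X) :
    Q.InRect 2 X (((Q.g.blk w).1 : ℕ), ((Q.g.blk w).2 : ℕ)) := by
  obtain ⟨a, ha, h1, h2, h3, h4⟩ := tcl_Dm Q X w hw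
  exact ⟨⟨a, ha, h1⟩, ⟨a, ha, h2⟩, ⟨a, ha, h3⟩, ⟨a, ha, h4⟩⟩

/-- the enclosing rectangle of `D_m (X)` lies in the rectangle padded by two blocks -/
theorem tcl_inRect_between (X : Finset Q.g.I) (z : Q.G.V)
    (hz : ∃ x ∈ Q.g.Dm X, ∃ y ∈ Q.g.Dm X, min x.1 y.1 ≤ z.1 ∧ z.1 ≤ max x.1 y.1 ∧ min x.2 y.2 ≤ z.2 ∧ z.2 ≤ max x.2 y.2) :
    Q.InRect 2 X (((Q.g.blk z).1 : ℕ), ((Q.g.blk z).2 : ℕ)) := by
  obtain ⟨x, hx, y, hy, h1, h2, h3, h4⟩ := hz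
  have mono : ∀ i j : Fin Q.G.M, i ≤ j → (i : ℕ) / Q.m ≤ (j : ℕ) / Q.m := fun i j h => Nat.div_le_div_right h
  refine tcl_inRect_hull Q 2 X _ _ _ (tcl_inRect_Dm Q X x hx) (tcl_inRect_Dm Q X y hy) ?_ ?_ ?_ ?_
  · show min ((x.1 : ℕ) / Q.m) ((y.1 : ℕ) / Q.m) ≤ (z.1 : ℕ) / Q.m
    rcases le_total x.1 y.1 with h | h
    · rw [min_eq_left h] at h1; exact (min_le_left _ _).trans (mono _ _ h1)
    · rw [min_eq_right h] at h1; exact (min_le_right _ _).trans (mono _ _ h1)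
  · show (z.1 : ℕ) / Q.m ≤ max ((x.1 : ℕ) / Q.m) ((y.1 : ℕ) / Q.m)
    rcases le_total x.1 y.1 with h | h
    · rw [max_eq_right h] at h2; exact (mono _ _ h2).trans (le_max_right _ _)
    · rw [max_eq_left h] at h2; exact (mono _ _ h2).trans (le_max_left _ _)
  · show min ((x.2 : ℕ) / Q.m) ((y.2 : ℕ) / Q.m) ≤ (z.2 : ℕ) / Q.m
    rcases le_total x.2 y.2 with h | h
    · rw [min_eq_left h] at h3; exact (min_le_left _ _).trans (mono _ _ h3)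
    · rw [min_eq_right h] at h3; exact (min_le_right _ _).trans (mono _ _ h3)
  · show (z.2 : ℕ) / Q.m ≤ max ((x.2 : ℕ) / Q.m) ((y.2 : ℕ) / Q.m)
    rcases le_total x.2 y.2 with h | h
    · rw [max_eq_right h] at h4; exact (mono _ _ h4).trans (le_max_right _ _)
    · rw [max_eq_left h] at h4; exact (mono _ _ h4).trans (le_max_left _ _)

theorem tcl_div_near (m a b : ℕ) (hm : 2 ≤ m) (h : a ≤ b + 2) : a / m ≤ b / m + 1 := by
  calc a / m ≤ (b + m) / m := Nat.div_le_div_right (by omega)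
    _ = b / m + 1 := Nat.add_div_right b (by omega)

/-- two lattice steps cost at most one block of padding (also through a wall) -/
theorem tcl_region (hm : 2 ≤ Q.m) (H : ℕ) (X : Finset Q.g.I) (z : Q.G.V) (hz : Q.InRect H X (((Q.g.blk z).1 : ℕ), ((Q.g.blk z).2 : ℕ)))
    (y : ℤ × ℤ) (hy : tclNear y (Q.G.ι z)) :
    Q.InRect (H + 1) X (((Q.g.blk (Q.G.π y)).1 : ℕ), ((Q.g.blk (Q.G.π y)).2 : ℕ)) := by
  have hM : 2 ≤ Q.G.M := by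
    rw [tcl_M]
    have := Nat.mul_pos Q.hD Q.m_pos
    omega
  unfold tclNear at hy
  have e1 : y.1 = ((z.1 : ℕ) : ℤ) + (y.1 - (Q.G.ι z).1) := by simp [Geom.ι]
  have e2 : y.2 = ((z.2 : ℕ) : ℤ) + (y.2 - (Q.G.ι z).2) := by simp [Geom.ι]
  have f1 := tcl_fold_near (tcl_free Q) hM z.1 (y.1 - (Q.G.ι z).1) (by omega)
  have f2 := tcl_fold_near (tcl_free Q) hM z.2 (y.2 - (Q.G.ι z).2) (by omega)
  rw [← e1] at f1
  rw [← e2] at f2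
  refine tcl_inRect_succ Q H X _ _ hz ?_ ?_ ?_ ?_
  · show ((Q.G.fold y.1 : Fin Q.G.M) : ℕ) / Q.m ≤ (z.1 : ℕ) / Q.m + 1
    exact tcl_div_near _ _ _ hm (by omega)
  · show (z.1 : ℕ) / Q.m ≤ ((Q.G.fold y.1 : Fin Q.G.M) : ℕ) / Q.m + 1
    exact tcl_div_near _ _ _ hm (by omega)
  · show ((Q.G.fold y.2 : Fin Q.G.M) : ℕ) / Q.m ≤ (z.2 : ℕ) / Q.m + 1
    exact tcl_div_near _ _ _ hm (by omega)
  · show (z.2 : ℕ) / Q.m ≤ ((Q.G.fold y.2 : Fin Q.G.M) : ℕ) / Q.m + 1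
    exact tcl_div_near _ _ _ hm (by omega)

/-- the sides of the enclosing rectangle of `D_m (X)` -/
theorem tcl_sides (X : Finset Q.g.I) (L : ℕ)
    (hext : ∀ a ∈ X, ∀ b ∈ X, (b.1 : ℕ) ≤ (a.1 : ℕ) + L ∧ (b.2 : ℕ) ≤ (a.2 : ℕ) + L) :
    ∀ x ∈ Q.g.Dm X, ∀ y ∈ Q.g.Dm X, (x.1 : ℕ) ≤ y.1 + (L + 5) * Q.m ∧ (x.2 : ℕ) ≤ y.2 + (L + 5) * Q.m := by
  intro x hx y hy
  obtain ⟨a, ha, a1, a2, a3, a4⟩ := tcl_Dm Q X x hx
  obtain ⟨b, hb, b1, b2, b3, b4⟩ := tcl_Dm Q X y hy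
  obtain ⟨c1, c2⟩ := hext b hb a ha
  have key : ∀ u w : ℕ, u / Q.m ≤ w / Q.m + (L + 4) → u ≤ w + (L + 5) * Q.m := by
    intro u w h
    have h1 : u < (u / Q.m + 1) * Q.m := by
      have := Nat.lt_mul_div_succ u Q.m_pos
      rwa [Nat.mul_comm] at this
    have h2 : w / Q.m * Q.m ≤ w := Nat.div_mul_le_self w Q.m
    have h3 : (u / Q.m + 1) * Q.m ≤ (w / Q.m + (L + 5)) * Q.m := Nat.mul_le_mul_right _ (by omega)
    have h4 : (w / Q.m + (L + 5)) * Q.m = w / Q.m * Q.m + (L + 5) * Q.m := by ring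
    omega
  exact ⟨key _ _ (by omega), key _ _ (by omega)⟩

/-- a chain from `f ≤ t` to `t < f` crosses the level `t` -/
theorem tcl_cross {I : Type} (E : I → I → Prop) (f : I → ℕ) (t : ℕ) {a b : I} (h : Relation.ReflTransGen E a b)
    (ha : f a ≤ t) (hb : t < f b) : ∃ u v, E u v ∧ f u ≤ t ∧ t < f v := by
  induction h with
  | refl => omega
  | @tail y z _ hyz ih =>
    by_cases hy : f y ≤ t
    · exact ⟨y, z, hyz, hy, hb⟩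
    · exact ih (by omega)

/-- the extent of a chain-connected finite set along a function that moves by `≤ R` on every step -/
theorem tcl_span {I : Type} (X : Finset I) (f : I → ℕ) (R : ℕ) (E : I → I → Prop)
    (hE : ∀ u v, E u v → v ∈ X ∧ f v ≤ f u + R) (hc : ∀ a ∈ X, ∀ b ∈ X, Relation.ReflTransGen E a b) (b : I) (hb : b ∈ X) :
    ∀ (n : ℕ) (a : I), a ∈ X → (X.filter fun x => f a < f x ∧ f x ≤ f b).card ≤ n → f b ≤ f a + R * n := by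
  intro n
  induction n with
  | zero =>
    intro a _ hn
    by_contra hlt
    have : b ∈ X.filter fun x => f a < f x ∧ f x ≤ f b := Finset.mem_filter.2 ⟨hb, by omega, le_rfl⟩
    have := Finset.card_pos.2 ⟨b, this⟩
    omega
  | succ n ih =>
    intro a ha hn
    by_cases hlt : f b ≤ f a
    · exact hlt.trans (Nat.le_add_right _ _)
    obtain ⟨u, v, huv, hu, hv⟩ := tcl_cross E f (f a) (hc a ha b hb) le_rfl (by omega)
    obtain ⟨hvX, hvR⟩ := hE u v huv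
    have e : R * (n + 1) = R * n + R := by ring
    by_cases hvb : f v ≤ f b
    · have hss : (X.filter fun x => f v < f x ∧ f x ≤ f b) ⊂ (X.filter fun x => f a < f x ∧ f x ≤ f b) := by
        refine Finset.ssubset_iff_subset_ne.2 ⟨?_, fun heq => ?_⟩
        · intro x hx
          obtain ⟨h1, h2, h3⟩ := Finset.mem_filter.1 hx
          exact Finset.mem_filter.2 ⟨h1, by omega, h3⟩
        · have : v ∈ X.filter fun x => f v < f x ∧ f x ≤ f b := by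
            rw [heq]
            exact Finset.mem_filter.2 ⟨hvX, hv, hvb⟩
          have := (Finset.mem_filter.1 this).2.1
          omega
      have := Finset.card_lt_card hss
      have := ih v hvX (by omega)
      omega
    · omega

/-- the extent of a polymer of the free square in each coordinate -/
theorem tcl_extent (R : ℕ) (X : Finset Q.g.I) (hX : Q.g.Conn R X) :
    ∀ a ∈ X, ∀ b ∈ X, (b.1 : ℕ) ≤ (a.1 : ℕ) + R * X.card ∧ (b.2 : ℕ) ≤ (a.2 : ℕ) + R * X.card := by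
  intro a ha b hb
  constructor
  · refine tcl_span X (fun x => (x.1 : ℕ)) R _ (fun u v huv => ⟨huv.2.1, ?_⟩) hX.2 b hb X.card a ha (Finset.card_filter_le _ _)
    have := huv.2.2
    rw [tcl_idist] at this
    have := (le_max_left _ _).trans this
    show (v.1 : ℕ) ≤ (u.1 : ℕ) + R
    omega
  · refine tcl_span X (fun x => (x.2 : ℕ)) R _ (fun u v huv => ⟨huv.2.1, ?_⟩) hX.2 b hb X.card a ha (Finset.card_filter_le _ _)
    have := huv.2.2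
    rw [tcl_idist] at this
    have := (le_max_right _ _).trans this
    show (v.2 : ℕ) ≤ (u.2 : ℕ) + R
    omega

end squares

/-! ## 5. The core: a field whose forward gradient `E` has the scaling `|∇^r E| ≤ K n^{-1-r}`, `n = D' m` -/

theorem tcl_core_arith (K mm DD : ℝ) (hK : 0 ≤ K) (hm : 1 ≤ mm) (hD : 1 ≤ DD) :
    mm * (K * (((DD * mm) ^ (1 + 0))⁻¹) + K * (((DD * mm) ^ (1 + 1))⁻¹)) ≤ 2 * K / DD ∧
    mm ^ 2 * (K * (((DD * mm) ^ (1 + 1))⁻¹) + K * (((DD * mm) ^ (1 + 2))⁻¹)) ≤ 2 * K / DD := by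
  have hm0 : 0 < mm := by linarith
  have hD0 : 0 < DD := by linarith
  have hn1 : 1 ≤ DD * mm := by nlinarith
  have hi : (DD * mm)⁻¹ ≤ 1 := inv_le_one_of_one_le₀ hn1
  have hi0 : 0 ≤ (DD * mm)⁻¹ := by positivity
  have hDi : DD⁻¹ ≤ 1 := inv_le_one_of_one_le₀ hD
  have hDi0 : 0 ≤ DD⁻¹ := by positivity
  have e1 : mm * (DD * mm)⁻¹ = DD⁻¹ := by field_simp
  constructor
  · have : mm * (K * (((DD * mm) ^ (1 + 0))⁻¹) + K * (((DD * mm) ^ (1 + 1))⁻¹))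
        = K * (mm * (DD * mm)⁻¹) * (1 + (DD * mm)⁻¹) := by
      norm_num
      ring
    rw [this, e1, div_eq_mul_inv]
    have : K * DD⁻¹ * (1 + (DD * mm)⁻¹) ≤ K * DD⁻¹ * 2 := mul_le_mul_of_nonneg_left (by linarith) (by positivity)
    linarith
  · have : mm ^ 2 * (K * (((DD * mm) ^ (1 + 1))⁻¹) + K * (((DD * mm) ^ (1 + 2))⁻¹))
        = K * (mm * (DD * mm)⁻¹) ^ 2 * (1 + (DD * mm)⁻¹) := by
      norm_num
      ring
    rw [this, e1, div_eq_mul_inv]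
    have h1 : K * DD⁻¹ ^ 2 * (1 + (DD * mm)⁻¹) ≤ K * DD⁻¹ ^ 2 * 2 := mul_le_mul_of_nonneg_left (by linarith) (by positivity)
    have h2 : DD⁻¹ ^ 2 ≤ DD⁻¹ := by nlinarith
    have h3 : K * DD⁻¹ ^ 2 ≤ K * DD⁻¹ := mul_le_mul_of_nonneg_left h2 hK
    linarith

theorem tcl_core (Q : Sq) (hg : Q.g.Ok) (X : Finset Q.g.I) (L D' : ℕ) (hD' : 0 < D')
    (hext : ∀ a ∈ X, ∀ b ∈ X, (b.1 : ℕ) ≤ (a.1 : ℕ) + L ∧ (b.2 : ℕ) ≤ (a.2 : ℕ) + L)
    (ψ : Q.G.V → ℝ) (E : Bool → ℤ × ℤ → ℝ) (K : ℝ) (hK : 0 ≤ K)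
    (hrel : ∀ z : Q.G.V, Q.InRect 2 X (((Q.g.blk z).1 : ℕ), ((Q.g.blk z).2 : ℕ)) → ∀ y d, tclNear y (Q.G.ι z) →
      tclNear (y + bdir d) (Q.G.ι z) → Q.G.lift ψ (y + bdir d) - Q.G.lift ψ y = E d y)
    (hE : ∀ z : Q.G.V, Q.InRect 2 X (((Q.g.blk z).1 : ℕ), ((Q.g.blk z).2 : ℕ)) → ∀ r ≤ 2, ∀ (a : Fin r → Fin 4) (d : Bool),
      |difs a (E d) (Q.G.ι z)| ≤ K * (((D' : ℝ) * (Q.m : ℝ)) ^ (1 + r))⁻¹) :
    (∀ x0 ∈ Q.g.Dm X, (anorm Q.g X x0 ψ : ℝ) ≤ 2 * K * (2 * L + 12) / D') ∧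
    ∀ δ : ℝ, δ ≤ 1 → U Q.g δ X (-ψ) + bondE (Q.g.Dm X) (-ψ) ≤ 11300 * K ^ 2 * X.card := by
  have hm1 : (1 : ℝ) ≤ (Q.m : ℝ) := by exact_mod_cast Q.m_pos
  have hD1 : (1 : ℝ) ≤ (D' : ℝ) := by exact_mod_cast hD'
  obtain ⟨mm, hmm⟩ : ∃ mm : ℝ, mm = (Q.m : ℝ) := ⟨_, rfl⟩
  obtain ⟨DD, hDD⟩ : ∃ DD : ℝ, DD = (D' : ℝ) := ⟨_, rfl⟩
  rw [← hmm] at hm1 hE
  rw [← hDD] at hD1 hE
  obtain ⟨κ1, hκ1⟩ : ∃ κ1 : ℝ, κ1 = K * (((DD * mm) ^ (1 + 0))⁻¹) + K * (((DD * mm) ^ (1 + 1))⁻¹) := ⟨_, rfl⟩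
  obtain ⟨κ2, hκ2⟩ : ∃ κ2 : ℝ, κ2 = K * (((DD * mm) ^ (1 + 1))⁻¹) + K * (((DD * mm) ^ (1 + 2))⁻¹) := ⟨_, rfl⟩
  obtain ⟨ar1, ar2⟩ := tcl_core_arith K mm DD hK hm1 hD1
  rw [← hκ1] at ar1
  rw [← hκ2] at ar2
  have hmm0 : 0 < mm := by linarith
  have hDD0 : 0 < DD := by linarith
  have hκ10 : 0 ≤ κ1 := by rw [hκ1]; positivity
  have hκ20 : 0 ≤ κ2 := by rw [hκ2]; positivity
  have P1 : ∀ z : Q.G.V, Q.InRect 2 X (((Q.g.blk z).1 : ℕ), ((Q.g.blk z).2 : ℕ)) → ∀ e,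
      |dif (dir e) (Q.G.lift ψ) (Q.G.ι z)| ≤ κ1 := by
    intro z hz e
    rw [hκ1]
    refine tcl_d1 (Q.G.lift ψ) E (Q.G.ι z) _ _ (hrel z hz) (fun d => ?_) (fun d e => ?_) e
    · have := hE z hz 0 (by norm_num) ![] d
      rwa [tcl_difs_nil] at this
    · have := hE z hz 1 (by norm_num) ![e] d
      rwa [Reg.reg_difs_one] at this
  have P2 : ∀ z : Q.G.V, Q.InRect 2 X (((Q.g.blk z).1 : ℕ), ((Q.g.blk z).2 : ℕ)) → ∀ e e',
      |dif (dir e) (dif (dir e') (Q.G.lift ψ)) (Q.G.ι z)| ≤ κ2 := by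
    intro z hz e e'
    rw [hκ2]
    refine tcl_d2 (Q.G.lift ψ) E (Q.G.ι z) _ _ (hrel z hz) (fun d e => ?_) (fun d e e' => ?_) e e'
    · have := hE z hz 1 (by norm_num) ![e] d
      rwa [Reg.reg_difs_one] at this
    · have := hE z hz 2 (by norm_num) ![e, e'] d
      rwa [Reg.regl_difs_two] at this
  have hgm : (Q.g.m : ℝ) = mm := by rw [hmm]; rfl
  have hq0 : 0 ≤ 2 * K / DD := by positivity
  have hq1 : 2 * K / DD ≤ 2 * K := div_le_self (by positivity) hD1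
  constructor
  · intro x0 hx0
    have h := tcl_anorm_le Q.g X x0 hx0 ψ κ1 κ2 hκ10 hκ20 ((L + 5) * Q.m) (tcl_sides Q X L hext)
      (fun z hz e => P1 z (tcl_inRect_between Q X z hz) e) (fun z hz e e' => P2 z (tcl_inRect_Dm Q X z hz) e e')
    refine h.trans ?_
    rw [hgm, ← hDD]
    push_cast
    rw [← hmm]
    have hL : (0 : ℝ) ≤ L := Nat.cast_nonneg _
    have e1 : (2 * (((L : ℝ) + 5) * mm) + mm) * κ1 + mm ^ 2 * κ2 = (2 * L + 11) * (mm * κ1) + mm ^ 2 * κ2 := by ring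
    have e2 : 2 * K * (2 * (L : ℝ) + 12) / DD = (2 * L + 11) * (2 * K / DD) + 2 * K / DD := by ring
    rw [e1, e2]
    exact add_le_add (mul_le_mul_of_nonneg_left ar1 (by positivity)) ar2
  · intro δ hδ
    have n1 : ∀ e x, dif (dir e) (Q.G.lift (-ψ)) x = -dif (dir e) (Q.G.lift ψ) x := by
      intro e x
      simp only [dif, Geom.lift, Pi.neg_apply]
      ring
    have n2 : ∀ e e' x, dif (dir e) (dif (dir e') (Q.G.lift (-ψ))) x = -dif (dir e) (dif (dir e') (Q.G.lift ψ)) x := by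
      intro e e' x
      simp only [dif, Geom.lift, Pi.neg_apply]
      ring
    have h := tcl_energy_le Q.g hg X (-ψ) κ1 κ2 hκ20
      (fun z hz e => by rw [n1, abs_neg]; exact P1 z (tcl_inRect_Dm Q X z hz) e)
      (fun z hz e e' => by rw [n2, abs_neg]; exact P2 z (tcl_inRect_Dm Q X z hz) e e') δ hδ
    refine h.trans (mul_le_mul_of_nonneg_right ?_ (Nat.cast_nonneg _))
    rw [hgm]
    have u0 : 0 ≤ mm * κ1 := by positivity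
    have w0 : 0 ≤ mm ^ 2 * κ2 := by positivity
    have u1 : (mm * κ1) ^ 2 ≤ (2 * K) ^ 2 := pow_le_pow_left₀ u0 (ar1.trans hq1) 2
    have w1 : (mm ^ 2 * κ2) ^ 2 ≤ (2 * K) ^ 2 := pow_le_pow_left₀ w0 (ar2.trans hq1) 2
    nlinarith

/-! ## 6. Class `𝔚` (`L-OBS-TC5`) -/

/-- the gradient of a local lift is the reflected stencil of the unit field -/
theorem tcl_lift_rel (Q : Sq) (α : ℝ) (v : Q.G.V → ℝ) (H : ℕ) (X : Finset Q.g.I) (lam : Q.G.V → ℝ) (hl : Q.IsLift α v H X lam)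
    (y : ℤ × ℤ) (d : Bool) (h1 : Q.InRect H X (((Q.g.blk (Q.G.π y)).1 : ℕ), ((Q.g.blk (Q.G.π y)).2 : ℕ)))
    (h2 : Q.InRect H X (((Q.g.blk (Q.G.π (y + bdir d))).1 : ℕ), ((Q.g.blk (Q.G.π (y + bdir d))).2 : ℕ))) :
    Q.G.lift lam (y + bdir d) - Q.G.lift lam y = elift (etaE Q.n v) y d / α := by
  unfold Geom.lift elift
  by_cases c1 : Q.G.π (y + bdir d) = Q.G.π y
  · rw [if_pos c1, c1]
    simp
  · rw [if_neg c1]
    by_cases c2 : Q.G.π (y + bdir d) = stp (Q.G.π y) d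
    · rw [if_pos c2]
      have := hl (Q.G.π y, d) (by show stp (Q.G.π y) d ≠ Q.G.π y; rw [← c2]; exact c1) h1
        (by show Q.InRect H X (((Q.g.blk (stp (Q.G.π y) d)).1 : ℕ), ((Q.g.blk (stp (Q.G.π y) d)).2 : ℕ)); rw [← c2]; exact h2)
      rw [c2]
      exact this
    · rw [if_neg c2]
      have c3 : stp (Q.G.π (y + bdir d)) d = Q.G.π y := by
        rcases tcl_stp_tri (tcl_free Q) y d with h | h | h
        · exact absurd h c1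
        · exact absurd h c2
        · exact h
      have := hl (Q.G.π (y + bdir d), d) (by show stp (Q.G.π (y + bdir d)) d ≠ Q.G.π (y + bdir d); rw [c3]; exact Ne.symm c1) h2
        (by show Q.InRect H X (((Q.g.blk (stp (Q.G.π (y + bdir d)) d)).1 : ℕ), ((Q.g.blk (stp (Q.G.π (y + bdir d)) d)).2 : ℕ)); rw [c3]; exact h1)
      have e : lam (Q.G.π y) - lam (Q.G.π (y + bdir d)) = etaE Q.n v (Q.G.π (y + bdir d), d) / α := by
        rw [← this]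
        show _ = lam (stp (Q.G.π (y + bdir d)) d) - _
        rw [c3]
      rw [neg_div, ← e]
      ring

/-- the padded rectangle of a polymer which meets the wall zone stays in a strip along a wall -/
theorem tcl_wall_strip (Q : Sq) (H0 H1 L : ℕ) (X : Finset Q.g.I)
    (hext : ∀ a ∈ X, ∀ b ∈ X, (b.1 : ℕ) ≤ (a.1 : ℕ) + L ∧ (b.2 : ℕ) ≤ (a.2 : ℕ) + L) (hw : ¬ Q.WallFree H0 X) (c : ℕ × ℕ)
    (hc : Q.InRect H1 X c) :
    c.1 < H0 + L + H1 ∨ 2 * Q.D ≤ c.1 + (H0 + L + H1) ∨ c.2 < H0 + L + H1 ∨ 2 * Q.D ≤ c.2 + (H0 + L + H1) := by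
  unfold Sq.WallFree at hw
  rw [not_forall] at hw
  obtain ⟨b, hb⟩ := hw
  rw [Classical.not_imp] at hb
  obtain ⟨hbX, hb⟩ := hb
  obtain ⟨⟨a1, k1, e1⟩, ⟨a2, k2, e2⟩, ⟨a3, k3, e3⟩, ⟨a4, k4, e4⟩⟩ := hc
  have f1 := (hext a1 k1 b hbX).1
  have f2 := (hext b hbX a2 k2).1
  have f3 := (hext a3 k3 b hbX).2
  have f4 := (hext b hbX a4 k4).2
  omega

/-- the sites of such a strip are far from the centre -/
theorem tcl_wall_far (Q : Sq) (T : ℕ) (hT : 2 * T ≤ Q.D) (w : Q.G.V)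
    (h : (w.1 : ℕ) / Q.m < T ∨ 2 * Q.D ≤ (w.1 : ℕ) / Q.m + T ∨ (w.2 : ℕ) / Q.m < T ∨ 2 * Q.D ≤ (w.2 : ℕ) / Q.m + T) :
    (Q.n : ℝ) / 2 ≤ cdist Q.n (Q.G.ι w) := by
  have key : ∀ u : ℕ, (u / Q.m < T ∨ 2 * Q.D ≤ u / Q.m + T) → (Q.n : ℝ) / 2 ≤ |(u : ℝ) - Q.n| := by
    intro u hu
    have hn : Q.n = Q.D * Q.m := rfl
    rcases hu with hu | hu
    · have h1 : u < T * Q.m := (Nat.div_lt_iff_lt_mul Q.m_pos).1 hu
      have h2 : 2 * T * Q.m ≤ Q.D * Q.m := Nat.mul_le_mul_right _ hT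
      have h3 : 2 * u ≤ Q.n := by rw [hn]; nlinarith
      have h4 : 2 * (u : ℝ) ≤ Q.n := by exact_mod_cast h3
      rw [abs_sub_comm]
      exact le_trans (by linarith) (le_abs_self _)
    · have h1 : (2 * Q.D - T) * Q.m ≤ u := (Nat.le_div_iff_mul_le Q.m_pos).1 (by omega)
      have h2 : 3 * Q.D ≤ 2 * (2 * Q.D - T) := by omega
      have h3 : 3 * Q.n ≤ 2 * u := by
        rw [hn]
        calc 3 * (Q.D * Q.m) = 3 * Q.D * Q.m := by ring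
          _ ≤ 2 * (2 * Q.D - T) * Q.m := Nat.mul_le_mul_right _ h2
          _ = 2 * ((2 * Q.D - T) * Q.m) := by ring
          _ ≤ 2 * u := by omega
      have h4 : 3 * (Q.n : ℝ) ≤ 2 * u := by exact_mod_cast h3
      exact le_trans (by linarith) (le_abs_self _)
  unfold cdist
  have e1 : (((Q.G.ι w).1 : ℤ) : ℝ) = ((w.1 : ℕ) : ℝ) := by simp [Geom.ι]
  have e2 : (((Q.G.ι w).2 : ℤ) : ℝ) = ((w.2 : ℕ) : ℝ) := by simp [Geom.ι]
  rw [e1, e2]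
  rcases h with h | h | h | h
  · exact (key _ (Or.inl h)).trans (le_max_left _ _)
  · exact (key _ (Or.inr h)).trans (le_max_left _ _)
  · exact (key _ (Or.inl h)).trans (le_max_right _ _)
  · exact (key _ (Or.inr h)).trans (le_max_right _ _)

theorem tcl_far_arith (nn cd : ℝ) (hn : 0 < nn) (hcd : nn / 2 ≤ cd) (r : ℕ) (hr : r ≤ 2) :
    ((1 + cd) ^ (1 + r))⁻¹ ≤ 8 * (nn ^ (1 + r))⁻¹ := by
  have h1 : (nn / 2) ^ (1 + r) ≤ (1 + cd) ^ (1 + r) := pow_le_pow_left₀ (by positivity) (by linarith) _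
  have h2 : (2 : ℝ) ^ (1 + r) ≤ 2 ^ 3 := pow_le_pow_right₀ (by norm_num) (by omega)
  have h3 : nn ^ (1 + r) / 8 ≤ (nn / 2) ^ (1 + r) := by
    rw [div_pow]
    exact div_le_div_of_nonneg_left (by positivity) (by positivity) (by linarith)
  have h4 : 0 < nn ^ (1 + r) / 8 := by positivity
  calc ((1 + cd) ^ (1 + r))⁻¹ ≤ (nn ^ (1 + r) / 8)⁻¹ := inv_anti₀ h4 (h3.trans h1)
    _ = 8 * (nn ^ (1 + r))⁻¹ := by rw [inv_div, div_eq_mul_inv]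

theorem tcl_difs_div {r : ℕ} (a : Fin r → Fin 4) (f : ℤ × ℤ → ℝ) (α : ℝ) (x : ℤ × ℤ) :
    difs a (fun y => f y / α) x = difs a f x / α := by
  have e : (fun y => f y / α) = α⁻¹ • f := by
    funext y
    simp [div_eq_inv_mul]
  rw [e, Reg.reg_difs_smul]
  simp [div_eq_inv_mul]

/-- **class `𝔚`**, with the decay of the unit field as a hypothesis -/
theorem tcl_wall_lift (a : ℝ) (ha : 0 < a) (H0 H1 : ℕ) (hH1 : 3 ≤ H1) (C0 : ℝ) (hC0 : 0 ≤ C0) :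
    ∃ (C : ℝ) (N0 D1 : ℕ), 0 ≤ C ∧ ∀ (Q : Sq), Q.g.Ok → 2 ≤ Q.m → D1 ≤ Q.D → ∀ v : Q.G.V → ℝ,
      (∀ r ≤ 4, ∀ (a : Fin r → Fin 4) (w : Q.G.V) (d : Bool),
        |difs a (fun x' => elift (etaE Q.n v) x' d) (Q.G.ι w)| ≤ C0 * ((1 + cdist Q.n (Q.G.ι w)) ^ (1 + r))⁻¹) →
      ∀ N ≥ N0, ∀ X : Finset Q.g.I, Q.g.Conn RR X → ¬ Q.WallFree H0 X → N * X.card ≤ Q.D →
        Q.ShiftGood H1 X ∧ ∀ lam : Q.G.V → ℝ, Q.IsLift (Real.sqrt a) v H1 X lam → ∀ x0 ∈ Q.g.Dm X,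
          (anorm Q.g X x0 lam : ℝ) ≤ C * (1 + X.card) / Q.D := by
  have hα : 0 < Real.sqrt a := Real.sqrt_pos.2 ha
  obtain ⟨α, hαe⟩ : ∃ α, α = Real.sqrt a := ⟨_, rfl⟩
  rw [← hαe] at hα ⊢
  have hK : 0 ≤ 8 * C0 / α := by positivity
  refine ⟨2 * (8 * C0 / α) * (2 * RR + 12), 4 * RR, 4 * (H0 + H1) + 1, by positivity, ?_⟩
  intro Q hg hm hD v hdec N hN X hX hw hNk
  have hext := tcl_extent Q RR X hX
  have hk : 4 * (RR * X.card) ≤ Q.D := by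
    calc 4 * (RR * X.card) = 4 * RR * X.card := by ring
      _ ≤ N * X.card := Nat.mul_le_mul_right _ hN
      _ ≤ Q.D := hNk
  have hT : 2 * (H0 + RR * X.card + H1) ≤ Q.D := by omega
  have hDpos := Q.hD
  constructor
  · intro hin
    have := tcl_wall_strip Q H0 H1 (RR * X.card) X hext hw _ hin
    simp only at this
    omega
  · intro lam hl x0 hx0
    have hn0 : (0 : ℝ) < (Q.D : ℝ) * (Q.m : ℝ) := by
      have h1 : (0 : ℝ) < Q.D := by exact_mod_cast Q.hD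
      have h2 : (0 : ℝ) < Q.m := by exact_mod_cast Q.m_pos
      positivity
    have hnn : (Q.n : ℝ) = (Q.D : ℝ) * (Q.m : ℝ) := by
      unfold Sq.n
      push_cast
      ring
    have hcore := (tcl_core Q hg X (RR * X.card) Q.D Q.hD hext lam (fun d y => elift (etaE Q.n v) y d / α) (8 * C0 / α) hK
      (fun z hz y d hy hy' => tcl_lift_rel Q α v H1 X lam hl y d
        (tcl_inRect_mono Q hH1 X _ (tcl_region Q hm 2 X z hz y hy)) (tcl_inRect_mono Q hH1 X _ (tcl_region Q hm 2 X z hz _ hy')))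
      (fun z hz r hr b d => by
        rw [tcl_difs_div, abs_div, abs_of_pos hα]
        have h1 := hdec r (by omega) b z d
        have hfar := tcl_wall_far Q _ hT z
          (tcl_wall_strip Q H0 H1 (RR * X.card) X hext hw _ (tcl_inRect_mono Q (by omega : 2 ≤ H1) X _ hz))
        rw [hnn] at hfar
        have h2 := tcl_far_arith _ _ hn0 hfar r hr
        have h3 : C0 * ((1 + cdist Q.n (Q.G.ι z)) ^ (1 + r))⁻¹ ≤ C0 * (8 * (((Q.D : ℝ) * (Q.m : ℝ)) ^ (1 + r))⁻¹) :=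
          mul_le_mul_of_nonneg_left h2 hC0
        rw [div_le_iff₀ hα]
        refine (h1.trans h3).trans (le_of_eq ?_)
        field_simp)).1 x0 hx0
    refine hcore.trans ?_
    have hD0 : (0 : ℝ) < Q.D := by exact_mod_cast Q.hD
    refine div_le_div_of_nonneg_right ?_ hD0.le
    have hk0 : (0 : ℝ) ≤ X.card := Nat.cast_nonneg _
    have hR0 : (0 : ℝ) ≤ (RR : ℝ) := Nat.cast_nonneg _
    have h5 : 2 * ((RR * X.card : ℕ) : ℝ) + 12 ≤ (2 * (RR : ℝ) + 12) * (1 + X.card) := by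
      push_cast
      nlinarith
    calc 2 * (8 * C0 / α) * (2 * ((RR * X.card : ℕ) : ℝ) + 12)
        ≤ 2 * (8 * C0 / α) * ((2 * (RR : ℝ) + 12) * (1 + X.card)) := mul_le_mul_of_nonneg_left h5 (by positivity)
      _ = 2 * (8 * C0 / α) * (2 * (RR : ℝ) + 12) * (1 + X.card) := by ring

/-! ## 7. Class `ℭ` (`L-OBS-TC6`) -/

theorem tcl_difs_tr {r : ℕ} (a : Fin r → Fin 4) (F : ℤ × ℤ → ℝ) (s : ℤ × ℤ) :
    ∀ x, difs a (fun y => F (y + s)) x = difs a F (x + s) := by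
  induction r with
  | zero =>
    intro x
    rw [tcl_difs_nil, tcl_difs_nil]
  | succ r ih =>
    intro x
    have ha : a = Fin.cons (a 0) (Fin.tail a) := (Fin.cons_self_tail a).symm
    rw [ha, Reg.reg_difs_cons, Reg.reg_difs_cons]
    unfold dif
    rw [ih, ih, add_right_comm]

theorem tcl_difs_sub {r : ℕ} (a : Fin r → Fin 4) (f g : ℤ × ℤ → ℝ) (x : ℤ × ℤ) :
    difs a (fun y => f y - g y) x = difs a f x - difs a g x := by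
  have e : (fun y => f y - g y) = f + (-1 : ℝ) • g := by
    funext y
    simp [sub_eq_add_neg]
  rw [e, Reg.reg_difs_add, Reg.reg_difs_smul]
  simp [sub_eq_add_neg]

section pair

variable (P : SqPair)

theorem tcl_pair_m : P.Q1.m = P.Q0.m := by
  unfold Sq.m
  rw [P.hr, P.hs]

/-- the shift of the centred embedding -/
def tclS : ℤ × ℤ := (((P.Q1.n - P.Q0.n : ℕ) : ℤ), ((P.Q1.n - P.Q0.n : ℕ) : ℤ))

theorem tcl_iota_eV (x : P.Q0.G.V) : P.Q1.G.ι (P.eV x) = P.Q0.G.ι x + tclS P := by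
  simp [Geom.ι, SqPair.eV, tclS]

theorem tcl_iota_inj {G : Geom} {x y : G.V} (h : G.ι x = G.ι y) : x = y := by
  rw [← Reg.reg_pi_iota G x, h, Reg.reg_pi_iota]

theorem tcl_eV_inj : Function.Injective P.eV := by
  intro x y h
  have h1 := tcl_iota_eV P x
  rw [h, tcl_iota_eV] at h1
  exact (tcl_iota_inj (add_right_cancel h1)).symm

open Classical in
/-- the relative background, `0` outside the image of the smaller square -/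
def tclDl (α : ℝ) (v0 : P.Q0.G.V → ℝ) (v1 : P.Q1.G.V → ℝ) (y : P.Q1.G.V) : ℝ :=
  if h : ∃ x, P.eV x = y then (v1 y - v0 h.choose) / α else 0

theorem tcl_Dl_eV (α : ℝ) (v0 : P.Q0.G.V → ℝ) (v1 : P.Q1.G.V → ℝ) (x : P.Q0.G.V) :
    tclDl P α v0 v1 (P.eV x) = (v1 (P.eV x) - v0 x) / α := by
  unfold tclDl
  have h : ∃ x', P.eV x' = P.eV x := ⟨x, rfl⟩
  rw [dif_pos h, tcl_eV_inj P h.choose_spec]

theorem tcl_tauE (x : P.Q0.G.V) (d : Bool) : tauE P.Q1.n (P.eV x, d) = tauE P.Q0.n (x, d) := by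
  have hn := P.n_le
  unfold tauE
  refine if_congr ?_ rfl rfl
  show (d = false ∧ (x.2 : ℕ) + (P.Q1.n - P.Q0.n) + 1 = P.Q1.n ∧ P.Q1.n ≤ (x.1 : ℕ) + (P.Q1.n - P.Q0.n)) ↔
    (d = false ∧ (x.2 : ℕ) + 1 = P.Q0.n ∧ P.Q0.n ≤ (x.1 : ℕ))
  constructor <;> rintro ⟨h1, h2, h3⟩ <;> refine ⟨h1, ?_, ?_⟩ <;> omega

/-- `∇Δ = (η₁ ∘ e - η₀) / α` on the bonds of the smaller square -/
theorem tcl_pair_rel (α : ℝ) (v0 : P.Q0.G.V → ℝ) (v1 : P.Q1.G.V → ℝ) (x x' : P.Q0.G.V) (d : Bool)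
    (hx' : P.Q0.G.ι x' = P.Q0.G.ι x + bdir d) :
    tclDl P α v0 v1 (P.eV x') - tclDl P α v0 v1 (P.eV x) =
      (elift (etaE P.Q1.n v1) (P.Q1.G.ι (P.eV x)) d - elift (etaE P.Q0.n v0) (P.Q0.G.ι x) d) / α := by
  have s0 : stp x d = x' := by
    unfold stp
    rw [← hx', Reg.reg_pi_iota]
  have s1 : stp (P.eV x) d = P.eV x' := by
    unfold stp
    rw [tcl_iota_eV, add_right_comm, ← hx', ← tcl_iota_eV, Reg.reg_pi_iota]
  have ne0 : x' ≠ x := by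
    intro h
    rw [h] at hx'
    have h2 : bdir d = 0 := by simpa using hx'.symm
    cases d <;> simp [bdir] at h2
  have ne1 : P.eV x' ≠ P.eV x := fun h => ne0 (tcl_eV_inj P h)
  rw [tcl_elift_fwd, tcl_elift_fwd, s0, s1, if_neg ne0, if_neg ne1, tcl_Dl_eV, tcl_Dl_eV]
  unfold etaE
  simp only
  rw [s0, s1, tcl_tauE]
  ring

theorem tcl_pair_pre (y : ℤ × ℤ) (h1 : (tclS P).1 ≤ y.1) (h2 : y.1 < (tclS P).1 + 2 * P.Q0.n) (h3 : (tclS P).2 ≤ y.2)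
    (h4 : y.2 < (tclS P).2 + 2 * P.Q0.n) : ∃ x : P.Q0.G.V, P.Q0.G.ι x + tclS P = y := by
  have hM : P.Q0.G.M = 2 * P.Q0.n := rfl
  refine ⟨(⟨(y.1 - (tclS P).1).toNat, by omega⟩, ⟨(y.2 - (tclS P).2).toNat, by omega⟩), ?_⟩
  apply Prod.ext
  · show (((y.1 - (tclS P).1).toNat : ℕ) : ℤ) + (tclS P).1 = y.1
    omega
  · show (((y.2 - (tclS P).2).toNat : ℕ) : ℤ) + (tclS P).2 = y.2
    omega

/-- the padded rectangle of a defect lies near the centre -/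
theorem tcl_pair_center (H1 L : ℕ) (X : Finset P.Q0.g.I)
    (hext : ∀ a ∈ X, ∀ b ∈ X, (b.1 : ℕ) ≤ (a.1 : ℕ) + L ∧ (b.2 : ℕ) ≤ (a.2 : ℕ) + L) (hd : ¬ P.Q0.ShiftGood H1 X) (c : ℕ × ℕ)
    (hc : P.Q1.InRect 2 (X.image P.eI) c) :
    c.1 ≤ P.Q1.D + (H1 + L + 2) ∧ P.Q1.D ≤ c.1 + (H1 + L + 2) ∧ c.2 ≤ P.Q1.D + (H1 + L + 2) ∧ P.Q1.D ≤ c.2 + (H1 + L + 2) := by
  have hD := P.hD
  unfold Sq.ShiftGood at hd
  rw [not_not] at hd
  obtain ⟨⟨a1, h1, e1⟩, ⟨a2, h2, e2⟩, ⟨a3, h3, e3⟩, ⟨a4, h4, e4⟩⟩ := hd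
  obtain ⟨⟨b1', k1, f1⟩, ⟨b2', k2, f2⟩, ⟨b3', k3, f3⟩, ⟨b4', k4, f4⟩⟩ := hc
  obtain ⟨b1, m1, rfl⟩ := Finset.mem_image.1 k1
  obtain ⟨b2, m2, rfl⟩ := Finset.mem_image.1 k2
  obtain ⟨b3, m3, rfl⟩ := Finset.mem_image.1 k3
  obtain ⟨b4, m4, rfl⟩ := Finset.mem_image.1 k4
  have v1 : ((P.eI b1).1 : ℕ) = (b1.1 : ℕ) + (P.Q1.D - P.Q0.D) := rfl
  have v2 : ((P.eI b2).1 : ℕ) = (b2.1 : ℕ) + (P.Q1.D - P.Q0.D) := rfl
  have v3 : ((P.eI b3).2 : ℕ) = (b3.2 : ℕ) + (P.Q1.D - P.Q0.D) := rfl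
  have v4 : ((P.eI b4).2 : ℕ) = (b4.2 : ℕ) + (P.Q1.D - P.Q0.D) := rfl
  simp only at e1 e2 e3 e4
  have g1 := (hext a1 h1 b2 m2).1
  have g2 := (hext b1 m1 a2 h2).1
  have g3 := (hext a3 h3 b4 m4).2
  have g4 := (hext b3 m3 a4 h4).2
  omega

/-- from block indices to sites -/
theorem tcl_center_site (Q : Sq) (T u : ℕ) (h1 : u / Q.m ≤ Q.D + T) (h2 : Q.D ≤ u / Q.m + T) :
    Q.n ≤ u + (T + 1) * Q.m ∧ u < Q.n + (T + 1) * Q.m := by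
  have hn : Q.n = Q.D * Q.m := rfl
  have a1 : u < (u / Q.m + 1) * Q.m := by
    have := Nat.lt_mul_div_succ u Q.m_pos
    rwa [Nat.mul_comm] at this
  have a2 : u / Q.m * Q.m ≤ u := Nat.div_mul_le_self u Q.m
  have a3 : (u / Q.m + 1) * Q.m ≤ (Q.D + T + 1) * Q.m := Nat.mul_le_mul_right _ (by omega)
  have a4 : Q.D * Q.m ≤ (u / Q.m + T) * Q.m := Nat.mul_le_mul_right _ h2
  have a5 : (Q.D + T + 1) * Q.m = Q.D * Q.m + (T + 1) * Q.m := by ring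
  have a6 : (u / Q.m + T) * Q.m = u / Q.m * Q.m + T * Q.m := by ring
  have a7 : (T + 1) * Q.m = T * Q.m + Q.m := by ring
  rw [hn]
  omega

/-- near the centre the larger square is covered by the embedding -/
theorem tcl_pair_window (W : ℕ) (hW : W + 2 ≤ P.Q0.n) (z : P.Q1.G.V) (h1 : P.Q1.n ≤ (z.1 : ℕ) + W) (h2 : (z.1 : ℕ) < P.Q1.n + W)
    (h3 : P.Q1.n ≤ (z.2 : ℕ) + W) (h4 : (z.2 : ℕ) < P.Q1.n + W) (y : ℤ × ℤ) (hy : tclNear y (P.Q1.G.ι z)) :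
    ∃ x : P.Q0.G.V, P.Q0.G.ι x + tclS P = y := by
  have hn := P.n_le
  unfold tclNear at hy
  have e1 : (P.Q1.G.ι z).1 = ((z.1 : ℕ) : ℤ) := rfl
  have e2 : (P.Q1.G.ι z).2 = ((z.2 : ℕ) : ℤ) := rfl
  have s1 : (tclS P).1 = ((P.Q1.n - P.Q0.n : ℕ) : ℤ) := rfl
  have s2 : (tclS P).2 = ((P.Q1.n - P.Q0.n : ℕ) : ℤ) := rfl
  rw [e1, e2] at hy
  refine tcl_pair_pre P y ?_ ?_ ?_ ?_
  · rw [s1]; omega
  · rw [s1]; omega
  · rw [s2]; omega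
  · rw [s2]; omega

theorem tcl_cdist_le (Q : Sq) (W : ℕ) (z : Q.G.V) (h1 : Q.n ≤ (z.1 : ℕ) + W) (h2 : (z.1 : ℕ) < Q.n + W)
    (h3 : Q.n ≤ (z.2 : ℕ) + W) (h4 : (z.2 : ℕ) < Q.n + W) : cdist Q.n (Q.G.ι z) ≤ W := by
  unfold cdist
  have e1 : (((Q.G.ι z).1 : ℤ) : ℝ) = ((z.1 : ℕ) : ℝ) := by simp [Geom.ι]
  have e2 : (((Q.G.ι z).2 : ℤ) : ℝ) = ((z.2 : ℕ) : ℝ) := by simp [Geom.ι]
  rw [e1, e2]
  have r1 : (Q.n : ℝ) ≤ ((z.1 : ℕ) : ℝ) + W := by exact_mod_cast h1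
  have r2 : ((z.1 : ℕ) : ℝ) ≤ (Q.n : ℝ) + W := by exact_mod_cast h2.le
  have r3 : (Q.n : ℝ) ≤ ((z.2 : ℕ) : ℝ) + W := by exact_mod_cast h3
  have r4 : ((z.2 : ℕ) : ℝ) ≤ (Q.n : ℝ) + W := by exact_mod_cast h4.le
  refine max_le ?_ ?_ <;> rw [abs_le] <;> constructor <;> linarith

theorem tcl_cdist_eV (x : P.Q0.G.V) : cdist P.Q1.n (P.Q1.G.ι (P.eV x)) = cdist P.Q0.n (P.Q0.G.ι x) := by
  have hn := P.n_le
  unfold cdist
  have e1 : (((P.Q1.G.ι (P.eV x)).1 : ℤ) : ℝ) = ((x.1 : ℕ) : ℝ) + ((P.Q1.n : ℝ) - P.Q0.n) := by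
    rw [tcl_iota_eV]
    simp [Geom.ι, tclS, Nat.cast_sub hn]
  have e2 : (((P.Q1.G.ι (P.eV x)).2 : ℤ) : ℝ) = ((x.2 : ℕ) : ℝ) + ((P.Q1.n : ℝ) - P.Q0.n) := by
    rw [tcl_iota_eV]
    simp [Geom.ι, tclS, Nat.cast_sub hn]
  have e3 : (((P.Q0.G.ι x).1 : ℤ) : ℝ) = ((x.1 : ℕ) : ℝ) := by simp [Geom.ι]
  have e4 : (((P.Q0.G.ι x).2 : ℤ) : ℝ) = ((x.2 : ℕ) : ℝ) := by simp [Geom.ι]
  rw [e1, e2, e3, e4]
  congr 2 <;> ring

/-- both unit fields are compared with the plane field -/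
theorem tcl_pair_bound (α C0 c0 : ℝ) (hα : 0 < α) (hC0 : 0 ≤ C0) (hc0 : 0 ≤ c0) (ηP : ℤ × ℤ → Bool → ℝ) (v0 : P.Q0.G.V → ℝ)
    (v1 : P.Q1.G.V → ℝ)
    (hp0 : ∀ r ≤ 4, ∀ (a : Fin r → Fin 4) (w : P.Q0.G.V) (d : Bool), cdist P.Q0.n (P.Q0.G.ι w) ≤ c0 * P.Q0.n →
      |difs a (fun x' => elift (etaE P.Q0.n v0) x' d - ηP (x' - ((P.Q0.n : ℤ), (P.Q0.n : ℤ))) d) (P.Q0.G.ι w)|
        ≤ C0 * ((P.Q0.n : ℝ) ^ (1 + r))⁻¹)
    (hp1 : ∀ r ≤ 4, ∀ (a : Fin r → Fin 4) (w : P.Q1.G.V) (d : Bool), cdist P.Q1.n (P.Q1.G.ι w) ≤ c0 * P.Q1.n →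
      |difs a (fun x' => elift (etaE P.Q1.n v1) x' d - ηP (x' - ((P.Q1.n : ℤ), (P.Q1.n : ℤ))) d) (P.Q1.G.ι w)|
        ≤ C0 * ((P.Q1.n : ℝ) ^ (1 + r))⁻¹)
    (z0 : P.Q0.G.V) (hz : cdist P.Q0.n (P.Q0.G.ι z0) ≤ c0 * P.Q0.n) (r : ℕ) (hr : r ≤ 4) (a : Fin r → Fin 4) (d : Bool) :
    |difs a (fun y => (elift (etaE P.Q1.n v1) y d - elift (etaE P.Q0.n v0) (y - tclS P) d) / α) (P.Q1.G.ι (P.eV z0))|
      ≤ 2 * C0 / α * ((P.Q0.n : ℝ) ^ (1 + r))⁻¹ := by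
  have hn := P.n_le
  have hn0 : (0 : ℝ) < P.Q0.n := by exact_mod_cast P.Q0.n_pos
  have hn01 : (P.Q0.n : ℝ) ≤ P.Q1.n := by exact_mod_cast hn
  obtain ⟨f0, hf0⟩ : ∃ f0 : ℤ × ℤ → ℝ, f0 = fun x' => elift (etaE P.Q0.n v0) x' d - ηP (x' - ((P.Q0.n : ℤ), (P.Q0.n : ℤ))) d :=
    ⟨_, rfl⟩
  obtain ⟨f1, hf1⟩ : ∃ f1 : ℤ × ℤ → ℝ, f1 = fun x' => elift (etaE P.Q1.n v1) x' d - ηP (x' - ((P.Q1.n : ℤ), (P.Q1.n : ℤ))) d :=
    ⟨_, rfl⟩
  have e : (fun y => (elift (etaE P.Q1.n v1) y d - elift (etaE P.Q0.n v0) (y - tclS P) d) / α) =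
      fun y => (f1 y - (fun y => f0 (y + -tclS P)) y) / α := by
    funext y
    have e1 : y + -tclS P - ((P.Q0.n : ℤ), (P.Q0.n : ℤ)) = y - ((P.Q1.n : ℤ), (P.Q1.n : ℤ)) := by
      apply Prod.ext
      · simp only [tclS, Prod.fst_sub, Prod.fst_add, Prod.fst_neg]
        omega
      · simp only [tclS, Prod.snd_sub, Prod.snd_add, Prod.snd_neg]
        omega
    rw [hf0, hf1]
    simp only
    rw [e1, sub_eq_add_neg y (tclS P)]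
    ring
  rw [e, tcl_difs_div, tcl_difs_sub, tcl_difs_tr a f0 (-tclS P)]
  have e2 : P.Q1.G.ι (P.eV z0) + -tclS P = P.Q0.G.ι z0 := by
    rw [tcl_iota_eV]
    simp
  rw [e2, abs_div, abs_of_pos hα]
  have b1 := hp1 r hr a (P.eV z0) d (by
    rw [tcl_cdist_eV]
    exact hz.trans (mul_le_mul_of_nonneg_left hn01 hc0))
  have b0 := hp0 r hr a z0 d hz
  rw [← hf1] at b1
  rw [← hf0] at b0
  have i1 : ((P.Q1.n : ℝ) ^ (1 + r))⁻¹ ≤ ((P.Q0.n : ℝ) ^ (1 + r))⁻¹ :=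
    inv_anti₀ (by positivity) (pow_le_pow_left₀ hn0.le hn01 _)
  have b1' := b1.trans (mul_le_mul_of_nonneg_left i1 hC0)
  rw [div_le_iff₀ hα]
  refine (abs_sub _ _).trans ((add_le_add b1' b0).trans (le_of_eq ?_))
  field_simp
  ring

end pair

/-- **class `ℭ`**, with the comparison of the two unit fields with the plane field as a hypothesis -/
theorem tcl_pair_background (a : ℝ) (ha : 0 < a) (H1 : ℕ) (C0 c0 : ℝ) (hC0 : 0 ≤ C0) (hc0 : 0 < c0) (hc1 : c0 ≤ 1)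
    (ηP : ℤ × ℤ → Bool → ℝ) :
    ∃ (C Ctr : ℝ) (N0 D1 : ℕ), 0 ≤ C ∧ 0 ≤ Ctr ∧ ∀ P : SqPair, P.Q1.g.Ok → 2 ≤ P.Q0.m → D1 ≤ P.Q0.D →
    ∀ (v0 : P.Q0.G.V → ℝ) (v1 : P.Q1.G.V → ℝ),
    (∀ r ≤ 4, ∀ (a : Fin r → Fin 4) (w : P.Q0.G.V) (d : Bool), cdist P.Q0.n (P.Q0.G.ι w) ≤ c0 * P.Q0.n →
      |difs a (fun x' => elift (etaE P.Q0.n v0) x' d - ηP (x' - ((P.Q0.n : ℤ), (P.Q0.n : ℤ))) d) (P.Q0.G.ι w)|
        ≤ C0 * ((P.Q0.n : ℝ) ^ (1 + r))⁻¹) →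
    (∀ r ≤ 4, ∀ (a : Fin r → Fin 4) (w : P.Q1.G.V) (d : Bool), cdist P.Q1.n (P.Q1.G.ι w) ≤ c0 * P.Q1.n →
      |difs a (fun x' => elift (etaE P.Q1.n v1) x' d - ηP (x' - ((P.Q1.n : ℤ), (P.Q1.n : ℤ))) d) (P.Q1.G.ι w)|
        ≤ C0 * ((P.Q1.n : ℝ) ^ (1 + r))⁻¹) →
    ∃ Dl : P.Q1.G.V → ℝ, (∀ x, Dl (P.eV x) = (v1 (P.eV x) - v0 x) / Real.sqrt a) ∧
      ∀ N ≥ N0, ∀ X : Finset P.Q0.g.I, P.Q0.g.Conn RR X → ¬ P.Q0.ShiftGood H1 X → N * X.card ≤ P.Q0.D →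
        (∀ δ : ℝ, 0 ≤ δ → δ ≤ 1 → U P.Q1.g δ (X.image P.eI) (-Dl) + bondE (P.Q1.g.Dm (X.image P.eI)) (-Dl) ≤ Ctr * X.card) ∧
        ∀ x0 ∈ P.Q1.g.Dm (X.image P.eI), (anorm P.Q1.g (X.image P.eI) x0 Dl : ℝ) ≤ C * (1 + X.card) / P.Q0.D := by
  have hα : 0 < Real.sqrt a := Real.sqrt_pos.2 ha
  obtain ⟨α, hαe⟩ : ∃ α, α = Real.sqrt a := ⟨_, rfl⟩
  rw [← hαe] at hα ⊢
  have hK : 0 ≤ 2 * C0 / α := by positivity
  refine ⟨2 * (2 * C0 / α) * (2 * RR + 12), 11300 * (2 * C0 / α) ^ 2, ⌈2 * (RR : ℝ) / c0⌉₊, ⌈2 * ((H1 : ℝ) + 4) / c0⌉₊,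
    by positivity, by positivity, ?_⟩
  intro P hg hm hD v0 v1 hp0 hp1
  refine ⟨tclDl P α v0 v1, tcl_Dl_eV P α v0 v1, ?_⟩
  intro N hN X hX hd hNk
  have hext := tcl_extent P.Q0 RR X hX
  have hk0 : (0 : ℝ) ≤ X.card := Nat.cast_nonneg _
  have hD0 : (0 : ℝ) < P.Q0.D := by exact_mod_cast P.Q0.hD
  have hreal : (H1 : ℝ) + RR * X.card + 4 ≤ c0 * P.Q0.D := by
    have h1 : 2 * (RR : ℝ) / c0 ≤ N := (Nat.le_ceil _).trans (by exact_mod_cast hN)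
    have h2 : 2 * ((H1 : ℝ) + 4) / c0 ≤ P.Q0.D := (Nat.le_ceil _).trans (by exact_mod_cast hD)
    rw [div_le_iff₀ hc0] at h1 h2
    have h3 : (N : ℝ) * X.card ≤ P.Q0.D := by exact_mod_cast hNk
    have h4 : 2 * (RR : ℝ) * X.card ≤ N * c0 * X.card := mul_le_mul_of_nonneg_right h1 hk0
    have h5 : c0 * ((N : ℝ) * X.card) ≤ c0 * P.Q0.D := mul_le_mul_of_nonneg_left h3 hc0.le
    nlinarith
  have hnat : H1 + RR * X.card + 4 ≤ P.Q0.D := by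
    have h1 : (H1 : ℝ) + RR * X.card + 4 ≤ P.Q0.D := hreal.trans (by nlinarith)
    exact_mod_cast h1
  have hmm := tcl_pair_m P
  obtain ⟨T, hT⟩ : ∃ T, T = H1 + RR * X.card + 2 := ⟨_, rfl⟩
  obtain ⟨W, hWe⟩ : ∃ W, W = (T + 1) * P.Q1.m := ⟨_, rfl⟩
  have hn0e : P.Q0.n = P.Q0.D * P.Q1.m := by rw [hmm]; rfl
  have hW : W + 2 ≤ P.Q0.n := by
    have h1 : (T + 2) * P.Q1.m ≤ P.Q0.D * P.Q1.m := Nat.mul_le_mul_right _ (by omega)
    have h2 : (T + 2) * P.Q1.m = (T + 1) * P.Q1.m + P.Q1.m := by ring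
    rw [hn0e, hWe]
    omega
  have hm0 : (0 : ℝ) ≤ (P.Q1.m : ℝ) := Nat.cast_nonneg _
  have hn0r : (P.Q0.n : ℝ) = (P.Q0.D : ℝ) * (P.Q1.m : ℝ) := by rw [hn0e]; push_cast; ring
  have hWr : (W : ℝ) ≤ c0 * P.Q0.n := by
    rw [hWe, hn0r, hT]
    push_cast
    have : ((H1 : ℝ) + RR * X.card + 2 + 1) * (P.Q1.m : ℝ) ≤ c0 * P.Q0.D * (P.Q1.m : ℝ) :=
      mul_le_mul_of_nonneg_right (by linarith) hm0
    linarith
  have hwin : ∀ z : P.Q1.G.V, P.Q1.InRect 2 (X.image P.eI) (((P.Q1.g.blk z).1 : ℕ), ((P.Q1.g.blk z).2 : ℕ)) →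
      P.Q1.n ≤ (z.1 : ℕ) + W ∧ (z.1 : ℕ) < P.Q1.n + W ∧ P.Q1.n ≤ (z.2 : ℕ) + W ∧ (z.2 : ℕ) < P.Q1.n + W := by
    intro z hz
    obtain ⟨c1, c2, c3, c4⟩ := tcl_pair_center P H1 (RR * X.card) X hext hd _ hz
    rw [← hT] at c1 c2 c3 c4
    obtain ⟨a1, a2⟩ := tcl_center_site P.Q1 T z.1 c1 c2
    obtain ⟨a3, a4⟩ := tcl_center_site P.Q1 T z.2 c3 c4
    rw [hWe]
    exact ⟨a1, a2, a3, a4⟩
  have hext' : ∀ a ∈ X.image P.eI, ∀ b ∈ X.image P.eI,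
      (b.1 : ℕ) ≤ (a.1 : ℕ) + RR * X.card ∧ (b.2 : ℕ) ≤ (a.2 : ℕ) + RR * X.card := by
    intro a ha b hb
    obtain ⟨a, ha', rfl⟩ := Finset.mem_image.1 ha
    obtain ⟨b, hb', rfl⟩ := Finset.mem_image.1 hb
    obtain ⟨h1, h2⟩ := hext a ha' b hb'
    constructor
    · show (b.1 : ℕ) + (P.Q1.D - P.Q0.D) ≤ (a.1 : ℕ) + (P.Q1.D - P.Q0.D) + RR * X.card
      omega
    · show (b.2 : ℕ) + (P.Q1.D - P.Q0.D) ≤ (a.2 : ℕ) + (P.Q1.D - P.Q0.D) + RR * X.card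
      omega
  have hcore := tcl_core P.Q1 hg (X.image P.eI) (RR * X.card) P.Q0.D P.Q0.hD hext' (tclDl P α v0 v1)
    (fun d y => (elift (etaE P.Q1.n v1) y d - elift (etaE P.Q0.n v0) (y - tclS P) d) / α) (2 * C0 / α) hK
    (by
      intro z hz y d hy hy'
      obtain ⟨w1, w2, w3, w4⟩ := hwin z hz
      obtain ⟨x, hx⟩ := tcl_pair_window P W hW z w1 w2 w3 w4 y hy
      obtain ⟨x', hx'⟩ := tcl_pair_window P W hW z w1 w2 w3 w4 _ hy'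
      have hxx : P.Q0.G.ι x' = P.Q0.G.ι x + bdir d := by
        have h1 : P.Q0.G.ι x' + tclS P = P.Q0.G.ι x + bdir d + tclS P := by rw [hx', add_right_comm, hx]
        exact add_right_cancel h1
      have ey : P.Q1.G.ι (P.eV x) = y := by rw [tcl_iota_eV, hx]
      have ey' : P.Q1.G.ι (P.eV x') = y + bdir d := by rw [tcl_iota_eV, hx']
      have h := tcl_pair_rel P α v0 v1 x x' d hxx
      have e3 : y - tclS P = P.Q0.G.ι x := by rw [← hx]; simp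
      show tclDl P α v0 v1 (P.Q1.G.π (y + bdir d)) - tclDl P α v0 v1 (P.Q1.G.π y) = _
      rw [← ey', Reg.reg_pi_iota, ← ey, Reg.reg_pi_iota, h]
      rw [ey, e3])
    (by
      intro z hz r hr b d
      obtain ⟨w1, w2, w3, w4⟩ := hwin z hz
      obtain ⟨z0, hz0⟩ := tcl_pair_window P W hW z w1 w2 w3 w4 (P.Q1.G.ι z) (tcl_near_self _)
      have ez : z = P.eV z0 := tcl_iota_inj (by rw [tcl_iota_eV, hz0])
      have hcd : cdist P.Q0.n (P.Q0.G.ι z0) ≤ c0 * P.Q0.n := by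
        rw [← tcl_cdist_eV, ← ez]
        exact (tcl_cdist_le P.Q1 W z w1 w2 w3 w4).trans hWr
      have h := tcl_pair_bound P α C0 c0 hα hC0 hc0.le ηP v0 v1 hp0 hp1 z0 hcd r (by omega) b d
      rw [hn0r, ← ez] at h
      exact h)
  constructor
  · intro δ _ hδ1
    refine (hcore.2 δ hδ1).trans (mul_le_mul_of_nonneg_left ?_ (by positivity))
    exact_mod_cast Finset.card_image_le
  · intro x0 hx0
    refine (hcore.1 x0 hx0).trans ?_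
    refine div_le_div_of_nonneg_right ?_ hD0.le
    have hR0 : (0 : ℝ) ≤ (RR : ℝ) := Nat.cast_nonneg _
    have h5 : 2 * ((RR * X.card : ℕ) : ℝ) + 12 ≤ (2 * (RR : ℝ) + 12) * (1 + X.card) := by
      push_cast
      nlinarith
    calc 2 * (2 * C0 / α) * (2 * ((RR * X.card : ℕ) : ℝ) + 12)
        ≤ 2 * (2 * C0 / α) * ((2 * (RR : ℝ) + 12) * (1 + X.card)) := mul_le_mul_of_nonneg_left h5 (by positivity)
      _ = 2 * (2 * C0 / α) * (2 * (RR : ℝ) + 12) * (1 + X.card) := by ring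

end

end Claimed.Agent.R285.Obs
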