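import Claimed.Agent.R285.Obs.PairDefs
import Claimed.Agent.R285.Obs.TermCL
import Claimed.Agent.R285.Obs.PairGeo

/-!
# ROW 285, unit OBS, BP-OBS-L62, block REG-T: translated regulators, lifts, mean value      (architect helper49)   -- KEEP

Generic analytic facts behind the estimates (D), (J), (S) of [F] L6.2 (`Obs/Defs.lean`, plan s6).  Nothing here knows the paired map.  Prefix `prt_`.

## 1. Translated regulators ([F] l.470-485, [B] (9.14), (9.16))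
`prt_U_add_le`, `prt_vobsD_scale`, `prt_vobsD_mono_par`, `prt_vobs_shift`: `(1 + ε) V_o = V_{((1+ε) h_*, p₁/(1+ε))} ≤ V_{o'}`: "a fixed increase of `h_*` absorbs the cross term".
`prt_wt_shift`: `Wt_{κ, o} (X, φ + λ) ≤ e^{C |X|} Wt_{κ', o'} (X, φ)` for a background with `U (λ) + bondE (λ) ≤ Ctr |X|`.
`prt_fnSize_shift`, `prt_act_shift`: the translated activity in the weaker norm (`A' e^C ≤ A`).

## 2. `prt_std_sq`: TRANSPORT PRINCIPLE: a statement `P G g` proved for all aligned squares `(Q.G, Q.g)`, `Q : Sq`, holds for every `(G, g)` with `G` free, `Std g`, `2 ∣ g.n` (so all `tcl_*`, `tc_*` lemmas can be reused for `lev G ℓ j`).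
## 3. `CoClG`, `IsLiftR`, `liftOf` (`λ_X = v/α + ω κ_X`), `prt_lift_of_gauge`, `prt_gaugeOf`, `prt_liftOf`, `prt_eta_unique`, `EtaB`, `prt_eta_ok` ([F] L4.2 for every co-closed branch, `vinf` exposed).
## 4. `prt_lift_energy` (R2-geo): `U (λ) + bondE (λ) ≤ Ctr |X|` on EVERY shift-good support, walls included.
## 5. EXITS: `NormLe` (the two norms), `prt_obsLe`, `prt_normLe` (the norms of `Obs/PairTop.lean`), `prt_R3_fn`, `prt_R3`, `prt_R2`, `prt_R2_act`.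
-/

set_option autoImplicit false

namespace Claimed.Agent.R285.F6.Pr

open scoped BigOperators ENNReal NNReal
open MeasureTheory
open Claimed.Agent.R285 Claimed.Agent.R285.RG Claimed.Agent.R285.B4 Claimed.Agent.R285.F4a Claimed.Agent.R285.Obs Claimed.Agent.R285.Entry

noncomputable section

variable {G : Geom}

/-! ## 1. Translated regulators -/

theorem prt_sq_add_le (ε : ℝ) (hε : 0 < ε) (x y : ℝ) : (x + y) ^ 2 ≤ (1 + ε) * x ^ 2 + (1 + ε⁻¹) * y ^ 2 := by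
  have h : 0 ≤ (ε * x - y) ^ 2 * ε⁻¹ := by positivity
  have e : (ε * x - y) ^ 2 * ε⁻¹ = ε * x ^ 2 - 2 * x * y + ε⁻¹ * y ^ 2 := by
    field_simp
    ring
  nlinarith

theorem prt_gE_add_le (D : Finset G.V) (ε : ℝ) (hε : 0 < ε) (φ ζ : G.V → ℝ) :
    gE G D (φ + ζ) ≤ (1 + ε) * gE G D φ + (1 + ε⁻¹) * gE G D ζ := by
  simp only [Reg.reg_gE_eq, Pi.add_apply]
  have h : ∑ v ∈ D, ∑ e : Fin 4, (φ (Reg.regNb G v e) + ζ (Reg.regNb G v e) - (φ v + ζ v)) ^ 2
      ≤ (1 + ε) * ∑ v ∈ D, ∑ e : Fin 4, (φ (Reg.regNb G v e) - φ v) ^ 2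
        + (1 + ε⁻¹) * ∑ v ∈ D, ∑ e : Fin 4, (ζ (Reg.regNb G v e) - ζ v) ^ 2 := by
    simp only [Finset.mul_sum, ← Finset.sum_add_distrib]
    refine Finset.sum_le_sum fun v _ => Finset.sum_le_sum fun e _ => ?_
    have := prt_sq_add_le ε hε (φ (Reg.regNb G v e) - φ v) (ζ (Reg.regNb G v e) - ζ v)
    have e' : φ (Reg.regNb G v e) + ζ (Reg.regNb G v e) - (φ v + ζ v) = (φ (Reg.regNb G v e) - φ v) + (ζ (Reg.regNb G v e) - ζ v) := by ring
    rw [e']
    exact this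
  nlinarith

theorem prt_PE_add_le (m : ℕ) (D : Finset G.V) (ε : ℝ) (hε : 0 < ε) (φ ζ : G.V → ℝ) :
    PE G m D (φ + ζ) ≤ (1 + ε) * PE G m D φ + (1 + ε⁻¹) * PE G m D ζ := by
  simp only [Reg.reg_PE_eq]
  have h : Reg.regRaw D (φ + ζ) ≤ (1 + ε) * Reg.regRaw D φ + (1 + ε⁻¹) * Reg.regRaw D ζ := by
    unfold Reg.regRaw
    simp only [Finset.mul_sum, ← Finset.sum_add_distrib, Pi.add_apply]
    refine Finset.sum_le_sum fun v _ => Finset.sum_le_sum fun e _ => ?_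
    split_ifs
    · simp
    · have := prt_sq_add_le ε hε (φ (Reg.regNb G v e) - φ v) (ζ (Reg.regNb G v e) - ζ v)
      have e' : φ (Reg.regNb G v e) + ζ (Reg.regNb G v e) - (φ v + ζ v) = (φ (Reg.regNb G v e) - φ v) + (ζ (Reg.regNb G v e) - ζ v) := by ring
      rw [e']
      exact this
  have hm : (0 : ℝ) ≤ m := Nat.cast_nonneg _
  nlinarith [mul_le_mul_of_nonneg_left h hm]

theorem prt_TE_add_le (g : Grid G) (Y : Finset g.I) (ε : ℝ) (hε : 0 < ε) (φ ζ : G.V → ℝ) :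
    TE g Y (φ + ζ) ≤ (1 + ε) * TE g Y φ + (1 + ε⁻¹) * TE g Y ζ := by
  simp only [Reg.reg_TE_eq, Finset.mul_sum, ← Finset.sum_add_distrib]
  refine Finset.sum_le_sum fun b _ => ?_
  have h0 := Reg.reg_n2_nonneg g b (φ + ζ)
  have h1 := Reg.reg_n2_add g b φ ζ
  have h2 : Reg.regN2 g b (φ + ζ) ^ 2 ≤ (Reg.regN2 g b φ + Reg.regN2 g b ζ) ^ 2 := pow_le_pow_left₀ h0 h1 2
  have h3 := prt_sq_add_le ε hε (Reg.regN2 g b φ) (Reg.regN2 g b ζ)
  have hm : (0 : ℝ) ≤ (g.m : ℝ) ^ 4 := by positivity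
  nlinarith [mul_le_mul_of_nonneg_left (h2.trans h3) hm]

/-- the ordinary regulator exponent is a sum of squares of seminorms -/
theorem prt_U_add_le (g : Grid G) {δ : ℝ} (hδ : 0 ≤ δ) (X : Finset g.I) (ε : ℝ) (hε : 0 < ε) (φ ζ : G.V → ℝ) :
    U g δ X (φ + ζ) ≤ (1 + ε) * U g δ X φ + (1 + ε⁻¹) * U g δ X ζ := by
  unfold U
  have h1 := prt_gE_add_le (g.Dm X) ε hε φ ζ
  have h2 := mul_le_mul_of_nonneg_left (prt_PE_add_le g.m (g.Dm X) ε hε φ ζ) hδ
  have h3 := prt_TE_add_le g (g.collar X) ε hε φ ζ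
  nlinarith

/-- exact scaling in the parameters -/
theorem prt_vobsD_scale (a hs p1 c : ℝ) (hc : 0 < c) (gs : Grid G) (C : Matrix G.V G.V ℝ) (D : Finset G.V) (φ : G.V → ℝ) :
    c * VobsD a hs p1 gs C D φ = VobsD a (c * hs) (p1 / c) gs C D φ := by
  unfold VobsD
  rw [mul_left_comm, Real.mul_iSup_of_nonneg hc.le]
  congr 2
  funext x
  rw [inv_div, div_eq_mul_inv]
  ring

/-- monotonicity in the parameters -/
theorem prt_vobsD_mono_par {a hs p1 hs' p1' : ℝ} (h' : OPar a hs' p1') (hhs : hs ≤ hs') (hp0 : 0 < p1) (hp : p1 ≤ p1') (gs : Grid G)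
    (C : Matrix G.V G.V ℝ) (hC : C.PosSemidef) (hcac : Cac C) (D : Finset G.V) (φ : G.V → ℝ) :
    VobsD a hs p1 gs C D φ ≤ VobsD a hs' p1' gs C D φ := by
  rw [ov_vobsD_def, ov_vobsD_def]
  refine mul_le_mul_of_nonneg_left (ciSup_mono (ov_F_bdd h' gs C hC hcac D φ) fun x => ?_) (by norm_num)
  unfold ovF
  have h1 := obs_openE_nonneg h'.a_pos gs D (fun c => cellAvg gs (fun v => Real.sqrt a * (φ v + C.mulVec x.1 v)) c + x.2 c)
  have h2 : 0 ≤ x.1 ⬝ᵥ C.mulVec x.1 + ∑ c, x.2 c ^ 2 :=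
    add_nonneg (qf_nonneg C hC x.1) (Finset.sum_nonneg fun _ _ => sq_nonneg _)
  have h3 : p1'⁻¹ ≤ p1⁻¹ := inv_anti₀ hp0 hp
  have h4 := mul_le_mul_of_nonneg_right hhs h1
  have h5 := mul_le_mul_of_nonneg_right h3 h2
  linarith

/-- two observation regulators: `o'` is weaker than `o` by the factor `1 + ε` -/
structure ObsLe (ε : ℝ) (o o' : ObsPar) : Prop where
  a_eq : o'.a = o.a
  hs_le : (1 + ε) * o.hstar ≤ o'.hstar
  p1_le : o.p1 ≤ (1 + ε) * o'.p1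

/-- **the translated observation regulator** -/
theorem prt_vobs_shift (ε : ℝ) (hε : 0 < ε) (o o' : ObsPar) (ho : ObsLe ε o o') (gs : Grid G) (C : Matrix G.V G.V ℝ) (hC : C.PosSemidef)
    (hcac : Cac C) (D : Finset G.V) (φ lam : G.V → ℝ) :
    VobsD o.a o.hstar o.p1 gs C D (φ + lam)
      ≤ VobsD o'.a o'.hstar o'.p1 gs C D φ + (1 + ε⁻¹) * ((1 - o.p1 * o.hstar)⁻¹ * o.hstar / 2) * bondE D lam := by
  have h := ta_opar o
  have h' := ta_opar o'
  rw [ho.a_eq] at h' ⊢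
  have h1 := vobsD_add_le h gs C hC hcac D ε hε φ lam
  have h2 := vobsD_le_bondE h gs C hC hcac D lam
  have hε1 : 0 < 1 + ε := by linarith
  have h3 : (1 + ε) * VobsD o.a o.hstar o.p1 gs C D φ ≤ VobsD o.a o'.hstar o'.p1 gs C D φ := by
    rw [prt_vobsD_scale _ _ _ _ hε1]
    refine prt_vobsD_mono_par h' ho.hs_le (div_pos (by linarith [o.one_lt]) hε1) ?_ gs C hC hcac D φ
    rw [div_le_iff₀ hε1, mul_comm]
    exact ho.p1_le
  have h4 : (1 + ε⁻¹) * VobsD o.a o.hstar o.p1 gs C D lam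
      ≤ (1 + ε⁻¹) * ((1 - o.p1 * o.hstar)⁻¹ * o.hstar / 2 * bondE D lam) :=
    mul_le_mul_of_nonneg_left h2 (by positivity)
  calc _ ≤ _ := h1
    _ ≤ _ := add_le_add h3 h4
    _ = _ := by ring

/-- the constant of `prt_wt_shift` -/
def shC (ε κ : ℝ) (o : ObsPar) (Ctr : ℝ) : ℝ := (1 + ε⁻¹) * (κ + (1 - o.p1 * o.hstar)⁻¹ * o.hstar / 2) * Ctr

theorem prt_shC_eqns_cite : True := by
  have := @shC.eq_1; trivial

/-- **the translated total regulator**: `W^κ e^{V_o} (X, φ + λ) ≤ e^{C |X|} W^{κ'} e^{V_{o'}} (X, φ)` -/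
theorem prt_wt_shift (ε : ℝ) (hε : 0 < ε) (o o' : ObsPar) (ho : ObsLe ε o o') (c g : Grid G) (hg : g.Ok) (V V' : Extra g) (hV : IsObs o c g V)
    (hV' : IsObs o' c g V') (δ κ κ' : ℝ) (hδ : 0 ≤ δ) (hκ : 0 ≤ κ) (hκ' : (1 + ε) * κ ≤ κ') (Ctr : ℝ) (X : Finset g.I) (φ lam : G.V → ℝ)
    (hl : U g δ X lam + bondE (g.Dm X) lam ≤ Ctr * X.card) :
    Wt g δ κ V X (φ + lam) ≤ Real.exp (shC ε κ o Ctr * X.card) * Wt g δ κ' V' X φ := by
  rw [ta_wt_eq o c g V hV, ta_wt_eq o' c g V' hV', ← Real.exp_add]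
  refine Real.exp_le_exp.2 ?_
  have h1 := mul_le_mul_of_nonneg_left (prt_U_add_le g hδ X ε hε φ lam) hκ
  have h2 := prt_vobs_shift ε hε o o' ho c (low G Fam.entry g.m) (B4.low_psd G _ B4.entry_adm _ hg.pos) (obs_low_cac G _ hg.pos)
    (g.Dm X) φ lam
  have hU := Reg.reg_U_nonneg g hδ X φ
  have hUl := Reg.reg_U_nonneg g hδ X lam
  have hB := obs_bondE_nonneg (g.Dm X) lam
  have h3 := mul_le_mul_of_nonneg_right hκ' hU
  have hm : 0 < 1 - o.p1 * o.hstar := by linarith [(ta_opar o).margin]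
  have hq : 0 ≤ (1 - o.p1 * o.hstar)⁻¹ * o.hstar / 2 := by
    have := o.h_pos
    positivity
  have he : 0 ≤ 1 + ε⁻¹ := by positivity
  rw [vobs_eq, vobs_eq]
  unfold shC
  have h4 : κ * U g δ X lam + (1 - o.p1 * o.hstar)⁻¹ * o.hstar / 2 * bondE (g.Dm X) lam
      ≤ (κ + (1 - o.p1 * o.hstar)⁻¹ * o.hstar / 2) * (Ctr * X.card) := by
    have a1 : κ * U g δ X lam ≤ κ * (Ctr * X.card) := mul_le_mul_of_nonneg_left (by linarith) hκ
    have a2 : (1 - o.p1 * o.hstar)⁻¹ * o.hstar / 2 * bondE (g.Dm X) lam ≤ (1 - o.p1 * o.hstar)⁻¹ * o.hstar / 2 * (Ctr * X.card) :=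
      mul_le_mul_of_nonneg_left (by linarith) hq
    linarith
  have h5 := mul_le_mul_of_nonneg_left h4 he
  nlinarith

/-- **a translated function in the weaker norm** (same analytic radius, same `δ`) -/
theorem prt_fnSize_shift (ε : ℝ) (hε : 0 < ε) (o o' : ObsPar) (ho : ObsLe ε o o') (c g : Grid G) (hg : g.Ok) (V V' : Extra g)
    (hV : IsObs o c g V) (hV' : IsObs o' c g V') (p p' : Par) (hh : p'.h0 = p.h0) (hδe : p'.δ = p.δ) (hδ : 0 ≤ p.δ) (hκ : 0 ≤ p.κ)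
    (hκ' : (1 + ε) * p.κ ≤ p'.κ) (Ctr : ℝ) (X : Finset g.I) (lam : G.V → ℝ) (hl : U g p.δ X lam + bondE (g.Dm X) lam ≤ Ctr * X.card)
    (F : Fn G) :
    fnSize p' g V' X (shF F lam) ≤ ENNReal.ofReal (Real.exp (shC ε p.κ o Ctr * X.card)) * fnSize p g V X F := by
  rw [Hol.fnSize_le_iff]
  intro φ f hf
  have e : shF F lam (toC φ + f) = F (toC (φ + lam) + f) := by
    unfold shF
    rw [Hol.toC_add]
    congr 1
    abel
  rw [e]
  refine (Hol.nnnorm_le_fnSize_mul p g V X F (φ + lam) f (hh ▸ hf)).trans ?_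
  have h1 := prt_wt_shift ε hε o o' ho c g hg V V' hV hV' p.δ p.κ p'.κ hδ hκ hκ' Ctr X φ lam hl
  rw [hδe, mul_comm (ENNReal.ofReal _) (fnSize p g V X F), mul_assoc, ← ENNReal.ofReal_mul (Real.exp_pos _).le]
  exact mul_le_mul_right (ENNReal.ofReal_le_ofReal h1) _

/-- **a translated activity in the weaker norm**: every support has its own background; the weight reserve `A' e^C ≤ A` pays `e^{C |X|}` -/
theorem prt_act_shift (ε : ℝ) (hε : 0 < ε) (o o' : ObsPar) (ho : ObsLe ε o o') (c g : Grid G) (hg : g.Ok) (V V' : Extra g)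
    (hV : IsObs o c g V) (hV' : IsObs o' c g V') (p p' : Par) (hh : p'.h0 = p.h0) (hδe : p'.δ = p.δ) (hδ : 0 ≤ p.δ) (hκ : 0 ≤ p.κ)
    (hκ' : (1 + ε) * p.κ ≤ p'.κ) (Ctr : ℝ) (hA' : 0 ≤ p'.A) (hA : p'.A * Real.exp (shC ε p.κ o Ctr) ≤ p.A) (K : Act g) (X : Finset g.I)
    (lam : G.V → ℝ) (hl : U g p.δ X lam + bondE (g.Dm X) lam ≤ Ctr * X.card) :
    ENNReal.ofReal (p'.A ^ X.card) * fnSize p' g V' X (shF (K X) lam) ≤ actNorm p g V K := by
  have h1 := prt_fnSize_shift ε hε o o' ho c g hg V V' hV hV' p p' hh hδe hδ hκ hκ' Ctr X lam hl (K X)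
  have h2 : ENNReal.ofReal (p.A ^ X.card) * fnSize p g V X (K X) ≤ actNorm p g V K :=
    le_iSup (fun X : Finset g.I => ENNReal.ofReal (p.A ^ X.card) * fnSize p g V X (K X)) X
  refine le_trans ?_ h2
  refine (mul_le_mul_right h1 _).trans ?_
  rw [← mul_assoc, ← ENNReal.ofReal_mul (pow_nonneg hA' _)]
  refine mul_le_mul_left (ENNReal.ofReal_le_ofReal ?_) _
  have e : Real.exp (shC ε p.κ o Ctr * X.card) = Real.exp (shC ε p.κ o Ctr) ^ X.card := by
    rw [mul_comm, Real.exp_nat_mul]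
  rw [e, ← mul_pow]
  exact pow_le_pow_left₀ (mul_nonneg hA' (Real.exp_pos _).le) hA _

/-! ## 2. From aligned squares `Sq` to whole-block grids of free squares -/

/-- **transport principle**: a statement about `(G, g)` which holds for all aligned squares `(Q.G, Q.g)` holds for every whole-block grid with an even number of blocks of a free square -/
theorem prt_std_sq {P : ∀ G : Geom, Grid G → Prop} (h : ∀ Q : Sq, P Q.G Q.g) (G : Geom) (g : Grid G) (hG : G.bc = BC.free) (hg : Std g)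
    (he : 2 ∣ g.n) : P G g := by
  obtain ⟨bc, M, hM⟩ := G
  obtain ⟨m, n, blk1⟩ := g
  obtain ⟨hpos, hcard, hblk⟩ := hg
  simp only at hG hpos hcard hblk he
  subst hG
  obtain ⟨D, rfl⟩ := he
  obtain ⟨m', rfl⟩ : ∃ m', m = m' * 1 := ⟨m, (mul_one m).symm⟩
  have hM' : M = 2 * (D * (m' * 1)) := by rw [hcard]; ring
  subst hM'
  have hD : 0 < D := by
    rcases Nat.eq_zero_or_pos D with h0 | h0
    · subst h0
      simp at hM
    · exact h0
  have hm' : 0 < m' := by simpa using hpos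
  have e : blk1 = (Sq.g ⟨D, m', 1, hD, hm', one_pos⟩).blk1 := by
    funext i
    exact Fin.ext (hblk i)
  subst e
  exact h ⟨D, m', 1, hD, hm', one_pos⟩

/-! ## 3. The unit field of a free square, its local lifts -/

/-- `η_n = ∇ v + 2π τ`, `n = M / 2`, is co-closed, including at the free boundary -/
def CoClG (G : Geom) (v : G.V → ℝ) : Prop :=
  ∀ f : G.V → ℝ, ∑ e : G.V × Bool, etaE (G.M / 2) v e * (f (stp e.1 e.2) - f e.1) = 0

/-- `lam` is a local lift of the unit field on the enclosing rectangle of `X` padded by `H` blocks: `∇ lam = η_n / α` (`= Sq.IsLift`) -/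
def IsLiftR {G : Geom} (g : Grid G) (α : ℝ) (v : G.V → ℝ) (H : ℕ) (X : Finset g.I) (lam : G.V → ℝ) : Prop :=
  ∀ e : G.V × Bool, stp e.1 e.2 ≠ e.1 →
    InRect g H X (((g.blk e.1).1 : ℕ), ((g.blk e.1).2 : ℕ)) →
    InRect g H X (((g.blk (stp e.1 e.2)).1 : ℕ), ((g.blk (stp e.1 e.2)).2 : ℕ)) →
    lam (stp e.1 e.2) - lam e.1 = etaE (G.M / 2) v e / α

/-- `λ_X = v_n / α + ω κ_X` -/
def liftOf {G : Geom} (g : Grid G) (ω : ℝ) (v : G.V → ℝ) (H : ℕ) (X : Finset g.I) : G.V → ℝ :=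
  fun x => v x / B8.Step.alpha ω + gF ω (gaugeOf g H X) x

theorem prt_defs_eqns_cite : True := by
  have := @CoClG.eq_1; have := @IsLiftR.eq_1; have := @liftOf.eq_1; trivial

/-- a gauge gives a lift -/
theorem prt_lift_of_gauge {G : Geom} (g : Grid G) (ω α : ℝ) (hα : α ≠ 0) (hω : ω * α = 2 * Real.pi) (v : G.V → ℝ) (H : ℕ) (X : Finset g.I)
    (κ : G.V → ℤ) (hκ : IsGaugeR g H X κ) : IsLiftR g α v H X (fun x => v x / α + gF ω κ x) := by
  intro e he h1 h2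
  have h := hκ e he h1 h2
  have h' : ((κ (stp e.1 e.2) : ℝ)) - (κ e.1 : ℝ) = (tauE (G.M / 2) e : ℝ) := by exact_mod_cast h
  unfold gF etaE
  rw [← hω, ← h']
  field_simp
  ring

theorem prt_gaugeOf {G : Geom} (hG : G.bc = BC.free) (g : Grid G) (hg : Std g) (he : 2 ∣ g.n) (H : ℕ) (X : Finset g.I) (hX : ShiftGood g H X) :
    IsGaugeR g H X (gaugeOf g H X) := by
  have h := prg_gauge_exists hG g hg he H X hX
  unfold gaugeOf
  rw [dif_pos h]
  exact h.choose_spec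

/-- the canonical lift is a lift -/
theorem prt_liftOf {G : Geom} (hG : G.bc = BC.free) (g : Grid G) (hg : Std g) (he : 2 ∣ g.n) (ω : ℝ) (hω : 0 < ω) (v : G.V → ℝ) (H : ℕ)
    (X : Finset g.I) (hX : ShiftGood g H X) : IsLiftR g (B8.Step.alpha ω) v H X (liftOf g ω v H X) := by
  have hpi := Real.pi_pos
  refine prt_lift_of_gauge g ω _ ?_ ?_ v H X _ (prt_gaugeOf hG g hg he H X hX)
  · unfold B8.Step.alpha
    positivity
  · unfold B8.Step.alpha
    field_simp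

/-- two co-closed branches have the same unit field -/
theorem prt_eta_unique (G : Geom) (n : ℕ) (v v' : G.V → ℝ)
    (h : ∀ f : G.V → ℝ, ∑ e : G.V × Bool, etaE n v e * (f (stp e.1 e.2) - f e.1) = 0)
    (h' : ∀ f : G.V → ℝ, ∑ e : G.V × Bool, etaE n v' e * (f (stp e.1 e.2) - f e.1) = 0) : etaE n v = etaE n v' := by
  have h1 := h (fun x => v x - v' x)
  have h2 := h' (fun x => v x - v' x)
  have h3 : ∑ e : G.V × Bool, (etaE n v e - etaE n v' e) ^ 2 = 0 := by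
    have e1 : ∀ e : G.V × Bool, (etaE n v e - etaE n v' e) ^ 2
        = etaE n v e * ((v (stp e.1 e.2) - v' (stp e.1 e.2)) - (v e.1 - v' e.1))
          - etaE n v' e * ((v (stp e.1 e.2) - v' (stp e.1 e.2)) - (v e.1 - v' e.1)) := by
      intro e
      unfold etaE
      ring
    simp only [e1]
    rw [Finset.sum_sub_distrib, h1, h2, sub_zero]
  funext e
  have h4 := (Finset.sum_eq_zero_iff_of_nonneg (fun e _ => sq_nonneg _)).1 h3 e (Finset.mem_univ _)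
  have h5 := pow_eq_zero_iff (two_ne_zero) |>.1 h4
  linarith

/-- the bounds of [F] L4.2 for the unit field of the branch `v` of the free square `G`, `n = M / 2`; `vinf` = the plane branch in centred coordinates -/
structure EtaB (C c0 : ℝ) (vinf : ℤ × ℤ → ℝ) (G : Geom) (v : G.V → ℝ) : Prop where
  decay : ∀ r ≤ 4, ∀ (a : Fin r → Fin 4) (w : G.V) (d : Bool),
    |difs a (fun x' => elift (etaE (G.M / 2) v) x' d) (G.ι w)| ≤ C * ((1 + cdist (G.M / 2) (G.ι w)) ^ (1 + r))⁻¹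
  plane : ∀ r ≤ 4, ∀ (a : Fin r → Fin 4) (w : G.V) (d : Bool), cdist (G.M / 2) (G.ι w) ≤ c0 * ((G.M / 2 : ℕ) : ℝ) →
    |difs a (fun x' => elift (etaE (G.M / 2) v) x' d - etaP vinf (x' - (((G.M / 2 : ℕ) : ℤ), ((G.M / 2 : ℕ) : ℤ))) d) (G.ι w)|
      ≤ C * (((G.M / 2 : ℕ) : ℝ) ^ (1 + r))⁻¹

/-- **[F] L4.2 for every co-closed branch of every free square of even side**, with the plane branch `vinf` exposed (it is the `vinf` of `Prm`, `psiRef`) -/
theorem prt_eta_ok : ∃ (C c0 : ℝ) (vinf : ℤ × ℤ → ℝ), 0 < C ∧ 0 < c0 ∧ c0 ≤ 1 ∧ (∀ x, |vinf x| ≤ C) ∧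
    (∀ r ≤ 4, ∀ (a : Fin r → Fin 4) (x : ℤ × ℤ) (d : Bool), |difs a (fun x' => etaP vinf x' d) x| ≤ C * ((1 + cdist 0 x) ^ (1 + r))⁻¹) ∧
    (∀ G : Geom, G.bc = BC.free → 2 ∣ G.M → ∀ v : G.V → ℝ, CoClG G v → EtaB C c0 vinf G v) ∧
    (∀ G : Geom, G.bc = BC.free → 2 ∣ G.M → ∃ v : G.V → ℝ, CoClG G v ∧ (∀ x, |v x| ≤ C) ∧
      ∀ w : G.V, cdist (G.M / 2) (G.ι w) ≤ c0 * ((G.M / 2 : ℕ) : ℝ) →
        |v w - vinf (G.ι w - (((G.M / 2 : ℕ) : ℤ), ((G.M / 2 : ℕ) : ℤ)))| ≤ C * (1 + cdist (G.M / 2) (G.ι w)) / ((G.M / 2 : ℕ) : ℝ)) := by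
  obtain ⟨C, c0, vinf, hc0, hv, -, hP, H⟩ := center_background
  have hCC : C ≤ max C 1 := le_max_left _ _
  have hcd : ∀ (n : ℕ) (x : ℤ × ℤ), 0 ≤ cdist n x := fun n x => le_trans (abs_nonneg _) (le_max_left _ _)
  have hn : ∀ G : Geom, 2 ∣ G.M → 0 < G.M / 2 ∧ G.M = 2 * (G.M / 2) := by
    intro G h2
    have := G.hM
    omega
  refine ⟨max C 1, min c0 1, vinf, lt_of_lt_of_le one_pos (le_max_right _ _), lt_min hc0 one_pos, min_le_right _ _,
    fun x => (hv x).trans hCC, ?_, ?_, ?_⟩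
  · intro r hr a x d
    refine (hP r hr a x d).trans (mul_le_mul_of_nonneg_right hCC ?_)
    have := hcd 0 x
    positivity
  · intro G hG h2 v hco
    obtain ⟨hn0, hn1⟩ := hn G h2
    obtain ⟨v₀, -, hco', hd, hp, -⟩ := H G (G.M / 2) hn0 hG hn1
    have e : etaE (G.M / 2) v = etaE (G.M / 2) v₀ := prt_eta_unique G _ v v₀ hco hco'
    constructor
    · intro r hr a w d
      rw [e]
      refine (hd r hr a w d).trans (mul_le_mul_of_nonneg_right hCC ?_)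
      have := hcd (G.M / 2) (G.ι w)
      positivity
    · intro r hr a w d hw
      rw [e]
      refine (hp r hr a w d (hw.trans (mul_le_mul_of_nonneg_right (min_le_left _ _) (Nat.cast_nonneg _)))).trans
        (mul_le_mul_of_nonneg_right hCC ?_)
      positivity
  · intro G hG h2
    obtain ⟨hn0, hn1⟩ := hn G h2
    obtain ⟨v₀, hb, hco', -, -, hl⟩ := H G (G.M / 2) hn0 hG hn1
    refine ⟨v₀, hco', fun x => (hb x).trans hCC, fun w hw => ?_⟩
    refine (hl w (hw.trans (mul_le_mul_of_nonneg_right (min_le_left _ _) (Nat.cast_nonneg _)))).trans ?_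
    have := hcd (G.M / 2) (G.ι w)
    exact div_le_div_of_nonneg_right (mul_le_mul_of_nonneg_right hCC (by positivity)) (Nat.cast_nonneg _)

/-! ## 4. The energy of the lifts on ALL shift-good supports (near a wall or not) -/

/-- the sites of the rectangle padded by `2` of a shift-good support (`H ≥ 3`) are at distance `≥ m` from the centre -/
theorem prt_far (Q : Sq) (H : ℕ) (hH : 3 ≤ H) (X : Finset Q.g.I) (hX : Q.ShiftGood H X) (z : Q.G.V)
    (hz : Q.InRect 2 X (((Q.g.blk z).1 : ℕ), ((Q.g.blk z).2 : ℕ))) : (Q.m : ℝ) ≤ cdist Q.n (Q.G.ι z) := by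
  by_contra hlt
  rw [not_le] at hlt
  apply hX
  have hm := Q.m_pos
  have key : ∀ u : ℕ, |(u : ℝ) - Q.n| < Q.m → Q.D ≤ u / Q.m + 1 ∧ u / Q.m ≤ Q.D + 1 := by
    intro u hu
    rw [abs_lt] at hu
    have hn : Q.n = Q.D * Q.m := rfl
    have h1 : (Q.n : ℝ) < (u : ℝ) + Q.m := by linarith [hu.1]
    have h2 : (u : ℝ) < (Q.n : ℝ) + Q.m := by linarith [hu.2]
    have h1' : Q.n < u + Q.m := by exact_mod_cast h1
    have h2' : u < Q.n + Q.m := by exact_mod_cast h2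
    constructor
    · have : (Q.D - 1) * Q.m ≤ u := by
        rcases Nat.eq_zero_or_pos Q.D with h0 | h0
        · simp [h0]
        · obtain ⟨k, hk⟩ : ∃ k, Q.D = k + 1 := ⟨Q.D - 1, by omega⟩
          rw [hn, hk] at h1'
          rw [hk]
          simp only [Nat.add_sub_cancel]
          nlinarith
      have := (Nat.le_div_iff_mul_le hm).2 this
      omega
    · have : u < (Q.D + 1) * Q.m := by rw [hn] at h2'; nlinarith
      have := (Nat.div_lt_iff_lt_mul hm).2 this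
      omega
  unfold cdist at hlt
  have e1 : (((Q.G.ι z).1 : ℤ) : ℝ) = ((z.1 : ℕ) : ℝ) := by simp [Geom.ι]
  have e2 : (((Q.G.ι z).2 : ℤ) : ℝ) = ((z.2 : ℕ) : ℝ) := by simp [Geom.ι]
  rw [e1, e2] at hlt
  obtain ⟨k1, k2⟩ := key _ (lt_of_le_of_lt (le_max_left _ _) hlt)
  obtain ⟨k3, k4⟩ := key _ (lt_of_le_of_lt (le_max_right _ _) hlt)
  exact tcl_inRect_mono Q hH X _ (tcl_inRect_succ Q 2 X _ (Q.D, Q.D) hz k1 k2 k3 k4)

theorem prt_lift_energy_sq (α C : ℝ) (hα : 0 < α) (hC : 0 ≤ C) (Q : Sq) (hg : Q.g.Ok) (hm : 2 ≤ Q.m) (v : Q.G.V → ℝ)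
    (hdec : ∀ r ≤ 4, ∀ (a : Fin r → Fin 4) (w : Q.G.V) (d : Bool),
        |difs a (fun x' => elift (etaE Q.n v) x' d) (Q.G.ι w)| ≤ C * ((1 + cdist Q.n (Q.G.ι w)) ^ (1 + r))⁻¹)
    (H : ℕ) (hH : 3 ≤ H) (X : Finset Q.g.I) (hX : Q.ShiftGood H X) (lam : Q.G.V → ℝ) (hl : Q.IsLift α v H X lam) (δ : ℝ) (hδ : δ ≤ 1) :
    U Q.g δ X lam + bondE (Q.g.Dm X) lam ≤ 11300 * (C / α) ^ 2 * X.card := by
  have hmR : (0 : ℝ) < Q.m := by exact_mod_cast Q.m_pos
  have hcore := (tcl_core Q hg X (2 * Q.D) 1 one_pos (fun a _ b _ => ⟨by have : (b.1 : ℕ) < 2 * Q.D := b.1.2; omega, by have : (b.2 : ℕ) < 2 * Q.D := b.2.2; omega⟩) (-lam)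
    (fun d y => -(elift (etaE Q.n v) y d / α)) (C / α) (by positivity)
    (fun z hz y d hy hy' => by
      have := tcl_lift_rel Q α v H X lam hl y d
        (tcl_inRect_mono Q hH X _ (tcl_region Q hm 2 X z hz y hy)) (tcl_inRect_mono Q hH X _ (tcl_region Q hm 2 X z hz _ hy'))
      simp only [Geom.lift, Pi.neg_apply] at this ⊢
      linarith)
    (fun z hz r hr b d => by
      have e : (fun y => -(elift (etaE Q.n v) y d / α)) = (-α⁻¹) • (fun y => elift (etaE Q.n v) y d) := by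
        funext y
        simp [div_eq_inv_mul]
      rw [e, Reg.reg_difs_smul]
      simp only [Pi.smul_apply, smul_eq_mul]
      rw [abs_mul, abs_neg, abs_of_pos (inv_pos.2 hα)]
      have h1 := hdec r (by omega) b z d
      have hfar := prt_far Q H hH X hX z hz
      have h2 : ((1 + cdist Q.n (Q.G.ι z)) ^ (1 + r))⁻¹ ≤ ((((1 : ℕ) : ℝ) * (Q.m : ℝ)) ^ (1 + r))⁻¹ := by
        refine inv_anti₀ (by positivity) (pow_le_pow_left₀ (by positivity) ?_ _)
        push_cast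
        linarith
      calc α⁻¹ * |difs b (fun y => elift (etaE Q.n v) y d) (Q.G.ι z)|
          ≤ α⁻¹ * (C * ((((1 : ℕ) : ℝ) * (Q.m : ℝ)) ^ (1 + r))⁻¹) :=
            mul_le_mul_of_nonneg_left (h1.trans (mul_le_mul_of_nonneg_left h2 hC)) (inv_pos.2 hα).le
        _ = C / α * ((((1 : ℕ) : ℝ) * (Q.m : ℝ)) ^ (1 + r))⁻¹ := by
            rw [div_eq_mul_inv]
            ring)).2 δ hδ
  rwa [neg_neg] at hcore

/-- **(R2-geo)** the energy of a local lift of the unit field on a shift-good support, walls included: `U (λ) + bondE (λ) ≤ Ctr |X|` -/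
theorem prt_lift_energy (α : ℝ) (hα : 0 < α) : ∃ Ctr : ℝ, 0 ≤ Ctr ∧ ∀ (G : Geom) (g : Grid G), G.bc = BC.free → Std g → 2 ∣ g.n → g.Ok → 2 ≤ g.m →
    ∀ v : G.V → ℝ, CoClG G v → ∀ H : ℕ, 3 ≤ H → ∀ X : Finset g.I, ShiftGood g H X → ∀ lam : G.V → ℝ, IsLiftR g α v H X lam →
    ∀ δ : ℝ, δ ≤ 1 → U g δ X lam + bondE (g.Dm X) lam ≤ Ctr * X.card := by
  obtain ⟨C, c0, vinf, hC, -, -, -, -, hE, -⟩ := prt_eta_ok
  refine ⟨11300 * (C / α) ^ 2, by positivity, fun G g hG hg he => ?_⟩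
  refine prt_std_sq (P := fun G g => g.Ok → 2 ≤ g.m →
    ∀ v : G.V → ℝ, CoClG G v → ∀ H : ℕ, 3 ≤ H → ∀ X : Finset g.I, ShiftGood g H X → ∀ lam : G.V → ℝ, IsLiftR g α v H X lam →
    ∀ δ : ℝ, δ ≤ 1 → U g δ X lam + bondE (g.Dm X) lam ≤ 11300 * (C / α) ^ 2 * X.card) (fun Q => ?_) G g hG hg he
  intro hgo hm v hv H hH X hX lam hl δ hδ
  have e1 : Q.G.M / 2 = Q.n := Nat.mul_div_cancel_left _ (by norm_num)
  have e2 : Q.g.n / 2 = Q.D := Nat.mul_div_cancel_left _ (by norm_num)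
  have hd := (hE Q.G rfl ⟨Q.n, rfl⟩ v hv).decay
  rw [e1] at hd
  unfold ShiftGood at hX
  rw [e2] at hX
  unfold IsLiftR at hl
  rw [e1] at hl
  exact prt_lift_energy_sq α C hα hC.le Q hgo hm v hd H hH X hX lam hl δ hδ

/-! ## 5. The exits (R2), (R3) -/

/-- **the two norms**: `(p', o')` is weaker than `(p, o)` by the factor `1 + ε`, with the weight reserve which pays a background of energy `Ctr` per block -/
structure NormLe (ε Ctr : ℝ) (p p' : Par) (o o' : ObsPar) : Prop where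
  ε_pos : 0 < ε
  Ctr_nn : 0 ≤ Ctr
  obs : ObsLe ε o o'
  h0 : p'.h0 = p.h0
  δ : p'.δ = p.δ
  δ_nn : 0 ≤ p.δ
  δ_le : p.δ ≤ 1
  κ_nn : 0 ≤ p.κ
  κ : (1 + ε) * p.κ ≤ p'.κ
  A_nn : 0 ≤ p'.A
  A : p'.A * Real.exp (shC ε p.κ o Ctr) ≤ p.A

/-- the pair of observation parameters of `Obs/PairTop.lean` (`ObsPair`) -/
theorem prt_obsLe (o o' : ObsPar) (ha : o'.a = o.a) (hh : o.hstar < o'.hstar) (hp : o'.p1 = o.p1) : ∃ ε : ℝ, 0 < ε ∧ ε ≤ 1 ∧ ObsLe ε o o' := by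
  have h0 := o.h_pos
  have hp1 : 0 < o.p1 := by linarith [o.one_lt]
  refine ⟨min 1 (o'.hstar / o.hstar - 1), lt_min one_pos ?_, min_le_left _ _, ha, ?_, ?_⟩
  · rw [sub_pos, lt_div_iff₀ h0]
    linarith
  · have h1 : 1 + min 1 (o'.hstar / o.hstar - 1) ≤ o'.hstar / o.hstar := by linarith [min_le_right (1 : ℝ) (o'.hstar / o.hstar - 1)]
    calc (1 + min 1 (o'.hstar / o.hstar - 1)) * o.hstar ≤ o'.hstar / o.hstar * o.hstar := mul_le_mul_of_nonneg_right h1 h0.le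
      _ = o'.hstar := by field_simp
  · rw [hp]
    have h1 : 0 < min 1 (o'.hstar / o.hstar - 1) := by
      refine lt_min one_pos ?_
      rw [sub_pos, lt_div_iff₀ h0]
      linarith
    nlinarith

/-- the norms `p = ⟨δ, κ, h0, A, ω⟩`, `parT p qA = ⟨δ, 2κ, h0, A / qA, ω⟩` of `Obs/PairTop.lean`, `qA := exp (shC ε κ o Ctr)` -/
theorem prt_normLe (ε Ctr : ℝ) (hε : 0 < ε) (hε1 : ε ≤ 1) (hCtr : 0 ≤ Ctr) (o o' : ObsPar) (ho : ObsLe ε o o') (δ κ : ℝ) (h0 : ℝ≥0) (A ω qA : ℝ)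
    (hδ : 0 ≤ δ) (hδ1 : δ ≤ 1) (hκ : 0 ≤ κ) (hA : 0 ≤ A) (hq : Real.exp (shC ε κ o Ctr) ≤ qA) :
    NormLe ε Ctr ⟨δ, κ, h0, A, ω⟩ ⟨δ, 2 * κ, h0, A / qA, ω⟩ o o' where
  ε_pos := hε
  Ctr_nn := hCtr
  obs := ho
  h0 := rfl
  δ := rfl
  δ_nn := hδ
  δ_le := hδ1
  κ_nn := hκ
  κ := by
    show (1 + ε) * κ ≤ 2 * κ
    nlinarith
  A_nn := by
    have : 0 < qA := lt_of_lt_of_le (Real.exp_pos _) hq
    show 0 ≤ A / qA
    positivity
  A := by
    have h1 : 0 < qA := lt_of_lt_of_le (Real.exp_pos _) hq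
    show A / qA * Real.exp (shC ε κ o Ctr) ≤ A
    rw [div_mul_eq_mul_div, div_le_iff₀ h1]
    exact mul_le_mul_of_nonneg_left hq hA

theorem prt_bondE_zero {G : Geom} (D : Finset G.V) : bondE D (0 : G.V → ℝ) = 0 := by
  have h1 : ∀ (e : Fin 4) (x : ℤ × ℤ), dif (dir e) (G.lift (0 : G.V → ℝ)) x = 0 := fun e x => by simp [dif, Geom.lift]
  unfold bondE
  simp [h1]

theorem prt_shF_zero {G : Geom} (F : Fn G) : shF F 0 = F := by
  funext z
  unfold shF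
  rw [Hol.toC_zero, add_zero]

/-- **(R3)** for one function -/
theorem prt_R3_fn {ε Ctr : ℝ} {p p' : Par} {o o' : ObsPar} (h : NormLe ε Ctr p p' o o') {G : Geom} (c g : Grid G) (hg : g.Ok) (V V' : Extra g)
    (hV : IsObs o c g V) (hV' : IsObs o' c g V') (X : Finset g.I) (F : Fn G) : fnSize p' g V' X F ≤ fnSize p g V X F := by
  have h1 := prt_fnSize_shift ε h.ε_pos o o' h.obs c g hg V V' hV hV' p p' h.h0 h.δ h.δ_nn h.κ_nn h.κ 0 X 0
    (by rw [Loc.loc_U_zero, prt_bondE_zero]; simp) F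
  rw [prt_shF_zero] at h1
  refine h1.trans (le_of_eq ?_)
  unfold shC
  simp

/-- **(R3)** the weaker norm is weaker -/
theorem prt_R3 {ε Ctr : ℝ} {p p' : Par} {o o' : ObsPar} (h : NormLe ε Ctr p p' o o') {G : Geom} (c g : Grid G) (hg : g.Ok) (V V' : Extra g)
    (hV : IsObs o c g V) (hV' : IsObs o' c g V') (K : Act g) : actNorm p' g V' K ≤ actNorm p g V K := by
  refine iSup_le fun X => ?_
  have h1 := prt_act_shift ε h.ε_pos o o' h.obs c g hg V V' hV hV' p p' h.h0 h.δ h.δ_nn h.κ_nn h.κ Ctr h.A_nn h.A K X 0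
    (by
      rw [Loc.loc_U_zero, prt_bondE_zero, add_zero]
      exact mul_nonneg h.Ctr_nn (Nat.cast_nonneg _))
  rwa [prt_shF_zero] at h1

/-- **(R2)**: the constant `Ctr` depends on `ω` only.  On EVERY shift-good support (near a wall or not) the activity translated by a local lift of the unit field costs nothing in the weaker norm. -/
theorem prt_R2 (ω : ℝ) (hω : 0 < ω) : ∃ Ctr : ℝ, 0 ≤ Ctr ∧ ∀ (ε : ℝ) (p p' : Par) (o o' : ObsPar), NormLe ε Ctr p p' o o' →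
    ∀ (G : Geom) (c g : Grid G), G.bc = BC.free → Std g → 2 ∣ g.n → g.Ok → 2 ≤ g.m → ∀ V V' : Extra g, IsObs o c g V → IsObs o' c g V' →
    ∀ v : G.V → ℝ, CoClG G v → ∀ H : ℕ, 3 ≤ H → ∀ X : Finset g.I, ShiftGood g H X →
      (∀ lam : G.V → ℝ, IsLiftR g (B8.Step.alpha ω) v H X lam → ∀ F : Fn G,
        fnSize p' g V' X (shF F lam) ≤ ENNReal.ofReal (Real.exp (shC ε p.κ o Ctr * X.card)) * fnSize p g V X F) ∧
      (∀ lam : G.V → ℝ, IsLiftR g (B8.Step.alpha ω) v H X lam → ∀ K : Act g,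
        ENNReal.ofReal (p'.A ^ X.card) * fnSize p' g V' X (shF (K X) lam) ≤ actNorm p g V K) := by
  have hα : 0 < B8.Step.alpha ω := by
    have := Real.pi_pos
    unfold B8.Step.alpha
    positivity
  obtain ⟨Ctr, hC, H⟩ := prt_lift_energy _ hα
  refine ⟨Ctr, hC, fun ε p p' o o' h G c g hG hs he hg hm V V' hV hV' v hv H1 hH X hX => ⟨fun lam hl F => ?_, fun lam hl K => ?_⟩⟩
  · exact prt_fnSize_shift ε h.ε_pos o o' h.obs c g hg V V' hV hV' p p' h.h0 h.δ h.δ_nn h.κ_nn h.κ Ctr X lam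
      (H G g hG hs he hg hm v hv H1 hH X hX lam hl p.δ h.δ_le) F
  · exact prt_act_shift ε h.ε_pos o o' h.obs c g hg V V' hV hV' p p' h.h0 h.δ h.δ_nn h.κ_nn h.κ Ctr h.A_nn h.A K X lam
      (H G g hG hs he hg hm v hv H1 hH X hX lam hl p.δ h.δ_le)

/-- **(R2) for the unit activity** in the total field: if `KT X z = K0 X (z + ω κ_X)` on the shift-good supports of the class `𝒞` (gauge identity), then the shift-good part of
`K^τ = shA KT (v_n / α)` in the weaker norm is bounded by the centred activity -/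
theorem prt_R2_act (ω : ℝ) (hω : 0 < ω) : ∃ Ctr : ℝ, 0 ≤ Ctr ∧ ∀ (ε : ℝ) (p p' : Par) (o o' : ObsPar), NormLe ε Ctr p p' o o' →
    ∀ (G : Geom) (c g : Grid G), G.bc = BC.free → Std g → 2 ∣ g.n → g.Ok → 2 ≤ g.m → ∀ V V' : Extra g, IsObs o c g V → IsObs o' c g V' →
    ∀ v : G.V → ℝ, CoClG G v → ∀ H : ℕ, 3 ≤ H → ∀ (𝒞 : Finset g.I → Prop) (K0 KT : Act g),
      (∀ X, ShiftGood g H X → 𝒞 X → ∀ z ∈ strip p.h0 g X, KT X z = K0 X (z + toC (gF ω (gaugeOf g H X)))) →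
      actNorm p' g V' (cutA (fun X => ShiftGood g H X ∧ 𝒞 X) (shA KT fun x => v x / B8.Step.alpha ω)) ≤ actNorm p g V (cutA 𝒞 K0) := by
  classical
  obtain ⟨Ctr, hC, H⟩ := prt_R2 ω hω
  refine ⟨Ctr, hC, fun ε p p' o o' h G c g hG hs he hg hm V V' hV hV' v hv H1 hH 𝒞 K0 KT hgau => iSup_le fun X => ?_⟩
  by_cases hX : ShiftGood g H1 X ∧ 𝒞 X
  · have h1 := (H ε p p' o o' h G c g hG hs he hg hm V V' hV hV' v hv H1 hH X hX.1).2 _ (prt_liftOf hG g hs he ω hω v H1 X hX.1) (cutA 𝒞 K0)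
    refine le_trans (le_of_eq ?_) h1
    congr 1
    apply le_antisymm
    · rw [Hol.fnSize_le_iff]
      intro φ f hf
      have hz : toC φ + f ∈ strip p.h0 g X := Hol.toC_add_mem_strip φ (h.h0 ▸ hf)
      have e : cutA (fun X => ShiftGood g H1 X ∧ 𝒞 X) (shA KT fun x => v x / B8.Step.alpha ω) X (toC φ + f)
          = shF (cutA 𝒞 K0 X) (liftOf g ω v H1 X) (toC φ + f) := by
        unfold cutA shA shF
        rw [if_pos hX, if_pos hX.2, hgau X hX.1 hX.2 _ (Hol.strip_add_toC hz _), add_assoc, ← Hol.toC_add]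
        rfl
      rw [e]
      exact Hol.nnnorm_le_fnSize_mul p' g V' X _ φ f hf
    · rw [Hol.fnSize_le_iff]
      intro φ f hf
      have hz : toC φ + f ∈ strip p.h0 g X := Hol.toC_add_mem_strip φ (h.h0 ▸ hf)
      have e : cutA (fun X => ShiftGood g H1 X ∧ 𝒞 X) (shA KT fun x => v x / B8.Step.alpha ω) X (toC φ + f)
          = shF (cutA 𝒞 K0 X) (liftOf g ω v H1 X) (toC φ + f) := by
        unfold cutA shA shF
        rw [if_pos hX, if_pos hX.2, hgau X hX.1 hX.2 _ (Hol.strip_add_toC hz _), add_assoc, ← Hol.toC_add]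
        rfl
      rw [← e]
      exact Hol.nnnorm_le_fnSize_mul p' g V' X _ φ f hf
  · have e : cutA (fun X => ShiftGood g H1 X ∧ 𝒞 X) (shA KT fun x => v x / B8.Step.alpha ω) X = 0 := by
      unfold cutA
      rw [if_neg hX]
    rw [e]
    have : fnSize p' g V' X 0 = 0 := by
      apply le_antisymm _ zero_le
      rw [Hol.fnSize_le_iff]
      intro φ f _
      simp
    rw [this, mul_zero]
    exact zero_le

end

end Claimed.Agent.R285.F6.Pr
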