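import Claimed.Agent.R285.Obs.PairMst
import Claimed.Agent.R285.Obs.PairRegC
import Claimed.Agent.R285.Obs.PairDesM

/-!
# ROW 285, unit OBS, BP-OBS-L62: THE CHAIN OF CONSTANTS `Pr.PairConstStmt` (`Obs/PairMst.lean` s3) FROM THREE NAMED PIECES      (architect helper79)   -- KEEP.   No sorry.

`pair_row : CtxStmt → OneStmt → TotStmt → PairConstStmt`.   The chain itself (this file): `B4.regulator_mono` (inside `CtxStmt`), `Obs.terminal_regulator` (twice: `TermInt`), `prt_obsLe`, `prt_normLe`, `F4a.local_map_core` (twice).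
THE PIECES (each is a `Prop` here; producers in their own files):
* `CtxStmt` (helper241, `Obs/PairCst.lean`): `CtxAll` from `GeoFit`, `SqHyp` (twice), the tails `CoreTail` of `F4a.local_map_core` (twice), numeric inequalities;
* `OneStmt` (helper254, `Obs/PairOne.lean`): `OneStep` with `θ = 1/2`, `η = 1/4`, `β = √k₀`.   Order: `Ctr`, `vinf`;  `(o, oT, ε)`, `c`, `H0`, `H1`;  threshold `C1h` for `h₀`;  `δ, κ, h₀`, the gain constants `Cg0, CgT` of the two cores;  `ℓ0`, `D1`;  `ℓ`;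
   the constants `Cd0, CdT` of the designated data;  `A`, `qA`, `NormLe`;  the constants `Cnl, ε0` of the two cores;  `D2`, `C`, `ρ`;  the clearance `Dsq ≥ D1, D2`;
* `TotStmt` (helper223, `Obs/PairDesM.lean`): `TotBd`.
-/

set_option autoImplicit false

namespace Claimed.Agent.R285.F6.Pr

open scoped BigOperators ENNReal NNReal
open MeasureTheory
open Claimed.Agent.R285 Claimed.Agent.R285.RG Claimed.Agent.R285.B4 Claimed.Agent.R285.F4a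

noncomputable section

/-! ## 1. The pieces -/

/-- the tail of `F4a.local_map_core` for the geometry `c`, in the norm `(δ, κ, h₀, A)` -/
def CoreTail (c : B8.Geo) (δ κ : ℝ) (h0 : ℝ≥0) (A : ℝ) (ℓ D1 : ℕ) (k : KC) : Prop :=
  ∀ ω : ℝ, 0 < ω → ∀ D0 ≥ D1, ∀ (G : Geom) (P : Pair G D0 ℓ) (Γ : Matrix G.V G.V ℝ) (Vf : Extra P.g) (Vc : Extra P.g'),
    StepHyp ⟨δ, κ, h0, A, ω⟩ c.ρ c.r c.R c.n0 c.Ck c.ck c.cst P Γ Vf Vc → Vf.sep ≤ c.sepV → Vc.sep ≤ c.sepV →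
    StepGain ⟨δ, κ, h0, A, ω⟩ c.r c.R c.n0 k.Cg k.Cd k.Cnl k.ε0 k.η k.β P Γ Vf Vc

/-- **PIECE 1**: the context at every retained level of every centred free square -/
def CtxStmt : Prop := ∃ δm > (0 : ℝ), ∀ (o oT : ObsPar) (c : B8.Geo), Obs.GeoFit c →
  ∀ (δ κ : ℝ) (h0 : ℝ≥0) (A qA : ℝ) (H0 H1 ℓ D1R D1 Dsq : ℕ) (vinf : ℤ × ℤ → ℝ) (k0 kT : KC),
    δ ∈ Set.Ioc 0 δm → 0 < κ → 0 < h0 → 1 ≤ qA → qA ≤ A → 2 ≤ ℓ →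
    Obs.SqHyp c δ κ o ℓ D1R → Obs.SqHyp c δ (2 * κ) oT ℓ D1R → CoreTail c δ κ h0 A ℓ D1 k0 → CoreTail c δ (2 * κ) h0 (A / qA) ℓ D1 kT →
    D1R ≤ Dsq → D1 ≤ Dsq → pp + 2 ≤ H0 → 3 ≤ H1 → H0 + H1 + c.R * c.n0 + c.ρ + 4 ≤ 2 ^ ℓ → 2 * (H0 + H1 + c.R * c.n0 + 4) ≤ Dsq →
    CtxAll (pmOf c H0 H1 Dsq vinf) (nmOf δ κ h0 A qA) k0 kT o oT ℓ

/-- **PIECE 2**: [F] Lemma 6.2 for one step -/
def OneStmt : Prop := ∃ (Ctr : ℝ) (vinf : ℤ × ℤ → ℝ), 0 ≤ Ctr ∧ ∀ (o oT : ObsPar) (ε : ℝ) (c : B8.Geo) (H0 H1 : ℕ), Obs.GeoFit c → pp + 2 ≤ H0 → 3 ≤ H1 →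
  ∃ C1h : ℝ≥0, ∀ (δ κ : ℝ) (h0 Cg0 CgT : ℝ≥0), 0 < δ → δ ≤ 1 → 0 < κ → 0 < h0 → C1h ≤ h0 → ∃ ℓ0 D1 : ℕ, ∀ ℓ ≥ ℓ0, ∃ Cd0 CdT : ℝ≥0,
  ∀ A qA : ℝ, 1 ≤ qA → qA ≤ A → NormLe ε Ctr ⟨δ, κ, h0, A, B8.ω8⟩ ⟨δ, 2 * κ, h0, A / qA, B8.ω8⟩ o oT →
  ∀ Cnl0 ε00 CnlT ε0T : ℝ≥0, 0 < ε00 → 0 < ε0T → ∃ (D2 : ℕ) (C ρ : ℝ≥0), 1 ≤ C ∧ 0 < ρ ∧ ∀ Dsq : ℕ, D1 ≤ Dsq → D2 ≤ Dsq →
    OneStep (pmOf c H0 H1 Dsq vinf) (nmOf δ κ h0 A qA) ⟨Cg0, Cd0, Cnl0, ε00, 1 / 4, Real.sqrt B8.k0⟩ ⟨CgT, CdT, CnlT, ε0T, 1 / 4, Real.sqrt B8.k0⟩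
      o oT ℓ (1 / 2) C ρ

/-- **PIECE 3**: the total norms -/
def TotStmt : Prop := ∃ Ctr : ℝ, 0 ≤ Ctr ∧ ∀ (o oT : ObsPar) (ε : ℝ) (c : B8.Geo) (H0 H1 ℓ : ℕ) (vinf : ℤ × ℤ → ℝ) (δ κ : ℝ) (h0 : ℝ≥0) (A qA : ℝ),
  Obs.GeoFit c → 3 ≤ H1 → 1 ≤ ℓ → 0 < δ → 0 < κ → 0 < h0 → 1 ≤ qA → qA ≤ A → NormLe ε Ctr ⟨δ, κ, h0, A, B8.ω8⟩ ⟨δ, 2 * κ, h0, A / qA, B8.ω8⟩ o oT →
  ∃ C : ℝ≥0, ∀ Dsq : ℕ, TotBd (pmOf c H0 H1 Dsq vinf) (nmOf δ κ h0 A qA) o oT ℓ C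

/-! ## 2. Monotonicity in `C` -/

theorem StepOut.mono {pm : Prm} {nm : Nm} {G : Geom} {ℓ : ℕ} {T : Tw G ℓ} {v : G.V → ℝ} {j : ℕ} {h : Ret G ℓ pm.D0 j} {t z : ℂ} {x : St (lev G ℓ j)}
    {θ C C' : ℝ≥0} (H : StepOut pm nm T v h t z x θ C) (hC : C ≤ C') : StepOut pm nm T v h t z x θ C' := by
  have hc : (C : ℝ≥0∞) ≤ C' := by exact_mod_cast hC
  exact
    { H with
      rowW := H.rowW.trans (by gcongr)
      rowD := H.rowD.trans (by gcongr)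
      rowJ := H.rowJ.trans (by gcongr)
      sc_diff := fun b => (H.sc_diff b).trans (by gcongr) }

theorem OneStep.mono {pm : Prm} {nm : Nm} {k0 kT : KC} {o oT : ObsPar} {ℓ : ℕ} {θ C C' ρ : ℝ≥0} (H : OneStep pm nm k0 kT o oT ℓ θ C ρ) (hC : C ≤ C') :
    OneStep pm nm k0 kT o oT ℓ θ C' ρ :=
  fun G T cl v sd j0 j h a1 a2 a3 a4 a5 a6 a7 a8 t z x b1 b2 b3 b4 b5 => (H G T cl v sd j0 j h a1 a2 a3 a4 a5 a6 a7 a8 t z x b1 b2 b3 b4 b5).mono hC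

theorem TotBd.mono {pm : Prm} {nm : Nm} {o oT : ObsPar} {ℓ : ℕ} {C C' : ℝ≥0} (H : TotBd pm nm o oT ℓ C) (hC : C ≤ C') : TotBd pm nm o oT ℓ C' := by
  have hc : (C : ℝ≥0∞) ≤ C' := by exact_mod_cast hC
  intro G T cl v j0 j a1 a2 a3 a4 a5 a6 t z x hx
  obtain ⟨h1, h2, h3, h4⟩ := H G T cl v j0 j a1 a2 a3 a4 a5 a6 t z x hx
  exact ⟨h1.trans (by gcongr), h2.trans (by gcongr), h3.trans (by gcongr), h4⟩

theorem CoreTail.mono {c : B8.Geo} {δ κ : ℝ} {h0 : ℝ≥0} {A : ℝ} {ℓ D1 D1' : ℕ} {k : KC} (H : CoreTail c δ κ h0 A ℓ D1 k) (hD : D1 ≤ D1') :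
    CoreTail c δ κ h0 A ℓ D1' k := fun ω hω D0 hD0 => H ω hω D0 (hD.trans hD0)

/-! ## 3. PIECE 3 is proved (`pdm_totBd`, helper223) -/

theorem pair_tot : TotStmt := by
  have hω : 0 < B8.ω8 := by
    unfold B8.ω8 B8.k0
    positivity
  obtain ⟨Ctr, hCtr, hR2⟩ := pdm_R2All B8.ω8 hω
  refine ⟨Ctr, hCtr, fun o oT ε c H0 H1 ℓ vinf δ κ h0 A qA _ hH1 hℓ hδ hκ _ hq hA hN => ?_⟩
  obtain ⟨Cs0, hCs⟩ := pdm_singBd δ κ h0 hδ hκ (pmOf c H0 H1 0 vinf).α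
  refine ⟨1 + (nmOf δ κ h0 A qA).A.toNNReal * Cs0, fun Dsq => ?_⟩
  exact pdm_totBd (pm := pmOf c H0 H1 Dsq vinf) (nm := nmOf δ κ h0 A qA) (ε := ε) (Ctr := Ctr) hN (hR2 ε (nmOf δ κ h0 A qA) o oT hN (pmOf c H0 H1 Dsq vinf) rfl hH1 ℓ hℓ)
    (hCs (pmOf c H0 H1 Dsq vinf) (nmOf δ κ h0 A qA) rfl rfl rfl (hq.trans hA) hω le_rfl) le_rfl

/-! ## 4. The chain -/

theorem pair_row (hctx : CtxStmt) (hone : OneStmt) (htot : TotStmt) : PairConstStmt := by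
  obtain ⟨δm, hδm, hctx⟩ := hctx
  obtain ⟨Ctr1, vinf, hCtr1, hone⟩ := hone
  obtain ⟨Ctr2, hCtr2, htot⟩ := htot
  intro o oT hO
  obtain ⟨ε, hε0, hε1, hobs⟩ := prt_obsLe o oT (hO.aT.trans hO.a.symm) hO.h hO.p1
  obtain ⟨δa, hδa, hta⟩ := Obs.terminal_regulator o
  obtain ⟨δb, hδb, htb⟩ := Obs.terminal_regulator oT
  refine ⟨min (min δm 1) (min δa δb), lt_min (lt_min hδm one_pos) (lt_min hδa hδb), fun δ hδ => ?_⟩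
  have hδ0 : 0 < δ := hδ.1
  have hδ1 : δ ≤ 1 := hδ.2.trans ((min_le_left _ _).trans (min_le_right _ _))
  have hδm' : δ ∈ Set.Ioc 0 δm := ⟨hδ0, hδ.2.trans ((min_le_left _ _).trans (min_le_left _ _))⟩
  obtain ⟨κa, hκa, Ca, hta⟩ := hta δ ⟨hδ0, hδ.2.trans ((min_le_right _ _).trans (min_le_left _ _))⟩
  obtain ⟨κb, hκb, Cb, htb⟩ := htb δ ⟨hδ0, hδ.2.trans ((min_le_right _ _).trans (min_le_right _ _))⟩
  refine ⟨min κa (κb / 2), lt_min hκa (by positivity), fun κ hκ c c0 hc hc0 => ?_⟩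
  have hκ0 : 0 < κ := hκ.1
  have hκa' : κ ∈ Set.Ioc 0 κa := ⟨hκ0, hκ.2.trans (min_le_left _ _)⟩
  have hκb' : 2 * κ ∈ Set.Ioc 0 κb := ⟨by positivity, by have := hκ.2.trans (min_le_right _ _); linarith⟩
  have hβ : 0 < Real.sqrt B8.k0 := Real.sqrt_pos.2 (by unfold B8.k0; positivity)
  obtain ⟨Csh, hcore⟩ := local_map_core c.Ck c.ck c.ρ c.r c.R c.n0 c.sepV hc.ok.hρ hc.ok.hs hc.ok.hrR c.cst
  have hH0 : pp + 2 ≤ c0 + 4 := by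
    have := hc.ρ
    omega
  obtain ⟨C1h, hone⟩ := hone o oT ε c (c0 + 4) 3 hc hH0 le_rfl
  set qA : ℝ := max (max (Real.exp (shC ε κ o Ctr1)) (Real.exp (shC ε κ o Ctr2))) 1 with hqA
  have hq1 : 1 ≤ qA := le_max_right _ _
  have hq0 : 0 < qA := lt_of_lt_of_le one_pos hq1
  refine ⟨max (max C1h (Csh * Real.sqrt B8.k0).toNNReal) 1, qA, c0 + 4, 3, vinf, lt_of_lt_of_le one_pos (le_max_right _ _), hq1, le_rfl, le_rfl,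
    fun h0 hh0 => ?_⟩
  have hh1 : C1h ≤ h0 := ((le_max_left _ _).trans (le_max_left _ _)).trans hh0
  have hh2 : Csh * Real.sqrt B8.k0 ≤ h0 := by
    have : (Csh * Real.sqrt B8.k0).toNNReal ≤ h0 := ((le_max_right _ _).trans (le_max_left _ _)).trans hh0
    exact (Real.le_coe_toNNReal _).trans (by exact_mod_cast this)
  have hh3 : 0 < h0 := lt_of_lt_of_le one_pos ((le_max_right _ _).trans hh0)
  obtain ⟨Cg0, ℓa, Da, hcore0⟩ := hcore δ κ h0 (Real.sqrt B8.k0) hδ0 hκ0 hh3 hβ hh2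
  obtain ⟨CgT, ℓb, Db, hcoreT⟩ := hcore δ (2 * κ) h0 (Real.sqrt B8.k0) hδ0 (by positivity) hh3 hβ hh2
  obtain ⟨ℓc, Dc, hone⟩ := hone δ κ h0 Cg0 CgT hδ0 hδ1 hκ0 hh3 hh1
  refine ⟨max (max (max ℓa ℓb) ℓc) (max 2 (c0 + 4 + 3 + c.R * c.n0 + c.ρ + 4)), (le_max_left _ _).trans (le_max_right _ _), fun ℓ hℓ => ?_⟩
  have hℓa : ℓa ≤ ℓ := (((le_max_left _ _).trans (le_max_left _ _)).trans (le_max_left _ _)).trans hℓ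
  have hℓb : ℓb ≤ ℓ := (((le_max_right _ _).trans (le_max_left _ _)).trans (le_max_left _ _)).trans hℓ
  have hℓc : ℓc ≤ ℓ := ((le_max_right _ _).trans (le_max_left _ _)).trans hℓ
  have hℓ2 : 2 ≤ ℓ := ((le_max_left _ _).trans (le_max_right _ _)).trans hℓ
  have hℓz : c0 + 4 + 3 + c.R * c.n0 + c.ρ + 4 ≤ 2 ^ ℓ := (((le_max_right _ _).trans (le_max_right _ _)).trans hℓ).trans Nat.lt_two_pow_self.le
  obtain ⟨Aa, hcore0⟩ := hcore0 ℓ hℓa (1 / 4) (by positivity)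
  obtain ⟨Ab, hcoreT⟩ := hcoreT ℓ hℓb (1 / 4) (by positivity)
  obtain ⟨Cd0, CdT, hone⟩ := hone ℓ hℓc
  refine ⟨max (max Aa (qA * Ab)) qA, le_max_right _ _, fun A hA D1R hS0 hST => ?_⟩
  have hAa : Aa ≤ A := ((le_max_left _ _).trans (le_max_left _ _)).trans hA
  have hAb : Ab ≤ A / qA := by
    rw [le_div_iff₀ hq0, mul_comm]
    exact ((le_max_right _ _).trans (le_max_left _ _)).trans hA
  have hAq : qA ≤ A := (le_max_right _ _).trans hA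
  have hA0 : 0 ≤ A := hq0.le.trans hAq
  obtain ⟨Cnl0, ε00, hε00, hcore0⟩ := hcore0 A hAa Cd0
  obtain ⟨CnlT, ε0T, hε0T, hcoreT⟩ := hcoreT (A / qA) hAb CdT
  have hN1 : NormLe ε Ctr1 ⟨δ, κ, h0, A, B8.ω8⟩ ⟨δ, 2 * κ, h0, A / qA, B8.ω8⟩ o oT :=
    prt_normLe ε Ctr1 hε0 hε1 hCtr1 o oT hobs δ κ h0 A B8.ω8 qA hδ0.le hδ1 hκ0.le hA0 ((le_max_left _ _).trans (le_max_left _ _))
  have hN2 : NormLe ε Ctr2 ⟨δ, κ, h0, A, B8.ω8⟩ ⟨δ, 2 * κ, h0, A / qA, B8.ω8⟩ o oT :=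
    prt_normLe ε Ctr2 hε0 hε1 hCtr2 o oT hobs δ κ h0 A B8.ω8 qA hδ0.le hδ1 hκ0.le hA0 ((le_max_right _ _).trans (le_max_left _ _))
  obtain ⟨Dd, C1, ρ, hC1, hρ, hone⟩ := hone A qA hq1 hAq hN1 Cnl0 ε00 CnlT ε0T hε00 hε0T
  obtain ⟨C2, htot⟩ := htot o oT ε c (c0 + 4) 3 ℓ vinf δ κ h0 A qA hc le_rfl (by omega) hδ0 hκ0 hh3 hq1 hAq hN2
  set Dsq : ℕ := max (max D1R (max Da Db)) (max (max Dc Dd) (2 * (c0 + 4 + 3 + c.R * c.n0 + 4))) with hDsq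
  refine ⟨Dsq, ⟨Cg0, Cd0, Cnl0, ε00, 1 / 4, Real.sqrt B8.k0⟩, ⟨CgT, CdT, CnlT, ε0T, 1 / 4, Real.sqrt B8.k0⟩, 1 / 2, max C1 C2, ρ, by positivity, ?_,
    hC1.trans (le_max_left _ _), hρ, ?_, ?_, ?_, ?_⟩
  · rw [← NNReal.coe_lt_coe]
    push_cast
    norm_num
  · exact hctx o oT c hc δ κ h0 A qA (c0 + 4) 3 ℓ D1R (max Da Db) Dsq vinf _ _ hδm' hκ0 hh3 hq1 hAq hℓ2 hS0 hST
      (CoreTail.mono (D1 := Da) hcore0 (le_max_left _ _)) (CoreTail.mono (D1 := Db) hcoreT (le_max_right _ _))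
      ((le_max_left _ _).trans (le_max_left _ _)) ((le_max_right _ _).trans (le_max_left _ _)) hH0 le_rfl hℓz ((le_max_right _ _).trans (le_max_right _ _))
  · exact (hone Dsq (((le_max_left _ _).trans (le_max_left _ _)).trans (le_max_right _ _))
      (((le_max_right _ _).trans (le_max_left _ _)).trans (le_max_right _ _))).mono (le_max_left _ _)
  · exact (htot Dsq).mono (le_max_right _ _)
  · intro G cl g hcl hg hN hM Γ hΓ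
    refine ⟨fun V hV => ?_, fun V hV => ?_⟩
    · exact ne_top_of_le_ne_top (ENNReal.pow_ne_top ENNReal.coe_ne_top) (hta κ hκa' G cl g hcl hg hN hM Γ hΓ V hV Finset.univ)
    · exact ne_top_of_le_ne_top (ENNReal.pow_ne_top ENNReal.coe_ne_top) (htb (2 * κ) hκb' G cl g hcl hg hN hM Γ hΓ V hV Finset.univ)

/-- the chain from the two open pieces -/
theorem pair_row2 (hctx : CtxStmt) (hone : OneStmt) : PairConstStmt := pair_row hctx hone pair_tot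

end

end Claimed.Agent.R285.F6.Pr
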