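import Claimed.Agent.R285.Obs.PairCtx
import Claimed.Agent.R285.Map.WDes
import Claimed.Agent.R285.Obs.PairKit

/-!
# ROW 285, unit OBS, BP-OBS-L62, block EST-W/D: (obs:wall-recurrence) and (obs:defect-recurrence) of [F] Lemma 6.2      (architect helper254)   -- KEEP

ONE MECHANISM for both rows.  `K' = Klin + (K' - Klin)`, and for a designation BY PIECES (`ofPieces S c pc cn`)
  `Klin Y = ∑_{X small, cl X = Y} resid X  +  linL Y  +  [Y = {b}] ∑_{X small} ∑_{B ∈ X, up B = b} (pc X B - cn X B)`      (`prw_klin`, pure algebra).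
The small inputs are split into a BAD class `𝒞` (wall: not wall-free;  defect: not shift-good) and the rest:
 * bad inputs: only a constant is designated, `resid X = E K(X) - const`, gain `γ` per input, `N` placements per output, nothing is relocated;
 * the other inputs are bounded IN FULL by a number `a` (`= C U`, resp. `C (U + w)`), `M` inputs per coarse block;
 * large inputs: `StepGain.large`;   nonlinear part: `StepGain.quad`.
`prw_abs` = the resulting inequality, for ANY step, norm, activity, pieces and class (no geometry, no analysis).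
`prw_row` = (W), `prd_row` = (D): instances, ALL NUMBERS ARE EXPLICIT PARAMETERS; the analytic inputs are the named hypotheses
 `GainE` / `GainN` (per-input gains: neutral part minus constant + all charges; producer helper22, `Obs/PairGain.lean`), `RefAt` (reference point of the defect constants; helper22),
 the per-piece bounds and `Desig.Ok`, `Desig.size` (DESIG-0 helper125, DESIG-T helper223), the counts (`Obs/PairGeo.lean`: `prg_count_wall`, `prg_count_defect`, `prg_count_all`).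
Prefixes `prw_`, `prd_`.
-/

set_option autoImplicit false

namespace Claimed.Agent.R285.F6.Pr

open scoped BigOperators ENNReal NNReal
open MeasureTheory
open Claimed.Agent.R285 Claimed.Agent.R285.RG Claimed.Agent.R285.B4 Claimed.Agent.R285.F4a

noncomputable section

variable {G : Geom} {D0 ℓ : ℕ}

/-! ## 1. The linear part of a designation by pieces -/

/-- the residual of the small input `X`: its expectation minus its designated pieces -/
def resid (S : B8.Step G D0 ℓ) (K : Act S.P.g) (pc : Finset S.P.g.I → S.P.g.I → Fn G) (X : Finset S.P.g.I) : Fn G :=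
  conv S.Γ (K X) - ∑ B ∈ X, pc X B

open Classical in
/-- the large inputs (verbatim the activity of `F4a.StepGain.large`) -/
def linL (S : B8.Step G D0 ℓ) (c : B8.Geo) (K : Act S.P.g) : Act S.P.g' := fun Y =>
  ∑ X ∈ Finset.univ.filter (fun X : Finset S.P.g.I => S.P.g.Conn c.R X ∧ c.n0 < X.card ∧ S.P.N.cl X = Y), conv S.Γ (K X)

open Classical in
/-- **LEAF `L-EST-WD1`** (pure finite algebra, ~100 l.).  Unfold `Klin` (`if_pos hY`), `ofPieces`, `resid`, `linL`.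
(1) `{X | Conn R X ∧ cl X = Y}` = `(small c).filter (cl X = Y)` ⊔ `{X | Conn R X ∧ n0 < |X| ∧ cl X = Y}` (`B8.w_mem_small`; `Finset.sum_filter_add_sum_filter_not` or `Finset.sum_union`);
(2) `∑_{b ∈ Y} ∑_{X small, cl X = Y} ∑_{B ∈ X, up B = b} pc X B = ∑_{X small, cl X = Y} ∑_{B ∈ X} pc X B` (`Finset.sum_comm`, `Finset.sum_fiberwise_of_maps_to`: `up B ∈ cl X = Y`);
(3) `∑_{Y'} [b ∈ Y'] ∑_{X small, cl X = Y'} .. = ∑_{X small} ..` (`Finset.sum_fiberwise`-like; if `b ∉ cl X` the inner filter is empty);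
(4) `a b • (1 : Fn G) = ∑ ∑ fun _ => cn X B` (`funext`, `Finset.sum_apply`). -/
theorem prw_klin (S : B8.Step G D0 ℓ) (c : B8.Geo) (K : Act S.P.g) (pc : Finset S.P.g.I → S.P.g.I → Fn G)
    (cn : Finset S.P.g.I → S.P.g.I → ℂ) (Y : Finset S.P.g'.I) (hY : S.P.g'.Conn c.R Y) :
    Klin S.P c.R (conv S.Γ) K (ofPieces S c pc cn) Y
      = (∑ X ∈ (S.small c).filter (fun X => S.P.N.cl X = Y), resid S K pc X) + linL S c K Y
        + ∑ b ∈ Y, if Y = {b} then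
            ∑ X ∈ S.small c, ∑ B ∈ X.filter (fun B => S.P.N.up B = b), (pc X B - fun _ => cn X B) else 0 := by
  rw [pk_klin S c pc cn K, Pi.add_apply, Pi.add_apply]
  congr 1
  congr 1
  unfold linS sumS subT resid
  refine Finset.sum_congr ?_ fun _ _ => rfl
  ext X
  simp only [Finset.mem_filter, and_true]

/-! ## 2. Cutting an activity -/

theorem prw_cut_le (p : Par) {g : Grid G} (V : Extra g) (𝒞 : Finset g.I → Prop) (K : Act g) : actNorm p g V (cutA 𝒞 K) ≤ actNorm p g V K := by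
  classical
  rw [B8.w_actNorm_le_iff]
  intro X
  unfold cutA
  split_ifs
  · exact B8.w_le_actNorm p g V K X
  · rw [B8.w_fnSize_zero, mul_zero]; exact zero_le

theorem prw_cut_at (p : Par) {g : Grid G} (V : Extra g) (𝒞 : Finset g.I → Prop) (K : Act g) (X : Finset g.I) (hX : 𝒞 X) :
    ENNReal.ofReal (p.A ^ X.card) * fnSize p g V X (K X) ≤ actNorm p g V (cutA 𝒞 K) := by
  classical
  have h := B8.w_le_actNorm p g V (cutA 𝒞 K) X
  unfold cutA at h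
  rwa [if_pos hX] at h

theorem prw_cut_split (p : Par) {g : Grid G} (V : Extra g) (𝒞 : Finset g.I → Prop) (K : Act g) :
    actNorm p g V K ≤ max (actNorm p g V (cutA 𝒞 K)) (actNorm p g V (cutA (fun X => ¬ 𝒞 X) K)) := by
  rw [B8.w_actNorm_le_iff]
  intro X
  by_cases hX : 𝒞 X
  · exact (prw_cut_at p V 𝒞 K X hX).trans (le_max_left _ _)
  · exact (prw_cut_at p V (fun X => ¬ 𝒞 X) K X hX).trans (le_max_right _ _)

/-! ## 3. The abstract row -/

theorem prw_oA_mono (p : Par) (hA : 1 ≤ p.A) {m n : ℕ} (h : m ≤ n) : ENNReal.ofReal (p.A ^ m) ≤ ENNReal.ofReal (p.A ^ n) :=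
  ENNReal.ofReal_le_ofReal (pow_le_pow_right₀ hA h)

theorem prw_card_cl_le (S : B8.Step G D0 ℓ) (X : Finset S.P.g.I) : (S.P.N.cl X).card ≤ X.card := by
  unfold Nest.cl
  exact Finset.card_image_le

open Classical in
/-- the residuals of the small inputs over `Y` -/
theorem prw_abs_res (S : B8.Step G D0 ℓ) (c : B8.Geo) (p : Par) (hA : 1 ≤ p.A) (K : Act S.P.g)
    (pc : Finset S.P.g.I → S.P.g.I → Fn G) (𝒞 : Finset S.P.g.I → Prop) (γ a : ℝ≥0∞) (N M : ℕ)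
    (hbad : ∀ X ∈ S.small c, 𝒞 X → fnSize p S.P.g' S.Vc (S.P.N.cl X) (resid S K pc X) ≤ γ * fnSize p S.P.g S.Vf X (K X))
    (hN : ∀ Y, ((S.small c).filter fun X => S.P.N.cl X = Y ∧ 𝒞 X).card ≤ N)
    (hgood : ∀ X ∈ S.small c, ¬ 𝒞 X → fnSize p S.P.g' S.Vc (S.P.N.cl X) (resid S K pc X) ≤ a)
    (hM : ∀ b : S.P.g'.I, ((S.small c).filter fun X => ∃ B ∈ X, S.P.N.up B = b).card ≤ M)
    (Y : Finset S.P.g'.I) (hY : Y.Nonempty) :
    ENNReal.ofReal (p.A ^ Y.card) * fnSize p S.P.g' S.Vc Y (∑ X ∈ (S.small c).filter (fun X => S.P.N.cl X = Y), resid S K pc X)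
      ≤ N * γ * actNorm p S.P.g S.Vf (cutA 𝒞 K) + ENNReal.ofReal (p.A ^ c.n0) * (M * a) := by
  obtain ⟨b0, hb0⟩ := hY
  refine (mul_le_mul' le_rfl (B8.w_fnSize_sum_le p S.P.g' S.Vc Y _ _)).trans ?_
  rw [Finset.mul_sum, ← Finset.sum_filter_add_sum_filter_not _ 𝒞]
  refine add_le_add ?_ ?_
  · refine (Finset.sum_le_card_nsmul _ _ (γ * actNorm p S.P.g S.Vf (cutA 𝒞 K)) ?_).trans ?_
    · intro X hX
      rw [Finset.mem_filter, Finset.mem_filter] at hX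
      obtain ⟨⟨hXs, hXY⟩, hXC⟩ := hX
      have h1 := hbad X hXs hXC
      rw [hXY] at h1
      calc ENNReal.ofReal (p.A ^ Y.card) * fnSize p S.P.g' S.Vc Y (resid S K pc X)
          ≤ ENNReal.ofReal (p.A ^ X.card) * (γ * fnSize p S.P.g S.Vf X (K X)) :=
            mul_le_mul' (prw_oA_mono p hA (hXY ▸ prw_card_cl_le S X)) h1
        _ = γ * (ENNReal.ofReal (p.A ^ X.card) * fnSize p S.P.g S.Vf X (K X)) := by ring
        _ ≤ _ := mul_le_mul' le_rfl (prw_cut_at p S.Vf 𝒞 K X hXC)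
    · rw [nsmul_eq_mul, mul_assoc, Finset.filter_filter]
      exact mul_le_mul' (by exact_mod_cast hN Y) le_rfl
  · refine (Finset.sum_le_card_nsmul _ _ (ENNReal.ofReal (p.A ^ c.n0) * a) ?_).trans ?_
    · intro X hX
      rw [Finset.mem_filter, Finset.mem_filter] at hX
      obtain ⟨⟨hXs, hXY⟩, hXC⟩ := hX
      have h1 := hgood X hXs hXC
      rw [hXY] at h1
      exact mul_le_mul' (prw_oA_mono p hA ((hXY ▸ prw_card_cl_le S X).trans (B8.w_mem_small.1 hXs).2)) h1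
    · rw [nsmul_eq_mul]
      calc ((((S.small c).filter (fun X => S.P.N.cl X = Y)).filter (fun X => ¬ 𝒞 X)).card : ℝ≥0∞) * (ENNReal.ofReal (p.A ^ c.n0) * a)
          ≤ (M : ℝ≥0∞) * (ENNReal.ofReal (p.A ^ c.n0) * a) := by
            refine mul_le_mul' ?_ le_rfl
            have hsub : ((S.small c).filter (fun X => S.P.N.cl X = Y)).filter (fun X => ¬ 𝒞 X)
                ⊆ (S.small c).filter fun X => ∃ B ∈ X, S.P.N.up B = b0 := by
              intro X hX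
              rw [Finset.mem_filter, Finset.mem_filter] at hX
              obtain ⟨⟨hXs, hXY⟩, -⟩ := hX
              rw [Finset.mem_filter]
              refine ⟨hXs, ?_⟩
              rw [← hXY] at hb0
              unfold Nest.cl at hb0
              exact Finset.mem_image.1 hb0
            exact_mod_cast (Finset.card_le_card hsub).trans (hM b0)
        _ = _ := by ring

open Classical in
/-- the relocated pieces at the singleton `{b}` -/
theorem prw_abs_rel (S : B8.Step G D0 ℓ) (c : B8.Geo) (p : Par) (hA : 1 ≤ p.A)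
    (pc : Finset S.P.g.I → S.P.g.I → Fn G) (cn : Finset S.P.g.I → S.P.g.I → ℂ) (𝒞 : Finset S.P.g.I → Prop) (a : ℝ≥0∞) (M : ℕ)
    (hrel0 : ∀ X ∈ S.small c, 𝒞 X → ∀ B ∈ X, pc X B = fun _ => cn X B)
    (hrel : ∀ X ∈ S.small c, ¬ 𝒞 X → ∀ B ∈ X, fnSize p S.P.g' S.Vc {S.P.N.up B} (pc X B - fun _ => cn X B) ≤ a)
    (hM : ∀ b : S.P.g'.I, ((S.small c).filter fun X => ∃ B ∈ X, S.P.N.up B = b).card ≤ M) (b : S.P.g'.I) :
    ENNReal.ofReal (p.A ^ ({b} : Finset S.P.g'.I).card) * fnSize p S.P.g' S.Vc {b}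
        (∑ X ∈ S.small c, ∑ B ∈ X.filter (fun B => S.P.N.up B = b), (pc X B - fun _ => cn X B))
      ≤ ENNReal.ofReal (p.A ^ c.n0) * ((M * c.n0 : ℕ) * a) := by
  refine (mul_le_mul' le_rfl (B8.w_fnSize_sum_le p S.P.g' S.Vc {b} _ _)).trans ?_
  rw [Finset.mul_sum]
  have hterm : ∀ X ∈ S.small c,
      ENNReal.ofReal (p.A ^ ({b} : Finset S.P.g'.I).card) * fnSize p S.P.g' S.Vc {b}
        (∑ B ∈ X.filter (fun B => S.P.N.up B = b), (pc X B - fun _ => cn X B))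
      ≤ if (∃ B ∈ X, S.P.N.up B = b) then ENNReal.ofReal (p.A ^ c.n0) * (c.n0 * a) else 0 := by
    intro X hXs
    have hXc := (B8.w_mem_small.1 hXs).2
    have hXne : X.Nonempty := (B8.w_mem_small.1 hXs).1.1
    split_ifs with hP
    · refine mul_le_mul' (prw_oA_mono p hA ?_) ?_
      · rw [Finset.card_singleton]
        exact (Finset.card_pos.2 hXne).trans_le hXc
      · refine (B8.w_fnSize_sum_le p S.P.g' S.Vc {b} _ _).trans ?_
        refine (Finset.sum_le_card_nsmul _ _ a ?_).trans ?_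
        · intro B hB
          rw [Finset.mem_filter] at hB
          obtain ⟨hBX, hBb⟩ := hB
          by_cases hC : 𝒞 X
          · rw [hrel0 X hXs hC B hBX, sub_self, B8.w_fnSize_zero]
            exact zero_le
          · have := hrel X hXs hC B hBX
            rwa [hBb] at this
        · rw [nsmul_eq_mul]
          refine mul_le_mul' ?_ le_rfl
          exact_mod_cast (Finset.card_filter_le _ _).trans hXc
    · have hemp : X.filter (fun B => S.P.N.up B = b) = ∅ := by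
        rw [Finset.filter_eq_empty_iff]
        intro B hB hBb
        exact hP ⟨B, hB, hBb⟩
      rw [hemp, Finset.sum_empty, B8.w_fnSize_zero, mul_zero]
  refine (Finset.sum_le_sum hterm).trans ?_
  rw [← Finset.sum_filter, Finset.sum_const, nsmul_eq_mul]
  calc (((S.small c).filter fun X => ∃ B ∈ X, S.P.N.up B = b).card : ℝ≥0∞) * (ENNReal.ofReal (p.A ^ c.n0) * (c.n0 * a))
      ≤ (M : ℝ≥0∞) * (ENNReal.ofReal (p.A ^ c.n0) * (c.n0 * a)) := mul_le_mul' (by exact_mod_cast hM b) le_rfl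
    _ = _ := by push_cast; ring

open Classical in
/-- **LEAF `L-EST-WD2`: THE ABSTRACT ROW** (paper-free: triangle inequalities and counting, ~250 l.).
Fix `Y` (`B8.w_actNorm_le_iff`).  `K' Y = Klin Y + (K' - Klin) Y`; the second term is `≤ q` (`B8.w_le_actNorm`, `hquad`).  If `¬ Conn R Y` then `Klin Y = 0`.  Otherwise `prw_klin`, `B8.w_fnSize_add_le`, `B8.w_fnSize_sum_le`:
 (a) bad small inputs: `A^{|Y|} ≤ A^{|X|}` (`|cl X| ≤ |X|`: `Finset.card_image_le`; `1 ≤ A`), `hbad`, `prw_cut_at`, `hN`:  `≤ N γ ‖cutA 𝒞 K‖`;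
 (b) the other small inputs: all of them have a block in a fixed `b ∈ Y` (`Y` is nonempty), so there are `≤ M` of them (`hM`); `|Y| ≤ n0`; `hgood`:  `≤ A^{n0} M a`;
 (c) `linL`: `B8.w_le_actNorm`, `hlarge`, `prw_cut_split` (`max ≤ sum`);
 (d) `Y = {b}`: bad inputs contribute `0` (`hrel0`), the others `≤ a` each (`hrel`), `≤ M` inputs with `≤ n0` blocks each; `A^1 ≤ A^{n0}` as soon as there is a small input. -/
theorem prw_abs (S : B8.Step G D0 ℓ) (c : B8.Geo) (p : Par) (hA : 1 ≤ p.A) (K : Act S.P.g)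
    (pc : Finset S.P.g.I → S.P.g.I → Fn G) (cn : Finset S.P.g.I → S.P.g.I → ℂ) (𝒞 : Finset S.P.g.I → Prop) (γ a η q : ℝ≥0∞) (N M : ℕ)
    (hbad : ∀ X ∈ S.small c, 𝒞 X → fnSize p S.P.g' S.Vc (S.P.N.cl X) (resid S K pc X) ≤ γ * fnSize p S.P.g S.Vf X (K X))
    (hN : ∀ Y, ((S.small c).filter fun X => S.P.N.cl X = Y ∧ 𝒞 X).card ≤ N)
    (hgood : ∀ X ∈ S.small c, ¬ 𝒞 X → fnSize p S.P.g' S.Vc (S.P.N.cl X) (resid S K pc X) ≤ a)
    (hrel0 : ∀ X ∈ S.small c, 𝒞 X → ∀ B ∈ X, pc X B = fun _ => cn X B)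
    (hrel : ∀ X ∈ S.small c, ¬ 𝒞 X → ∀ B ∈ X, fnSize p S.P.g' S.Vc {S.P.N.up B} (pc X B - fun _ => cn X B) ≤ a)
    (hM : ∀ b : S.P.g'.I, ((S.small c).filter fun X => ∃ B ∈ X, S.P.N.up B = b).card ≤ M)
    (hlarge : actNorm p S.P.g' S.Vc (linL S c K) ≤ η * actNorm p S.P.g S.Vf K)
    (hquad : actNorm p S.P.g' S.Vc
      (Kprime S.P c.r c.R (conv S.Γ) K (ofPieces S c pc cn) - Klin S.P c.R (conv S.Γ) K (ofPieces S c pc cn)) ≤ q) :
    actNorm p S.P.g' S.Vc (Kprime S.P c.r c.R (conv S.Γ) K (ofPieces S c pc cn))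
      ≤ (N * γ + η) * actNorm p S.P.g S.Vf (cutA 𝒞 K) + η * actNorm p S.P.g S.Vf (cutA (fun X => ¬ 𝒞 X) K)
        + ENNReal.ofReal (p.A ^ c.n0) * ((M * (1 + c.n0) : ℕ) * a) + q := by
  rw [B8.w_actNorm_le_iff]
  intro Y
  have h2 : ENNReal.ofReal (p.A ^ Y.card) * fnSize p S.P.g' S.Vc Y
      ((Kprime S.P c.r c.R (conv S.Γ) K (ofPieces S c pc cn) - Klin S.P c.R (conv S.Γ) K (ofPieces S c pc cn)) Y) ≤ q :=
    (B8.w_le_actNorm p S.P.g' S.Vc _ Y).trans hquad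
  have h1 : ENNReal.ofReal (p.A ^ Y.card) * fnSize p S.P.g' S.Vc Y (Klin S.P c.R (conv S.Γ) K (ofPieces S c pc cn) Y)
      ≤ (N * γ + η) * actNorm p S.P.g S.Vf (cutA 𝒞 K) + η * actNorm p S.P.g S.Vf (cutA (fun X => ¬ 𝒞 X) K)
        + ENNReal.ofReal (p.A ^ c.n0) * ((M * (1 + c.n0) : ℕ) * a) := by
    by_cases hY : S.P.g'.Conn c.R Y
    · rw [prw_klin S c K pc cn Y hY]
      have ha := prw_abs_res S c p hA K pc 𝒞 γ a N M hbad hN hgood hM Y hY.1
      have hc : ENNReal.ofReal (p.A ^ Y.card) * fnSize p S.P.g' S.Vc Y (linL S c K Y)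
          ≤ η * actNorm p S.P.g S.Vf (cutA 𝒞 K) + η * actNorm p S.P.g S.Vf (cutA (fun X => ¬ 𝒞 X) K) := by
        refine ((B8.w_le_actNorm p S.P.g' S.Vc _ Y).trans hlarge).trans ?_
        rw [← mul_add]
        refine mul_le_mul' le_rfl ((prw_cut_split p S.Vf 𝒞 K).trans ?_)
        exact max_le le_self_add le_add_self
      have hd : ENNReal.ofReal (p.A ^ Y.card) * fnSize p S.P.g' S.Vc Y (∑ b ∈ Y, if Y = {b} then
            ∑ X ∈ S.small c, ∑ B ∈ X.filter (fun B => S.P.N.up B = b), (pc X B - fun _ => cn X B) else 0)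
          ≤ ENNReal.ofReal (p.A ^ c.n0) * ((M * c.n0 : ℕ) * a) := by
        by_cases hs : ∃ b, Y = {b}
        · obtain ⟨b, rfl⟩ := hs
          rw [Finset.sum_singleton, if_pos rfl]
          exact prw_abs_rel S c p hA pc cn 𝒞 a M hrel0 hrel hM b
        · rw [Finset.sum_eq_zero (fun b _ => if_neg (fun h' => hs ⟨b, h'⟩)), B8.w_fnSize_zero, mul_zero]
          exact zero_le
      refine (mul_le_mul' le_rfl ((B8.w_fnSize_add_le p S.P.g' S.Vc Y _ _).trans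
        (add_le_add (B8.w_fnSize_add_le p S.P.g' S.Vc Y _ _) le_rfl))).trans ?_
      rw [mul_add, mul_add]
      refine (add_le_add (add_le_add ha hc) hd).trans (le_of_eq ?_)
      push_cast
      ring
    · unfold Klin
      rw [if_neg hY, B8.w_fnSize_zero, mul_zero]
      exact zero_le
  have hsplit : Kprime S.P c.r c.R (conv S.Γ) K (ofPieces S c pc cn) Y
      = Klin S.P c.R (conv S.Γ) K (ofPieces S c pc cn) Y
        + (Kprime S.P c.r c.R (conv S.Γ) K (ofPieces S c pc cn) - Klin S.P c.R (conv S.Γ) K (ofPieces S c pc cn)) Y := by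
    rw [Pi.sub_apply, add_sub_cancel]
  rw [hsplit]
  refine (mul_le_mul' le_rfl (B8.w_fnSize_add_le p S.P.g' S.Vc Y _ _)).trans ?_
  rw [mul_add]
  exact add_le_add h1 h2

/-! ## 4. The analytic inputs, as named hypotheses -/

/-- per-input gain, EVEN inputs: the whole expectation (neutral part and all charges) minus the neutral constant.  `γ = C L⁻²` -/
def GainE (c : B8.Geo) (p : Par) (S : B8.Step G D0 ℓ) (γ : ℝ≥0∞) : Prop :=
  ∀ X ∈ S.small c, ∀ F : Fn G, LocalFn p c.col S.P.g X F → fnSize p S.P.g S.Vf X F ≠ ⊤ → (∀ z ∈ strip p.h0 S.P.g X, F (-z) = F z) →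
    fnSize p S.P.g' S.Vc (S.P.N.cl X) (fun z => conv S.Γ F z - conv S.Γ (chargeProj p.ω 0 F) 0) ≤ γ * fnSize p S.P.g S.Vf X F

/-- per-input gain, no evenness.  `γ = C L⁻¹` -/
def GainN (c : B8.Geo) (p : Par) (S : B8.Step G D0 ℓ) (γ : ℝ≥0∞) : Prop :=
  ∀ X ∈ S.small c, ∀ F : Fn G, LocalFn p c.col S.P.g X F → fnSize p S.P.g S.Vf X F ≠ ⊤ →
    fnSize p S.P.g' S.Vc (S.P.N.cl X) (fun z => conv S.Γ F z - conv S.Γ (chargeProj p.ω 0 F) 0) ≤ γ * fnSize p S.P.g S.Vf X F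

/-- moving the reference point of the neutral constant of the inputs of the class `𝒞` from `0` to the real field `η`.  `γ = 2 ϱ cst^{n0} / h₀` if `η` is `ϱ`-close to a constant near the class -/
def RefAt (c : B8.Geo) (p : Par) (S : B8.Step G D0 ℓ) (𝒞 : Finset S.P.g.I → Prop) (η : G.V → ℝ) (γ : ℝ≥0∞) : Prop :=
  ∀ X ∈ S.small c, 𝒞 X → ∀ F : Fn G, LocalFn p c.col S.P.g X F → fnSize p S.P.g S.Vf X F ≠ ⊤ →
    (‖conv S.Γ (chargeProj p.ω 0 F) (toC η) - conv S.Γ (chargeProj p.ω 0 F) 0‖₊ : ℝ≥0∞) ≤ γ * fnSize p S.P.g S.Vf X F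

/-- the size of an expectation (`RegStable.main`) -/
theorem prw_conv_size (S : B8.Step G D0 ℓ) (p : Par) (R n0 : ℕ) (cst : ℝ≥0) (hreg : RegStable R n0 cst p.δ p.κ S.P S.Vf S.Vc S.Γ) (hadm : p.Adm S.P.g')
    (X : Finset S.P.g.I) (Y : Finset S.P.g'.I) (hXY : S.P.N.cl X ⊆ Y) (F : Fn G) :
    fnSize p S.P.g' S.Vc Y (conv S.Γ F) ≤ (cst : ℝ≥0∞) ^ X.card * fnSize p S.P.g S.Vf X F := by
  rcases eq_or_ne (fnSize p S.P.g S.Vf X F) ⊤ with htop | htop
  · rw [htop, ENNReal.mul_top (Scal.cst_pow_ne_zero hadm.δ_pos.le hadm.κ_pos.le hreg X)]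
    exact le_top
  set u : ℝ≥0∞ := fnSize p S.P.g S.Vf X F with hu
  unfold fnSize
  refine iSup_le fun φ => ?_
  rw [ENNReal.div_le_iff (Scal.ofReal_Wt_ne_zero _ _ _ _ _ _) ENNReal.ofReal_ne_top]
  calc ptNorm p.h0 S.P.g' Y (conv S.Γ F) φ
      ≤ ptNorm p.h0 S.P.g X (conv S.Γ F) φ := Hol.ptNorm_coarse S.P p.h0 X Y hXY _ φ
    _ ≤ ∫⁻ ζ, ptNorm p.h0 S.P.g X F (φ + ζ) ∂(gauss G S.Γ) := Hol.ptNorm_conv _ _ _ _ _ _
    _ ≤ ∫⁻ ζ, u * ENNReal.ofReal (Wt S.P.g p.δ p.κ S.Vf X (φ + ζ)) ∂(gauss G S.Γ) := lintegral_mono fun ζ =>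
        Hol.ptNorm_le_fnSize_mul p S.P.g S.Vf X _ (φ + ζ)
    _ = u * ∫⁻ ζ, ENNReal.ofReal (Wt S.P.g p.δ p.κ S.Vf X (φ + ζ)) ∂(gauss G S.Γ) := lintegral_const_mul' _ _ htop
    _ ≤ u * ((cst : ℝ≥0∞) ^ X.card * ENNReal.ofReal (Wt S.P.g' p.δ p.κ S.Vc Y φ)) := mul_le_mul' le_rfl (hreg.main X Y hXY φ)
    _ = _ := by ring

/-! ## 5. (W): the wall row -/

open Classical in
/-- **LEAF `L-EST-W`: (obs:wall-recurrence), explicit numbers** (paper-free bookkeeping, ~250 l.).   `U` = plane size, `w` = wall size, `C1 U` bounds the centred activity on the wall-free supports (singletons included).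
`prw_abs` with `K := K0`, `pc := pc0 ..`, `cn := cn0 ..` (`d0 = ofPieces ..` by `rfl`), `𝒞 := fun X => ¬ WallFree ..`, `a := (cs C1 + (n0 + 2) Cp) U`, `q := Cnl (C1 U + w)²`.
 * finiteness: `‖K0‖ ≤ max (C1 U) w` (`prw_cut_split`; `cutA (fun X => ¬ ¬ WF X) = cutA WF`: `funext`, `not_not`), `Scal.fnSize_ne_top`;
 * `hbad`: `pc0 X B = fun _ => Hq 0 K0 X 0 / |X|` (`if_neg`), the sum over `B ∈ X` is `Hq 0 K0 X 0 = conv Γ (chargeProj ω 0 (K0 X)) 0` (`X ≠ ∅`: `Conn`), then `hγ X _ (K0 X) (hK.fn X) _ (hev X)`;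
 * `hgood`: `B8.w_fnSize_sub_le`, `prw_conv_size` (`hyp.reg`, `hyp.adm`), `cst^{|X|} ≤ cs` (`B8.w_ds_cst_le`), `prw_cut_at` + `1 ≤ A^{|X|}`, `B8.w_fnSize_sum_le`, `Scal.fnSize_anti` (`{up B} ⊆ cl X`), `hpc`;
 * `hrel0`: `if_neg` in `pc0`, `cn0`;   `hrel`: `B8.w_fnSize_sub_le`, `B8.w_ds_const_size`, `hpc`;
 * `hlarge := gain.large K0`;   `hquad := gain.quad c.col (C1 U + w) hε K0 _ hK hd _ hsz`. -/
theorem prw_row (S : B8.Step G D0 ℓ) (c : B8.Geo) (p : Par) (zn : Zn) (t z : ℂ) (K0 : Act S.P.g) (Cg Cd Cnl ε0 η : ℝ≥0) (β : ℝ)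
    (hyp : StepHyp p c.ρ c.r c.R c.n0 c.Ck c.ck c.cst S.P S.Γ S.Vf S.Vc)
    (gain : StepGain p c.r c.R c.n0 Cg Cd Cnl ε0 η β S.P S.Γ S.Vf S.Vc)
    (hA : 1 ≤ p.A) (hK : Act.Ok p c.col c.R K0) (hev : Act.Even p.h0 K0) (γ Cp C1 U w : ℝ≥0) (N M : ℕ)
    (hγ : GainE c p S γ)
    (hN : ∀ Y, ((S.small c).filter fun X => S.P.N.cl X = Y ∧ ¬ WallFree S.P.g zn.H0 X).card ≤ N)
    (hM : ∀ b : S.P.g'.I, ((S.small c).filter fun X => ∃ B ∈ X, S.P.N.up B = b).card ≤ M)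
    (hU : actNorm p S.P.g S.Vf (cutA (WallFree S.P.g zn.H0) K0) ≤ C1 * U)
    (hw : actNorm p S.P.g S.Vf (cutA (fun X => ¬ WallFree S.P.g zn.H0 X) K0) ≤ w)
    (hpc : ∀ X ∈ S.small c, WallFree S.P.g zn.H0 X → ∀ B ∈ X,
      fnSize p S.P.g' S.Vc {S.P.N.up B} (pc0 S p.ω zn t z K0 X B) ≤ Cp * U ∧ (‖cn0 S p.ω zn t z K0 X B‖₊ : ℝ≥0∞) ≤ Cp * U)
    (hd : (d0 S c p.ω zn t z K0).Ok p c.col c.r)
    (hsz : (d0 S c p.ω zn t z K0).size p S.Vc ≤ Cd * ((C1 * U + w : ℝ≥0) : ℝ≥0∞))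
    (hε : C1 * U + w ≤ ε0) :
    actNorm p S.P.g' S.Vc (Kprime S.P c.r c.R (conv S.Γ) K0 (d0 S c p.ω zn t z K0))
      ≤ ((N * γ + η : ℝ≥0) : ℝ≥0∞) * w
        + (η * C1 + ENNReal.ofReal (p.A ^ c.n0) * ((M * (1 + c.n0) : ℕ) * ((max 1 c.cst ^ c.n0 * C1 + (c.n0 + 2) * Cp : ℝ≥0) : ℝ≥0∞))) * U
        + Cnl * ((C1 * U + w : ℝ≥0) : ℝ≥0∞) ^ 2 := by
  have hA0 : 0 < p.A := lt_of_lt_of_le zero_lt_one hA
  have hnn : (fun X => ¬ ¬ WallFree S.P.g zn.H0 X) = WallFree S.P.g zn.H0 := by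
    funext X
    exact propext not_not
  -- size of the activity
  have hKle : actNorm p S.P.g S.Vf K0 ≤ ((C1 * U + w : ℝ≥0) : ℝ≥0∞) := by
    refine (prw_cut_split p S.Vf (WallFree S.P.g zn.H0) K0).trans (max_le ?_ ?_)
    · refine hU.trans ?_
      push_cast
      exact le_self_add
    · refine hw.trans ?_
      push_cast
      exact le_add_self
  have hfin : actNorm p S.P.g S.Vf K0 ≠ ⊤ := ne_top_of_le_ne_top ENNReal.coe_ne_top hKle
  have hfs : ∀ X, fnSize p S.P.g S.Vf X (K0 X) ≠ ⊤ := Scal.fnSize_ne_top p hA0 S.P.g S.Vf K0 hfin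
  have hδ : 0 ≤ p.δ := hyp.adm.δ_pos.le
  have hκ : 0 ≤ p.κ := hyp.adm.κ_pos.le
  -- size of a wall-free input
  have hwf : ∀ X, WallFree S.P.g zn.H0 X → fnSize p S.P.g S.Vf X (K0 X) ≤ C1 * U := by
    intro X hX
    refine le_trans ?_ ((prw_cut_at p S.Vf (WallFree S.P.g zn.H0) K0 X hX).trans hU)
    calc fnSize p S.P.g S.Vf X (K0 X) = 1 * fnSize p S.P.g S.Vf X (K0 X) := (one_mul _).symm
      _ ≤ _ := mul_le_mul' (by rw [← ENNReal.ofReal_one]; exact ENNReal.ofReal_le_ofReal (one_le_pow₀ hA)) le_rfl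
  obtain ⟨a, ha⟩ : ∃ a : ℝ≥0∞, a = ((max 1 c.cst ^ c.n0 * C1 + (c.n0 + 2) * Cp : ℝ≥0) : ℝ≥0∞) * U := ⟨_, rfl⟩
  have ha' : a = ((max 1 c.cst ^ c.n0 : ℝ≥0) : ℝ≥0∞) * (C1 * U) + (c.n0 : ℝ≥0∞) * (Cp * U) + 2 * (Cp * U) := by
    rw [ha]
    push_cast
    ring
  have key := prw_abs S c p hA K0 (pc0 S p.ω zn t z K0) (cn0 S p.ω zn t z K0) (fun X => ¬ WallFree S.P.g zn.H0 X) γ a η
    (Cnl * ((C1 * U + w : ℝ≥0) : ℝ≥0∞) ^ 2) N M ?hbad ?hN ?hgood ?hrel0 ?hrel hM (gain.large K0)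
    (gain.quad c.col (C1 * U + w) hε K0 _ hK hd hKle hsz)
  case hbad =>
    intro X hX hXw
    have hne : X.Nonempty := (B8.w_mem_small.1 hX).1.1
    have hc : (X.card : ℂ) ≠ 0 := by exact_mod_cast hne.card_pos.ne'
    have e : resid S K0 (pc0 S p.ω zn t z K0) X
        = fun z' => conv S.Γ (K0 X) z' - conv S.Γ (chargeProj p.ω 0 (K0 X)) 0 := by
      funext z'
      unfold resid pc0
      rw [Pi.sub_apply, Finset.sum_apply]
      simp only [if_neg hXw, Finset.sum_const, nsmul_eq_mul]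
      rw [← mul_assoc, mul_one_div_cancel hc, one_mul]
      rfl
    rw [e]
    exact hγ X hX (K0 X) (hK.fn X) (hfs X) (hev X)
  case hN =>
    intro Y
    convert hN Y
  case hgood =>
    intro X hX hXw
    have hXw' : WallFree S.P.g zn.H0 X := not_not.1 hXw
    have hcard : X.card ≤ c.n0 := (B8.w_mem_small.1 hX).2
    unfold resid
    refine (B8.w_fnSize_sub_le _ _ _ _ _ _).trans ?_
    have h1 : fnSize p S.P.g' S.Vc (S.P.N.cl X) (conv S.Γ (K0 X)) ≤ ((max 1 c.cst ^ c.n0 : ℝ≥0) : ℝ≥0∞) * (C1 * U) :=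
      (prw_conv_size S p c.R c.n0 c.cst hyp.reg hyp.adm X _ (Finset.Subset.refl _) (K0 X)).trans
        (mul_le_mul' (B8.w_ds_cst_le c hcard) (hwf X hXw'))
    have h2 : fnSize p S.P.g' S.Vc (S.P.N.cl X) (∑ B ∈ X, pc0 S p.ω zn t z K0 X B) ≤ (c.n0 : ℝ≥0∞) * (Cp * U) := by
      refine (B8.w_fnSize_sum_le _ _ _ _ _ _).trans ?_
      calc ∑ B ∈ X, fnSize p S.P.g' S.Vc (S.P.N.cl X) (pc0 S p.ω zn t z K0 X B) ≤ ∑ _B ∈ X, ((Cp : ℝ≥0∞) * U) := by
            refine Finset.sum_le_sum fun B hB => ?_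
            refine (Scal.fnSize_anti p S.P.g' hyp.adm S.Vc (X := {S.P.N.up B}) ?_ _).trans (hpc X hX hXw' B hB).1
            rw [Finset.singleton_subset_iff]
            exact Finset.mem_image_of_mem _ hB
        _ = (X.card : ℝ≥0∞) * (Cp * U) := by rw [Finset.sum_const, nsmul_eq_mul]
        _ ≤ _ := mul_le_mul' (by exact_mod_cast hcard) le_rfl
    rw [ha']
    exact (add_le_add h1 h2).trans le_self_add
  case hrel0 =>
    intro X hX hXw B hB
    unfold pc0 cn0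
    rw [if_neg hXw, if_neg hXw]
  case hrel =>
    intro X hX hXw B hB
    have hXw' : WallFree S.P.g zn.H0 X := not_not.1 hXw
    refine (B8.w_fnSize_sub_le _ _ _ _ _ _).trans ?_
    have h1 := (hpc X hX hXw' B hB).1
    have h2 := (B8.w_ds_const_size p hδ hκ S.P.g' S.Vc {S.P.N.up B} (cn0 S p.ω zn t z K0 X B)).trans (hpc X hX hXw' B hB).2
    rw [ha', two_mul]
    exact (add_le_add h1 h2).trans le_add_self
  rw [hnn] at key
  refine key.trans ?_
  have e1 : ((N : ℝ≥0∞) * γ + η) * actNorm p S.P.g S.Vf (cutA (fun X => ¬ WallFree S.P.g zn.H0 X) K0)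
      ≤ ((N * γ + η : ℝ≥0) : ℝ≥0∞) * w := by
    push_cast
    exact mul_le_mul' le_rfl hw
  have e2 : (η : ℝ≥0∞) * actNorm p S.P.g S.Vf (cutA (WallFree S.P.g zn.H0) K0) ≤ η * C1 * U := by
    rw [mul_assoc]
    exact mul_le_mul' le_rfl hU
  have e3 : ENNReal.ofReal (p.A ^ c.n0) * (((M * (1 + c.n0) : ℕ) : ℝ≥0∞) * a)
      = ENNReal.ofReal (p.A ^ c.n0) * (((M * (1 + c.n0) : ℕ) : ℝ≥0∞) * ((max 1 c.cst ^ c.n0 * C1 + (c.n0 + 2) * Cp : ℝ≥0) : ℝ≥0∞)) * U := by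
    rw [ha]
    ring
  rw [add_mul ((η : ℝ≥0∞) * C1), ← add_assoc, ← e3]
  exact add_le_add (add_le_add (add_le_add e1 e2) le_rfl) le_rfl

/-! ## 6. (D): the defect row -/

/-- translation of designated data (`= ⟨fun Y b => shF (d.F Y b) μ, d.a⟩`) -/
def prdSh {g' : Grid G} (d : Desig g' (Fn G)) (μ : G.V → ℝ) : Desig g' (Fn G) := ⟨fun Y b => shF (d.F Y b) μ, d.a⟩

theorem prd_ofPieces_sh (S : B8.Step G D0 ℓ) (c : B8.Geo) (pc : Finset S.P.g.I → S.P.g.I → Fn G) (cn : Finset S.P.g.I → S.P.g.I → ℂ) (μ : G.V → ℝ) :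
    prdSh (ofPieces S c pc cn) μ = ofPieces S c (fun X B => shF (pc X B) μ) cn := by
  unfold prdSh ofPieces
  congr 1
  funext Y b w
  simp only [shF, Finset.sum_apply]

/-- the neutral constant at the reference field, in the fluctuation variable -/
theorem prd_Hq_shift (S : B8.Step G D0 ℓ) (ω : ℝ) (q : ℤ) (KT : Act S.P.g) (X : Finset S.P.g.I) (Ψ μ : G.V → ℝ) :
    S.Hq ω q KT X (toC Ψ) = conv S.Γ (chargeProj ω q (shA KT μ X)) (toC (Ψ - μ)) := by
  unfold B8.Step.Hq conv chargeProj shA shF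
  congr 1
  funext ζ
  congr 2
  funext s
  congr 2
  funext v
  simp only [toC, Pi.add_apply, Pi.sub_apply]
  push_cast
  ring

open Classical in
/-- **LEAF `L-EST-D`: (obs:defect-recurrence), explicit numbers** (paper-free bookkeeping, ~300 l.).   `S` carries the regulators of the UNIT norm `p` (`S := T.stepT h`; the designations do not see the regulators).
`μ = v_n / α` (background), `Ψ` = reference field, `d` = defect size, `s` bounds the translated unit activity on the shift-good supports (`≤ ‖K0‖₀` by (R2)), `a` bounds the translated pieces of the shift-good inputs.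
`rw [dT, prd_ofPieces_sh]`, then `prw_abs` with `K := shA KT μ`, `pc := fun X B => shF (pcT .. X B) μ`, `cn := cnT ..`, `𝒞 := fun X => ¬ ShiftGood ..`, `γ := γ + γr`, `a := cs s + (n0 + 2) a`, `q := Cnl (s + d)²`.
 * `hbad`: `pcT X B = fun _ => Hq 0 KT X Ψ / |X|` (`if_neg`), `shF` of a constant is the constant; `prd_Hq_shift`; with `F := shA KT μ X`, `H := conv Γ (chargeProj ω 0 F)`:
   `resid = (conv Γ F - H 0) - (H (Ψ - μ) - H 0)`: `hγ`, `hr`, `B8.w_ds_const_size`;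
 * `hgood`, `hrel0`, `hrel`, `hlarge`, `hquad`: as in `prw_row`. -/
theorem prd_row (S : B8.Step G D0 ℓ) (c : B8.Geo) (cT : ℝ≥0) (p : Par) (zn : Zn) (t z : ℂ) (Ψ μ : G.V → ℝ) (K0 KT : Act S.P.g)
    (Cg Cd Cnl ε0 η : ℝ≥0) (β : ℝ)
    (hyp : StepHyp p c.ρ c.r c.R c.n0 c.Ck c.ck cT S.P S.Γ S.Vf S.Vc)
    (gain : StepGain p c.r c.R c.n0 Cg Cd Cnl ε0 η β S.P S.Γ S.Vf S.Vc)
    (hA : 1 ≤ p.A) (hK : Act.Ok p c.col c.R (shA KT μ)) (γ γr a s d : ℝ≥0) (N M : ℕ)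
    (hγ : GainN c p S γ) (hr : RefAt c p S (fun X => ¬ ShiftGood S.P.g zn.H1 X) (Ψ - μ) γr)
    (hN : ∀ Y, ((S.small c).filter fun X => S.P.N.cl X = Y ∧ ¬ ShiftGood S.P.g zn.H1 X).card ≤ N)
    (hM : ∀ b : S.P.g'.I, ((S.small c).filter fun X => ∃ B ∈ X, S.P.N.up B = b).card ≤ M)
    (hs : actNorm p S.P.g S.Vf (cutA (ShiftGood S.P.g zn.H1) (shA KT μ)) ≤ s)
    (hdd : actNorm p S.P.g S.Vf (cutA (fun X => ¬ ShiftGood S.P.g zn.H1 X) (shA KT μ)) ≤ d)
    (hpc : ∀ X ∈ S.small c, ShiftGood S.P.g zn.H1 X → ∀ B ∈ X,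
      fnSize p S.P.g' S.Vc {S.P.N.up B} (shF (pcT S p.ω zn t z Ψ K0 KT X B) μ) ≤ a ∧ (‖cnT S p.ω zn t z Ψ K0 KT X B‖₊ : ℝ≥0∞) ≤ a)
    (hd : (prdSh (dT S c p.ω zn t z Ψ K0 KT) μ).Ok p c.col c.r)
    (hsz : (prdSh (dT S c p.ω zn t z Ψ K0 KT) μ).size p S.Vc ≤ Cd * ((s + d : ℝ≥0) : ℝ≥0∞))
    (hε : s + d ≤ ε0) :
    actNorm p S.P.g' S.Vc (Kprime S.P c.r c.R (conv S.Γ) (shA KT μ) (prdSh (dT S c p.ω zn t z Ψ K0 KT) μ))
      ≤ ((N * (γ + γr) + η : ℝ≥0) : ℝ≥0∞) * d + η * s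
        + ENNReal.ofReal (p.A ^ c.n0) * ((M * (1 + c.n0) : ℕ) * ((max 1 cT ^ c.n0 * s + (c.n0 + 2) * a : ℝ≥0) : ℝ≥0∞))
        + Cnl * ((s + d : ℝ≥0) : ℝ≥0∞) ^ 2 := by
  classical
  have hA0 : 0 < p.A := lt_of_lt_of_le one_pos hA
  have hδ : 0 ≤ p.δ := hyp.adm.δ_pos.le
  have hκ : 0 ≤ p.κ := hyp.adm.κ_pos.le
  set K : Act S.P.g := shA KT μ with hKdef
  set pc : Finset S.P.g.I → S.P.g.I → Fn G := fun X B => shF (pcT S p.ω zn t z Ψ K0 KT X B) μ with hpcdef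
  set cn : Finset S.P.g.I → S.P.g.I → ℂ := cnT S p.ω zn t z Ψ K0 KT with hcndef
  have hdT : prdSh (dT S c p.ω zn t z Ψ K0 KT) μ = ofPieces S c pc cn := by
    unfold dT
    exact prd_ofPieces_sh S c _ _ μ
  rw [hdT] at hd hsz ⊢
  have hnn : cutA (fun X => ¬ ¬ ShiftGood S.P.g zn.H1 X) K = cutA (ShiftGood S.P.g zn.H1) K := by
    funext X
    unfold cutA
    by_cases h : ShiftGood S.P.g zn.H1 X
    · rw [if_pos h, if_pos (not_not.2 h)]
    · rw [if_neg h, if_neg (fun h' => h (not_not.1 h'))]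
  have hs' : actNorm p S.P.g S.Vf (cutA (fun X => ¬ ¬ ShiftGood S.P.g zn.H1 X) K) ≤ s := by
    rw [hnn]; exact hs
  have hnorm : actNorm p S.P.g S.Vf K ≤ ((s + d : ℝ≥0) : ℝ≥0∞) := by
    refine (prw_cut_split p S.Vf (fun X => ¬ ShiftGood S.P.g zn.H1 X) K).trans (max_le ?_ ?_)
    · exact hdd.trans (by exact_mod_cast (le_add_self : d ≤ s + d))
    · exact hs'.trans (by exact_mod_cast (le_self_add : s ≤ s + d))
  have hfin : actNorm p S.P.g S.Vf K ≠ ⊤ := ne_top_of_le_ne_top ENNReal.coe_ne_top hnorm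
  have hft : ∀ X, fnSize p S.P.g S.Vf X (K X) ≠ ⊤ := Scal.fnSize_ne_top p hA0 S.P.g S.Vf K hfin
  -- the size of a shift-good input
  have hsX : ∀ X, ShiftGood S.P.g zn.H1 X → fnSize p S.P.g S.Vf X (K X) ≤ s := by
    intro X hX
    refine le_trans ?_ ((prw_cut_at p S.Vf (ShiftGood S.P.g zn.H1) K X hX).trans hs)
    calc fnSize p S.P.g S.Vf X (K X) = 1 * fnSize p S.P.g S.Vf X (K X) := (one_mul _).symm
      _ ≤ _ := mul_le_mul' (by rw [← ENNReal.ofReal_one]; exact ENNReal.ofReal_le_ofReal (one_le_pow₀ hA)) le_rfl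
  have hbad : ∀ X ∈ S.small c, ¬ ShiftGood S.P.g zn.H1 X →
      fnSize p S.P.g' S.Vc (S.P.N.cl X) (resid S K pc X) ≤ ((γ + γr : ℝ≥0) : ℝ≥0∞) * fnSize p S.P.g S.Vf X (K X) := by
    intro X hX hXb
    have hne : X.Nonempty := (B8.w_mem_small.1 hX).1.1
    have hcard : (X.card : ℂ) ≠ 0 := by exact_mod_cast hne.card_pos.ne'
    set H : Fn G := conv S.Γ (chargeProj p.ω 0 (K X)) with hH
    have hres : resid S K pc X = (fun w => conv S.Γ (K X) w - H 0) - (fun _ => H (toC (Ψ - μ)) - H 0) := by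
      funext w
      unfold resid
      simp only [Pi.sub_apply, Finset.sum_apply]
      have hB : ∀ B ∈ X, pc X B w = (1 / (X.card : ℂ)) * H (toC (Ψ - μ)) := by
        intro B _
        simp only [hpcdef, shF, pcT, if_neg hXb]
        rw [prd_Hq_shift S p.ω 0 KT X Ψ μ]
      rw [Finset.sum_congr rfl hB, Finset.sum_const, nsmul_eq_mul]
      field_simp
      ring
    rw [hres]
    calc fnSize p S.P.g' S.Vc (S.P.N.cl X) ((fun w => conv S.Γ (K X) w - H 0) - (fun _ => H (toC (Ψ - μ)) - H 0))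
        ≤ fnSize p S.P.g' S.Vc (S.P.N.cl X) (fun w => conv S.Γ (K X) w - H 0)
          + fnSize p S.P.g' S.Vc (S.P.N.cl X) (fun _ => H (toC (Ψ - μ)) - H 0) := B8.w_fnSize_sub_le _ _ _ _ _ _
      _ ≤ γ * fnSize p S.P.g S.Vf X (K X) + γr * fnSize p S.P.g S.Vf X (K X) :=
          add_le_add (hγ X hX (K X) (hK.fn X) (hft X))
            ((B8.w_ds_const_size p hδ hκ _ _ _ _).trans (hr X hX hXb (K X) (hK.fn X) (hft X)))
      _ = _ := by push_cast; ring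
  have hcs : ∀ X ∈ S.small c, ((cT : ℝ≥0∞)) ^ X.card ≤ (((max 1 cT) ^ c.n0 : ℝ≥0) : ℝ≥0∞) := by
    intro X hX
    have hn : X.card ≤ c.n0 := (B8.w_mem_small.1 hX).2
    have h1 : cT ^ X.card ≤ (max 1 cT) ^ c.n0 :=
      (pow_le_pow_left₀ zero_le (le_max_right _ _) _).trans (pow_le_pow_right₀ (le_max_left _ _) hn)
    exact_mod_cast h1
  have hgood : ∀ X ∈ S.small c, ¬ ¬ ShiftGood S.P.g zn.H1 X →
      fnSize p S.P.g' S.Vc (S.P.N.cl X) (resid S K pc X)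
        ≤ ((max 1 cT ^ c.n0 * s + (c.n0 + 2) * a : ℝ≥0) : ℝ≥0∞) := by
    intro X hX hXg
    have hXg' : ShiftGood S.P.g zn.H1 X := not_not.1 hXg
    have hn : X.card ≤ c.n0 := (B8.w_mem_small.1 hX).2
    unfold resid
    calc fnSize p S.P.g' S.Vc (S.P.N.cl X) (conv S.Γ (K X) - ∑ B ∈ X, pc X B)
        ≤ fnSize p S.P.g' S.Vc (S.P.N.cl X) (conv S.Γ (K X)) + fnSize p S.P.g' S.Vc (S.P.N.cl X) (∑ B ∈ X, pc X B) :=
          B8.w_fnSize_sub_le _ _ _ _ _ _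
      _ ≤ (((max 1 cT) ^ c.n0 : ℝ≥0) : ℝ≥0∞) * s + ∑ _B ∈ X, (a : ℝ≥0∞) := by
          refine add_le_add ?_ ((B8.w_fnSize_sum_le _ _ _ _ _ _).trans (Finset.sum_le_sum fun B hB => ?_))
          · exact (prw_conv_size S p c.R c.n0 cT hyp.reg hyp.adm X _ (Finset.Subset.refl _) (K X)).trans
              (mul_le_mul' (hcs X hX) (hsX X hXg'))
          · refine (Scal.fnSize_anti p S.P.g' hyp.adm S.Vc (X := {S.P.N.up B}) ?_ _).trans (hpc X hX hXg' B hB).1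
            rw [Finset.singleton_subset_iff]
            exact Finset.mem_image_of_mem _ hB
      _ ≤ (((max 1 cT) ^ c.n0 : ℝ≥0) : ℝ≥0∞) * s + (c.n0 + 2 : ℕ) * (a : ℝ≥0∞) := by
          refine add_le_add le_rfl ?_
          rw [Finset.sum_const, nsmul_eq_mul]
          exact mul_le_mul' (by exact_mod_cast hn.trans (Nat.le_add_right _ _)) le_rfl
      _ = _ := by push_cast; ring
  have hrel0 : ∀ X ∈ S.small c, ¬ ShiftGood S.P.g zn.H1 X → ∀ B ∈ X, pc X B = fun _ => cn X B := by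
    intro X _ hXb B _
    funext w
    simp only [hpcdef, hcndef, shF, pcT, cnT, if_neg hXb]
  have hrel : ∀ X ∈ S.small c, ¬ ¬ ShiftGood S.P.g zn.H1 X → ∀ B ∈ X,
      fnSize p S.P.g' S.Vc {S.P.N.up B} (pc X B - fun _ => cn X B)
        ≤ ((max 1 cT ^ c.n0 * s + (c.n0 + 2) * a : ℝ≥0) : ℝ≥0∞) := by
    intro X hX hXg B hB
    have hXg' : ShiftGood S.P.g zn.H1 X := not_not.1 hXg
    calc fnSize p S.P.g' S.Vc {S.P.N.up B} (pc X B - fun _ => cn X B)
        ≤ fnSize p S.P.g' S.Vc {S.P.N.up B} (pc X B) + fnSize p S.P.g' S.Vc {S.P.N.up B} (fun _ => cn X B) :=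
          B8.w_fnSize_sub_le _ _ _ _ _ _
      _ ≤ (a : ℝ≥0∞) + a :=
          add_le_add (hpc X hX hXg' B hB).1 ((B8.w_ds_const_size p hδ hκ _ _ _ _).trans (hpc X hX hXg' B hB).2)
      _ ≤ _ := by
          have h1 : a + a ≤ max 1 cT ^ c.n0 * s + (c.n0 + 2) * a := by
            have h2 : a + a ≤ ((c.n0 : ℝ≥0) + 2) * a := by
              rw [add_mul, two_mul]; exact le_add_self
            exact h2.trans le_add_self
          exact_mod_cast h1
  have hquad := gain.quad c.col (s + d) hε K (ofPieces S c pc cn) hK hd hnorm hsz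
  have hmain := prw_abs S c p hA K pc cn (fun X => ¬ ShiftGood S.P.g zn.H1 X) ((γ + γr : ℝ≥0) : ℝ≥0∞)
    ((max 1 cT ^ c.n0 * s + (c.n0 + 2) * a : ℝ≥0) : ℝ≥0∞) (η : ℝ≥0∞) (Cnl * ((s + d : ℝ≥0) : ℝ≥0∞) ^ 2) N M
    hbad (fun Y => by convert hN Y) hgood hrel0 hrel hM (gain.large K) hquad
  refine hmain.trans ?_
  refine add_le_add (add_le_add (add_le_add ?_ (mul_le_mul' le_rfl hs')) le_rfl) le_rfl
  refine (mul_le_mul' le_rfl hdd).trans (le_of_eq ?_)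
  push_cast
  ring

end

end Claimed.Agent.R285.F6.Pr
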