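import Claimed.Agent.R285.Obs.TermA
import Claimed.Agent.R285.Ker.Copy
import Claimed.Agent.R285.Hol.Ind

/-!
# ROW 285, unit OBS, post BP-OBS-TERM (#13348), part B: the ANALYTIC one-polymer estimates of [F] s6.3      (architect helper49)   -- KEEP

ONE FILE = ONE PACKAGE; the leaves `L-OBS-TB*` share it: edit ONLY your theorems, pull before landing.  Helper lemmas: prefix `tb_`.
Everything here is stated for ONE geometry `(G, g, V, Γ)` (or two geometries and an embedding), no squares, no classes.  Consumer: `Obs/TermC.lean`.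

## The three estimates (all for the sup norm D4'; `F₀ = chargeProj ω 0 F` = neutral projection, `N (h) = anorm g X x0 h = ‖h - h (x0)‖_{m, D_m(X)}`)
* **class `𝔚`** (`tb_even_shift`).  `F` even: `E F₀ (ζ + l) - E F₀ (ζ) = ½ E [F₀ (ζ + l) + F₀ (ζ - l) - 2 F₀ (ζ)]` (`ζ ↦ -ζ`), and `|f (1) + f (-1) - 2 f (0)| ≤ 8 M / R²` for `f (s) = F₀ (ζ + s \tilde l)` holomorphic and bounded by
  `M = |F₀|_{ζ}` on `|s| < R = h₀ / N (l)`, `R ≥ 2`.  The regulator stays at the CENTRE `ζ`: no Taylor formula, no translated regulator.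
* **class `ℭ`** (`tb_long_removal`).  `Γ + c 𝟙𝟙ᵀ = Γ_s + Γ_l` (short + long).  POINTWISE, for all real `φ, h`:   `|F₀ (φ + h) - F₀ (φ)| ≤ (2 N (h) / h₀) (|F₀|_φ + |F₀|_{φ + h})`    (`tb_first`):
  Schwarz lemma if `N (h) < h₀ / 2`, trivial otherwise.  With `φ = ξ_s - f`, `h = ξ_l + f` and Hoelder `(p_seg, q)`:  `|E_Γ F₀ (ζ) - E_{Γ_s} F₀ (ξ_s - f)| ≤ (4 / h₀) ‖N (ξ_l + f)‖_{L^q} u W₁`.
  NO coupling of the two squares, NO segment, NO "identical regulator forms": each square is compared with its own short field, and the two short expectations are EQUAL (`tb_short_copy`).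
* `‖N (ξ_l)‖_{L^q} ≤ C (ℓ + m) / v` (`tb_long_moment`): deterministic Sobolev bound `N (ψ)² ≤ 128 ((ℓ + m)/v)² U_v (Y, ψ)` on `≤ 9` blocks of a grid of side `v` (`tb_long_det`, from `Reg.reg_gradsup`) + `B4.regulator_terminal` at the scale `v`.
* **class `𝔊`**: exact expectations of the two singletons (`tb_term_eBC`, `tb_term_cBC`).

## Leaves
`L-OBS-TB1` one complex variable (Mathlib only): `tb_schwarz, tb_second`      (~250 l.)
`L-OBS-TB2` point estimates: `tb_line_hol, tb_first, tb_second_pt, tb_anorm_add, tb_anorm_const`      (~300 l.)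
`L-OBS-TB3` neutral projection: `tb_neutral, tb_proj_shift, tb_proj_even`      (~200 l.)
`L-OBS-TB4` Gaussian measures: `tb_gauss_neg, tb_gauss_add, tb_gauss_anchor, tb_gauss_copy`      (~350 l.; `Reg.reg_gauss_map` is proved)
`L-OBS-TB5` Hoelder/Jensen (Mathlib only): `tb_jensen, tb_holder_prod, tb_minkowski_const, tb_moment_of_exp`      (~250 l.)
`L-OBS-TB6` `tb_even_shift`      (~300 l.)
`L-OBS-TB7` `tb_long_removal`      (~400 l.)
`L-OBS-TB8` `tb_long_det`      (~350 l.)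
`L-OBS-TB9` `tb_freeGrid_ok, tb_cover_card, tb_long_moment`      (~400 l.)
`L-OBS-TB10` kernels: `tb_terminal_split, tb_shellP_degree, tb_cov_copy_free`      (~400 l.; with `R285/Ker`, `R285/Sp/CovCopy`)
`L-OBS-TB11` singletons: `tb_tame_eBC, tb_term_eBC, tb_tame_cBC, tb_term_cBC`      (~300 l.)
-/

set_option autoImplicit false

namespace Claimed.Agent.R285.Obs

open scoped BigOperators ENNReal NNReal
open MeasureTheory ProbabilityTheory Filter Topology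
open Claimed.Agent.R285 Claimed.Agent.R285.RG Claimed.Agent.R285.B4 Claimed.Agent.R285.F4a Claimed.Agent.R285.F6

noncomputable section

variable {G : Geom}

/-! ## 0. Definitions -/

/-- the test norm after removal of the anchor value -/
def anorm (g : Grid G) (X : Finset g.I) (x0 : G.V) (f : G.V → ℝ) : ℝ≥0 := tnorm g X fun v => f v - f x0

/-- holomorphic in the strip and invariant under real constants -/
structure Neutral (h0 : ℝ≥0) (g : Grid G) (X : Finset g.I) (F : Fn G) : Prop where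
  hol : Hol h0 g X F
  inv : ∀ z ∈ strip h0 g X, ∀ t : ℝ, F (fun v => z v + (t : ℂ)) = F z

/-- the matrix `𝟙𝟙ᵀ` -/
def ones (G : Geom) : Matrix G.V G.V ℝ := fun _ _ => 1

theorem tb_defs_eqns_cite : True := by
  have := @anorm.eq_1; have := @ones.eq_1; trivial

/-! ## 1. LEAF `L-OBS-TB1`: one complex variable (Mathlib only) -/

/-- Schwarz lemma (`Complex.dist_le_div_mul_dist_of_mapsTo_ball` with target radius `2 M + ε`) -/
theorem tb_schwarz (f : ℂ → ℂ) (R M : ℝ) (hR : 1 < R) (hM : 0 ≤ M) (hf : DifferentiableOn ℂ f (Metric.ball 0 R))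
    (hb : ∀ s ∈ Metric.ball (0 : ℂ) R, ‖f s‖ ≤ M) : ‖f 1 - f 0‖ ≤ 2 * M / R := by
  have h0 : (0 : ℂ) ∈ Metric.ball (0 : ℂ) R := Metric.mem_ball_self (by linarith)
  have h1 : (1 : ℂ) ∈ Metric.ball (0 : ℂ) R := by simpa using hR
  have hmaps : Set.MapsTo f (Metric.ball 0 R) (Metric.closedBall (f 0) (2 * M)) := by
    intro s hs
    rw [Metric.mem_closedBall, dist_eq_norm]
    refine (norm_sub_le _ _).trans ?_
    linarith [hb s hs, hb 0 h0]
  have h := Complex.dist_le_div_mul_dist_of_mapsTo_ball hf hmaps h1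
  rw [dist_eq_norm, dist_eq_norm, sub_zero, norm_one, mul_one] at h
  exact h

/-- second symmetric difference.  E.g. `f (1) + f (-1) - 2 f (0) = ∫₀¹ (1 - t) (f'' (t) + f'' (-t)) dt`, `|f''| ≤ 2 M' / (r - 1)²` on `[-1, 1]` for `r < R` (Cauchy:
`Complex.norm_iteratedDeriv_le_of_forall_mem_sphere_norm_le`), `(R - 1)² ≥ R² / 4`;   or the power series: `= 2 ∑_{n ≥ 1} a_{2n}`, `|a_n| ≤ M r^{-n}`. -/
theorem tb_second (f : ℂ → ℂ) (R M : ℝ) (hR : 2 ≤ R) (hM : 0 ≤ M) (hf : DifferentiableOn ℂ f (Metric.ball 0 R))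
    (hb : ∀ s ∈ Metric.ball (0 : ℂ) R, ‖f s‖ ≤ M) : ‖f 1 + f (-1) - 2 * f 0‖ ≤ 8 * M / R ^ 2 := by
  have hR0 : 0 < R := by linarith
  have h0 : (0 : ℂ) ∈ Metric.ball (0 : ℂ) R := Metric.mem_ball_self hR0
  have h1 : (1 : ℂ) ∈ Metric.ball (0 : ℂ) R := by
    simp only [Metric.mem_ball, dist_zero_right, norm_one]
    linarith
  have hneg : ∀ s ∈ Metric.ball (0 : ℂ) R, -s ∈ Metric.ball (0 : ℂ) R := by
    intro s hs
    simpa using hs
  obtain ⟨g, hg⟩ : ∃ g : ℂ → ℂ, g = fun s => f s + f (-s) - 2 * f 0 := ⟨_, rfl⟩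
  have hg0 : g 0 = 0 := by
    rw [hg]
    simp only [neg_zero]
    ring
  have hgd : DifferentiableOn ℂ g (Metric.ball 0 R) := by
    rw [hg]
    exact (hf.add (hf.comp (differentiableOn_neg _) hneg)).sub (differentiableOn_const _)
  have hmaps : Set.MapsTo g (Metric.ball 0 R) (Metric.closedBall (g 0) (4 * M)) := by
    intro s hs
    rw [Metric.mem_closedBall, dist_eq_norm, hg0, sub_zero, hg]
    have a1 := hb s hs
    have a2 := hb (-s) (hneg s hs)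
    have a3 := hb 0 h0
    calc ‖f s + f (-s) - 2 * f 0‖ ≤ ‖f s + f (-s)‖ + ‖2 * f 0‖ := norm_sub_le _ _
      _ ≤ (‖f s‖ + ‖f (-s)‖) + 2 * ‖f 0‖ := by
          refine add_le_add (norm_add_le _ _) (le_of_eq ?_)
          rw [norm_mul]
          norm_num
      _ ≤ 4 * M := by linarith
  have hfd : HasDerivAt f (deriv f 0) 0 :=
    (hf.differentiableAt (Metric.isOpen_ball.mem_nhds h0)).hasDerivAt
  have hfd' : HasDerivAt (fun s : ℂ => f (-s)) (-(deriv f 0)) 0 := by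
    have hfd0 : HasDerivAt f (deriv f 0) (-(0 : ℂ)) := by rwa [neg_zero]
    have := HasDerivAt.comp (0 : ℂ) (h₂ := f) (h := fun s : ℂ => -s) hfd0 (hasDerivAt_neg 0)
    rw [mul_neg, mul_one] at this
    exact this
  have hgder : HasDerivAt g 0 0 := by
    have := (hfd.add hfd').sub_const (2 * f 0)
    rw [add_neg_cancel] at this
    rw [hg]
    exact this
  have hlo : (g · - g 0) =o[𝓝 (0 : ℂ)] (fun w : ℂ => ‖w - 0‖ ^ 1) := by
    have := hgder.isLittleO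
    simp only [smul_zero, sub_zero] at this
    simp only [pow_one, sub_zero]
    refine (Asymptotics.IsLittleO.congr_left this.norm_right fun x => ?_)
    rfl
  have h := Complex.dist_le_mul_div_pow_of_mapsTo_ball_of_isLittleO (n := 1) hgd hmaps hlo h1
  rw [dist_eq_norm, dist_eq_norm, hg0, sub_zero, sub_zero, norm_one] at h
  have e : g 1 = f 1 + f (-1) - 2 * f 0 := by rw [hg]
  rw [← e]
  refine h.trans ?_
  have : 4 * M * (1 / R) ^ (1 + 1) = 4 * M / R ^ 2 := by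
    rw [one_div, inv_pow]
    rfl
  rw [this]
  have hR2 : 0 < R ^ 2 := by positivity
  exact div_le_div_of_nonneg_right (by linarith) hR2.le

/-! ## 2. LEAF `L-OBS-TB2`: point estimates for functions which are holomorphic in a strip -/

theorem tb_anorm_add (g : Grid G) (X : Finset g.I) (x0 : G.V) (f f' : G.V → ℝ) :
    anorm g X x0 (f + f') ≤ anorm g X x0 f + anorm g X x0 f' := by
  unfold anorm
  have e : (fun v => (f + f') v - (f + f') x0) = (fun v => f v - f x0) + fun v => f' v - f' x0 := by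
    funext v
    simp only [Pi.add_apply]
    ring
  rw [e]
  exact Hol.tnorm_add_le g X _ _

theorem tb_anorm_neg (g : Grid G) (X : Finset g.I) (x0 : G.V) (f : G.V → ℝ) : anorm g X x0 (-f) = anorm g X x0 f := by
  unfold anorm
  have e : (fun v => (-f) v - (-f) x0) = -(fun v => f v - f x0) := by
    funext v
    simp only [Pi.neg_apply]
    ring
  rw [e, Hol.tnorm_neg]

theorem tb_anorm_continuous (g : Grid G) (X : Finset g.I) (x0 : G.V) : Continuous fun f : G.V → ℝ => anorm g X x0 f := by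
  unfold anorm
  exact (Hol.tnorm_continuous g X).comp (by fun_prop)

/-- the complex line `s ↦ φ + s k` through a real field in a real direction: holomorphic and bounded by the point norm at `φ` as long as `|s| ‖k‖ < h₀` -/
theorem tb_line_hol (h0 : ℝ≥0) (g : Grid G) (X : Finset g.I) (F : Fn G) (hF : Hol h0 g X F) (φ k : G.V → ℝ) (R : ℝ)
    (hR : ∀ s : ℂ, ‖s‖ < R → ‖s‖ * (tnorm g X k : ℝ) < h0) :
    DifferentiableOn ℂ (fun s : ℂ => F (toC φ + s • toC k)) (Metric.ball 0 R) ∧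
      ∀ s ∈ Metric.ball (0 : ℂ) R, ‖F (toC φ + s • toC k)‖ₑ ≤ ptNorm h0 g X F φ := by
  have hlt : ∀ s ∈ Metric.ball (0 : ℂ) R, tnorm g X (s • toC k) < h0 := by
    intro s hs
    rw [Hol.tnorm_smul, Hol.tnorm_toC, ← NNReal.coe_lt_coe]
    push_cast
    exact hR s (by simpa using hs)
  refine ⟨?_, fun s hs => ta_enorm_le_ptNorm h0 g X F φ _ (hlt s hs)⟩
  have hd : Differentiable ℂ (fun s : ℂ => toC φ + s • toC k) := by fun_prop
  exact hF.comp hd.differentiableOn fun s hs => Hol.toC_add_mem_strip φ (hlt s hs)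

theorem tb_norm_le_of_enorm {z : ℂ} {M : ℝ} (hM : 0 ≤ M) (h : ‖z‖ₑ ≤ ENNReal.ofReal M) : ‖z‖ ≤ M := by
  rw [← ofReal_norm] at h
  exact (ENNReal.ofReal_le_ofReal_iff hM).1 h

theorem tb_real_mem_strip (h0 : ℝ≥0) (hh : 0 < h0) (g : Grid G) (X : Finset g.I) (φ : G.V → ℝ) : toC φ ∈ strip h0 g X := by
  have h := Hol.toC_add_mem_strip (h := h0) (g := g) (X := X) φ (f := 0) (by rw [Hol.tnorm_zero]; exact hh)
  rwa [add_zero] at h

/-- removal of the anchor value -/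
theorem tb_anchor (h0 : ℝ≥0) (hh : 0 < h0) (g : Grid G) (X : Finset g.I) (F : Fn G) (hF : Neutral h0 g X F) (φ l : G.V → ℝ) (x0 : G.V) :
    F (toC (φ + l)) = F (toC φ + toC fun v => l v - l x0) := by
  have h := hF.inv (toC (φ + fun v => l v - l x0)) (tb_real_mem_strip h0 hh g X _) (l x0)
  rw [Hol.toC_add] at h
  rw [← h]
  congr 1
  funext v
  simp only [toC, Pi.add_apply, Complex.ofReal_add, Complex.ofReal_sub]
  ring

/-- **first difference.**  `k = h - h (x0)`; `N = ‖k‖`.  If `2 N < h₀`: `tb_line_hol` with every `R` such that `R N < h₀`, `tb_schwarz`, let `R ↑ h₀ / N` (if `N = 0`: `R → ∞`).  Otherwise `2 N / h₀ ≥ 1` and the triangle inequality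
(`ta_enorm_le_ptNorm` with `f = 0`). -/
theorem tb_first (h0 : ℝ≥0) (hh : 0 < h0) (g : Grid G) (X : Finset g.I) (F : Fn G) (hF : Neutral h0 g X F) (φ h : G.V → ℝ) (x0 : G.V)
    (M M' : ℝ) (hM0 : 0 ≤ M) (hM0' : 0 ≤ M') (hM : ptNorm h0 g X F φ ≤ ENNReal.ofReal M) (hM' : ptNorm h0 g X F (φ + h) ≤ ENNReal.ofReal M') :
    ‖F (toC (φ + h)) - F (toC φ)‖ ≤ 2 * (anorm g X x0 h : ℝ) / h0 * (M + M') := by
  set k : G.V → ℝ := fun v => h v - h x0 with hk
  have hN : (anorm g X x0 h : ℝ) = (tnorm g X k : ℝ) := rfl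
  have hh' : (0 : ℝ) < h0 := by exact_mod_cast hh
  have hN0 : (0 : ℝ) ≤ (tnorm g X k : ℝ) := NNReal.coe_nonneg _
  have e1 : F (toC (φ + h)) = F (toC φ + (1 : ℂ) • toC k) := by
    rw [tb_anchor h0 hh g X F hF φ h x0, one_smul]
  have e0 : F (toC φ) = F (toC φ + (0 : ℂ) • toC k) := by rw [zero_smul, add_zero]
  rw [hN]
  by_cases hc : 2 * (tnorm g X k : ℝ) < h0
  · -- Schwarz
    have key : ∀ R : ℝ, 1 < R → (∀ s : ℂ, ‖s‖ < R → ‖s‖ * (tnorm g X k : ℝ) < h0) →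
        ‖F (toC (φ + h)) - F (toC φ)‖ ≤ 2 * M / R := by
      intro R hR1 hR
      obtain ⟨hd, hb⟩ := tb_line_hol h0 g X F hF.hol φ k R hR
      have := tb_schwarz (fun s : ℂ => F (toC φ + s • toC k)) R M hR1 hM0 hd
        (fun s hs => tb_norm_le_of_enorm hM0 ((hb s hs).trans hM))
      rw [e1, e0]
      exact this
    have hfin : ‖F (toC (φ + h)) - F (toC φ)‖ ≤ 2 * (tnorm g X k : ℝ) / h0 * M := by
      rcases hN0.eq_or_lt with h0N | hpos
      · rw [← h0N]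
        simp only [mul_zero, zero_div, zero_mul]
        by_contra hcon
        push Not at hcon
        set d := ‖F (toC (φ + h)) - F (toC φ)‖ with hd
        have h1 := key (2 * M / d + 2) (by have : 0 ≤ 2 * M / d := by positivity
                                           linarith) (fun s _ => by rw [← h0N, mul_zero]; exact hh')
        have hpos2 : 0 < 2 * M / d + 2 := by
          have : 0 ≤ 2 * M / d := by positivity
          linarith
        rw [le_div_iff₀ hpos2] at h1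
        have : d * (2 * M / d + 2) = 2 * M + 2 * d := by field_simp
        linarith
      · have h1 := key ((h0 : ℝ) / (tnorm g X k : ℝ)) (by rw [lt_div_iff₀ hpos]; linarith)
          (fun s hs => by rwa [lt_div_iff₀ hpos] at hs)
        calc ‖F (toC (φ + h)) - F (toC φ)‖ ≤ 2 * M / ((h0 : ℝ) / (tnorm g X k : ℝ)) := h1
          _ = 2 * (tnorm g X k : ℝ) / h0 * M := by field_simp
    refine hfin.trans ?_
    have : 0 ≤ 2 * (tnorm g X k : ℝ) / h0 := by positivity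
    nlinarith
  · push Not at hc
    have h1 : ‖F (toC (φ + h))‖ ≤ M' := by
      have := ta_enorm_le_ptNorm h0 g X F (φ + h) 0 (by rw [Hol.tnorm_zero]; exact hh)
      rw [add_zero] at this
      exact tb_norm_le_of_enorm hM0' (this.trans hM')
    have h2 : ‖F (toC φ)‖ ≤ M := by
      have := ta_enorm_le_ptNorm h0 g X F φ 0 (by rw [Hol.tnorm_zero]; exact hh)
      rw [add_zero] at this
      exact tb_norm_le_of_enorm hM0 (this.trans hM)
    have h3 : 1 ≤ 2 * (tnorm g X k : ℝ) / h0 := by rwa [one_le_div hh']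
    calc ‖F (toC (φ + h)) - F (toC φ)‖ ≤ M' + M := (norm_sub_le _ _).trans (add_le_add h1 h2)
      _ = 1 * (M + M') := by ring
      _ ≤ _ := mul_le_mul_of_nonneg_right h3 (by positivity)

/-- **second symmetric difference**, `2 N (l) ≤ h₀` -/
theorem tb_second_pt (h0 : ℝ≥0) (hh : 0 < h0) (g : Grid G) (X : Finset g.I) (F : Fn G) (hF : Neutral h0 g X F) (φ l : G.V → ℝ) (x0 : G.V)
    (hl : 2 * anorm g X x0 l ≤ h0) (M : ℝ) (hM0 : 0 ≤ M) (hM : ptNorm h0 g X F φ ≤ ENNReal.ofReal M) :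
    ‖F (toC (φ + l)) + F (toC (φ - l)) - 2 * F (toC φ)‖ ≤ 8 * ((anorm g X x0 l : ℝ) / h0) ^ 2 * M := by
  set k : G.V → ℝ := fun v => l v - l x0 with hk
  have hN : (anorm g X x0 l : ℝ) = (tnorm g X k : ℝ) := rfl
  have hl' : 2 * (tnorm g X k : ℝ) ≤ h0 := by exact_mod_cast hl
  have hh' : (0 : ℝ) < h0 := by exact_mod_cast hh
  have hN0 : (0 : ℝ) ≤ (tnorm g X k : ℝ) := NNReal.coe_nonneg _
  have e1 : F (toC (φ + l)) = F (toC φ + (1 : ℂ) • toC k) := by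
    rw [tb_anchor h0 hh g X F hF φ l x0, one_smul]
  have e2 : F (toC (φ - l)) = F (toC φ + (-1 : ℂ) • toC k) := by
    rw [sub_eq_add_neg, tb_anchor h0 hh g X F hF φ (-l) x0]
    congr 2
    funext v
    simp only [toC, hk, Pi.neg_apply, Pi.smul_apply, smul_eq_mul, Complex.ofReal_sub, Complex.ofReal_neg]
    ring
  have e0 : F (toC φ) = F (toC φ + (0 : ℂ) • toC k) := by rw [zero_smul, add_zero]
  rw [hN]
  have key : ∀ R : ℝ, 2 ≤ R → (∀ s : ℂ, ‖s‖ < R → ‖s‖ * (tnorm g X k : ℝ) < h0) →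
      ‖F (toC (φ + l)) + F (toC (φ - l)) - 2 * F (toC φ)‖ ≤ 8 * M / R ^ 2 := by
    intro R hR1 hR
    obtain ⟨hd, hb⟩ := tb_line_hol h0 g X F hF.hol φ k R hR
    have := tb_second (fun s : ℂ => F (toC φ + s • toC k)) R M hR1 hM0 hd
      (fun s hs => tb_norm_le_of_enorm hM0 ((hb s hs).trans hM))
    rw [e1, e2, e0]
    exact this
  rcases hN0.eq_or_lt with h0N | hpos
  · rw [← h0N]
    simp only [zero_div, ne_eq, OfNat.ofNat_ne_zero, not_false_eq_true, zero_pow, mul_zero, zero_mul]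
    by_contra hcon
    push Not at hcon
    set d := ‖F (toC (φ + l)) + F (toC (φ - l)) - 2 * F (toC φ)‖ with hd
    have hx : 0 ≤ 8 * M / d := by positivity
    have h1 := key (8 * M / d + 2) (by linarith) (fun s _ => by rw [← h0N, mul_zero]; exact hh')
    have hpos2 : 0 < (8 * M / d + 2) ^ 2 := by positivity
    rw [le_div_iff₀ hpos2] at h1
    have h2 : d * (8 * M / d + 2) = 8 * M + 2 * d := by field_simp
    have h3 : d * (8 * M / d + 2) ^ 2 = (8 * M + 2 * d) * (8 * M / d + 2) := by rw [← h2]; ring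
    nlinarith
  · have h1 := key ((h0 : ℝ) / (tnorm g X k : ℝ)) (by rw [le_div_iff₀ hpos]; linarith)
      (fun s hs => by rwa [lt_div_iff₀ hpos] at hs)
    calc ‖F (toC (φ + l)) + F (toC (φ - l)) - 2 * F (toC φ)‖ ≤ 8 * M / ((h0 : ℝ) / (tnorm g X k : ℝ)) ^ 2 := h1
      _ = 8 * ((tnorm g X k : ℝ) / h0) ^ 2 * M := by field_simp

/-- values at translates of norm `< h₀` are bounded by the point norm at the centre (anchor removed by neutrality) -/
theorem tb_shift_le (h0 : ℝ≥0) (g : Grid G) (X : Finset g.I) (F : Fn G) (hF : Neutral h0 g X F) (φ l : G.V → ℝ) (x0 : G.V)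
    (hl : anorm g X x0 l < h0) : ‖F (toC (φ + l))‖ₑ ≤ ptNorm h0 g X F φ := by
  have hh : 0 < h0 := lt_of_le_of_lt zero_le hl
  rw [tb_anchor h0 hh g X F hF φ l x0]
  exact ta_enorm_le_ptNorm h0 g X F φ _ (by rw [Hol.tnorm_toC]; exact hl)

/-! ## 3. LEAF `L-OBS-TB3`: the neutral projection -/

/-- from `B4.charge_proj` at `q = 0` -/
theorem tb_neutral (p : Par) (hω : 0 < p.ω) (col : ℕ) (g : Grid G) (V : Extra g) (X : Finset g.I) (F : Fn G) (hF : LocalFn p col g X F) :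
    Neutral p.h0 g X (chargeProj p.ω 0 F) ∧ LocalFn p col g X (chargeProj p.ω 0 F) ∧
      fnSize p g V X (chargeProj p.ω 0 F) ≤ fnSize p g V X F := by
  obtain ⟨h1, h2, h3⟩ := Hol.charge_proj p hω col g V X F hF 0
  refine ⟨⟨h1.hol, fun z hz t => ?_⟩, h1, h2⟩
  rw [h3 z t hz (Hol.strip_add_real hz t)]
  simp

theorem tb_proj_shift (ω : ℝ) (F : Fn G) (f : G.V → ℂ) (z : G.V → ℂ) :
    chargeProj ω 0 (fun z => F (z + f)) z = chargeProj ω 0 F (z + f) := by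
  unfold chargeProj
  congr 1
  refine intervalIntegral.integral_congr fun t _ => ?_
  show _ * F ((fun v => z v + (t : ℂ)) + f) = _ * F (fun v => (z + f) v + (t : ℂ))
  congr 2
  funext v
  simp only [Pi.add_apply]
  ring

/-- `t ↦ -t` and periodicity (`Function.Periodic.intervalIntegral_add_eq`) -/
theorem tb_proj_even (p : Par) (hω : 0 < p.ω) (col : ℕ) (g : Grid G) (X : Finset g.I) (F : Fn G) (hF : LocalFn p col g X F)
    (hev : ∀ z ∈ strip p.h0 g X, F (-z) = F z) : ∀ z ∈ strip p.h0 g X, chargeProj p.ω 0 F (-z) = chargeProj p.ω 0 F z := by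
  intro z hz
  have hper := Hol.line_periodic p col g X F hF hz
  have e : ∀ w : G.V → ℂ, chargeProj p.ω 0 F w = ((1 / p.ω : ℝ) : ℂ) * ∫ t in (0 : ℝ)..p.ω, F fun v => w v + (t : ℂ) := by
    intro w
    unfold chargeProj
    simp
  rw [e, e]
  congr 1
  have h1 : ∀ t : ℝ, (F fun v => (-z) v + (t : ℂ)) = (fun s : ℝ => F fun v => z v + (s : ℂ)) (-t) := by
    intro t
    have h2 := hev _ (Hol.strip_add_real hz (-t))
    refine Eq.trans ?_ h2
    congr 1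
    funext v
    simp only [Pi.neg_apply, Complex.ofReal_neg]
    ring
  simp only [h1]
  rw [intervalIntegral.integral_comp_neg (fun s : ℝ => F fun v => z v + (s : ℂ)), neg_zero]
  have h3 := hper.intervalIntegral_add_eq (-p.ω) 0
  rw [neg_add_cancel, zero_add] at h3
  exact h3

/-! ## 4. LEAF `L-OBS-TB4`: Gaussian measures (`gauss G Γ = Reg.regGauss Γ` by `rfl`; `Reg.reg_gauss_map` : linear images) -/

theorem tb_gauss_neg (Γ : Matrix G.V G.V ℝ) (hΓ : Γ.PosSemidef) : (gauss G Γ).map (fun ζ => -ζ) = gauss G Γ :=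
  Reg.reg_gauss_neg hΓ

/-- sum of independent Gaussians (characteristic functions, or `reg_gauss_map` on `V ⊕ V` + product of Gaussians) -/
theorem tb_gauss_add (Γs Γl : Matrix G.V G.V ℝ) (hs : Γs.PosSemidef) (hl : Γl.PosSemidef) :
    ((gauss G Γs).prod (gauss G Γl)).map (fun x => x.1 + x.2) = gauss G (Γs + Γl) :=
  Reg.reg_gauss_add hs hl

/-- a multiple of `𝟙𝟙ᵀ` is invisible after anchoring: `P ζ = ζ - ζ (x0)`, `P 𝟙 = 0`, `P (Γ + c 𝟙𝟙ᵀ) Pᵀ = P Γ Pᵀ` (`reg_gauss_map`) -/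
theorem tb_gauss_anchor (Γ Γ' : Matrix G.V G.V ℝ) (hΓ : Γ.PosSemidef) (hΓ' : Γ'.PosSemidef) (c : ℝ) (h : Γ + c • ones G = Γ') (x0 : G.V) :
    (gauss G Γ').map (fun ζ v => ζ v - ζ x0) = (gauss G Γ).map (fun ζ v => ζ v - ζ x0) := by
  obtain ⟨P, hP⟩ : ∃ P : Matrix G.V G.V ℝ, P = fun v w => (if v = w then 1 else 0) - (if x0 = w then 1 else 0) := ⟨_, rfl⟩
  have hPv : ∀ ζ : G.V → ℝ, (fun v => ζ v - ζ x0) = P.mulVec ζ := by
    intro ζ
    funext v
    rw [hP]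
    simp [Matrix.mulVec, dotProduct, sub_mul, Finset.sum_sub_distrib]
  have hP1 : P * ones G = 0 := by
    ext v w
    rw [Matrix.mul_apply, hP]
    simp [ones, Finset.sum_sub_distrib]
  show (Reg.regGauss Γ').map _ = (Reg.regGauss Γ).map _
  rw [Reg.reg_gauss_map' hΓ' P _ hPv, Reg.reg_gauss_map' hΓ P _ hPv, ← h, Matrix.mul_add, Matrix.mul_smul, hP1, smul_zero,
    add_zero]

/-- a Gaussian expectation only sees the covariance on the dependence set (restriction matrices + `reg_gauss_map`) -/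
theorem tb_gauss_copy {G G' : Geom} (Γ : Matrix G.V G.V ℝ) (Γ' : Matrix G'.V G'.V ℝ) (hΓ : Γ.PosSemidef) (hΓ' : Γ'.PosSemidef)
    (S : Finset G.V) (e : G.V → G'.V) (he : Set.InjOn e S) (hcov : ∀ x ∈ S, ∀ y ∈ S, Γ' (e x) (e y) = Γ x y)
    (F : (G.V → ℝ) → ℂ) (hc : Continuous F) (hF : ∀ φ φ' : G.V → ℝ, (∀ x ∈ S, φ x = φ' x) → F φ = F φ') :
    ∫ ζ, F (fun x => ζ (e x)) ∂(gauss G' Γ') = ∫ ζ, F ζ ∂(gauss G Γ) := by
  obtain ⟨R, hR⟩ : ∃ R : Matrix G.V G.V ℝ, R = fun x y => if x ∈ S ∧ x = y then 1 else 0 := ⟨_, rfl⟩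
  obtain ⟨B, hB⟩ : ∃ B : Matrix G.V G'.V ℝ, B = fun x y => if x ∈ S ∧ e x = y then 1 else 0 := ⟨_, rfl⟩
  have hRv : ∀ (ζ : G.V → ℝ) x, R.mulVec ζ x = if x ∈ S then ζ x else 0 := by
    intro ζ x
    rw [hR]
    by_cases hx : x ∈ S <;> simp [Matrix.mulVec, dotProduct, hx]
  have hBv : ∀ (ζ : G'.V → ℝ) x, B.mulVec ζ x = if x ∈ S then ζ (e x) else 0 := by
    intro ζ x
    rw [hB]
    by_cases hx : x ∈ S <;> simp [Matrix.mulVec, dotProduct, hx]
  have hmat : B * Γ' * B.transpose = R * Γ * R.transpose := by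
    ext x y
    have e1 : (B * Γ' * B.transpose) x y = B.mulVec (fun a => B.mulVec (fun b => Γ' a b) y) x := by
      simp only [Matrix.mul_apply, Matrix.transpose_apply, Matrix.mulVec, dotProduct, Finset.sum_mul, Finset.mul_sum]
      rw [Finset.sum_comm]
      refine Finset.sum_congr rfl fun a _ => Finset.sum_congr rfl fun b _ => ?_
      ring
    have e2 : (R * Γ * R.transpose) x y = R.mulVec (fun a => R.mulVec (fun b => Γ a b) y) x := by
      simp only [Matrix.mul_apply, Matrix.transpose_apply, Matrix.mulVec, dotProduct, Finset.sum_mul, Finset.mul_sum]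
      rw [Finset.sum_comm]
      refine Finset.sum_congr rfl fun a _ => Finset.sum_congr rfl fun b _ => ?_
      ring
    rw [e1, e2, hBv, hRv]
    by_cases hx : x ∈ S
    · rw [if_pos hx, if_pos hx, hBv, hRv]
      by_cases hy : y ∈ S
      · rw [if_pos hy, if_pos hy, hcov x hx y hy]
      · rw [if_neg hy, if_neg hy]
    · rw [if_neg hx, if_neg hx]
  have hmB : Measurable (fun ζ : G'.V → ℝ => B.mulVec ζ) := by
    have hc : Continuous (fun ζ : G'.V → ℝ => B.mulVec ζ) := by fun_prop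
    exact hc.measurable
  have hmR : Measurable (fun ζ : G.V → ℝ => R.mulVec ζ) := by
    have hc : Continuous (fun ζ : G.V → ℝ => R.mulVec ζ) := by fun_prop
    exact hc.measurable
  have h1 : ∀ ζ : G'.V → ℝ, F (fun x => ζ (e x)) = F (B.mulVec ζ) := fun ζ =>
    hF _ _ fun x hx => by rw [hBv, if_pos hx]
  have h2 : ∀ ζ : G.V → ℝ, F ζ = F (R.mulVec ζ) := fun ζ => hF _ _ fun x hx => by rw [hRv, if_pos hx]
  simp_rw [h1]
  rw [integral_congr_ae (Filter.Eventually.of_forall h2)]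
  show ∫ ζ, F (B.mulVec ζ) ∂(Reg.regGauss Γ') = ∫ ζ, F (R.mulVec ζ) ∂(Reg.regGauss Γ)
  rw [← integral_map hmB.aemeasurable hc.aestronglyMeasurable, ← integral_map hmR.aemeasurable hc.aestronglyMeasurable,
    Reg.reg_gauss_map hΓ' B, Reg.reg_gauss_map hΓ R, hmat]

/-! ## 5. LEAF `L-OBS-TB5`: Hoelder, Jensen, Minkowski (Mathlib only) -/

section holder

variable {Ω Ω' : Type} [MeasurableSpace Ω] [MeasurableSpace Ω']

theorem tb_jensen (μ : Measure Ω) [IsProbabilityMeasure μ] (f : Ω → ℝ≥0∞) (hf : AEMeasurable f μ) (p : ℝ) (hp : 1 ≤ p) :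
    ∫⁻ x, f x ∂μ ≤ (∫⁻ x, f x ^ p ∂μ) ^ (1 / p) := by
  rcases hp.eq_or_lt with rfl | hp1
  · simp
  · have h := ENNReal.lintegral_mul_le_Lp_mul_Lq μ (Real.HolderConjugate.conjExponent hp1) hf
      (aemeasurable_const (b := (1 : ℝ≥0∞)))
    simpa using h

theorem tb_holder (μ : Measure Ω) (f g : Ω → ℝ≥0∞) (hf : AEMeasurable f μ) (hg : AEMeasurable g μ) (p q : ℝ) (hpq : p.HolderConjugate q) :
    ∫⁻ x, f x * g x ∂μ ≤ (∫⁻ x, f x ^ p ∂μ) ^ (1 / p) * (∫⁻ x, g x ^ q ∂μ) ^ (1 / q) :=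
  ENNReal.lintegral_mul_le_Lp_mul_Lq μ hpq hf hg

theorem tb_minkowski_const (μ : Measure Ω) [IsProbabilityMeasure μ] (f : Ω → ℝ≥0∞) (hf : AEMeasurable f μ) (c : ℝ≥0∞) (q : ℝ) (hq : 1 ≤ q) :
    (∫⁻ x, (f x + c) ^ q ∂μ) ^ (1 / q) ≤ (∫⁻ x, f x ^ q ∂μ) ^ (1 / q) + c := by
  have h := ENNReal.lintegral_Lp_add_le hf (aemeasurable_const (b := c)) hq
  have hq0 : q ≠ 0 := by linarith
  have e : (∫⁻ _ : Ω, c ^ q ∂μ) ^ (1 / q) = c := by
    rw [lintegral_const, measure_univ, mul_one, one_div, ENNReal.rpow_rpow_inv hq0]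
  rw [e] at h
  exact h

theorem tb_pow_le (t q : ℝ) (ht : 0 ≤ t) (hq : 1 ≤ q) :
    t ^ q ≤ ((⌈q⌉₊).factorial : ℝ) ^ q * Real.exp (t ^ 2) := by
  have hq0 : 0 ≤ q := by linarith
  have hN1 : (1 : ℝ) ≤ ((⌈q⌉₊).factorial : ℝ) := by exact_mod_cast Nat.succ_le_of_lt (Nat.factorial_pos _)
  have hNq : (1 : ℝ) ≤ ((⌈q⌉₊).factorial : ℝ) ^ q := Real.one_le_rpow hN1 hq0
  have hNq' : ((⌈q⌉₊).factorial : ℝ) ≤ ((⌈q⌉₊).factorial : ℝ) ^ q := by
    calc ((⌈q⌉₊).factorial : ℝ) = ((⌈q⌉₊).factorial : ℝ) ^ (1 : ℝ) := (Real.rpow_one _).symm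
      _ ≤ _ := Real.rpow_le_rpow_of_exponent_le hN1 hq
  have hexp1 : 1 ≤ Real.exp (t ^ 2) := Real.one_le_exp (by positivity)
  rcases le_total t 1 with h1 | h1
  · calc t ^ q ≤ 1 := Real.rpow_le_one ht h1 hq0
      _ = 1 * 1 := (one_mul 1).symm
      _ ≤ _ := mul_le_mul hNq hexp1 zero_le_one (by positivity)
  · have e1 : t ^ q ≤ t ^ (⌈q⌉₊ : ℝ) := Real.rpow_le_rpow_of_exponent_le h1 (Nat.le_ceil q)
    rw [Real.rpow_natCast] at e1
    have e2 : t ^ ⌈q⌉₊ ≤ (t ^ 2) ^ ⌈q⌉₊ :=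
      pow_le_pow_left₀ ht (by nlinarith) _
    have e3 := Real.pow_div_factorial_le_exp (t ^ 2) (by positivity) ⌈q⌉₊
    rw [div_le_iff₀ (by positivity)] at e3
    calc t ^ q ≤ Real.exp (t ^ 2) * ((⌈q⌉₊).factorial : ℝ) := (e1.trans e2).trans e3
      _ = ((⌈q⌉₊).factorial : ℝ) * Real.exp (t ^ 2) := mul_comm _ _
      _ ≤ _ := mul_le_mul_of_nonneg_right hNq' (by positivity)

/-- polynomial moments from an exponential moment: `y^{q/2} ≤ C_q κ^{-q/2} e^{κ y}` with `C_q = (⌈q⌉₊)!` -/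
theorem tb_moment_of_exp (μ : Measure Ω) (Y : Ω → ℝ) (hY : ∀ x, 0 ≤ Y x) (κ q : ℝ) (hκ : 0 < κ) (hq : 1 ≤ q) :
    (∫⁻ x, ENNReal.ofReal (Real.sqrt (Y x)) ^ q ∂μ) ^ (1 / q)
      ≤ ENNReal.ofReal (((⌈q⌉₊).factorial : ℝ) / Real.sqrt κ) * (∫⁻ x, ENNReal.ofReal (Real.exp (κ * Y x)) ∂μ) ^ (1 / q) := by
  have hq0 : 0 < q := by linarith
  obtain ⟨Cc, hCc⟩ : ∃ Cc : ℝ, Cc = ((⌈q⌉₊).factorial : ℝ) / Real.sqrt κ := ⟨_, rfl⟩
  rw [← hCc]
  have hsκ : 0 < Real.sqrt κ := Real.sqrt_pos.2 hκ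
  have hCc0 : 0 ≤ Cc := by rw [hCc]; positivity
  have hpt : ∀ x, ENNReal.ofReal (Real.sqrt (Y x)) ^ q ≤
      ENNReal.ofReal (Cc ^ q) * ENNReal.ofReal (Real.exp (κ * Y x)) := by
    intro x
    rw [ENNReal.ofReal_rpow_of_nonneg (Real.sqrt_nonneg _) hq0.le,
      ← ENNReal.ofReal_mul (by positivity)]
    refine ENNReal.ofReal_le_ofReal ?_
    have h1 := tb_pow_le (Real.sqrt κ * Real.sqrt (Y x)) q (by positivity) hq
    have h2 : (Real.sqrt κ * Real.sqrt (Y x)) ^ 2 = κ * Y x := by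
      rw [mul_pow, Real.sq_sqrt hκ.le, Real.sq_sqrt (hY x)]
    rw [h2, Real.mul_rpow hsκ.le (Real.sqrt_nonneg _)] at h1
    rw [hCc, Real.div_rpow (by positivity) hsκ.le, div_mul_eq_mul_div, le_div_iff₀ (by positivity)]
    linarith
  have h1 : ∫⁻ x, ENNReal.ofReal (Real.sqrt (Y x)) ^ q ∂μ ≤
      ENNReal.ofReal (Cc ^ q) * ∫⁻ x, ENNReal.ofReal (Real.exp (κ * Y x)) ∂μ := by
    rw [← lintegral_const_mul' _ _ ENNReal.ofReal_ne_top]
    exact lintegral_mono hpt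
  have h2 := ENNReal.rpow_le_rpow h1 (by positivity : 0 ≤ 1 / q)
  rw [ENNReal.mul_rpow_of_nonneg _ _ (by positivity : 0 ≤ 1 / q),
    ENNReal.ofReal_rpow_of_nonneg (by positivity) (by positivity), ← Real.rpow_mul hCc0,
    mul_one_div_cancel hq0.ne', Real.rpow_one] at h2
  exact h2

end holder

/-! ## 6. LEAF `L-OBS-TB6`: class `𝔚` -/

theorem tb_anorm_zero (g : Grid G) (X : Finset g.I) (x0 : G.V) : anorm g X x0 0 = 0 := by
  unfold anorm
  have e : (fun v => (0 : G.V → ℝ) v - (0 : G.V → ℝ) x0) = 0 := by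
    funext v
    simp
  rw [e, Hol.tnorm_zero]

/-- the point norm of the neutral projection -/
theorem tb_proj_ptNorm_le (p : Par) (hω : 0 < p.ω) (col : ℕ) (g : Grid G) (V : Extra g) (X : Finset g.I) (F : Fn G)
    (hF : LocalFn p col g X F) (u : ℝ) (hu : 0 ≤ u) (hbd : fnSize p g V X F ≤ ENNReal.ofReal u) (φ : G.V → ℝ) :
    ptNorm p.h0 g X (chargeProj p.ω 0 F) φ ≤ ENNReal.ofReal (u * Wt g p.δ p.κ V X φ) := by
  rw [ENNReal.ofReal_mul hu]
  exact (ta_ptNorm_le p g V X _ φ).trans (mul_le_mul_left ((tb_neutral p hω col g V X F hF).2.2.trans hbd) _)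

/-- a translate of anchored norm `< h₀` is tame with the regulator at the CENTRE -/
theorem tb_tame_center (p : Par) (hh : 0 < p.h0) (g : Grid G) (V : Extra g)
    (hVc : ∀ X : Finset g.I, Continuous fun φ : G.V → ℝ => V.V X φ) (Γ : Matrix G.V G.V ℝ)
    (X : Finset g.I) (F : Fn G) (hF : Hol p.h0 g X F) (u : ℝ) (hu : 0 ≤ u) (hbd : fnSize p g V X F ≤ ENNReal.ofReal u)
    (hW : ∫⁻ ζ, ENNReal.ofReal (Wt g p.δ p.κ V X ζ) ∂(gauss G Γ) ≠ ⊤)
    (l : G.V → ℝ) (x0 : G.V) (hl : anorm g X x0 l < p.h0) : Tame Γ (fun z => F (z + toC l)) := by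
  refine ⟨?_, fun φ => u * Wt g p.δ p.κ V X φ, ?_, fun φ t => ?_⟩
  · have h := (ta_hol_continuous p.h0 hh g X F hF).comp (continuous_id.add (continuous_const (y := l)))
    refine h.congr fun φ => ?_
    show F (toC (φ + l)) = F (toC φ + toC l)
    rw [Hol.toC_add]
  · have h := ta_wt_integrable p g V hVc Γ X 0 (by simpa using hW)
    simp only [add_zero] at h
    exact h.const_mul _
  · have e : (fun v => ((φ v + t : ℝ) : ℂ)) + toC l = toC (fun v => φ v + (t + l x0)) + toC (fun v => l v - l x0) := by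
      funext v
      simp only [toC, Pi.add_apply, Complex.ofReal_add, Complex.ofReal_sub]
      ring
    have h1 := ta_enorm_le_ptNorm p.h0 g X F (fun v => φ v + (t + l x0)) (toC fun v => l v - l x0)
      (by rw [Hol.tnorm_toC]; exact hl)
    have h2 := ta_ptNorm_le p g V X F (fun v => φ v + (t + l x0))
    rw [ta_wt_const] at h2
    show ‖F ((fun v => ((φ v + t : ℝ) : ℂ)) + toC l)‖ ≤ u * Wt g p.δ p.κ V X φ
    refine tb_norm_le_of_enorm (mul_nonneg hu (ta_wt_pos g p.δ p.κ V X φ).le) ?_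
    rw [e, ENNReal.ofReal_mul hu]
    exact h1.trans (h2.trans (mul_le_mul_left hbd _))

/-- **even activities, small translation**: gain `(N (l) / h₀)²`, regulator at the centre.
PLAN: `F₀ = chargeProj p.ω 0 F` (`tb_neutral`, `tb_proj_even`).  `Tame` for `F` and `F (· + l)`: continuity `ta_hol_continuous`; majorant `u Wt (X, φ)` for both (`F (φ + t + l) = F ((φ + t + l x0) + \tilde l)`, `ta_enorm_le_ptNorm`,
`ta_ptNorm_le`, `ta_wt_const`; integrable by `hW`, `ta_wt_continuous`).  `term_eq_neutral`, `tb_proj_shift`.  `∫ F₀ (ζ + l) = ∫ F₀ (-ζ + l) = ∫ F₀ (ζ - l)` (`tb_gauss_neg`, evenness).  `tb_second_pt` with `M = u Wt (X, ζ)`;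
`norm_integral_le_of_norm_le`. -/
theorem tb_even_shift (p : Par) (hh : 0 < p.h0) (hω : 0 < p.ω) (col : ℕ) (g : Grid G) (V : Extra g)
    (hVc : ∀ X : Finset g.I, Continuous fun φ : G.V → ℝ => V.V X φ) (Γ : Matrix G.V G.V ℝ) (hΓ : Γ.PosSemidef)
    (X : Finset g.I) (F : Fn G) (hF : LocalFn p col g X F) (hev : ∀ z ∈ strip p.h0 g X, F (-z) = F z)
    (u W1 : ℝ) (hu : 0 ≤ u) (hW1 : 0 ≤ W1) (hbd : fnSize p g V X F ≤ ENNReal.ofReal u)
    (hW : ∫⁻ ζ, ENNReal.ofReal (Wt g p.δ p.κ V X ζ) ∂(gauss G Γ) ≤ ENNReal.ofReal W1)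
    (l : G.V → ℝ) (x0 : G.V) (hl : 2 * anorm g X x0 l ≤ p.h0) :
    ‖term p.ω Γ (fun z => F (z + toC l)) - term p.ω Γ F‖ ≤ 4 * ((anorm g X x0 l : ℝ) / p.h0) ^ 2 * u * W1 := by
  set F0 : Fn G := chargeProj p.ω 0 F with hF0
  obtain ⟨hneu, -, -⟩ := tb_neutral p hω col g V X F hF
  have hev0 := tb_proj_even p hω col g X F hF hev
  have hpt := tb_proj_ptNorm_le p hω col g V X F hF u hu hbd
  have hWtop : ∫⁻ ζ, ENNReal.ofReal (Wt g p.δ p.κ V X ζ) ∂(gauss G Γ) ≠ ⊤ := ne_top_of_le_ne_top ENNReal.ofReal_ne_top hW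
  have hWint : Integrable (fun ζ : G.V → ℝ => Wt g p.δ p.κ V X ζ) (gauss G Γ) := by
    have h := ta_wt_integrable p g V hVc Γ X 0 (by simpa using hWtop)
    simpa only [add_zero] using h
  have hWle : ∫ ζ, Wt g p.δ p.κ V X ζ ∂(gauss G Γ) ≤ W1 := by
    rw [integral_eq_lintegral_of_nonneg_ae (Filter.Eventually.of_forall fun ζ => (ta_wt_pos g p.δ p.κ V X ζ).le)
      hWint.aestronglyMeasurable]
    exact ENNReal.toReal_le_of_le_ofReal hW1 hW
  have hl1 : anorm g X x0 l < p.h0 := by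
    have h2 : (0 : ℝ≥0) < 2 := by norm_num
    rcases (zero_le : 0 ≤ anorm g X x0 l).eq_or_lt with h0 | h0
    · rw [← h0]; exact hh
    · calc anorm g X x0 l < 2 * anorm g X x0 l := by
            rw [two_mul]; exact lt_add_of_pos_left _ h0
        _ ≤ p.h0 := hl
  have hl2 : anorm g X x0 (-l) < p.h0 := by rw [tb_anorm_neg]; exact hl1
  -- the three integrands
  have hc0 : Continuous fun φ : G.V → ℝ => F0 (toC φ) := ta_hol_continuous p.h0 hh g X F0 hneu.hol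
  have hint : ∀ k : G.V → ℝ, anorm g X x0 k < p.h0 → Integrable (fun ζ : G.V → ℝ => F0 (toC (ζ + k))) (gauss G Γ) := by
    intro k hk
    refine (hWint.const_mul u).mono' (hc0.comp (continuous_id.add continuous_const)).aestronglyMeasurable
      (Filter.Eventually.of_forall fun ζ => ?_)
    exact tb_norm_le_of_enorm (mul_nonneg hu (ta_wt_pos g p.δ p.κ V X ζ).le)
      ((tb_shift_le p.h0 g X F0 hneu ζ k x0 hk).trans (hpt ζ))
  have hA := hint l hl1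
  have hB := hint (-l) hl2
  have hC : Integrable (fun ζ : G.V → ℝ => F0 (toC ζ)) (gauss G Γ) := by
    have h := hint 0 (by rw [tb_anorm_zero]; exact hh)
    simpa only [add_zero] using h
  -- the two terms
  have e1 : term p.ω Γ F = ∫ ζ, F0 (toC ζ) ∂(gauss G Γ) :=
    term_eq_neutral p.ω Γ (by
      have h := tb_tame_center p hh g V hVc Γ X F hF.hol u hu hbd hWtop 0 x0 (by rw [tb_anorm_zero]; exact hh)
      simpa only [Hol.toC_zero, add_zero] using h)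
  have e2 : term p.ω Γ (fun z => F (z + toC l)) = ∫ ζ, F0 (toC (ζ + l)) ∂(gauss G Γ) := by
    rw [term_eq_neutral p.ω Γ (tb_tame_center p hh g V hVc Γ X F hF.hol u hu hbd hWtop l x0 hl1)]
    refine integral_congr_ae (Filter.Eventually.of_forall fun ζ => ?_)
    show chargeProj p.ω 0 (fun z => F (z + toC l)) (toC ζ) = F0 (toC (ζ + l))
    rw [tb_proj_shift, Hol.toC_add]
  -- reflection
  have e3 : ∫ ζ, F0 (toC (ζ + l)) ∂(gauss G Γ) = ∫ ζ, F0 (toC (ζ + -l)) ∂(gauss G Γ) := by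
    have hm : AEStronglyMeasurable (fun ζ : G.V → ℝ => F0 (toC (ζ + l))) (Measure.map (fun ζ => -ζ) (gauss G Γ)) :=
      (hc0.comp (continuous_id.add continuous_const)).aestronglyMeasurable
    have h := integral_map (μ := gauss G Γ) (φ := fun ζ : G.V → ℝ => -ζ) measurable_neg.aemeasurable hm
    rw [tb_gauss_neg Γ hΓ] at h
    rw [h]
    refine integral_congr_ae (Filter.Eventually.of_forall fun ζ => ?_)
    show F0 (toC (-ζ + l)) = F0 (toC (ζ + -l))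
    refine Eq.trans ?_ (hev0 _ (tb_real_mem_strip p.h0 hh g X (ζ + -l)))
    congr 1
    funext v
    simp only [toC, Pi.add_apply, Pi.neg_apply, Complex.ofReal_add, Complex.ofReal_neg]
    ring
  have e4 : term p.ω Γ (fun z => F (z + toC l)) - term p.ω Γ F
      = (1 / 2 : ℂ) * ∫ ζ, (F0 (toC (ζ + l)) + F0 (toC (ζ - l)) - 2 * F0 (toC ζ)) ∂(gauss G Γ) := by
    simp only [sub_eq_add_neg ((_ : G.V → ℝ)) l]
    have hAB : Integrable (fun ζ : G.V → ℝ => F0 (toC (ζ + l)) + F0 (toC (ζ + -l))) (gauss G Γ) := hA.add hB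
    rw [integral_sub hAB (hC.const_mul 2), integral_add hA hB, integral_const_mul, e1, e2, ← e3]
    ring
  rw [e4, norm_mul]
  have h5 : ‖∫ ζ, (F0 (toC (ζ + l)) + F0 (toC (ζ - l)) - 2 * F0 (toC ζ)) ∂(gauss G Γ)‖
      ≤ ∫ ζ, 8 * ((anorm g X x0 l : ℝ) / p.h0) ^ 2 * (u * Wt g p.δ p.κ V X ζ) ∂(gauss G Γ) :=
    norm_integral_le_of_norm_le ((hWint.const_mul u).const_mul _) (Filter.Eventually.of_forall fun ζ =>
      tb_second_pt p.h0 hh g X F0 hneu ζ l x0 hl _ (mul_nonneg hu (ta_wt_pos g p.δ p.κ V X ζ).le) (hpt ζ))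
  rw [integral_const_mul, integral_const_mul] at h5
  have h6 : ‖(1 / 2 : ℂ)‖ = 1 / 2 := by simp
  rw [h6]
  have h7 : 0 ≤ 8 * ((anorm g X x0 l : ℝ) / p.h0) ^ 2 * u := by positivity
  nlinarith [mul_le_mul_of_nonneg_left hWle h7]

/-! ## 7. LEAF `L-OBS-TB7`: class `ℭ`, removal of the long field -/

/-- `ta_tame_shift` without the superfluous hypotheses -/
theorem tb_tame_shift (p : Par) (hh : 0 < p.h0) (g : Grid G) (V : Extra g)
    (hVc : ∀ X : Finset g.I, Continuous fun φ : G.V → ℝ => V.V X φ) (Γ : Matrix G.V G.V ℝ)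
    (X : Finset g.I) (F : Fn G) (hhol : Hol p.h0 g X F) (hfin : fnSize p g V X F ≠ ⊤) (f : G.V → ℝ)
    (hint : ∫⁻ ζ, ENNReal.ofReal (Wt g p.δ p.κ V X (ζ + f)) ∂(gauss G Γ) ≠ ⊤) : Tame Γ (fun z => F (z + toC f)) := by
  refine ⟨?_, fun φ => (fnSize p g V X F).toReal * Wt g p.δ p.κ V X (φ + f), ?_, fun φ t => ?_⟩
  · have h := (ta_hol_continuous p.h0 hh g X F hhol).comp (continuous_id.add (continuous_const (y := f)))
    refine h.congr fun φ => ?_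
    show F (toC (φ + f)) = F (toC φ + toC f)
    rw [Hol.toC_add]
  · exact (ta_wt_integrable p g V hVc Γ X f hint).const_mul _
  · have h := ta_shift_enorm_le p hh g V X F f φ t
    rw [← ENNReal.ofReal_toReal hfin, ← ENNReal.ofReal_mul ENNReal.toReal_nonneg, ← ofReal_norm] at h
    exact (ENNReal.ofReal_le_ofReal_iff (mul_nonneg ENNReal.toReal_nonneg (ta_wt_pos g p.δ p.κ V X _).le)).1 h

/-- a multiple of `𝟙𝟙ᵀ` is invisible for functions which are blind to constants: lower integrals -/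
theorem tb_lintegral_anchor (Γ Γ' : Matrix G.V G.V ℝ) (hΓ : Γ.PosSemidef) (hΓ' : Γ'.PosSemidef) (c : ℝ) (h : Γ + c • ones G = Γ')
    (x0 : G.V) (H : (G.V → ℝ) → ℝ≥0∞) (hH : Measurable H) (hinv : ∀ ζ : G.V → ℝ, H (fun v => ζ v - ζ x0) = H ζ) :
    ∫⁻ ζ, H ζ ∂(gauss G Γ') = ∫⁻ ζ, H ζ ∂(gauss G Γ) := by
  have hP : Measurable fun (ζ : G.V → ℝ) (v : G.V) => ζ v - ζ x0 := by fun_prop
  have h1 := lintegral_map (μ := gauss G Γ') hH hP
  have h2 := lintegral_map (μ := gauss G Γ) hH hP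
  rw [tb_gauss_anchor Γ Γ' hΓ hΓ' c h x0] at h1
  simp only [hinv] at h1 h2
  rw [← h1, ← h2]

/-- the same for Bochner integrals -/
theorem tb_integral_anchor (Γ Γ' : Matrix G.V G.V ℝ) (hΓ : Γ.PosSemidef) (hΓ' : Γ'.PosSemidef) (c : ℝ) (h : Γ + c • ones G = Γ')
    (x0 : G.V) (H : (G.V → ℝ) → ℂ) (hH : Continuous H) (hinv : ∀ ζ : G.V → ℝ, H (fun v => ζ v - ζ x0) = H ζ) :
    ∫ ζ, H ζ ∂(gauss G Γ') = ∫ ζ, H ζ ∂(gauss G Γ) := by
  have hP : Measurable fun (ζ : G.V → ℝ) (v : G.V) => ζ v - ζ x0 := by fun_prop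
  have h1 := integral_map (μ := gauss G Γ') hP.aemeasurable hH.aestronglyMeasurable
  have h2 := integral_map (μ := gauss G Γ) hP.aemeasurable hH.aestronglyMeasurable
  rw [tb_gauss_anchor Γ Γ' hΓ hΓ' c h x0] at h1
  simp only [hinv] at h1 h2
  rw [← h1, ← h2]

/-- **removal of the long field and of a deterministic background.**
PLAN: `F₀` as above.  `term p.ω Γ F = ∫ F₀ dΓ = ∫ F₀ d(Γ_s + Γ_l)` (`F₀ = F₀ ∘ P`, `tb_gauss_anchor`) `= ∫∫ F₀ (ξ_s + ξ_l)` (`tb_gauss_add`, `integral_map`, `integral_prod`);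
`term p.ω Γ_s (F (· - f)) = ∫ F₀ (ξ_s - f) = ∫∫ F₀ (ξ_s - f)`.  `tb_first` with `φ = ξ_s - f`, `h = ξ_l + f`, `M = u Wt (X, ξ_s - f)`, `M' = u Wt (X, ξ_s + ξ_l)`.
`∫∫ N Wt (ξ_s - f) = (∫ N)(∫ Wt) ≤ N₁ W₁` (`tb_jensen` twice); `∫∫ N Wt (ξ_s + ξ_l) ≤ ‖N‖_q ‖Wt‖_{p_s} ≤ N₁ W₁` (`tb_holder` on the product space, `tb_gauss_add`, `tb_gauss_anchor` and `ta_wt_const` for `Wt`).
Integrability of all terms from the same bounds. -/
theorem tb_long_removal (p : Par) (hh : 0 < p.h0) (hω : 0 < p.ω) (col : ℕ) (g : Grid G) (V : Extra g)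
    (hVc : ∀ X : Finset g.I, Continuous fun φ : G.V → ℝ => V.V X φ) (Γ Γs Γl : Matrix G.V G.V ℝ) (hΓ : Γ.PosSemidef) (hs : Γs.PosSemidef)
    (hl : Γl.PosSemidef) (c : ℝ) (hsplit : Γ + c • ones G = Γs + Γl)
    (X : Finset g.I) (F : Fn G) (hF : LocalFn p col g X F) (u W1 N1 : ℝ) (hu : 0 ≤ u) (hW1 : 0 ≤ W1) (hN1 : 0 ≤ N1)
    (hbd : fnSize p g V X F ≤ ENNReal.ofReal u) (f : G.V → ℝ) (x0 : G.V) (ps q : ℝ) (hpq : ps.HolderConjugate q)
    (hW : (∫⁻ ζ, ENNReal.ofReal (Wt g p.δ p.κ V X ζ ^ ps) ∂(gauss G Γ)) ^ (1 / ps) ≤ ENNReal.ofReal W1)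
    (hWs : (∫⁻ ξ, ENNReal.ofReal (Wt g p.δ p.κ V X (ξ + -f) ^ ps) ∂(gauss G Γs)) ^ (1 / ps) ≤ ENNReal.ofReal W1)
    (hN : (∫⁻ ξ, ((anorm g X x0 (ξ + f) : ℝ≥0) : ℝ≥0∞) ^ q ∂(gauss G Γl)) ^ (1 / q) ≤ ENNReal.ofReal N1) :
    ‖term p.ω Γ F - term p.ω Γs (fun z => F (z + toC (-f)))‖ ≤ 4 * N1 / p.h0 * u * W1 := by
  set F0 : Fn G := chargeProj p.ω 0 F with hF0
  obtain ⟨hneu, -, -⟩ := tb_neutral p hω col g V X F hF
  have hpt := tb_proj_ptNorm_le p hω col g V X F hF u hu hbd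
  have hc0 : Continuous fun φ : G.V → ℝ => F0 (toC φ) := ta_hol_continuous p.h0 hh g X F0 hneu.hol
  have hWc : Continuous fun φ : G.V → ℝ => Wt g p.δ p.κ V X φ := ta_wt_continuous g p.δ p.κ V hVc X
  have hWpos : ∀ φ, 0 < Wt g p.δ p.κ V X φ := ta_wt_pos g p.δ p.κ V X
  have hps : 1 ≤ ps := hpq.lt.le
  have hq : 1 ≤ q := hpq.symm.lt.le
  have hΓ' : (Γs + Γl).PosSemidef := hs.add hl
  have hh' : (0 : ℝ) < p.h0 := by exact_mod_cast hh
  set W : (G.V → ℝ) → ℝ≥0∞ := fun φ => ENNReal.ofReal (Wt g p.δ p.κ V X φ) with hWdef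
  set n : (G.V → ℝ) → ℝ≥0∞ := fun ξ => ((anorm g X x0 (ξ + f) : ℝ≥0) : ℝ≥0∞) with hndef
  have hWm : Measurable W := ENNReal.measurable_ofReal.comp hWc.measurable
  have hnm : Measurable n :=
    measurable_coe_nnreal_ennreal.comp ((tb_anorm_continuous g X x0).comp (continuous_id.add continuous_const)).measurable
  have hWp : ∀ φ, ENNReal.ofReal (Wt g p.δ p.κ V X φ ^ ps) = W φ ^ ps := fun φ =>
    (ENNReal.ofReal_rpow_of_pos (hWpos φ)).symm
  simp only [hWp] at hW hWs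
  have hWinv : ∀ ζ : G.V → ℝ, W (fun v => ζ v - ζ x0) = W ζ := fun ζ => by
    simp only [hWdef, sub_eq_add_neg]
    rw [ta_wt_const]
  have hF0inv : ∀ ζ : G.V → ℝ, F0 (toC fun v => ζ v - ζ x0) = F0 (toC ζ) := fun ζ => by
    refine Eq.trans ?_ (hneu.inv (toC ζ) (tb_real_mem_strip p.h0 hh g X ζ) (-(ζ x0)))
    congr 1
    funext v
    simp only [toC, Complex.ofReal_sub, Complex.ofReal_neg]
    ring
  -- Jensen
  have J1 : ∫⁻ ζ, W ζ ∂(gauss G Γ) ≤ ENNReal.ofReal W1 := (tb_jensen _ W hWm.aemeasurable ps hps).trans hW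
  have hWsm : Measurable fun ξ : G.V → ℝ => W (ξ + -f) := hWm.comp (measurable_id.add_const _)
  have J2 : ∫⁻ ξ, W (ξ + -f) ∂(gauss G Γs) ≤ ENNReal.ofReal W1 :=
    (tb_jensen _ (fun ξ => W (ξ + -f)) hWsm.aemeasurable ps hps).trans hWs
  have J3 : ∫⁻ ξ, n ξ ∂(gauss G Γl) ≤ ENNReal.ofReal N1 := (tb_jensen _ n hnm.aemeasurable q hq).trans hN
  -- a multiple of the matrix of ones is invisible
  have A1 : ∫⁻ ζ, W ζ ∂(gauss G (Γs + Γl)) = ∫⁻ ζ, W ζ ∂(gauss G Γ) :=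
    tb_lintegral_anchor Γ _ hΓ hΓ' c hsplit x0 W hWm hWinv
  have A2 : ∫⁻ ζ, W ζ ^ ps ∂(gauss G (Γs + Γl)) = ∫⁻ ζ, W ζ ^ ps ∂(gauss G Γ) :=
    tb_lintegral_anchor Γ _ hΓ hΓ' c hsplit x0 (fun ζ => W ζ ^ ps) (hWm.pow_const ps) (fun ζ => by simp only [hWinv])
  have A3 : ∫ ζ, F0 (toC ζ) ∂(gauss G (Γs + Γl)) = ∫ ζ, F0 (toC ζ) ∂(gauss G Γ) :=
    tb_integral_anchor Γ _ hΓ hΓ' c hsplit x0 (fun ζ => F0 (toC ζ)) hc0 hF0inv
  have hadd := tb_gauss_add Γs Γl hs hl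
  have hsum : Measurable fun x : (G.V → ℝ) × (G.V → ℝ) => x.1 + x.2 := measurable_fst.add measurable_snd
  set ν : Measure ((G.V → ℝ) × (G.V → ℝ)) := (gauss G Γs).prod (gauss G Γl) with hν
  -- integrability
  have hbound : ∀ φ : G.V → ℝ, ‖F0 (toC φ)‖ ≤ u * Wt g p.δ p.κ V X φ := fun φ => by
    have h := ta_enorm_le_ptNorm p.h0 g X F0 φ 0 (by rw [Hol.tnorm_zero]; exact hh)
    rw [add_zero] at h
    exact tb_norm_le_of_enorm (mul_nonneg hu (hWpos φ).le) (h.trans (hpt φ))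
  have hI' : Integrable (fun ζ : G.V → ℝ => F0 (toC ζ)) (gauss G (Γs + Γl)) := by
    have h := ta_wt_integrable p g V hVc (Γs + Γl) X 0 (by
      simp only [add_zero]
      exact ne_top_of_le_ne_top ENNReal.ofReal_ne_top (A1.le.trans J1))
    simp only [add_zero] at h
    exact (h.const_mul u).mono' hc0.aestronglyMeasurable (Filter.Eventually.of_forall hbound)
  have hIA : Integrable (fun x : (G.V → ℝ) × (G.V → ℝ) => F0 (toC (x.1 + x.2))) ν := by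
    rw [← hadd] at hI'
    exact (integrable_map_measure hc0.aestronglyMeasurable hsum.aemeasurable).1 hI'
  have hIs : Integrable (fun ξ : G.V → ℝ => F0 (toC (ξ + -f))) (gauss G Γs) := by
    have h := ta_wt_integrable p g V hVc Γs X (-f) (ne_top_of_le_ne_top ENNReal.ofReal_ne_top J2)
    exact (h.const_mul u).mono' (hc0.comp (continuous_id.add continuous_const)).aestronglyMeasurable
      (Filter.Eventually.of_forall fun ξ => hbound _)
  have hIB : Integrable (fun x : (G.V → ℝ) × (G.V → ℝ) => F0 (toC (x.1 + -f))) ν := hIs.comp_fst _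
  -- the two terms
  have e1 : term p.ω Γ F = ∫ x, F0 (toC (x.1 + x.2)) ∂ν := by
    rw [term_eq_neutral p.ω Γ (by
      have h := tb_tame_center p hh g V hVc Γ X F hF.hol u hu hbd (ne_top_of_le_ne_top ENNReal.ofReal_ne_top J1) 0 x0
        (by rw [tb_anorm_zero]; exact hh)
      simpa only [Hol.toC_zero, add_zero] using h)]
    have h := integral_map (μ := ν) hsum.aemeasurable (f := fun ζ : G.V → ℝ => F0 (toC ζ)) hc0.aestronglyMeasurable
    rw [hadd, A3] at h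
    exact h
  have e2 : term p.ω Γs (fun z => F (z + toC (-f))) = ∫ x, F0 (toC (x.1 + -f)) ∂ν := by
    rw [term_eq_neutral p.ω Γs (tb_tame_shift p hh g V hVc Γs X F hF.hol (ne_top_of_le_ne_top ENNReal.ofReal_ne_top hbd) (-f)
      (ne_top_of_le_ne_top ENNReal.ofReal_ne_top J2))]
    have h := integral_fun_fst (μ := gauss G Γs) (ν := gauss G Γl) (fun ξ : G.V → ℝ => F0 (toC (ξ + -f)))
    rw [probReal_univ, one_smul] at h
    rw [hν, h]
    refine integral_congr_ae (Filter.Eventually.of_forall fun ζ => ?_)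
    show chargeProj p.ω 0 (fun z => F (z + toC (-f))) (toC ζ) = F0 (toC (ζ + -f))
    rw [tb_proj_shift, Hol.toC_add]
  rw [e1, e2, ← integral_sub hIA hIB]
  -- pointwise
  have hpw : ∀ x : (G.V → ℝ) × (G.V → ℝ), ‖F0 (toC (x.1 + x.2)) - F0 (toC (x.1 + -f))‖ₑ
      ≤ ENNReal.ofReal (2 * u / p.h0) * (W (x.1 + -f) * n x.2 + n x.2 * W (x.1 + x.2)) := by
    intro x
    have e : x.1 + -f + (x.2 + f) = x.1 + x.2 := by abel
    have h := tb_first p.h0 hh g X F0 hneu (x.1 + -f) (x.2 + f) x0 _ _ (mul_nonneg hu (hWpos _).le)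
      (mul_nonneg hu (hWpos _).le) (hpt _) (hpt _)
    rw [e] at h
    rw [← ofReal_norm]
    refine (ENNReal.ofReal_le_ofReal h).trans (le_of_eq ?_)
    have hn : n x.2 = ENNReal.ofReal (anorm g X x0 (x.2 + f) : ℝ) := (ENNReal.ofReal_coe_nnreal).symm
    rw [hn]
    simp only [hWdef]
    rw [← ENNReal.ofReal_mul (hWpos _).le, ← ENNReal.ofReal_mul (NNReal.coe_nonneg _),
      ← ENNReal.ofReal_add (mul_nonneg (hWpos _).le (NNReal.coe_nonneg _)) (mul_nonneg (NNReal.coe_nonneg _) (hWpos _).le),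
      ← ENNReal.ofReal_mul (by positivity)]
    congr 1
    ring
  -- the two integrals
  have T1 : ∫⁻ x, W (x.1 + -f) * n x.2 ∂ν ≤ ENNReal.ofReal W1 * ENNReal.ofReal N1 := by
    rw [hν, lintegral_prod_mul hWsm.aemeasurable hnm.aemeasurable]
    exact mul_le_mul' J2 J3
  have T2 : ∫⁻ x, n x.2 * W (x.1 + x.2) ∂ν ≤ ENNReal.ofReal N1 * ENNReal.ofReal W1 := by
    refine (tb_holder ν (fun x => n x.2) (fun x => W (x.1 + x.2)) (hnm.comp measurable_snd).aemeasurable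
      (hWm.comp hsum).aemeasurable q ps hpq.symm).trans ?_
    have h1 : ∫⁻ x, n x.2 ^ q ∂ν = ∫⁻ ξ, n ξ ^ q ∂(gauss G Γl) := by
      have h := lintegral_prod_mul (μ := gauss G Γs) (ν := gauss G Γl) (f := fun _ => 1) (g := fun ξ => n ξ ^ q)
        aemeasurable_const (hnm.pow_const q).aemeasurable
      simpa using h
    have h2 : ∫⁻ x, W (x.1 + x.2) ^ ps ∂ν = ∫⁻ ζ, W ζ ^ ps ∂(gauss G Γ) := by
      have h := lintegral_map (μ := ν) (hWm.pow_const ps) hsum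
      rw [hadd, A2] at h
      exact h.symm
    rw [h1, h2]
    exact mul_le_mul' hN hW
  have hfin : ‖∫ x, (F0 (toC (x.1 + x.2)) - F0 (toC (x.1 + -f))) ∂ν‖ₑ ≤ ENNReal.ofReal (4 * N1 / p.h0 * u * W1) := by
    refine (enorm_integral_le_lintegral_enorm _).trans ((lintegral_mono hpw).trans ?_)
    have hm1 : Measurable fun x : (G.V → ℝ) × (G.V → ℝ) => W (x.1 + -f) * n x.2 :=
      (hWsm.comp measurable_fst).mul (hnm.comp measurable_snd)
    have hm2 : Measurable fun x : (G.V → ℝ) × (G.V → ℝ) => n x.2 * W (x.1 + x.2) :=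
      (hnm.comp measurable_snd).mul (hWm.comp hsum)
    have hm12 : Measurable fun x : (G.V → ℝ) × (G.V → ℝ) => W (x.1 + -f) * n x.2 + n x.2 * W (x.1 + x.2) := hm1.add hm2
    rw [lintegral_const_mul _ hm12, lintegral_add_left hm1]
    refine (mul_le_mul_right (add_le_add T1 T2) _).trans (le_of_eq ?_)
    rw [← ENNReal.ofReal_mul hW1, ← ENNReal.ofReal_mul hN1, ← ENNReal.ofReal_add (by positivity) (by positivity),
      ← ENNReal.ofReal_mul (by positivity)]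
    congr 1
    ring
  exact tb_norm_le_of_enorm (by positivity) hfin

/-! ## 8. LEAF `L-OBS-TB8`: the long field, deterministic part -/

theorem tb_ld_nab1 (f : ℤ × ℤ → ℝ) (x : ℤ × ℤ) : ∃ e : Fin 4, (nab 1 f x : ℝ) = |dif (dir e) f x| := by
  obtain ⟨a, _, ha⟩ := Finset.exists_mem_eq_sup (Finset.univ : Finset (Fin 1 → Fin 4)) Finset.univ_nonempty
    (fun a => ‖difs a f x‖₊)
  obtain ⟨e, rfl⟩ : ∃ e, a = ![e] := ⟨a 0, by funext i; fin_cases i; rfl⟩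
  refine ⟨e, ?_⟩
  unfold nab
  rw [ha, Reg.reg_difs_one, coe_nnnorm, Real.norm_eq_abs]

theorem tb_ld_nab2 (f : ℤ × ℤ → ℝ) (x : ℤ × ℤ) :
    ∃ e e' : Fin 4, (nab 2 f x : ℝ) = |dif (dir e) (dif (dir e') f) x| := by
  obtain ⟨a, _, ha⟩ := Finset.exists_mem_eq_sup (Finset.univ : Finset (Fin 2 → Fin 4)) Finset.univ_nonempty
    (fun a => ‖difs a f x‖₊)
  obtain ⟨e, e', rfl⟩ : ∃ e e', a = ![e, e'] := ⟨a 0, a 1, by funext i; fin_cases i <;> rfl⟩
  refine ⟨e, e', ?_⟩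
  unfold nab
  rw [ha, Reg.regl_difs_two, coe_nnnorm, Real.norm_eq_abs]

theorem tb_ld_dif_sub (ψ : G.V → ℝ) (c : ℝ) (e : Fin 4) :
    dif (dir e) (G.lift fun v => ψ v - c) = dif (dir e) (G.lift ψ) := by
  funext x
  simp only [dif, Geom.lift]
  ring

/-- a criterion for `anorm ^ 2 ≤ B` -/
theorem tb_ld_crit (g : Grid G) (X : Finset g.I) (x0 : G.V) (hx0 : x0 ∈ g.Dm X) (ψ : G.V → ℝ) (B : ℝ)
    (h0 : ∀ v ∈ g.Dm X, (ψ v - ψ x0) ^ 2 ≤ B)
    (h1 : ∀ v ∈ g.Dm X, ∀ e : Fin 4, (g.m : ℝ) ^ 2 * dif (dir e) (G.lift ψ) (G.ι v) ^ 2 ≤ B)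
    (h2 : ∀ v ∈ g.Dm X, ∀ e e' : Fin 4, (g.m : ℝ) ^ 4 * dif (dir e) (dif (dir e') (G.lift ψ)) (G.ι v) ^ 2 ≤ B) :
    (anorm g X x0 ψ : ℝ) ^ 2 ≤ B := by
  unfold anorm tnorm
  obtain ⟨v, hv, hsup⟩ := Finset.exists_mem_eq_sup (g.Dm X) ⟨x0, hx0⟩ (fun v => max ‖ψ v - ψ x0‖₊
    (max ((g.m : ℝ≥0) * nab 1 (G.lift fun v => ψ v - ψ x0) (G.ι v))
      ((g.m : ℝ≥0) ^ 2 * nab 2 (G.lift fun v => ψ v - ψ x0) (G.ι v))))
  rw [hsup]
  rcases max_choice ‖ψ v - ψ x0‖₊ (max ((g.m : ℝ≥0) * nab 1 (G.lift fun v => ψ v - ψ x0) (G.ι v))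
      ((g.m : ℝ≥0) ^ 2 * nab 2 (G.lift fun v => ψ v - ψ x0) (G.ι v))) with h | h
  · rw [h, coe_nnnorm, Real.norm_eq_abs, sq_abs]
    exact h0 v hv
  · rw [h]
    rcases max_choice ((g.m : ℝ≥0) * nab 1 (G.lift fun v => ψ v - ψ x0) (G.ι v))
      ((g.m : ℝ≥0) ^ 2 * nab 2 (G.lift fun v => ψ v - ψ x0) (G.ι v)) with h | h
    · obtain ⟨e, he⟩ := tb_ld_nab1 (G.lift fun v => ψ v - ψ x0) (G.ι v)
      rw [h, NNReal.coe_mul, NNReal.coe_natCast, he, tb_ld_dif_sub, mul_pow, sq_abs]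
      exact h1 v hv e
    · obtain ⟨e, e', he⟩ := tb_ld_nab2 (G.lift fun v => ψ v - ψ x0) (G.ι v)
      rw [h, NNReal.coe_mul, NNReal.coe_pow, NNReal.coe_natCast, he, tb_ld_dif_sub, mul_pow, sq_abs, ← pow_mul]
      exact h2 v hv e e'

theorem tb_ld_te (gv : Grid G) (Y : Finset gv.I) (ψ : G.V → ℝ) (b : gv.I) (hb : b ∈ Y) :
    (gv.m : ℝ) ^ 4 * Reg.regN2 gv b ψ ^ 2 ≤ TE gv (gv.collar Y) ψ := by
  rw [Reg.reg_TE_eq]
  exact Finset.single_le_sum (f := fun b => (gv.m : ℝ) ^ 4 * Reg.regN2 gv b ψ ^ 2) (fun _ _ => by positivity)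
    (Reg.reg_subset_collar gv Y hb)

/-- the gradient at the sites of `Y` -/
theorem tb_ld_grad (gv : Grid G) (hgv : gv.Ok) (δ : ℝ) (hδ : 0 ≤ δ) (Y : Finset gv.I) (ψ : G.V → ℝ) (w : G.V)
    (hw : gv.blk w ∈ Y) (e : Fin 4) :
    (gv.m : ℝ) ^ 2 * dif (dir e) (G.lift ψ) (G.ι w) ^ 2 ≤ 32 * U gv δ Y ψ := by
  have hws : w ∈ gv.sites {gv.blk w} := by
    rw [Reg.reg_mem_sites]
    exact Finset.mem_singleton_self _
  have h1 := Reg.reg_gradsup gv hgv (gv.blk w) (dif (dir e) (G.lift ψ)) (K := Reg.regN2 gv (gv.blk w) ψ)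
    (fun v hv e' => Reg.reg_d2_le_n2 gv (gv.blk w) ψ hv e' e) hws
  have hsub : gv.sites {gv.blk w} ⊆ gv.Dm Y :=
    Reg.reg_sites_mono gv (Finset.singleton_subset_iff.2 (Reg.reg_subset_collar gv Y hw))
  have h2 : ∑ w' ∈ gv.sites {gv.blk w}, dif (dir e) (G.lift ψ) (G.ι w') ^ 2 ≤ 2 * gE G (gv.Dm Y) ψ := by
    have e1 : 2 * gE G (gv.Dm Y) ψ = ∑ v ∈ gv.Dm Y, ∑ e : Fin 4, dif (dir e) (G.lift ψ) (G.ι v) ^ 2 := by
      unfold gE
      ring
    rw [e1]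
    calc _ ≤ ∑ w' ∈ gv.Dm Y, dif (dir e) (G.lift ψ) (G.ι w') ^ 2 :=
          Finset.sum_le_sum_of_subset_of_nonneg hsub (fun _ _ _ => sq_nonneg _)
      _ ≤ _ := Finset.sum_le_sum fun w' _ =>
          Finset.single_le_sum (f := fun e => dif (dir e) (G.lift ψ) (G.ι w') ^ 2) (fun _ _ => sq_nonneg _)
            (Finset.mem_univ e)
  have h3 := tb_ld_te gv Y ψ _ hw
  have h4 := Reg.reg_gE_nonneg (gv.Dm Y) ψ
  have h5 := mul_nonneg hδ (Reg.reg_PE_nonneg gv.m (gv.Dm Y) ψ)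
  unfold U
  linarith

/-- the second differences at the sites of `Y` -/
theorem tb_ld_hess (gv : Grid G) (δ : ℝ) (hδ : 0 ≤ δ) (Y : Finset gv.I) (ψ : G.V → ℝ) (w : G.V)
    (hw : gv.blk w ∈ Y) (e e' : Fin 4) :
    (gv.m : ℝ) ^ 4 * dif (dir e) (dif (dir e') (G.lift ψ)) (G.ι w) ^ 2 ≤ U gv δ Y ψ := by
  have hws : w ∈ gv.sites {gv.blk w} := by
    rw [Reg.reg_mem_sites]
    exact Finset.mem_singleton_self _
  have h1 := Reg.reg_d2_le_n2 gv (gv.blk w) ψ hws e e'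
  have h2 : dif (dir e) (dif (dir e') (G.lift ψ)) (G.ι w) ^ 2 ≤ Reg.regN2 gv (gv.blk w) ψ ^ 2 :=
    sq_le_sq' (by linarith [(abs_le.1 h1).1]) (abs_le.1 h1).2
  have h3 := tb_ld_te gv Y ψ _ hw
  have h4 := Reg.reg_gE_nonneg (gv.Dm Y) ψ
  have h5 := mul_nonneg hδ (Reg.reg_PE_nonneg gv.m (gv.Dm Y) ψ)
  have h6 := mul_le_mul_of_nonneg_left h2 (by positivity : (0 : ℝ) ≤ (gv.m : ℝ) ^ 4)
  unfold U
  linarith

theorem tb_ld_east (z : G.V) (b : Fin G.M) (h : (b : ℕ) = z.1 + 1) : Reg.regNb G z 0 = (b, z.2) := by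
  have hb := b.2
  have hz := z.2.2
  have e1 : G.ι z + dir 0 = (((z.1 : ℕ) : ℤ) + 1, ((z.2 : ℕ) : ℤ)) := by simp [Geom.ι, dir]
  have h1 := Reg.reg_iota_nb G z 0 (by rw [e1]; show (0 : ℤ) ≤ ((z.1 : ℕ) : ℤ) + 1; omega)
    (by rw [e1]; show ((z.1 : ℕ) : ℤ) + 1 < G.M; omega) (by rw [e1]; show (0 : ℤ) ≤ ((z.2 : ℕ) : ℤ); omega)
    (by rw [e1]; show ((z.2 : ℕ) : ℤ) < G.M; omega)
  rw [e1] at h1
  have h2 : (((Reg.regNb G z 0).1 : ℕ) : ℤ) = ((z.1 : ℕ) : ℤ) + 1 := congrArg Prod.fst h1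
  have h3 : (((Reg.regNb G z 0).2 : ℕ) : ℤ) = ((z.2 : ℕ) : ℤ) := congrArg Prod.snd h1
  exact Prod.ext (Fin.ext (by show ((Reg.regNb G z 0).1 : ℕ) = b; omega)) (Fin.ext (by show ((Reg.regNb G z 0).2 : ℕ) = z.2; omega))

theorem tb_ld_north (z : G.V) (b : Fin G.M) (h : (b : ℕ) = z.2 + 1) : Reg.regNb G z 2 = (z.1, b) := by
  have hb := b.2
  have hz := z.1.2
  have e1 : G.ι z + dir 2 = (((z.1 : ℕ) : ℤ), ((z.2 : ℕ) : ℤ) + 1) := by simp [Geom.ι, dir]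
  have h1 := Reg.reg_iota_nb G z 2 (by rw [e1]; show (0 : ℤ) ≤ ((z.1 : ℕ) : ℤ); omega)
    (by rw [e1]; show ((z.1 : ℕ) : ℤ) < G.M; omega) (by rw [e1]; show (0 : ℤ) ≤ ((z.2 : ℕ) : ℤ) + 1; omega)
    (by rw [e1]; show ((z.2 : ℕ) : ℤ) + 1 < G.M; omega)
  rw [e1] at h1
  have h2 : (((Reg.regNb G z 2).1 : ℕ) : ℤ) = ((z.1 : ℕ) : ℤ) := congrArg Prod.fst h1
  have h3 : (((Reg.regNb G z 2).2 : ℕ) : ℤ) = ((z.2 : ℕ) : ℤ) + 1 := congrArg Prod.snd h1
  exact Prod.ext (Fin.ext (by show ((Reg.regNb G z 2).1 : ℕ) = z.1; omega)) (Fin.ext (by show ((Reg.regNb G z 2).2 : ℕ) = b; omega))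

/-- a horizontal segment, from left to right -/
theorem tb_ld_pathH (ψ : G.V → ℝ) (κ : ℝ) (c a : Fin G.M) : ∀ (n : ℕ) (b : Fin G.M), (b : ℕ) = a + n →
    (∀ i : Fin G.M, a ≤ i → i ≤ b → |ψ (Reg.regNb G (i, c) 0) - ψ (i, c)| ≤ κ) →
    |ψ (b, c) - ψ (a, c)| ≤ n * κ := by
  intro n
  induction n with
  | zero =>
    intro b hb _
    have : b = a := Fin.ext (by omega)
    rw [this]
    simp
  | succ n ih =>
    intro b hb hg
    have hb2 := b.2
    obtain ⟨b', hb'⟩ : ∃ b' : Fin G.M, (b' : ℕ) = a + n := ⟨⟨a + n, by omega⟩, rfl⟩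
    have h1 := ih b' hb' (fun i h2 h3 => hg i h2 (h3.trans (Fin.le_def.2 (by omega))))
    have h2 := hg b' (Fin.le_def.2 (by omega)) (Fin.le_def.2 (by omega))
    rw [tb_ld_east (b', c) b (by show (b : ℕ) = b' + 1; omega)] at h2
    have h3 := abs_sub_le (ψ (b, c)) (ψ (b', c)) (ψ (a, c))
    push_cast
    linarith

/-- a vertical segment, upwards -/
theorem tb_ld_pathV (ψ : G.V → ℝ) (κ : ℝ) (c a : Fin G.M) : ∀ (n : ℕ) (b : Fin G.M), (b : ℕ) = a + n →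
    (∀ i : Fin G.M, a ≤ i → i ≤ b → |ψ (Reg.regNb G (c, i) 2) - ψ (c, i)| ≤ κ) →
    |ψ (c, b) - ψ (c, a)| ≤ n * κ := by
  intro n
  induction n with
  | zero =>
    intro b hb _
    have : b = a := Fin.ext (by omega)
    rw [this]
    simp
  | succ n ih =>
    intro b hb hg
    have hb2 := b.2
    obtain ⟨b', hb'⟩ : ∃ b' : Fin G.M, (b' : ℕ) = a + n := ⟨⟨a + n, by omega⟩, rfl⟩
    have h1 := ih b' hb' (fun i h2 h3 => hg i h2 (h3.trans (Fin.le_def.2 (by omega))))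
    have h2 := hg b' (Fin.le_def.2 (by omega)) (Fin.le_def.2 (by omega))
    rw [tb_ld_north (c, b') b (by show (b : ℕ) = b' + 1; omega)] at h2
    have h3 := abs_sub_le (ψ (c, b)) (ψ (c, b')) (ψ (c, a))
    push_cast
    linarith

/-- a horizontal segment of length `≤ ℓ` -/
theorem tb_ld_segH (ψ : G.V → ℝ) (κ : ℝ) (hκ : 0 ≤ κ) (c a b : Fin G.M) (ℓ : ℕ) (h1 : (a : ℕ) ≤ b + ℓ) (h2 : (b : ℕ) ≤ a + ℓ)
    (hg : ∀ i : Fin G.M, min a b ≤ i → i ≤ max a b → |ψ (Reg.regNb G (i, c) 0) - ψ (i, c)| ≤ κ) :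
    |ψ (b, c) - ψ (a, c)| ≤ ℓ * κ := by
  rcases le_total a b with h | h
  · have h3 := tb_ld_pathH ψ κ c a ((b : ℕ) - a) b (by have := Fin.le_def.1 h; omega)
      (fun i h4 h5 => hg i (by rw [min_eq_left h]; exact h4) (by rw [max_eq_right h]; exact h5))
    refine h3.trans (mul_le_mul_of_nonneg_right ?_ hκ)
    exact_mod_cast (by omega : (b : ℕ) - a ≤ ℓ)
  · have h3 := tb_ld_pathH ψ κ c b ((a : ℕ) - b) a (by have := Fin.le_def.1 h; omega)
      (fun i h4 h5 => hg i (by rw [min_eq_right h]; exact h4) (by rw [max_eq_left h]; exact h5))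
    rw [abs_sub_comm]
    refine h3.trans (mul_le_mul_of_nonneg_right ?_ hκ)
    exact_mod_cast (by omega : (a : ℕ) - b ≤ ℓ)

/-- a vertical segment of length `≤ ℓ` -/
theorem tb_ld_segV (ψ : G.V → ℝ) (κ : ℝ) (hκ : 0 ≤ κ) (c a b : Fin G.M) (ℓ : ℕ) (h1 : (a : ℕ) ≤ b + ℓ) (h2 : (b : ℕ) ≤ a + ℓ)
    (hg : ∀ i : Fin G.M, min a b ≤ i → i ≤ max a b → |ψ (Reg.regNb G (c, i) 2) - ψ (c, i)| ≤ κ) :
    |ψ (c, b) - ψ (c, a)| ≤ ℓ * κ := by
  rcases le_total a b with h | h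
  · have h3 := tb_ld_pathV ψ κ c a ((b : ℕ) - a) b (by have := Fin.le_def.1 h; omega)
      (fun i h4 h5 => hg i (by rw [min_eq_left h]; exact h4) (by rw [max_eq_right h]; exact h5))
    refine h3.trans (mul_le_mul_of_nonneg_right ?_ hκ)
    exact_mod_cast (by omega : (b : ℕ) - a ≤ ℓ)
  · have h3 := tb_ld_pathV ψ κ c b ((a : ℕ) - b) a (by have := Fin.le_def.1 h; omega)
      (fun i h4 h5 => hg i (by rw [min_eq_right h]; exact h4) (by rw [max_eq_left h]; exact h5))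
    rw [abs_sub_comm]
    refine h3.trans (mul_le_mul_of_nonneg_right ?_ hκ)
    exact_mod_cast (by omega : (a : ℕ) - b ≤ ℓ)

/-- **discrete Sobolev at the coarse scale.**  `gv` = any `Ok` grid of side `v ≥ m` (NOT nested with `g`); `Y` contains the coarse blocks which meet the enclosing rectangle of `D_m (X)`; `ℓ` bounds its sides.
PLAN: for `b ∈ Y`, `w ∈ b`: `v² |∇_e ψ (w)|² ≤ 4 ∑_b |∇_e ψ|² + 32 v⁴ (sup_b |∇²ψ|)² ≤ 8 g_{D_v(Y)} + 32 T_v ≤ 32 U_v (Y, ψ)` (`Reg.reg_gradsup` with `f = dif (dir e) (G.lift ψ)`, `K = Reg.regN2 gv b ψ`);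
`v⁴ |∇²ψ (w)|² ≤ T_v ≤ U_v`.  Values: an L-shaped path from `x0` to `x` inside the rectangle, `≤ 2 ℓ` steps.  So `N² ≤ max (4 ℓ² · 32, 32 m², m⁴ / v²) U / v² ≤ 128 ((ℓ + m) / v)² U`. -/
theorem tb_long_det (g gv : Grid G) (hg : g.Ok) (hgv : gv.Ok) (hm : g.m ≤ gv.m) (δ : ℝ) (hδ : 0 ≤ δ) (X : Finset g.I) (Y : Finset gv.I) (ℓ : ℕ)
    (x0 : G.V) (hx0 : x0 ∈ g.Dm X)
    (hY : ∀ z : G.V, (∃ x ∈ g.Dm X, ∃ y ∈ g.Dm X, min x.1 y.1 ≤ z.1 ∧ z.1 ≤ max x.1 y.1 ∧ min x.2 y.2 ≤ z.2 ∧ z.2 ≤ max x.2 y.2) → gv.blk z ∈ Y)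
    (hℓ : ∀ x ∈ g.Dm X, ∀ y ∈ g.Dm X, (x.1 : ℕ) ≤ y.1 + ℓ ∧ (x.2 : ℕ) ≤ y.2 + ℓ) (ψ : G.V → ℝ) :
    (anorm g X x0 ψ : ℝ) ^ 2 ≤ 128 * (((ℓ : ℝ) + g.m) / gv.m) ^ 2 * U gv δ Y ψ := by
  have hU : 0 ≤ U gv δ Y ψ := Reg.reg_U_nonneg gv hδ Y ψ
  have hv0 : (0 : ℝ) < gv.m := by exact_mod_cast hgv.pos
  have hm0 : (0 : ℝ) < g.m := by exact_mod_cast hg.pos
  have hmv : (g.m : ℝ) ≤ gv.m := by exact_mod_cast hm
  have hl0 : (0 : ℝ) ≤ ℓ := Nat.cast_nonneg _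
  have hin : ∀ w ∈ g.Dm X, gv.blk w ∈ Y := fun w hw =>
    hY w ⟨w, hw, w, hw, by simp, by simp, by simp, by simp⟩
  obtain ⟨Uv, hUv⟩ : ∃ Uv, Uv = U gv δ Y ψ := ⟨_, rfl⟩
  obtain ⟨vv, hvv⟩ : ∃ vv : ℝ, vv = gv.m := ⟨_, rfl⟩
  obtain ⟨mm, hmm⟩ : ∃ mm : ℝ, mm = g.m := ⟨_, rfl⟩
  obtain ⟨ll, hll⟩ : ∃ ll : ℝ, ll = ℓ := ⟨_, rfl⟩
  rw [← hUv, ← hvv, ← hmm, ← hll]
  rw [← hUv] at hU
  rw [← hvv] at hv0 hmv
  rw [← hmm] at hm0 hmv
  rw [← hll] at hl0
  have hr : mm = mm / vv * vv := by field_simp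
  have hr0 : 0 ≤ mm / vv := by positivity
  have hr1 : mm / vv ≤ 1 := (div_le_one hv0).2 hmv
  have hrt : mm / vv ≤ (ll + mm) / vv := by gcongr; linarith
  have hrt2 : (mm / vv) ^ 2 ≤ ((ll + mm) / vv) ^ 2 := pow_le_pow_left₀ hr0 hrt 2
  have ht0 : 0 ≤ ((ll + mm) / vv) ^ 2 * Uv := by positivity
  refine tb_ld_crit g X x0 hx0 ψ _ ?_ ?_ ?_
  · intro x hx
    obtain ⟨κ, hκ⟩ : ∃ κ, κ = Real.sqrt (32 * Uv / vv ^ 2) := ⟨_, rfl⟩
    have hκ2 : κ ^ 2 = 32 * Uv / vv ^ 2 := by rw [hκ]; exact Real.sq_sqrt (by positivity)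
    have hκ0 : 0 ≤ κ := by rw [hκ]; exact Real.sqrt_nonneg _
    have hgood : ∀ z : G.V, gv.blk z ∈ Y → ∀ e, |ψ (Reg.regNb G z e) - ψ z| ≤ κ := by
      intro z hz e
      have h1 := tb_ld_grad gv hgv δ hδ Y ψ z hz e
      rw [Reg.reg_dif_lift, ← hUv, ← hvv] at h1
      rw [hκ]
      refine Real.abs_le_sqrt ?_
      rw [le_div_iff₀ (by positivity)]
      linarith
    have hH := tb_ld_segH ψ κ hκ0 x0.2 x0.1 x.1 ℓ (hℓ x0 hx0 x hx).1 (hℓ x hx x0 hx0).1 (fun i h1 h2 =>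
      hgood (i, x0.2) (hY _ ⟨x0, hx0, x, hx, h1, h2, min_le_left _ _, le_max_left _ _⟩) 0)
    have hV := tb_ld_segV ψ κ hκ0 x.1 x0.2 x.2 ℓ (hℓ x0 hx0 x hx).2 (hℓ x hx x0 hx0).2 (fun j h1 h2 =>
      hgood (x.1, j) (hY _ ⟨x0, hx0, x, hx, min_le_right _ _, le_max_right _ _, h1, h2⟩) 2)
    rw [← hll] at hH hV
    have h3 : |ψ x - ψ x0| ≤ 2 * ll * κ := by
      have := abs_sub_le (ψ (x.1, x.2)) (ψ (x.1, x0.2)) (ψ (x0.1, x0.2))
      have e1 : ψ x = ψ (x.1, x.2) := rfl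
      have e2 : ψ x0 = ψ (x0.1, x0.2) := rfl
      rw [e1, e2]
      linarith
    have h4 : (ψ x - ψ x0) ^ 2 ≤ (2 * ll * κ) ^ 2 := sq_le_sq' (by linarith [(abs_le.1 h3).1]) (abs_le.1 h3).2
    have h5 : (2 * ll * κ) ^ 2 = 128 * (ll / vv) ^ 2 * Uv := by
      rw [mul_pow, hκ2]
      field_simp
      ring
    have h6 : (ll / vv) ^ 2 ≤ ((ll + mm) / vv) ^ 2 := by
      refine pow_le_pow_left₀ (by positivity) ?_ 2
      gcongr
      linarith
    calc (ψ x - ψ x0) ^ 2 ≤ 128 * (ll / vv) ^ 2 * Uv := h4.trans (le_of_eq h5)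
      _ ≤ 128 * ((ll + mm) / vv) ^ 2 * Uv := by gcongr
  · intro x hx e
    have h1 := tb_ld_grad gv hgv δ hδ Y ψ x (hin x hx) e
    rw [← hUv, ← hvv] at h1
    rw [← hmm]
    calc mm ^ 2 * dif (dir e) (G.lift ψ) (G.ι x) ^ 2
        = (mm / vv) ^ 2 * (vv ^ 2 * dif (dir e) (G.lift ψ) (G.ι x) ^ 2) := by
          conv_lhs => rw [hr]
          ring
      _ ≤ (mm / vv) ^ 2 * (32 * Uv) := mul_le_mul_of_nonneg_left h1 (by positivity)
      _ ≤ ((ll + mm) / vv) ^ 2 * (32 * Uv) := mul_le_mul_of_nonneg_right hrt2 (by positivity)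
      _ ≤ 128 * ((ll + mm) / vv) ^ 2 * Uv := by linarith
  · intro x hx e e'
    have h1 := tb_ld_hess gv δ hδ Y ψ x (hin x hx) e e'
    rw [← hUv, ← hvv] at h1
    rw [← hmm]
    have h2 : (mm / vv) ^ 4 ≤ (mm / vv) ^ 2 := pow_le_pow_of_le_one hr0 hr1 (by norm_num)
    calc mm ^ 4 * dif (dir e) (dif (dir e') (G.lift ψ)) (G.ι x) ^ 2
        = (mm / vv) ^ 4 * (vv ^ 4 * dif (dir e) (dif (dir e') (G.lift ψ)) (G.ι x) ^ 2) := by
          conv_lhs => rw [hr]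
          ring
      _ ≤ (mm / vv) ^ 4 * Uv := mul_le_mul_of_nonneg_left h1 (by positivity)
      _ ≤ ((ll + mm) / vv) ^ 2 * Uv := mul_le_mul_of_nonneg_right (h2.trans hrt2) hU
      _ ≤ 128 * ((ll + mm) / vv) ^ 2 * Uv := by linarith

/-! ## 9. LEAF `L-OBS-TB9`: the long field, moments -/

theorem tb_fg_mem (G : Geom) (v c : ℕ) : c ∈ freeCuts G v 0 ↔ c < G.M + 1 ∧ c % v = 0 ∧ v ≤ c ∧ c + v ≤ G.M := by
  unfold freeCuts
  rw [Finset.mem_filter, Finset.mem_range, Nat.zero_mod]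

theorem tb_fg_filter (G : Geom) (v : ℕ) (hv : 0 < v) (i : ℕ) :
    ((freeCuts G v 0).filter fun c => c ≤ i).card = min (i / v) (G.M / v - 1) := by
  have e : (freeCuts G v 0).filter (fun c => c ≤ i)
      = (Finset.range (min (i / v) (G.M / v - 1))).image (fun k => (k + 1) * v) := by
    ext c
    simp only [Finset.mem_filter, tb_fg_mem, Finset.mem_range, Finset.mem_image, lt_min_iff]
    constructor
    · rintro ⟨⟨-, hmod, h1, h2⟩, h3⟩
      have hc : c = c / v * v := by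
        have := Nat.div_add_mod c v
        rw [hmod, add_zero, mul_comm] at this
        exact this.symm
      have hk1 : 1 ≤ c / v := (Nat.one_le_div_iff hv).2 h1
      have hk2 : c / v ≤ i / v := Nat.div_le_div_right h3
      have hk3 : c / v + 1 ≤ G.M / v := by
        rw [Nat.le_div_iff_mul_le hv, add_mul, one_mul, ← hc]
        exact h2
      refine ⟨c / v - 1, ⟨by omega, by omega⟩, ?_⟩
      rw [Nat.sub_add_cancel hk1]
      exact hc.symm
    · rintro ⟨k, ⟨h1, h2⟩, rfl⟩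
      have h3 : (k + 2) * v ≤ G.M := (Nat.le_div_iff_mul_le hv).1 (by omega)
      have h4 : (k + 1) * v ≤ i := (Nat.le_div_iff_mul_le hv).1 (by omega)
      have h5 : (k + 2) * v = (k + 1) * v + v := by ring
      have h6 : v ≤ (k + 1) * v := Nat.le_mul_of_pos_left v (Nat.succ_pos k)
      exact ⟨⟨by omega, Nat.mul_mod_left _ _, h6, by omega⟩, h4⟩
  rw [e, Finset.card_image_of_injective, Finset.card_range]
  intro a b hab
  have := Nat.eq_of_mul_eq_mul_right hv hab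
  omega

theorem tb_fg_cuts (G : Geom) (v : ℕ) (hv : 0 < v) : (freeCuts G v 0).card = G.M / v - 1 := by
  have h := tb_fg_filter G v hv G.M
  rw [Finset.filter_true_of_mem] at h
  · rw [h]; omega
  · intro c hc
    have := ((tb_fg_mem G v c).1 hc).1
    omega

theorem tb_fg_card (M a b : ℕ) (hb : b ≤ M) (p : Fin M → Prop) [DecidablePred p] (hp : ∀ i : Fin M, p i ↔ a ≤ (i : ℕ) ∧ (i : ℕ) < b) :
    (Finset.univ.filter p).card = b - a := by
  rw [← Nat.card_Ico, ← Finset.card_map Fin.valEmbedding]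
  congr 1
  ext k
  simp only [Finset.mem_map, Finset.mem_filter, Finset.mem_univ, true_and, Fin.valEmbedding_apply, Finset.mem_Ico]
  constructor
  · rintro ⟨i, hi, rfl⟩
    exact (hp i).1 hi
  · intro hk
    exact ⟨⟨k, by omega⟩, (hp _).2 hk, rfl⟩

theorem tb_fg_blk1 (G : Geom) (v : ℕ) (hv : 0 < v) (i : Fin G.M) :
    (((freeGrid G v 0).blk1 i : Fin _) : ℕ) = min ((i : ℕ) / v) (G.M / v - 1) := tb_fg_filter G v hv i

theorem tb_fg_n (G : Geom) (v : ℕ) (hv : 0 < v) : (freeGrid G v 0).n = G.M / v - 1 + 1 := by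
  show (freeCuts G v 0).card + 1 = _
  rw [tb_fg_cuts G v hv]

/-- an inner block -/
theorem tb_fg_inner (G : Geom) (v : ℕ) (hv : 0 < v) (b : Fin (freeGrid G v 0).n) (hb : (b : ℕ) < G.M / v - 1) :
    (Finset.univ.filter fun i => (freeGrid G v 0).blk1 i = b).card = v := by
  have h1 : ((b : ℕ) + 1) * v ≤ G.M := (Nat.le_div_iff_mul_le hv).1 (by omega)
  rw [tb_fg_card G.M ((b : ℕ) * v) (((b : ℕ) + 1) * v) h1]
  · rw [add_mul, one_mul]; omega
  · intro i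
    rw [Fin.ext_iff, tb_fg_blk1 G v hv, ← Nat.le_div_iff_mul_le hv, ← Nat.div_lt_iff_lt_mul hv]
    omega

/-- the last block -/
theorem tb_fg_last (G : Geom) (v : ℕ) (hv : 0 < v) (b : Fin (freeGrid G v 0).n) (hb : (b : ℕ) = G.M / v - 1) :
    (Finset.univ.filter fun i => (freeGrid G v 0).blk1 i = b).card = G.M - (G.M / v - 1) * v := by
  rw [tb_fg_card G.M ((G.M / v - 1) * v) G.M le_rfl]
  intro i
  rw [Fin.ext_iff, tb_fg_blk1 G v hv, ← Nat.le_div_iff_mul_le hv, hb]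
  have := i.2
  omega

/-- the grid of the free square with cuts at the multiples of `v` and one irregular end block is `Ok` (offset `0`; for a general offset the first block may be too long) -/
theorem tb_freeGrid_ok (G : Geom) (hG : G.bc = BC.free) (v : ℕ) (hv : 0 < v) (hvM : v ≤ G.M) : (freeGrid G v 0).Ok := by
  have hK : 1 ≤ G.M / v := (Nat.one_le_div_iff hv).2 hvM
  have hn := tb_fg_n G v hv
  have hlast : v ≤ G.M - (G.M / v - 1) * v ∧ G.M - (G.M / v - 1) * v < 2 * v := by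
    have h1 := Nat.div_add_mod G.M v
    have h2 := Nat.mod_lt G.M hv
    obtain ⟨k, hk⟩ : ∃ k, G.M / v = k + 1 := ⟨G.M / v - 1, by omega⟩
    rw [hk] at h1 ⊢
    rw [Nat.add_sub_cancel]
    have h3 : v * (k + 1) = k * v + v := by ring
    omega
  refine ⟨hv, fun i j hij => ?_, fun b => ?_, fun b => ?_, fun b hb => ?_⟩
  · rw [Fin.le_def, tb_fg_blk1 G v hv, tb_fg_blk1 G v hv]
    have : (i : ℕ) / v ≤ (j : ℕ) / v := Nat.div_le_div_right hij
    omega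
  · have hb : (b : ℕ) ≤ G.M / v - 1 := by have := b.2; omega
    have h1 : ((b : ℕ) + 1) * v ≤ G.M := (Nat.le_div_iff_mul_le hv).1 (by omega)
    refine ⟨⟨(b : ℕ) * v, by rw [add_mul, one_mul] at h1; omega⟩, ?_⟩
    rw [Fin.ext_iff, tb_fg_blk1 G v hv]
    show min ((b : ℕ) * v / v) _ = _
    rw [Nat.mul_div_cancel _ hv]
    omega
  · have hb : (b : ℕ) ≤ G.M / v - 1 := by have := b.2; omega
    show v ≤ _ ∧ _ < 2 * v
    rcases hb.lt_or_eq with hb | hb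
    · rw [tb_fg_inner G v hv b hb]; omega
    · rw [tb_fg_last G v hv b hb]; exact hlast
  · rcases hb with hb | ⟨-, hb⟩
    · rw [hG] at hb; cases hb
    · exact tb_fg_inner G v hv b (by omega)

/-- two sites at distance `≤ m` lie in the same block or in adjacent blocks -/
theorem tb_cc_adj (gv : Grid G) (hgv : gv.Ok) (i j : Fin G.M) (hj : (j : ℕ) ≤ i + gv.m) :
    (gv.blk1 j : ℕ) ≤ gv.blk1 i + 1 := by
  by_contra hcon
  rw [not_le] at hcon
  have hlt : (gv.blk1 i : ℕ) + 1 < gv.n := lt_trans hcon (gv.blk1 j).2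
  have h1 := (hgv.size ⟨(gv.blk1 i : ℕ) + 1, hlt⟩).1
  have h2 : (Finset.univ.filter fun k => gv.blk1 k = ⟨(gv.blk1 i : ℕ) + 1, hlt⟩).card ≤ (Finset.Ioo (i : ℕ) j).card := by
    rw [← Finset.card_map Fin.valEmbedding]
    refine Finset.card_le_card fun k hk => ?_
    simp only [Finset.mem_map, Finset.mem_filter, Finset.mem_univ, true_and, Fin.valEmbedding_apply] at hk
    obtain ⟨a, ha, rfl⟩ := hk
    have ha' : (gv.blk1 a : ℕ) = gv.blk1 i + 1 := congrArg Fin.val ha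
    rw [Finset.mem_Ioo]
    constructor
    · by_contra h
      have : gv.blk1 a ≤ gv.blk1 i := hgv.mono (Fin.le_def.2 (not_lt.1 h))
      have := Fin.le_def.1 this
      omega
    · by_contra h
      have : gv.blk1 j ≤ gv.blk1 a := hgv.mono (Fin.le_def.2 (not_lt.1 h))
      have := Fin.le_def.1 this
      omega
  rw [Nat.card_Ioo] at h2
  have := hgv.pos
  omega

theorem tb_cc_three (n c : ℕ) : (Finset.univ.filter fun a : Fin n => c ≤ (a : ℕ) + 1 ∧ (a : ℕ) ≤ c + 1).card ≤ 3 := by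
  calc (Finset.univ.filter fun a : Fin n => c ≤ (a : ℕ) + 1 ∧ (a : ℕ) ≤ c + 1).card
      = ((Finset.univ.filter fun a : Fin n => c ≤ (a : ℕ) + 1 ∧ (a : ℕ) ≤ c + 1).map Fin.valEmbedding).card := (Finset.card_map _).symm
    _ ≤ (Finset.Icc (c - 1) (c + 1)).card := by
        refine Finset.card_le_card fun k hk => ?_
        simp only [Finset.mem_map, Finset.mem_filter, Finset.mem_univ, true_and, Fin.valEmbedding_apply] at hk
        obtain ⟨a, ha, rfl⟩ := hk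
        rw [Finset.mem_Icc]
        omega
    _ ≤ 3 := by rw [Nat.card_Icc]; omega

theorem tb_cc_near (gv : Grid G) (hgv : gv.Ok) (i j : Fin G.M) (h1 : (i : ℕ) ≤ j + gv.m) (h2 : (j : ℕ) ≤ i + gv.m) :
    (gv.blk1 i : ℕ) ≤ (gv.blk1 j : ℕ) + 1 ∧ (gv.blk1 j : ℕ) ≤ (gv.blk1 i : ℕ) + 1 := by
  rcases le_total i j with h | h
  · exact ⟨(Fin.le_def.1 (hgv.mono h)).trans (Nat.le_succ _), tb_cc_adj gv hgv i j h2⟩
  · exact ⟨tb_cc_adj gv hgv j i h1, (Fin.le_def.1 (hgv.mono h)).trans (Nat.le_succ _)⟩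

open Classical in
/-- a rectangle of sides `≤ v` meets at most `3 × 3` blocks (every block has side `≥ v`) -/
theorem tb_cover_card (gv : Grid G) (hgv : gv.Ok) (D : Finset G.V) (hD : ∀ x ∈ D, ∀ y ∈ D, (x.1 : ℕ) ≤ y.1 + gv.m ∧ (x.2 : ℕ) ≤ y.2 + gv.m) :
    (Finset.univ.filter fun b : gv.I => ∃ z : G.V, gv.blk z = b ∧
      ∃ x ∈ D, ∃ y ∈ D, min x.1 y.1 ≤ z.1 ∧ z.1 ≤ max x.1 y.1 ∧ min x.2 y.2 ≤ z.2 ∧ z.2 ≤ max x.2 y.2).card ≤ 9 := by
  rcases D.eq_empty_or_nonempty with rfl | ⟨x0, hx0⟩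
  · simp
  · have hsub : (Finset.univ.filter fun b : gv.I => ∃ z : G.V, gv.blk z = b ∧
        ∃ x ∈ D, ∃ y ∈ D, min x.1 y.1 ≤ z.1 ∧ z.1 ≤ max x.1 y.1 ∧ min x.2 y.2 ≤ z.2 ∧ z.2 ≤ max x.2 y.2)
        ⊆ (Finset.univ.filter fun a : Fin gv.n => (gv.blk1 x0.1 : ℕ) ≤ (a : ℕ) + 1 ∧ (a : ℕ) ≤ (gv.blk1 x0.1 : ℕ) + 1) ×ˢ
          (Finset.univ.filter fun a : Fin gv.n => (gv.blk1 x0.2 : ℕ) ≤ (a : ℕ) + 1 ∧ (a : ℕ) ≤ (gv.blk1 x0.2 : ℕ) + 1) := by
      intro b hb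
      obtain ⟨z, rfl, x, hx, y, hy, h1, h2, h3, h4⟩ := (Finset.mem_filter.1 hb).2
      have a1 := hD x hx x0 hx0
      have a2 := hD x0 hx0 x hx
      have a3 := hD y hy x0 hx0
      have a4 := hD x0 hx0 y hy
      rw [Finset.mem_product, Finset.mem_filter, Finset.mem_filter]
      refine ⟨⟨Finset.mem_univ _, ?_⟩, ⟨Finset.mem_univ _, ?_⟩⟩
      · refine tb_cc_near gv hgv x0.1 z.1 ?_ ?_
        · rcases min_le_iff.1 (le_refl (min x.1 y.1)) with h | h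
          · have := Fin.le_def.1 (h1.trans' (le_of_eq rfl))
            rcases le_total x.1 y.1 with hxy | hxy
            · rw [min_eq_left hxy] at h1; have := Fin.le_def.1 h1; omega
            · rw [min_eq_right hxy] at h1; have := Fin.le_def.1 h1; omega
          · rcases le_total x.1 y.1 with hxy | hxy
            · rw [min_eq_left hxy] at h1; have := Fin.le_def.1 h1; omega
            · rw [min_eq_right hxy] at h1; have := Fin.le_def.1 h1; omega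
        · rcases le_total x.1 y.1 with hxy | hxy
          · rw [max_eq_right hxy] at h2; have := Fin.le_def.1 h2; omega
          · rw [max_eq_left hxy] at h2; have := Fin.le_def.1 h2; omega
      · refine tb_cc_near gv hgv x0.2 z.2 ?_ ?_
        · rcases le_total x.2 y.2 with hxy | hxy
          · rw [min_eq_left hxy] at h3; have := Fin.le_def.1 h3; omega
          · rw [min_eq_right hxy] at h3; have := Fin.le_def.1 h3; omega
        · rcases le_total x.2 y.2 with hxy | hxy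
          · rw [max_eq_right hxy] at h4; have := Fin.le_def.1 h4; omega
          · rw [max_eq_left hxy] at h4; have := Fin.le_def.1 h4; omega
    refine (Finset.card_le_card hsub).trans ?_
    rw [Finset.card_product]
    calc _ ≤ 3 * 3 := Nat.mul_le_mul (tb_cc_three _ _) (tb_cc_three _ _)
      _ = 9 := rfl

/-- **moments of the long field**, with a deterministic background `f`.   PLAN: `Y` = the set of `tb_cover_card`; `tb_long_det`; `B4.regulator_terminal Ct` on the grid `gv` at `κ = κ0`: `E e^{κ U_v (Y, ξ)} ≤ C^9`;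
`tb_moment_of_exp`; `tb_anorm_add`, `tb_minkowski_const`. -/
theorem tb_long_moment (Ct q : ℝ) (hq : 1 ≤ q) : ∃ C : ℝ, 0 ≤ C ∧ ∀ (G : Geom) (g gv : Grid G), g.Ok → gv.Ok → g.m ≤ gv.m →
    ∀ Γl : Matrix G.V G.V ℝ, Γl.PosSemidef → TermBounds G Ct gv.m Γl → ∀ (X : Finset g.I) (ℓ : ℕ), ℓ ≤ gv.m →
    (∀ x ∈ g.Dm X, ∀ y ∈ g.Dm X, (x.1 : ℕ) ≤ y.1 + ℓ ∧ (x.2 : ℕ) ≤ y.2 + ℓ) → ∀ x0 ∈ g.Dm X, ∀ f : G.V → ℝ,
      (∫⁻ ξ, ((anorm g X x0 (ξ + f) : ℝ≥0) : ℝ≥0∞) ^ q ∂(gauss G Γl)) ^ (1 / q)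
        ≤ ENNReal.ofReal (C * (((ℓ : ℝ) + g.m) / gv.m) + anorm g X x0 f) := by
  classical
  obtain ⟨δ0, hδ0, H1⟩ := B4.regulator_terminal Ct
  obtain ⟨κ0, hκ0, Cr, hCr, H2⟩ := H1 δ0 ⟨hδ0, le_rfl⟩
  have hq0 : 0 < q := by linarith
  obtain ⟨Cm, hCm⟩ : ∃ Cm : ℝ≥0∞, Cm = (max Cr 1) ^ 9 := ⟨_, rfl⟩
  have hCm_top : Cm ≠ ⊤ := by
    rw [hCm]
    exact ENNReal.pow_ne_top (max_lt (lt_top_iff_ne_top.2 hCr) ENNReal.one_lt_top).ne
  obtain ⟨c1, hc1⟩ : ∃ c1 : ℝ, c1 = ((⌈q⌉₊).factorial : ℝ) / Real.sqrt κ0 := ⟨_, rfl⟩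
  have hc10 : 0 ≤ c1 := by rw [hc1]; positivity
  obtain ⟨c2, hc2⟩ : ∃ c2 : ℝ, c2 = (Cm ^ (1 / q)).toReal := ⟨_, rfl⟩
  have hc20 : 0 ≤ c2 := by rw [hc2]; exact ENNReal.toReal_nonneg
  have hc2' : Cm ^ (1 / q) = ENNReal.ofReal c2 := by
    rw [hc2, ENNReal.ofReal_toReal (ENNReal.rpow_ne_top_of_nonneg (by positivity) hCm_top)]
  refine ⟨Real.sqrt 128 * (c1 * c2), by positivity, ?_⟩
  intro G g gv hg hgv hm Γl hΓ hT X ℓ hℓ hD x0 hx0 f
  obtain ⟨Y, hY⟩ : ∃ Y : Finset gv.I, Y = Finset.univ.filter fun b : gv.I => ∃ z : G.V, gv.blk z = b ∧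
      ∃ x ∈ g.Dm X, ∃ y ∈ g.Dm X, min x.1 y.1 ≤ z.1 ∧ z.1 ≤ max x.1 y.1 ∧ min x.2 y.2 ≤ z.2 ∧ z.2 ≤ max x.2 y.2 := ⟨_, rfl⟩
  have hYc : Y.card ≤ 9 := by
    rw [hY]
    exact tb_cover_card gv hgv (g.Dm X) fun x hx y hy =>
      ⟨(hD x hx y hy).1.trans (by omega), (hD x hx y hy).2.trans (by omega)⟩
  obtain ⟨r, hr⟩ : ∃ r : ℝ, r = ((ℓ : ℝ) + g.m) / gv.m := ⟨_, rfl⟩
  have hr0 : 0 ≤ r := by rw [hr]; positivity
  rw [← hr]
  have hU : ∀ ξ : G.V → ℝ, 0 ≤ U gv δ0 Y ξ := fun ξ => Reg.reg_U_nonneg gv hδ0.le Y ξ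
  have hdet : ∀ ξ : G.V → ℝ, (anorm g X x0 ξ : ℝ) ≤ Real.sqrt 128 * r * Real.sqrt (U gv δ0 Y ξ) := by
    intro ξ
    have h := tb_long_det g gv hg hgv hm δ0 hδ0.le X Y ℓ x0 hx0
      (fun z hz => by rw [hY]; exact Finset.mem_filter.2 ⟨Finset.mem_univ _, z, rfl, hz⟩) hD ξ
    rw [← hr] at h
    calc (anorm g X x0 ξ : ℝ) = Real.sqrt ((anorm g X x0 ξ : ℝ) ^ 2) := (Real.sqrt_sq (NNReal.coe_nonneg _)).symm
      _ ≤ Real.sqrt (128 * r ^ 2 * U gv δ0 Y ξ) := Real.sqrt_le_sqrt h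
      _ = Real.sqrt 128 * r * Real.sqrt (U gv δ0 Y ξ) := by
        rw [Real.sqrt_mul (by positivity), Real.sqrt_mul (by norm_num), Real.sqrt_sq hr0]
  have hexp : ∫⁻ ξ, ENNReal.ofReal (Real.exp (κ0 * U gv δ0 Y ξ)) ∂(gauss G Γl) ≤ Cm := by
    refine (H2 κ0 ⟨hκ0, le_rfl⟩ G gv hgv Γl hΓ hT Y).trans ?_
    rw [hCm]
    calc Cr ^ Y.card ≤ (max Cr 1) ^ Y.card := pow_le_pow_left₀ zero_le (le_max_left _ _) _
      _ ≤ (max Cr 1) ^ 9 := pow_le_pow_right₀ (le_max_right _ _) hYc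
  have hmom := tb_moment_of_exp (gauss G Γl) (fun ξ => U gv δ0 Y ξ) hU κ0 q hκ0 hq
  rw [← hc1] at hmom
  have hmeas : AEMeasurable (fun ξ : G.V → ℝ => ((anorm g X x0 ξ : ℝ≥0) : ℝ≥0∞)) (gauss G Γl) :=
    (measurable_coe_nnreal_ennreal.comp (tb_anorm_continuous g X x0).measurable).aemeasurable
  have s1 : (∫⁻ ξ, ((anorm g X x0 (ξ + f) : ℝ≥0) : ℝ≥0∞) ^ q ∂(gauss G Γl)) ^ (1 / q)
      ≤ (∫⁻ ξ, (((anorm g X x0 ξ : ℝ≥0) : ℝ≥0∞) + ((anorm g X x0 f : ℝ≥0) : ℝ≥0∞)) ^ q ∂(gauss G Γl)) ^ (1 / q) := by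
    refine ENNReal.rpow_le_rpow (lintegral_mono fun ξ => ENNReal.rpow_le_rpow ?_ hq0.le) (by positivity)
    exact_mod_cast tb_anorm_add g X x0 ξ f
  have s2 := tb_minkowski_const (gauss G Γl) _ hmeas ((anorm g X x0 f : ℝ≥0) : ℝ≥0∞) q hq
  have s3 : (∫⁻ ξ, ((anorm g X x0 ξ : ℝ≥0) : ℝ≥0∞) ^ q ∂(gauss G Γl)) ^ (1 / q)
      ≤ ENNReal.ofReal (Real.sqrt 128 * r) * (∫⁻ ξ, ENNReal.ofReal (Real.sqrt (U gv δ0 Y ξ)) ^ q ∂(gauss G Γl)) ^ (1 / q) := by
    have hpt : ∀ ξ : G.V → ℝ, ((anorm g X x0 ξ : ℝ≥0) : ℝ≥0∞) ^ q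
        ≤ ENNReal.ofReal (Real.sqrt 128 * r) ^ q * ENNReal.ofReal (Real.sqrt (U gv δ0 Y ξ)) ^ q := by
      intro ξ
      rw [← ENNReal.mul_rpow_of_nonneg _ _ hq0.le, ← ENNReal.ofReal_mul (by positivity)]
      refine ENNReal.rpow_le_rpow ?_ hq0.le
      rw [← ENNReal.ofReal_coe_nnreal]
      exact ENNReal.ofReal_le_ofReal (hdet ξ)
    calc (∫⁻ ξ, ((anorm g X x0 ξ : ℝ≥0) : ℝ≥0∞) ^ q ∂(gauss G Γl)) ^ (1 / q)
        ≤ (∫⁻ ξ, ENNReal.ofReal (Real.sqrt 128 * r) ^ q * ENNReal.ofReal (Real.sqrt (U gv δ0 Y ξ)) ^ q ∂(gauss G Γl)) ^ (1 / q) :=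
          ENNReal.rpow_le_rpow (lintegral_mono hpt) (by positivity)
      _ = _ := by
        rw [lintegral_const_mul' _ _ (ENNReal.rpow_ne_top_of_nonneg hq0.le ENNReal.ofReal_ne_top),
          ENNReal.mul_rpow_of_nonneg _ _ (by positivity : 0 ≤ 1 / q), one_div, ENNReal.rpow_rpow_inv hq0.ne']
  have s4 : (∫⁻ ξ, ENNReal.ofReal (Real.sqrt (U gv δ0 Y ξ)) ^ q ∂(gauss G Γl)) ^ (1 / q) ≤ ENNReal.ofReal (c1 * c2) := by
    rw [ENNReal.ofReal_mul hc10, ← hc2']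
    exact hmom.trans (mul_le_mul_right (ENNReal.rpow_le_rpow hexp (by positivity)) _)
  calc (∫⁻ ξ, ((anorm g X x0 (ξ + f) : ℝ≥0) : ℝ≥0∞) ^ q ∂(gauss G Γl)) ^ (1 / q)
      ≤ (∫⁻ ξ, ((anorm g X x0 ξ : ℝ≥0) : ℝ≥0∞) ^ q ∂(gauss G Γl)) ^ (1 / q) + ((anorm g X x0 f : ℝ≥0) : ℝ≥0∞) := s1.trans s2
    _ ≤ ENNReal.ofReal (Real.sqrt 128 * r) * ENNReal.ofReal (c1 * c2) + ((anorm g X x0 f : ℝ≥0) : ℝ≥0∞) :=
        add_le_add (s3.trans (mul_le_mul_right s4 _)) le_rfl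
    _ = ENNReal.ofReal (Real.sqrt 128 * (c1 * c2) * r + anorm g X x0 f) := by
        rw [← ENNReal.ofReal_mul (by positivity), ← ENNReal.ofReal_coe_nnreal, ← ENNReal.ofReal_add (by positivity) (NNReal.coe_nonneg _)]
        congr 2
        ring

/-! ## 10. LEAF `L-OBS-TB10`: kernels (with `R285/Ker`, helper198; `R285/Sp/CovCopy.lean`, helper214) -/

/-- **the exact split of the terminal covariance** ([F] l.1020): `Δ = shell + Γ_v - Γ_m` is symmetric; for `∑ f = 0`: `lap Δ f = (X shellP m v + termP v - termP m)(lap) f = 0` (polynomial identity, `X divX P = P - P(0)`,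
`Qs c t` has the value `1` at `0`), so `Δ f` is constant (kernel of `lap` = constants); `Δ 𝟙 = shellP(0) 𝟙`; a symmetric matrix which maps mean-zero vectors to constants and `𝟙` to `c' 𝟙` is `c 𝟙𝟙ᵀ`. -/
theorem tb_terminal_split (G : Geom) (m v : ℕ) (hm : 1 ≤ m) (hv : 1 ≤ v) (Γm Γv : Matrix G.V G.V ℝ) (hΓm : IsTerminal G Fam.entry m Γm)
    (hΓv : IsTerminal G Fam.entry v Γv) : ∃ c : ℝ, Γm + c • ones G = shell G Fam.entry m v + Γv := by
  refine ⟨(Fam.entry.shellP m v).eval 0 / (G.M : ℝ) ^ 2, ?_⟩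
  rw [← Claimed.Agent.R285.Ker.ker_terminal_split Claimed.Agent.R285.Ker.ker_entry_adm m v hm hv hΓm hΓv]
  congr 1
  ext x y
  simp [ones, Claimed.Agent.R285.Ker.cmat]

theorem tb_shellP_degree (m v : ℕ) (hm : 1 ≤ m) (hv : m ≤ v) : (Fam.entry.shellP m v).natDegree ≤ pp * v := by
  simpa using Claimed.Agent.R285.Ker.ker_shellP_natDegree Fam.entry 0 Claimed.Agent.R285.Ker.ker_entry_adm.deg m v hv

/-- **polynomial kernels of two centred free squares agree away from the walls**: all walks of length `≤ deg P` from `x` stay in the interior, where both Laplacians are the plane Laplacian.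
`s` = the shift of the centred embedding. -/
theorem tb_cov_copy_free (P : Polynomial ℝ) (G G' : Geom) (hG : G.bc = BC.free) (hG' : G'.bc = BC.free) (s : ℕ) (hs : G'.M = G.M + 2 * s)
    (e : G.V → G'.V) (he : ∀ x, ((e x).1 : ℕ) = x.1 + s ∧ ((e x).2 : ℕ) = x.2 + s) (x y : G.V)
    (hx : P.natDegree ≤ (x.1 : ℕ) ∧ (x.1 : ℕ) + P.natDegree < G.M ∧ P.natDegree ≤ (x.2 : ℕ) ∧ (x.2 : ℕ) + P.natDegree < G.M) :
    cov G' P (e x) (e y) = cov G P x y :=
  Claimed.Agent.R285.Ker.ker_cov_copy_shift P G G' s (by omega) e he x y hx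

/-! ## 11. LEAF `L-OBS-TB11`: the two retained singletons -/

theorem tb_dif_toC (ψ : G.V → ℝ) (e x : ℤ × ℤ) : dif e (G.lift (toC ψ)) x = ((dif e (G.lift ψ) x : ℝ) : ℂ) := by
  simp only [dif, Geom.lift, toC, Complex.ofReal_sub]

theorem tb_eBC_toC (g : Grid G) (B : g.I) (ψ : G.V → ℝ) : eBC g B (toC ψ) = ((eB g B ψ : ℝ) : ℂ) := by
  unfold eBC eB gE
  simp only [tb_dif_toC]
  push_cast
  rfl

theorem tb_eB_const (g : Grid G) (B : g.I) (ψ : G.V → ℝ) (t : ℝ) : eB g B (fun v => ψ v + t) = eB g B ψ := by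
  unfold eB gE
  simp only [Hol.dif_lift_add_const]

theorem tb_eB_nonneg (g : Grid G) (B : g.I) (ψ : G.V → ℝ) : 0 ≤ eB g B ψ := by
  unfold eB gE
  exact mul_nonneg (by norm_num) (Finset.sum_nonneg fun v _ => Finset.sum_nonneg fun e _ => sq_nonneg _)

theorem tb_eBC_shift (g : Grid G) (B : g.I) (φ l : G.V → ℝ) (t : ℝ) :
    eBC g B ((fun v => ((φ v + t : ℝ) : ℂ)) + toC l) = ((eB g B (φ + l) : ℝ) : ℂ) := by
  have e : (fun v => ((φ v + t : ℝ) : ℂ)) + toC l = toC (fun v => (φ + l) v + t) := by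
    funext v
    simp only [toC, Pi.add_apply, Complex.ofReal_add]
    ring
  rw [e, tb_eBC_toC, tb_eB_const]

theorem tb_dif_continuous (e x : ℤ × ℤ) : Continuous fun ψ : G.V → ℝ => dif e (G.lift ψ) x := by
  unfold dif Geom.lift
  fun_prop

theorem tb_eB_continuous (g : Grid G) (B : g.I) : Continuous fun ψ : G.V → ℝ => eB g B ψ := by
  unfold eB gE
  exact continuous_const.mul (continuous_finsetSum _ fun v _ => continuous_finsetSum _ fun e _ => (tb_dif_continuous _ _).pow 2)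

theorem tb_coord_memLp (Γ : Matrix G.V G.V ℝ) (a : G.V) : MemLp (fun ζ : G.V → ℝ => ζ a) 2 (gauss G Γ) :=
  IsGaussian.memLp_dual (gauss G Γ) (ContinuousLinearMap.proj a) 2 (by simp)

theorem tb_dif_memLp (Γ : Matrix G.V G.V ℝ) (e x : ℤ × ℤ) : MemLp (fun ζ : G.V → ℝ => dif e (G.lift ζ) x) 2 (gauss G Γ) :=
  (tb_coord_memLp Γ _).sub (tb_coord_memLp Γ _)

theorem tb_dif_add (ζ l : G.V → ℝ) (e x : ℤ × ℤ) : dif e (G.lift (ζ + l)) x = dif e (G.lift ζ) x + dif e (G.lift l) x := by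
  simp only [dif, Geom.lift, Pi.add_apply]
  ring

theorem tb_eB_integrable (Γ : Matrix G.V G.V ℝ) (g : Grid G) (B : g.I) (l : G.V → ℝ) :
    Integrable (fun ζ : G.V → ℝ => eB g B (ζ + l)) (gauss G Γ) := by
  unfold eB gE
  refine (integrable_finsetSum _ fun v _ => integrable_finsetSum _ fun e _ => ?_).const_mul _
  simp only [tb_dif_add]
  exact ((tb_dif_memLp Γ _ _).add (memLp_const _)).integrable_sq

/-- differences are centred -/
theorem tb_dif_mean (Γ : Matrix G.V G.V ℝ) (hΓ : Γ.PosSemidef) (e x : ℤ × ℤ) :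
    ∫ ζ : G.V → ℝ, dif e (G.lift ζ) x ∂(gauss G Γ) = 0 := by
  have hm : AEStronglyMeasurable (fun ζ : G.V → ℝ => dif e (G.lift ζ) x) (Measure.map (fun ζ => -ζ) (gauss G Γ)) :=
    (tb_dif_continuous e x).aestronglyMeasurable
  have h := integral_map (μ := gauss G Γ) (φ := fun ζ : G.V → ℝ => -ζ) measurable_neg.aemeasurable hm
  rw [tb_gauss_neg Γ hΓ] at h
  have e1 : ∀ ζ : G.V → ℝ, dif e (G.lift (-ζ)) x = -dif e (G.lift ζ) x := fun ζ => by
    simp only [dif, Geom.lift, Pi.neg_apply]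
    ring
  simp only [e1, integral_neg] at h
  linarith

/-- `term` of a function whose values on real fields are real and blind to the common phase -/
theorem tb_term_of_real (ω : ℝ) (hω : 0 < ω) (Γ : Matrix G.V G.V ℝ) (F : Fn G) (r : (G.V → ℝ) → ℝ)
    (h : ∀ (ζ : G.V → ℝ) (t : ℝ), F (fun v => ((ζ v + t : ℝ) : ℂ)) = ((r ζ : ℝ) : ℂ)) :
    term ω Γ F = ((∫ ζ, r ζ ∂(gauss G Γ) : ℝ) : ℂ) := by
  unfold term
  simp only [h, integral_complex_ofReal, intervalIntegral.integral_const, sub_zero]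
  rw [Complex.real_smul, ← mul_assoc, ← Complex.ofReal_mul, one_div, inv_mul_cancel₀ hω.ne', Complex.ofReal_one, one_mul]

theorem tb_tame_eBC (Γ : Matrix G.V G.V ℝ) (hΓ : Γ.PosSemidef) (g : Grid G) (B : g.I) (l : G.V → ℝ) :
    Tame Γ (fun z => eBC g B (z + toC l)) := by
  refine ⟨?_, fun φ => eB g B (φ + l), tb_eB_integrable Γ g B l, fun φ t => ?_⟩
  · have h : Continuous fun φ : G.V → ℝ => ((eB g B (φ + l) : ℝ) : ℂ) :=
      Complex.continuous_ofReal.comp ((tb_eB_continuous g B).comp (continuous_id.add continuous_const))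
    refine h.congr fun φ => ?_
    show ((eB g B (φ + l) : ℝ) : ℂ) = eBC g B (toC φ + toC l)
    rw [← Hol.toC_add, tb_eBC_toC]
  · show ‖eBC g B ((fun v => ((φ v + t : ℝ) : ℂ)) + toC l)‖ ≤ eB g B (φ + l)
    rw [tb_eBC_shift, Complex.norm_real, Real.norm_of_nonneg (tb_eB_nonneg g B _)]

/-- the cross term vanishes because `ζ` is centred; constants drop out of the differences -/
theorem tb_term_eBC (ω : ℝ) (hω : 0 < ω) (Γ : Matrix G.V G.V ℝ) (hΓ : Γ.PosSemidef) (g : Grid G) (B : g.I) (l : G.V → ℝ) :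
    term ω Γ (fun z => eBC g B (z + toC l)) - term ω Γ (eBC g B) = ((eB g B l : ℝ) : ℂ) := by
  rw [tb_term_of_real ω hω Γ _ (fun ζ => eB g B (ζ + l)) (fun ζ t => tb_eBC_shift g B ζ l t),
    tb_term_of_real ω hω Γ (eBC g B) (fun ζ => eB g B (ζ + 0)) (fun ζ t => by
      have h := tb_eBC_shift g B ζ 0 t
      rwa [Hol.toC_zero, add_zero] at h), ← Complex.ofReal_sub,
    ← integral_sub (tb_eB_integrable Γ g B l) (tb_eB_integrable Γ g B 0)]
  congr 1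
  have e : ∀ ζ : G.V → ℝ, eB g B (ζ + l) - eB g B (ζ + 0)
      = eB g B l + ∑ v ∈ g.sites {B}, ∑ e : Fin 4, dif (dir e) (G.lift l) (G.ι v) * dif (dir e) (G.lift ζ) (G.ι v) := by
    intro ζ
    unfold eB gE
    rw [add_zero]
    simp only [Finset.mul_sum]
    rw [← Finset.sum_sub_distrib, ← Finset.sum_add_distrib]
    refine Finset.sum_congr rfl fun v _ => ?_
    rw [← Finset.sum_sub_distrib, ← Finset.sum_add_distrib]
    refine Finset.sum_congr rfl fun e _ => ?_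
    rw [tb_dif_add]
    ring
  simp only [e]
  have hi : ∀ (v : G.V) (e : Fin 4), Integrable (fun ζ : G.V → ℝ => dif (dir e) (G.lift l) (G.ι v) * dif (dir e) (G.lift ζ) (G.ι v))
      (gauss G Γ) := fun v e => ((tb_dif_memLp Γ _ _).integrable (by norm_num)).const_mul _
  rw [integral_add (integrable_const _) (integrable_finsetSum _ fun v _ => integrable_finsetSum _ fun e _ => hi v e),
    integral_const, probReal_univ, one_smul, integral_finsetSum _ fun v _ => integrable_finsetSum _ fun e _ => hi v e]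
  simp only [integral_finsetSum _ fun e _ => hi _ e, integral_const_mul, tb_dif_mean Γ hΓ, mul_zero, Finset.sum_const_zero,
    add_zero]

theorem tb_tame_cBC (Γ : Matrix G.V G.V ℝ) (g : Grid G) (α : ℝ) (B : g.I) (l : G.V → ℝ) : Tame Γ (fun z => cBC g α B (z + toC l)) := by
  refine ⟨?_, fun _ => ‖(((g.m : ℝ) ^ 2)⁻¹ : ℝ)‖ * ((g.sites {B}).card : ℝ), integrable_const _, fun φ t => ?_⟩
  · unfold cBC toC
    fun_prop
  · show ‖cBC g α B ((fun v => ((φ v + t : ℝ) : ℂ)) + toC l)‖ ≤ _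
    unfold cBC
    rw [norm_mul, Complex.norm_real]
    refine mul_le_mul_of_nonneg_left ?_ (norm_nonneg _)
    refine (norm_sum_le _ _).trans ((Finset.sum_le_card_nsmul _ _ 1 fun x _ => ?_).trans (by simp))
    have e : (α : ℂ) * ((fun v => ((φ v + t : ℝ) : ℂ)) + toC l) x = ((α * (φ x + t + l x) : ℝ) : ℂ) := by
      simp only [toC, Pi.add_apply]
      push_cast
      ring
    rw [e, ← Complex.ofReal_cos, Complex.norm_real]
    exact Real.abs_cos_le_one _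

/-- the fundamental singleton has zero expectation, also after a nonconstant lift: `∫₀^{2π/α} cos (α (x + t)) dt = 0` (`term_eq_neutral`) -/
theorem tb_term_cBC (α : ℝ) (hα : 0 < α) (Γ : Matrix G.V G.V ℝ) (g : Grid G) (B : g.I) (l : G.V → ℝ) :
    term (2 * Real.pi / α) Γ (fun z => cBC g α B (z + toC l)) = 0 := by
  rw [term_eq_neutral _ Γ (tb_tame_cBC Γ g α B l)]
  have hα' : (α : ℂ) ≠ 0 := by exact_mod_cast hα.ne'
  have key : ∀ a : ℂ, ∫ t in (0 : ℝ)..(2 * Real.pi / α), Complex.cos (α * (a + (t : ℂ))) = 0 := by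
    intro a
    have hd : ∀ t ∈ Set.uIcc (0 : ℝ) (2 * Real.pi / α),
        HasDerivAt (fun t : ℝ => Complex.sin (α * (a + (t : ℂ))) / α) (Complex.cos (α * (a + (t : ℂ)))) t := by
      intro t _
      have h1 : HasDerivAt (fun t : ℂ => Complex.sin (α * (a + t)) / α) (Complex.cos (α * (a + (t : ℂ)))) (t : ℂ) := by
        have h2 : HasDerivAt (fun t : ℂ => (α : ℂ) * (a + t)) (α : ℂ) (t : ℂ) := by
          simpa using ((hasDerivAt_id (t : ℂ)).const_add a).const_mul (α : ℂ)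
        have h3 := (h2.csin).div_const (α : ℂ)
        rwa [mul_div_assoc, div_self hα', mul_one] at h3
      exact h1.comp_ofReal
    rw [intervalIntegral.integral_eq_sub_of_hasDerivAt hd (Continuous.intervalIntegrable (by fun_prop) _ _)]
    have e : (α : ℂ) * (a + ((2 * Real.pi / α : ℝ) : ℂ)) = α * (a + ((0 : ℝ) : ℂ)) + 2 * Real.pi := by
      push_cast
      field_simp
      ring
    rw [e, Complex.sin_add_two_pi, sub_self]
  refine (integral_congr_ae (Filter.Eventually.of_forall fun ζ => ?_)).trans (integral_zero _ _)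
  show chargeProj (2 * Real.pi / α) 0 (fun z => cBC g α B (z + toC l)) (toC ζ) = 0
  unfold chargeProj cBC
  simp only [Int.cast_zero, mul_zero, zero_mul, neg_zero, Complex.exp_zero, one_mul]
  rw [intervalIntegral.integral_const_mul, intervalIntegral.integral_finsetSum
    (fun x _ => Continuous.intervalIntegrable (by unfold toC; fun_prop) _ _)]
  have e : ∀ x : G.V, ∫ t in (0 : ℝ)..(2 * Real.pi / α), Complex.cos (α * ((fun v => toC ζ v + (t : ℂ)) + toC l) x) = 0 := by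
    intro x
    rw [← key (toC ζ x + toC l x)]
    refine intervalIntegral.integral_congr fun t _ => ?_
    simp only [Pi.add_apply]
    congr 2
    ring
  simp only [e, Finset.sum_const_zero, mul_zero]

end

end Claimed.Agent.R285.Obs
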