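import Claimed.Agent.R285.Obs.TermB
import Claimed.Agent.R285.Obs.TermCL

/-!
# ROW 285, unit OBS, post BP-OBS-TERM (#13348), part C: [F] s6.3 = the terminal energy (obs:terminal-energy)      (architect helper49)   -- KEEP

ONE FILE = ONE PACKAGE; the leaves `L-OBS-TC*` share it: edit ONLY your theorems, pull before landing.  Helper lemmas: prefix `tc_`.
Export: `Obs.terminal_energy` = `F6.terminal_energy` (+ the hypothesis `2 ≤ m'`, to become the field `SqData.Ok.m_ge`).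

## Structure of the proof (k = |X|, D = D₀ = number of terminal half-blocks of the SMALLER square, `x = c_T / A`)
`log (T^τ / T^0) = Re ∑_X dK X + O (b²)`, `dK X = term (K^τ X) - term (K^0 X)`, `b = |I| ν` (`terminal_expansion_abs`, `tc_log`).  The polymers are split into four classes (`tc_partition`), threshold `N k ≤ D`:
* `clG` wall-free, shift-good (all sizes): `dK X = [X = {B}] (t/2) e_B (λ_B) + O (ν₂ x^k)` (`tc_good`: `tb_term_eBC`, `tb_term_cBC`, translated first moment).  Sum: `tc_sum_G`.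
* `clW` not wall-free, `N k ≤ D`: automatically shift-good, `N (λ_X) ≤ C (1 + k) / D` (`tc_wall_lift`); `|dK X| ≤ 4 (N (λ_X) / h₀)² ν x^k` (`tc_wall` = `tb_even_shift`); `≤ 16 H₀ D` roots.  Sum: `tc_sum_W`, `O (ν / D)`.
* `clC` wall-free defects, `N k ≤ D`: same supports in the two squares (`tc_defect_bij`); `|term₁ (K₁ (e X)) - term₀ (K₀ X)| ≤ C (1 + k) / D · ν x^k` (`tc_defect`: in EACH square remove the long field `C_{≥v}`, `v = 2^b m' ≍ n₀`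
  and the background (`tc_short_approx` = `tb_long_removal` + `tb_long_moment`), the two short expectations coincide (`tc_short_copy`)); polynomially many roots (`tc_center_sum_le`).  Sum: `tc_sum_C`, `O (ν / D)`.
* `clL` the rest, `N k > D`: `|dK X| ≤ 2 ν x^k`, `∑ ≤ 2 ν |I| 2^{-D/N}` (`tc_sum_L`).
Energy: `∑_{B ∈ 𝓘} e_B (λ_B) = a⁻¹ ∑_{B ∈ 𝓘} alloc B`, `∑_B alloc B = g_n`, wall strip `O (1/D)`, central difference `O (1/D)` (`tc_energy`).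
All facts on `η_n` come from `F4a.center_background` through `tc_eta_ok` (uniqueness of the co-closed field).

## Leaves
`L-OBS-TC1` squares: `tc_g_ok, tc_c_whole, tc_nest, tc_two_m, tc_card_I, tc_blk, tc_partition, tc_log, tc_choose_v`      (~300 l., elementary)
`L-OBS-TC2` environment: `tc_env, Env.first`      (~300 l., glue from `VReg`, `B4` kernels)
`L-OBS-TC3` the unit field: `tc_eta_unique, tc_eta_ok, tc_lift_dif`      (~300 l.)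
`L-OBS-TC4` `tc_lift_energy`      (~400 l., lattice calculus)
`L-OBS-TC5` `tc_wall_lift`      (~400 l., lattice calculus)
`L-OBS-TC6` `tc_pair_background`      (~400 l., lattice calculus)
`L-OBS-TC7` energy I: `tc_eB_lift, tc_alloc_sum`      (~300 l.)
`L-OBS-TC8` energy II: `tc_alloc_wall, tc_alloc_center, tc_energy`      (~450 l.)
`L-OBS-TC9` one polymer: `tc_any, tc_good, tc_wall`      (~400 l.)
`L-OBS-TC10` `tc_short_approx`      (~350 l.)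
`L-OBS-TC11` `tc_short_copy, tc_defect`      (~400 l.)
`L-OBS-TC12` counting: `tc_wall_roots, tc_center_sum_le, tc_defect_near, tc_defect_bij`      (~400 l.)
`L-OBS-TC13` sums: `tc_sum_G, tc_sum_W, tc_sum_L`      (~450 l.)
`L-OBS-TC14` `tc_sum_C`      (~400 l.)
`L-OBS-TC15` assembly: `terminal_energy`      (~450 l.)
-/

set_option autoImplicit false

namespace Claimed.Agent.R285.Obs

open scoped BigOperators ENNReal NNReal
open MeasureTheory ProbabilityTheory Filter Topology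
open Claimed.Agent.R285 Claimed.Agent.R285.RG Claimed.Agent.R285.B4 Claimed.Agent.R285.F4a Claimed.Agent.R285.F6

noncomputable section

/-! ## 0. Definitions -/

section defs

variable (Q : Sq)

/-- `𝔊`: wall-free and shift-good (every size) -/
def clG (H0 H1 : ℕ) (X : Finset Q.g.I) : Prop := Q.WallFree H0 X ∧ Q.ShiftGood H1 X
/-- `𝔚`: small, not wall-free -/
def clW (H0 N D : ℕ) (X : Finset Q.g.I) : Prop := ¬ Q.WallFree H0 X ∧ N * X.card ≤ D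
/-- `ℭ`: small wall-free defects -/
def clC (H0 H1 N D : ℕ) (X : Finset Q.g.I) : Prop := Q.WallFree H0 X ∧ ¬ Q.ShiftGood H1 X ∧ N * X.card ≤ D
/-- `𝔏`: the large supports outside `𝔊` -/
def clL (H0 H1 N D : ℕ) (X : Finset Q.g.I) : Prop := ¬ (Q.WallFree H0 X ∧ Q.ShiftGood H1 X) ∧ D < N * X.card

/-- `η_n = ∇ v + 2π τ` is co-closed -/
def CoCl (v : Q.G.V → ℝ) : Prop := ∀ f : Q.G.V → ℝ, ∑ e : Q.G.V × Bool, etaE Q.n v e * (f (stp e.1 e.2) - f e.1) = 0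

/-- the endpoint allocation (obs:endpoint-allocation), times `a`: every internal bond is counted at its two endpoints with weight `1/2` -/
def alloc (η : Q.G.V × Bool → ℝ) (B : Q.g.I) : ℝ :=
  (1 / 2) * ∑ x ∈ Q.g.sites {B}, ∑ d : Bool, (elift η (Q.G.ι x) d ^ 2 + elift η (Q.G.ι x - bdir d) d ^ 2)

end defs

/-- the single-activity difference -/
def dK {Q : Sq} (d : SqData Q) (ω : ℝ) (X : Finset Q.g.I) : ℂ := term ω d.Γ (d.Kt X) - term ω d.Γ (d.K0 X)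

/-- the bounds of [F] L4.2 for the bond field `η` of the square of size `n`; `ηP` = the plane unit field in centred coordinates -/
structure EtaOK (C c0 : ℝ) (ηP : ℤ × ℤ → Bool → ℝ) (n : ℕ) (G : Geom) (η : G.V × Bool → ℝ) : Prop where
  decay : ∀ r ≤ 4, ∀ (a : Fin r → Fin 4) (w : G.V) (d : Bool),
    |difs a (fun x' => elift η x' d) (G.ι w)| ≤ C * ((1 + cdist n (G.ι w)) ^ (1 + r))⁻¹
  plane : ∀ r ≤ 4, ∀ (a : Fin r → Fin 4) (w : G.V) (d : Bool), cdist n (G.ι w) ≤ c0 * n →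
    |difs a (fun x' => elift η x' d - ηP (x' - ((n : ℤ), (n : ℤ))) d) (G.ι w)| ≤ C * ((n : ℝ) ^ (1 + r))⁻¹

/-- standing assumptions on the fixed parameters -/
structure Std (fx : Fix) : Prop where
  h0_pos : 0 < fx.p.h0
  δ_pos : 0 < fx.p.δ
  δ_le : fx.p.δ ≤ 1
  A_pos : 0 < fx.p.A
  ω_eq : fx.p.ω = 2 * Real.pi / fx.α
  H0_ge : 3 ≤ fx.H0
  H1_ge : 3 ≤ fx.H1

/-- the regulator moments which are used on one square: [F] (obs:terminal-moment) for the terminal covariance AND for the short covariances `shell (m', 2^b m')` -/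
structure Env (fx : Fix) (Q : Sq) (d : SqData Q) (ps Ctr : ℝ) (cT : ℝ≥0) (Dk : ℕ) : Prop where
  mom : ∀ (X : Finset Q.g.I) (f : Q.G.V → ℝ), U Q.g fx.p.δ X f + bondE (Q.g.Dm X) f ≤ Ctr * X.card →
    ∫⁻ ζ, ENNReal.ofReal (Wt Q.g fx.p.δ fx.p.κ d.V X (ζ + f) ^ ps) ∂(gauss Q.G d.Γ) ≤ (cT : ℝ≥0∞) ^ X.card
  moms : ∀ b : ℕ, 1 ≤ b → Dk * (2 ^ b * Q.m) < Q.G.M → ∀ (X : Finset Q.g.I) (f : Q.G.V → ℝ),
    U Q.g fx.p.δ X f + bondE (Q.g.Dm X) f ≤ Ctr * X.card →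
    ∫⁻ ζ, ENNReal.ofReal (Wt Q.g fx.p.δ fx.p.κ d.V X (ζ + f) ^ ps) ∂(gauss Q.G (shell Q.G Fam.entry Q.m (2 ^ b * Q.m)))
      ≤ (cT : ℝ≥0∞) ^ X.card

theorem tc_defs_eqns_cite : True := by
  have := @clG.eq_1; have := @clW.eq_1; have := @clC.eq_1; have := @clL.eq_1; have := @CoCl.eq_1; have := @alloc.eq_1; have := @dK.eq_1
  trivial

/-! ## 1. LEAF `L-OBS-TC1`: the grids of an aligned square; elementary lemmas -/

/-- the fibres of `i ↦ i / m` on `Fin (n m)` -/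
theorem tc_div_card {M : ℕ} (m n : ℕ) (hm : 0 < m) (hM : M = n * m) (b : ℕ) (hb : b < n) :
    (Finset.univ.filter fun i : Fin M => (i : ℕ) / m = b).card = m := by
  have hlt : ∀ j, j < m → b * m + j < M := by
    intro j hj
    rw [hM]
    calc b * m + j < b * m + m := by omega
      _ = (b + 1) * m := by ring
      _ ≤ n * m := Nat.mul_le_mul_right _ hb
  rw [← Finset.card_range m]
  symm
  refine Finset.card_bij (fun j hj => (⟨b * m + j, hlt j (Finset.mem_range.1 hj)⟩ : Fin M)) ?_ ?_ ?_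
  · intro j hj
    simp only [Finset.mem_filter, Finset.mem_univ, true_and, Finset.card_range]
    rw [Nat.mul_comm, Nat.mul_add_div hm, Nat.div_eq_of_lt (Finset.mem_range.1 hj), add_zero]
  · intro j hj j' hj' h
    have := congrArg Fin.val h
    simpa using this
  · intro i hi
    simp only [Finset.mem_filter, Finset.mem_univ, true_and, Finset.card_range] at hi
    refine ⟨(i : ℕ) % m, Finset.mem_range.2 (Nat.mod_lt _ hm), ?_⟩
    apply Fin.ext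
    show b * m + (i : ℕ) % m = i
    rw [← hi, Nat.mul_comm]
    exact Nat.div_add_mod _ _

theorem tc_g_card (Q : Sq) (b : Fin Q.g.n) : (Finset.univ.filter fun i => Q.g.blk1 i = b).card = Q.g.m := by
  have h := tc_div_card (M := Q.G.M) Q.m (2 * Q.D) Q.m_pos (by show 2 * (Q.D * Q.m) = 2 * Q.D * Q.m; ring) (b : ℕ) b.2
  refine Eq.trans ?_ h
  congr 1
  exact Finset.filter_congr fun i _ => Fin.ext_iff

theorem tc_c_card (Q : Sq) (b : Fin Q.c.n) : (Finset.univ.filter fun i => Q.c.blk1 i = b).card = Q.c.m := by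
  have h := tc_div_card (M := Q.G.M) Q.s (2 * (Q.D * Q.r)) Q.hs
    (by show 2 * (Q.D * (Q.r * Q.s)) = 2 * (Q.D * Q.r) * Q.s; ring) (b : ℕ) b.2
  refine Eq.trans ?_ h
  congr 1
  exact Finset.filter_congr fun i _ => Fin.ext_iff

theorem tc_g_ok (Q : Sq) : Q.g.Ok where
  pos := Q.m_pos
  mono := fun i j h => Nat.div_le_div_right (c := Q.m) h
  surj := fun b => by
    have hb : (b : ℕ) < 2 * Q.D := b.2
    have hlt : (b : ℕ) * Q.m < Q.G.M := by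
      show (b : ℕ) * Q.m < 2 * (Q.D * Q.m)
      calc (b : ℕ) * Q.m < 2 * Q.D * Q.m := Nat.mul_lt_mul_of_pos_right hb Q.m_pos
        _ = 2 * (Q.D * Q.m) := by ring
    refine ⟨⟨(b : ℕ) * Q.m, hlt⟩, Fin.ext ?_⟩
    show (b : ℕ) * Q.m / Q.m = b
    exact Nat.mul_div_cancel _ Q.m_pos
  size := fun b => by
    rw [tc_g_card]
    have : 0 < Q.g.m := Q.m_pos
    omega
  full := fun b _ => tc_g_card Q b

theorem tc_c_whole (Q : Sq) : Whole Q.c where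
  pos := Q.hs
  mono := fun i j h => Nat.div_le_div_right (c := Q.s) h
  size := tc_c_card Q
  two := by
    show 2 ≤ 2 * (Q.D * Q.r)
    have := Nat.mul_pos Q.hD Q.hr
    omega

theorem tc_nest (Q : Sq) : Nonempty (Nest Q.c Q.g) :=
  ⟨{ up1 := fun a => ⟨(a : ℕ) / Q.r, by
        have h : (a : ℕ) < 2 * (Q.D * Q.r) := a.2
        exact Nat.div_lt_of_lt_mul (by
          show (a : ℕ) < Q.r * (2 * Q.D)
          rw [Nat.mul_comm Q.r, Nat.mul_assoc]; exact h)⟩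
     comm := fun i => Fin.ext (by
        show (i : ℕ) / (Q.r * Q.s) = (i : ℕ) / Q.s / Q.r
        rw [Nat.div_div_eq_div_mul, Nat.mul_comm]) }⟩

theorem tc_two_m (Q : Sq) : 2 * Q.g.m ≤ Q.G.M := by
  show 2 * Q.m ≤ 2 * (Q.D * Q.m)
  exact Nat.mul_le_mul_left 2 (Nat.le_mul_of_pos_left _ Q.hD)

theorem tc_card_I (Q : Sq) : (Fintype.card Q.g.I : ℝ) = 4 * (Q.D : ℝ) ^ 2 := by
  have : Fintype.card Q.g.I = 2 * Q.D * (2 * Q.D) := by
    rw [Fintype.card_prod, Fintype.card_fin]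
    rfl
  rw [this]
  push_cast
  ring

theorem tc_blk (Q : Sq) (x : Q.G.V) : ((Q.g.blk x).1 : ℕ) = (x.1 : ℕ) / Q.m ∧ ((Q.g.blk x).2 : ℕ) = (x.2 : ℕ) / Q.m := ⟨rfl, rfl⟩

open Classical in
theorem tc_partition (Q : Sq) (H0 H1 N D : ℕ) (f : Finset Q.g.I → ℂ) :
    ∑ X, f X = ∑ X ∈ Finset.univ.filter (clG Q H0 H1), f X + ∑ X ∈ Finset.univ.filter (clW Q H0 N D), f X
      + ∑ X ∈ Finset.univ.filter (clC Q H0 H1 N D), f X + ∑ X ∈ Finset.univ.filter (clL Q H0 H1 N D), f X := by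
  rw [Finset.sum_filter, Finset.sum_filter, Finset.sum_filter, Finset.sum_filter, ← Finset.sum_add_distrib,
    ← Finset.sum_add_distrib, ← Finset.sum_add_distrib]
  refine Finset.sum_congr rfl fun X _ => ?_
  unfold clG clW clC clL
  by_cases h1 : Q.WallFree H0 X <;> by_cases h2 : Q.ShiftGood H1 X <;> by_cases h3 : N * X.card ≤ D <;>
    simp [h1, h2, h3, not_le.1, not_lt.2] <;> omega

/-- `|log (1 + x) - x| ≤ x²` for `|x| ≤ 1/2` -/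
theorem tc_log (T s b : ℝ) (hb4 : b ≤ 1 / 4) (hs : |s| ≤ b) (hT : |T - 1 - s| ≤ b ^ 2) :
    1 / 2 ≤ T ∧ T ≤ 2 ∧ |Real.log T - s| ≤ 4 * b ^ 2 := by
  have hb0 : 0 ≤ b := (abs_nonneg s).trans hs
  have hbb : b ^ 2 ≤ b / 4 := by nlinarith
  have hs' := abs_le.1 hs
  have hT' := abs_le.1 hT
  have hx : |T - 1| ≤ 5 / 4 * b := by
    rw [abs_le]
    constructor <;> linarith [hs'.1, hs'.2, hT'.1, hT'.2]
  have hx1 : |T - 1| ≤ 5 / 16 := by linarith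
  have hx' := abs_le.1 hx1
  refine ⟨by linarith [hx'.1], by linarith [hx'.2], ?_⟩
  have hlog := Real.abs_log_sub_add_sum_range_le (x := -(T - 1)) (by rw [abs_neg]; linarith) 1
  simp only [Finset.sum_range_one, zero_add, pow_one, Nat.cast_zero, div_one, abs_neg, sub_neg_eq_add] at hlog
  have e1 : (1 : ℝ) + (T - 1) = T := by ring
  rw [e1] at hlog
  have h2 : |T - 1| ^ (1 + 1) / (1 - |T - 1|) ≤ 25 / 11 * b ^ 2 := by
    rw [div_le_iff₀ (by linarith)]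
    have h3 : |T - 1| ^ (1 + 1) ≤ (5 / 4 * b) ^ 2 := by
      have : (1 + 1 : ℕ) = 2 := rfl
      rw [this]
      exact pow_le_pow_left₀ (abs_nonneg _) hx 2
    have h4 : 0 ≤ b ^ 2 := sq_nonneg b
    nlinarith
  have h5 := abs_le.1 (hlog.trans h2)
  rw [abs_le]
  constructor <;> nlinarith [h5.1, h5.2, hT'.1, hT'.2, sq_nonneg b]

/-- a binary multiple of `m` in the window `(D m / 2K, D m / K]` -/
theorem tc_choose_v (K m D : ℕ) (hK : 0 < K) (hm : 0 < m) (hD : 2 * K ≤ D) :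
    ∃ b : ℕ, 1 ≤ b ∧ K * (2 ^ b * m) ≤ D * m ∧ D * m < 2 * K * (2 ^ b * m) := by
  have hq : 2 ≤ D / K := (Nat.le_div_iff_mul_le hK).2 hD
  refine ⟨Nat.log 2 (D / K), Nat.log_pos (by norm_num) hq, ?_, ?_⟩
  · have h1 : 2 ^ Nat.log 2 (D / K) ≤ D / K := Nat.pow_log_le_self 2 (by omega)
    calc K * (2 ^ Nat.log 2 (D / K) * m) = K * 2 ^ Nat.log 2 (D / K) * m := by ring
      _ ≤ K * (D / K) * m := Nat.mul_le_mul_right _ (Nat.mul_le_mul_left _ h1)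
      _ ≤ D * m := Nat.mul_le_mul_right _ (Nat.mul_div_le D K)
  · have h1 : D / K < 2 ^ (Nat.log 2 (D / K)).succ := Nat.lt_pow_succ_log_self (by norm_num) _
    have h2 : D < K * (D / K + 1) := Nat.lt_mul_div_succ D hK
    calc D * m < K * (D / K + 1) * m := Nat.mul_lt_mul_of_pos_right h2 hm
      _ ≤ K * 2 ^ (Nat.log 2 (D / K)).succ * m := Nat.mul_le_mul_right _ (Nat.mul_le_mul_left _ h1)
      _ = 2 * K * (2 ^ Nat.log 2 (D / K) * m) := by rw [pow_succ]; ring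

/-! ## 2. LEAF `L-OBS-TC2`: the regulator environment -/

theorem tc_termBounds_mono {G : Geom} {C C' : ℝ} (h : C ≤ C') {m : ℕ} {Γ : Matrix G.V G.V ℝ} (hT : TermBounds G C m Γ) :
    TermBounds G C' m Γ := by
  refine ⟨fun r h1 h6 a u => (hT.grad r h1 h6 a u).trans ?_, fun r h1 h6 a v => (hT.diag r h1 h6 a v).trans ?_⟩
  · have h1 : 0 ≤ ∑ v, u v ^ 2 := Finset.sum_nonneg fun _ _ => sq_nonneg _
    have h2 : 0 ≤ ((m : ℝ) ^ (2 * (r - 1)))⁻¹ := by positivity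
    exact mul_le_mul_of_nonneg_right (mul_le_mul_of_nonneg_right h h2) h1
  · have h2 : 0 ≤ ((m : ℝ) ^ (2 * r))⁻¹ := by positivity
    exact mul_le_mul_of_nonneg_right h h2

/-- PLAN: `Ct := max` of the constants of `B4.terminal_bounds 1 1 64 0` and `B4.kernels_bounds 1 1 64 0` (which also gives `Dk`); `obs_moment_abs (ta_opar o) Ct`; `TermBounds` is monotone in the constant.
`mom`: `C_o = low m'`, `Γ` terminal: `term_cac`.  `moms`: `Γ = shell m' (2^b m')`: `B4.shell_psd`, `obs_term_of_shell`, `obs_low_add_shell` + `obs_low_cac`.  `ta_wt_eq`.  Replace `cT` by `max cT 1`. -/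
theorem tc_env (o : ObsPar) : ∃ (ps : ℝ) (Dk : ℕ), 1 < ps ∧ 2 ≤ Dk ∧ ∃ δ0 > (0 : ℝ), ∀ δ ∈ Set.Ioc 0 δ0, ∃ κ0 > (0 : ℝ), ∀ Ctr : ℝ,
    ∃ cT : ℝ≥0, 1 ≤ cT ∧ ∀ κ ∈ Set.Ioc 0 κ0, ∀ (h0 : ℝ≥0) (A ω : ℝ) (H0 H1 : ℕ) (Q : Sq) (d : SqData Q),
      IsTerminal Q.G Fam.entry Q.m d.Γ → IsObs o Q.c Q.g d.V → Env ⟨⟨δ, κ, h0, A, ω⟩, o, H0, H1⟩ Q d ps Ctr cT Dk := by
  obtain ⟨Ct1, hCt1⟩ := B4.terminal_bounds 1 1 64 0
  obtain ⟨Dk, Ct2, ck, hDk, hck, hK⟩ := B4.kernels_bounds 1 1 64 0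
  obtain ⟨ps, hp, δ0, hδ0, H⟩ := obs_moment_abs (ta_opar o) (max Ct1 Ct2)
  refine ⟨ps, Dk, hp, hDk, δ0, hδ0, fun δ hδ => ?_⟩
  obtain ⟨κ0, hκ0, H⟩ := H δ hδ
  refine ⟨κ0, hκ0, fun Ctr => ?_⟩
  obtain ⟨C, H⟩ := H Ctr
  refine ⟨max C 1, le_max_right _ _, fun κ hκ h0 A ω H0 H1 Q d hΓ hV => ?_⟩
  have hg := tc_g_ok Q
  have hle : ∀ k : ℕ, (C : ℝ≥0∞) ^ k ≤ ((max C 1 : ℝ≥0) : ℝ≥0∞) ^ k := fun k =>
    pow_le_pow_left' (ENNReal.coe_le_coe.2 (le_max_left _ _)) k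
  constructor
  · intro X f hf
    have h1 := H κ hκ Q.G Q.c Q.g hg (low Q.G Fam.entry Q.g.m) d.Γ (B4.low_psd Q.G _ B4.entry_adm _ hg.pos) hΓ.psd
      (term_cac Q.G _ hg.pos d.Γ hΓ)
      (tc_termBounds_mono (le_max_left _ _) (hCt1 Q.G _ B4.entry_adm le_rfl _ hg.pos (tc_two_m Q) d.Γ hΓ)) X f hf
    refine le_trans (le_of_eq ?_) (h1.trans (hle _))
    simp only [ta_wt_eq o Q.c Q.g d.V hV]
  · intro b hb hM X f hf
    have hsh := hK Q.G Fam.entry B4.entry_adm le_rfl b Q.m hb Q.m_pos hM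
    have hcac : Cac (low Q.G Fam.entry Q.g.m + shell Q.G Fam.entry Q.m (2 ^ b * Q.m)) := by
      have e : low Q.G Fam.entry Q.g.m + shell Q.G Fam.entry Q.m (2 ^ b * Q.m) = low Q.G Fam.entry (2 ^ b * Q.m) :=
        obs_low_add_shell Q.G Fam.entry Q.m (2 ^ b * Q.m)
      rw [e]
      exact obs_low_cac Q.G _ (Nat.mul_pos (by positivity) Q.m_pos)
    have h1 := H κ hκ Q.G Q.c Q.g hg (low Q.G Fam.entry Q.g.m) (shell Q.G Fam.entry Q.m (2 ^ b * Q.m))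
      (B4.low_psd Q.G _ B4.entry_adm _ hg.pos) (B4.shell_psd Q.G _ B4.entry_adm b Q.m Q.m_pos) hcac
      (tc_termBounds_mono (le_max_right _ _) (obs_term_of_shell _ _ _ _ _ hsh)) X f hf
    refine le_trans (le_of_eq ?_) (h1.trans (hle _))
    simp only [ta_wt_eq o Q.c Q.g d.V hV]

/-- first moments (`tb_jensen`; `(cT^k)^{1/ps} ≤ cT^k`) -/
theorem Env.first {fx : Fix} {Q : Sq} {d : SqData Q} {ps Ctr : ℝ} {cT : ℝ≥0} {Dk : ℕ} (he : Env fx Q d ps Ctr cT Dk) (hps : 1 < ps)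
    (hcT : 1 ≤ cT) (hV : IsObs fx.o Q.c Q.g d.V) (X : Finset Q.g.I) (f : Q.G.V → ℝ)
    (hf : U Q.g fx.p.δ X f + bondE (Q.g.Dm X) f ≤ Ctr * X.card) :
    ∫⁻ ζ, ENNReal.ofReal (Wt Q.g fx.p.δ fx.p.κ d.V X (ζ + f)) ∂(gauss Q.G d.Γ) ≤ (cT : ℝ≥0∞) ^ X.card := by
  have hc : Continuous fun ζ : Q.G.V → ℝ => Wt Q.g fx.p.δ fx.p.κ d.V X (ζ + f) :=
    (ta_wt_continuous Q.g fx.p.δ fx.p.κ d.V (ta_obs_continuous fx.o Q.c Q.g (tc_g_ok Q) d.V hV) X).comp (continuous_id.add continuous_const)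
  have hm : AEMeasurable (fun ζ : Q.G.V → ℝ => ENNReal.ofReal (Wt Q.g fx.p.δ fx.p.κ d.V X (ζ + f))) (gauss Q.G d.Γ) :=
    (ENNReal.measurable_ofReal.comp hc.measurable).aemeasurable
  have h1 := tb_jensen (gauss Q.G d.Γ) _ hm ps hps.le
  have h2 := he.mom X f hf
  have e : ∀ ζ : Q.G.V → ℝ, ENNReal.ofReal (Wt Q.g fx.p.δ fx.p.κ d.V X (ζ + f)) ^ ps
      = ENNReal.ofReal (Wt Q.g fx.p.δ fx.p.κ d.V X (ζ + f) ^ ps) := fun ζ =>
    ENNReal.ofReal_rpow_of_pos (ta_wt_pos _ _ _ _ _ _)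
  simp only [e] at h1
  have hp0 : 0 < ps := by linarith
  have h1c : (1 : ℝ≥0∞) ≤ (cT : ℝ≥0∞) ^ X.card := one_le_pow₀ (by exact_mod_cast hcT)
  calc _ ≤ _ := h1
    _ ≤ ((cT : ℝ≥0∞) ^ X.card) ^ (1 / ps) := ENNReal.rpow_le_rpow h2 (by positivity)
    _ ≤ ((cT : ℝ≥0∞) ^ X.card) ^ (1 : ℝ) := ENNReal.rpow_le_rpow_of_exponent_le h1c (by rw [div_le_one hp0]; exact hps.le)
    _ = _ := ENNReal.rpow_one _

/-! ## 3. LEAF `L-OBS-TC3`: the unit field -/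

/-- two co-closed branches have the same bond field: test the difference of the two identities with `f = v - v'` -/
theorem tc_eta_unique (Q : Sq) (v v' : Q.G.V → ℝ) (h : CoCl Q v) (h' : CoCl Q v') : etaE Q.n v = etaE Q.n v' := by
  have h1 := h (fun x => v x - v' x)
  have h2 := h' (fun x => v x - v' x)
  have h3 : ∑ e : Q.G.V × Bool, (etaE Q.n v e - etaE Q.n v' e) ^ 2 = 0 := by
    have e1 : ∀ e : Q.G.V × Bool, (etaE Q.n v e - etaE Q.n v' e) ^ 2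
        = etaE Q.n v e * ((v (stp e.1 e.2) - v' (stp e.1 e.2)) - (v e.1 - v' e.1))
          - etaE Q.n v' e * ((v (stp e.1 e.2) - v' (stp e.1 e.2)) - (v e.1 - v' e.1)) := by
      intro e
      unfold etaE
      ring
    simp only [e1]
    rw [Finset.sum_sub_distrib, h1, h2, sub_zero]
  funext e
  have h4 := (Finset.sum_eq_zero_iff_of_nonneg (fun e _ => sq_nonneg _)).1 h3 e (Finset.mem_univ _)
  have h5 := pow_eq_zero_iff (two_ne_zero) |>.1 h4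
  linarith

theorem tc_cdist_nonneg (n : ℕ) (x : ℤ × ℤ) : 0 ≤ cdist n x := le_max_of_le_left (abs_nonneg _)

/-- `F4a.center_background` for EVERY co-closed branch -/
theorem tc_eta_ok : ∃ (C c0 : ℝ) (ηP : ℤ × ℤ → Bool → ℝ), 0 < C ∧ 0 < c0 ∧ c0 ≤ 1 ∧
    (∀ r ≤ 4, ∀ (a : Fin r → Fin 4) (x : ℤ × ℤ) (d : Bool), |difs a (fun x' => ηP x' d) x| ≤ C * ((1 + cdist 0 x) ^ (1 + r))⁻¹) ∧
    ∀ (Q : Sq) (v : Q.G.V → ℝ), CoCl Q v → EtaOK C c0 ηP Q.n Q.G (etaE Q.n v) := by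
  obtain ⟨C, c0, vinf, hc0, -, -, hP, H⟩ := center_background
  have hCC : C ≤ max C 1 := le_max_left _ _
  refine ⟨max C 1, min c0 1, etaP vinf, lt_of_lt_of_le one_pos (le_max_right _ _), lt_min hc0 one_pos, min_le_right _ _, ?_, ?_⟩
  · intro r hr a x d
    refine (hP r hr a x d).trans (mul_le_mul_of_nonneg_right hCC ?_)
    have := tc_cdist_nonneg 0 x
    positivity
  · intro Q v hv
    obtain ⟨v₀, -, hco, hd, hp, -⟩ := H Q.G Q.n Q.n_pos rfl rfl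
    have e : etaE Q.n v = etaE Q.n v₀ := tc_eta_unique Q v v₀ hv hco
    rw [e]
    constructor
    · intro r hr a w d
      refine (hd r hr a w d).trans (mul_le_mul_of_nonneg_right hCC ?_)
      have := tc_cdist_nonneg Q.n (Q.G.ι w)
      positivity
    · intro r hr a w d hw
      refine (hp r hr a w d (hw.trans (mul_le_mul_of_nonneg_right (min_le_left _ _) (Nat.cast_nonneg _)))).trans
        (mul_le_mul_of_nonneg_right hCC ?_)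
      positivity

/-- one-dimensional folding of a unit step: stay, forwards, or backwards -/
theorem tc_fold_unit (G : Geom) (t : ℤ) : G.fold (t + 1) = G.fold t ∨ G.fold (t + 1) = G.fold (((G.fold t : ℕ) : ℤ) + 1) ∨
    G.fold (((G.fold (t + 1) : ℕ) : ℤ) + 1) = G.fold t := by
  obtain ⟨ε, c, hε, hf, he⟩ := Ker.ker_fold_iso G t ((G.fold t : ℕ) : ℤ) (Ker.ker_fold_coe G _).symm
  rcases hε with rfl | rfl
  · right; left
    rw [← hf (((G.fold t : ℕ) : ℤ) + 1)]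
    congr 1
    linarith
  · have e1 : G.fold (t + 1) = G.fold (((G.fold t : ℕ) : ℤ) + -1) := by
      rw [← hf (((G.fold t : ℕ) : ℤ) + -1)]
      congr 1
      linarith
    by_cases h : G.fold (((G.fold t : ℕ) : ℤ) + -1) = G.fold t
    · left
      rw [e1, h]
    · right; right
      have := Reg.regl_step_rev G (G.fold t) (-1) (Or.inr rfl) h
      rw [neg_neg] at this
      rw [e1, this]

/-- differences of a lifted field are the reflected stencil of its bond gradient (definition of `elift`, folding: `Ker.ker_fold_iso`, `Reg.reg_nb_rev`) -/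
theorem tc_lift_dif {G : Geom} (f : G.V → ℝ) (x : ℤ × ℤ) (d : Bool) :
    G.lift f (x + bdir d) - G.lift f x = elift (fun e : G.V × Bool => f (stp e.1 e.2) - f e.1) x d := by
  unfold elift Geom.lift
  by_cases h1 : G.π (x + bdir d) = G.π x
  · rw [if_pos h1, h1, sub_self]
  rw [if_neg h1]
  by_cases h2 : G.π (x + bdir d) = stp (G.π x) d
  · rw [if_pos h2, h2]
  rw [if_neg h2]
  have key : stp (G.π (x + bdir d)) d = G.π x := by
    obtain ⟨x1, x2⟩ := x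
    cases d
    · have e0 : ((x1, x2) : ℤ × ℤ) + bdir false = (x1, x2 + 1) := by simp [bdir]
      rw [e0] at h1 h2 ⊢
      unfold stp Geom.π Geom.ι at h2 ⊢
      unfold Geom.π at h1
      simp only [bdir, Bool.false_eq_true, if_false, Prod.mk_add_mk, add_zero, Ker.ker_fold_coe, Prod.mk.injEq, true_and] at h1 h2 ⊢
      rcases tc_fold_unit G x2 with h | h | h
      · exact absurd h h1
      · exact absurd h h2
      · exact h
    · have e0 : ((x1, x2) : ℤ × ℤ) + bdir true = (x1 + 1, x2) := by simp [bdir]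
      rw [e0] at h1 h2 ⊢
      unfold stp Geom.π Geom.ι at h2 ⊢
      unfold Geom.π at h1
      simp only [bdir, if_true, Prod.mk_add_mk, add_zero, Ker.ker_fold_coe, Prod.mk.injEq, and_true] at h1 h2 ⊢
      rcases tc_fold_unit G x1 with h | h | h
      · exact absurd h h1
      · exact absurd h h2
      · exact h
  simp only [key]
  ring

/-! ## 4. LEAVES `L-OBS-TC4`, `TC5`, `TC6`: the lifts (deterministic lattice calculus from `EtaOK`) -/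

/-- local version of `Tow.tw_U_smooth`: a field with `|∇f| ≤ a/m`, `|∇²f| ≤ b/m²` ON `D_m (X)` costs `O(1)` per block -/
theorem tc_U_smooth {G : Geom} (g : Grid G) (hg : g.Ok) (δ : ℝ) (hδ : 0 ≤ δ) (X : Finset g.I) (f : G.V → ℝ) (a b : ℝ) (_ha : 0 ≤ a) (hb : 0 ≤ b)
    (h1 : ∀ v ∈ g.Dm X, ∀ e, |dif (dir e) (G.lift f) (G.ι v)| ≤ a / g.m)
    (h2 : ∀ v ∈ g.Dm X, ∀ e e', |dif (dir e) (dif (dir e') (G.lift f)) (G.ι v)| ≤ b / (g.m : ℝ) ^ 2) :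
    U g δ X f + bondE (g.Dm X) f ≤ ((2 + 4 * δ) * (200 * a ^ 2) + (1 + 64 * δ) * (25 * b ^ 2)) * X.card := by
  have hm : (0 : ℝ) < g.m := by exact_mod_cast hg.pos
  have hsq : ∀ v ∈ g.Dm X, ∀ e, dif (dir e) (G.lift f) (G.ι v) ^ 2 ≤ (a / g.m) ^ 2 := fun v hv e =>
    sq_le_sq' (by linarith [(abs_le.1 (h1 v hv e)).1]) (abs_le.1 (h1 v hv e)).2
  have hcard : ((g.Dm X).card : ℝ) ≤ 100 * (g.m : ℝ) ^ 2 * X.card := by exact_mod_cast Reg.reg_Dm_card g hg X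
  have hgE : gE G (g.Dm X) f ≤ 200 * a ^ 2 * X.card := by
    unfold gE
    calc (1 / 2) * ∑ v ∈ g.Dm X, ∑ e : Fin 4, dif (dir e) (G.lift f) (G.ι v) ^ 2
        ≤ (1 / 2) * ∑ v ∈ g.Dm X, ∑ _e : Fin 4, (a / g.m) ^ 2 := by
          refine mul_le_mul_of_nonneg_left (Finset.sum_le_sum fun v hv => Finset.sum_le_sum fun e _ => hsq v hv e) (by norm_num)
      _ = (1 / 2) * (((g.Dm X).card : ℝ) * (4 * (a / g.m) ^ 2)) := by
          simp [Finset.sum_const, nsmul_eq_mul]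
      _ ≤ (1 / 2) * ((100 * (g.m : ℝ) ^ 2 * X.card) * (4 * (a / g.m) ^ 2)) := by gcongr
      _ = 200 * a ^ 2 * X.card := by field_simp; ring
  have hbond : bondE (g.Dm X) f ≤ gE G (g.Dm X) f := by
    unfold bondE gE
    gcongr with v _ e _
    split_ifs
    · exact le_rfl
    · positivity
  have hTE : TE g (g.collar X) f ≤ 25 * b ^ 2 * X.card := by
    rw [Reg.reg_TE_eq]
    calc ∑ c ∈ g.collar X, (g.m : ℝ) ^ 4 * Reg.regN2 g c f ^ 2 ≤ ∑ _c ∈ g.collar X, b ^ 2 := by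
          apply Finset.sum_le_sum
          intro c hc
          have h3 : Reg.regN2 g c f ≤ b / (g.m : ℝ) ^ 2 := Reg.reg_n2_le g c f (by positivity) (fun v hv e e' => h2 v (by
            rw [Reg.reg_mem_Dm]
            have := (Reg.reg_mem_sites g {c} v).1 hv
            rw [Finset.mem_singleton.1 this]; exact hc) e e')
          have h4 := Reg.reg_n2_nonneg g c f
          calc (g.m : ℝ) ^ 4 * Reg.regN2 g c f ^ 2 ≤ (g.m : ℝ) ^ 4 * (b / (g.m : ℝ) ^ 2) ^ 2 := by gcongr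
            _ = b ^ 2 := by field_simp
      _ = ((g.collar X).card : ℝ) * b ^ 2 := by simp
      _ ≤ (25 * X.card : ℝ) * b ^ 2 := by
          gcongr
          exact_mod_cast Reg.reg_collar_card g X
      _ = 25 * b ^ 2 * X.card := by ring
  have hPE : PE G g.m (g.Dm X) f ≤ 4 * gE G (g.Dm X) f + 64 * TE g (g.collar X) f := Reg.reg_PE_inner g hg (g.collar X) f
  unfold U
  have k1 : δ * PE G g.m (g.Dm X) f ≤ δ * (4 * gE G (g.Dm X) f + 64 * TE g (g.collar X) f) := mul_le_mul_of_nonneg_left hPE hδ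
  have k2 : (2 + 4 * δ) * gE G (g.Dm X) f ≤ (2 + 4 * δ) * (200 * a ^ 2 * X.card) := mul_le_mul_of_nonneg_left hgE (by positivity)
  have k3 : (1 + 64 * δ) * TE g (g.collar X) f ≤ (1 + 64 * δ) * (25 * b ^ 2 * X.card) := mul_le_mul_of_nonneg_left hTE (by positivity)
  nlinarith [k1, k2, k3, hbond]

/-- the anchored test norm from sup bounds -/
theorem tc_anorm_le {G : Geom} (g : Grid G) (X : Finset g.I) (x0 : G.V) (f : G.V → ℝ) (K : ℝ) (hK : 0 ≤ K)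
    (h0 : ∀ v ∈ g.Dm X, |f v - f x0| ≤ K)
    (h1 : ∀ v ∈ g.Dm X, ∀ e, (g.m : ℝ) * |dif (dir e) (G.lift f) (G.ι v)| ≤ K)
    (h2 : ∀ v ∈ g.Dm X, ∀ e e', (g.m : ℝ) ^ 2 * |dif (dir e) (dif (dir e') (G.lift f)) (G.ι v)| ≤ K) :
    (anorm g X x0 f : ℝ) ≤ K := by
  have key : anorm g X x0 f ≤ K.toNNReal := by
    unfold anorm
    rw [Hol.tnorm_le_iff]
    intro v hv
    refine ⟨?_, fun a => ?_, fun a => ?_⟩
    · rw [← NNReal.coe_le_coe, coe_nnnorm, Real.norm_eq_abs, Real.coe_toNNReal _ hK]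
      exact h0 v hv
    · rw [Hol.difs_one, tb_ld_dif_sub, ← NNReal.coe_le_coe, Real.coe_toNNReal _ hK]
      simpa using h1 v hv (a 0)
    · have ha : a = ![a 0, a 1] := by funext i; fin_cases i <;> rfl
      rw [ha, Reg.regl_difs_two, tb_ld_dif_sub, ← NNReal.coe_le_coe, Real.coe_toNNReal _ hK]
      simpa using h2 v hv (a 0) (a 1)
  have := NNReal.coe_le_coe.2 key
  rwa [Real.coe_toNNReal _ hK] at this

/-- a function on an integer interval with increments `≤ A` -/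
theorem tc_path1 (h : ℤ → ℝ) (A : ℝ) (lo hi : ℤ) (hA : ∀ i, lo ≤ i → i + 1 ≤ hi → |h (i + 1) - h i| ≤ A)
    (i j : ℤ) (hi1 : lo ≤ i) (hi2 : i ≤ hi) (hj1 : lo ≤ j) (hj2 : j ≤ hi) : |h j - h i| ≤ A * |((j - i : ℤ) : ℝ)| := by
  have mono : ∀ (n : ℕ) (i : ℤ), lo ≤ i → i + n ≤ hi → |h (i + n) - h i| ≤ A * n := by
    intro n
    induction n with
    | zero => intro i _ _; simp
    | succ n ih =>
      intro i h1 h2
      have a1 := ih i h1 (by push_cast at h2; omega)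
      have a2 := hA (i + n) (by omega) (by push_cast at h2; omega)
      have e : i + ((n + 1 : ℕ) : ℤ) = i + n + 1 := by push_cast; ring
      rw [e]
      have a3 := abs_sub_le (h (i + n + 1)) (h (i + n)) (h i)
      push_cast
      linarith
  rcases le_total i j with hij | hij
  · have := mono (j - i).toNat i hi1 (by omega)
    have e : i + ((j - i).toNat : ℤ) = j := by omega
    rw [e] at this
    have e2 : (((j - i).toNat : ℕ) : ℝ) = |((j - i : ℤ) : ℝ)| := by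
      rw [abs_of_nonneg (by exact_mod_cast (by omega : 0 ≤ j - i))]
      have : (((j - i).toNat : ℕ) : ℤ) = j - i := by omega
      exact_mod_cast this
    rwa [e2] at this
  · have := mono (i - j).toNat j hj1 (by omega)
    have e : j + ((i - j).toNat : ℤ) = i := by omega
    rw [e] at this
    have e2 : (((i - j).toNat : ℕ) : ℝ) = |((j - i : ℤ) : ℝ)| := by
      rw [abs_of_nonpos (by exact_mod_cast (by omega : j - i ≤ 0))]
      have : (((i - j).toNat : ℕ) : ℤ) = -(j - i) := by omega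
      exact_mod_cast this
    rwa [e2, abs_sub_comm] at this

/-- L-shaped paths in a coordinate rectangle -/
theorem tc_path2 (F : ℤ × ℤ → ℝ) (A : ℝ) (l1 u1 l2 u2 : ℤ)
    (hA : ∀ (z : ℤ × ℤ) (d : Bool), l1 ≤ z.1 → l2 ≤ z.2 → (z + bdir d).1 ≤ u1 → (z + bdir d).2 ≤ u2 → |F (z + bdir d) - F z| ≤ A)
    (z z' : ℤ × ℤ) (hz : l1 ≤ z.1 ∧ z.1 ≤ u1 ∧ l2 ≤ z.2 ∧ z.2 ≤ u2) (hz' : l1 ≤ z'.1 ∧ z'.1 ≤ u1 ∧ l2 ≤ z'.2 ∧ z'.2 ≤ u2) :
    |F z' - F z| ≤ A * (|((z'.1 - z.1 : ℤ) : ℝ)| + |((z'.2 - z.2 : ℤ) : ℝ)|) := by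
  have a1 := tc_path1 (fun i => F (i, z.2)) A l1 u1 (fun i h1 h2 => by
    have := hA (i, z.2) true h1 hz.2.2.1 (by simpa [bdir] using h2) (by simpa [bdir] using hz.2.2.2)
    simpa [bdir] using this) z.1 z'.1 hz.1 hz.2.1 hz'.1 hz'.2.1
  have a2 := tc_path1 (fun i => F (z'.1, i)) A l2 u2 (fun i h1 h2 => by
    have := hA (z'.1, i) false hz'.1 h1 (by simpa [bdir] using hz'.2.1) (by simpa [bdir] using h2)
    simpa [bdir] using this) z.2 z'.2 hz.2.2.1 hz.2.2.2 hz'.2.2.1 hz'.2.2.2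
  have a3 := abs_sub_le (F (z'.1, z'.2)) (F (z'.1, z.2)) (F (z.1, z.2))
  have e1 : (z'.1, z'.2) = z' := rfl
  have e2 : (z.1, z.2) = z := rfl
  rw [e1, e2] at a3
  rw [e1] at a2
  rw [e2] at a1
  rw [mul_add]
  linarith

/-- **abstract stencil calculus**: if the forward increments of `F` on a set `S` of integer points are `E`, then the first and second differences of `F`
are bounded by the sup of `E` and of its first differences -/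
theorem tc_calc (S : Set (ℤ × ℤ)) (F : ℤ × ℤ → ℝ) (E : ℤ × ℤ → Bool → ℝ)
    (hstep : ∀ z d, z ∈ S → z + bdir d ∈ S → F (z + bdir d) - F z = E z d) (A1 A2 : ℝ)
    (h1 : ∀ z ∈ S, ∀ d, |E z d| ≤ A1) (h2 : ∀ z ∈ S, ∀ d e, |dif (dir e) (fun x => E x d) z| ≤ A2) :
    (∀ z e, z ∈ S → z + dir e ∈ S → |dif (dir e) F z| ≤ A1) ∧
    (∀ z e e', z ∈ S → z + dir e ∈ S → z + dir e' ∈ S → z + dir e + dir e' ∈ S → |dif (dir e) (dif (dir e') F) z| ≤ A2) := by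
  have hdec : ∀ e : Fin 4, ∃ (d : Bool) (s : ℤ × ℤ) (σ : ℝ), |σ| = 1 ∧ (s = 0 ∨ s = dir e) ∧
      ∀ z, z ∈ S → z + dir e ∈ S → dif (dir e) F z = σ * E (z + s) d := by
    have hback : ∀ (d : Bool) (z : ℤ × ℤ), z ∈ S → z + -bdir d ∈ S → F (z + -bdir d) - F z = -1 * E (z + -bdir d) d := by
      intro d z hz hz'
      have := hstep (z + -bdir d) d hz' (by rw [neg_add_cancel_right]; exact hz)
      rw [neg_add_cancel_right] at this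
      linarith
    have e1 : dir 1 = -bdir true := by simp [dir, bdir]
    have e3 : dir 3 = -bdir false := by simp [dir, bdir]
    intro e
    fin_cases e
    · refine ⟨true, 0, 1, by simp, Or.inl rfl, fun z hz hz' => ?_⟩
      have := hstep z true hz hz'
      simp only [add_zero, one_mul]
      exact this
    · refine ⟨true, dir 1, -1, by simp, Or.inr rfl, fun z hz hz' => ?_⟩
      show F (z + dir 1) - F z = -1 * E (z + dir 1) true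
      have hz'' : z + dir 1 ∈ S := hz'
      rw [e1] at hz'' ⊢
      exact hback true z hz hz''
    · refine ⟨false, 0, 1, by simp, Or.inl rfl, fun z hz hz' => ?_⟩
      have := hstep z false hz hz'
      simp only [add_zero, one_mul]
      exact this
    · refine ⟨false, dir 3, -1, by simp, Or.inr rfl, fun z hz hz' => ?_⟩
      show F (z + dir 3) - F z = -1 * E (z + dir 3) false
      have hz'' : z + dir 3 ∈ S := hz'
      rw [e3] at hz'' ⊢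
      exact hback false z hz hz''
  constructor
  · intro z e hz hz'
    obtain ⟨d, s, σ, hσ, hs, hd⟩ := hdec e
    rw [hd z hz hz', abs_mul, hσ, one_mul]
    refine h1 _ ?_ d
    rcases hs with rfl | rfl
    · rwa [add_zero]
    · exact hz'
  · intro z e e' hz hze hze' hzee
    obtain ⟨d, s, σ, hσ, hs, hd⟩ := hdec e'
    have hexp : dif (dir e) (dif (dir e') F) z = σ * dif (dir e) (fun x => E x d) (z + s) := by
      show dif (dir e') F (z + dir e) - dif (dir e') F z = σ * (E (z + s + dir e) d - E (z + s) d)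
      rw [hd _ hze hzee, hd _ hz hze', add_right_comm]
      ring
    rw [hexp, abs_mul, hσ, one_mul]
    refine h2 _ ?_ d e
    rcases hs with rfl | rfl
    · rwa [add_zero]
    · exact hze'

/-- one coordinate of a point within two steps of a site `x` of the block `b`, `|a - b| ≤ 2`, `a` three blocks away from the walls -/
theorem tc_near1 (m D x a : ℕ) (hm : 2 ≤ m) (hab : a ≤ x / m + 2) (hba : x / m ≤ a + 2) (h0 : 3 ≤ a) (h1 : a + 3 < 2 * D)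
    (t : ℤ) (ht : |t| ≤ 2) :
    ∃ y : ℕ, (y : ℤ) = x + t ∧ y < 2 * (D * m) ∧ a ≤ y / m + 3 ∧ y / m ≤ a + 3 ∧
      (D + 3 < a → ((D * m : ℕ) : ℤ) + m ≤ y) ∧ (a + 3 < D → (y : ℤ) + m ≤ ((D * m : ℕ) : ℤ) + 1) := by
  obtain ⟨ht1, ht2⟩ := abs_le.1 ht
  have hm0 : 0 < m := by omega
  set b := x / m with hb
  have e1 : m * b + x % m = x := Nat.div_add_mod x m
  have e2 : x % m < m := Nat.mod_lt x hm0
  have hb1 : 1 ≤ b := by omega
  have f1 : m * 1 ≤ m * b := Nat.mul_le_mul_left m hb1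
  have f2 : m * (b + 2) ≤ m * (2 * D) := Nat.mul_le_mul_left m (by omega)
  have f3 : m * (2 * D) = 2 * (D * m) := by ring
  have f4 : m * (b + 2) = m * b + 2 * m := by ring
  refine ⟨(x + t).toNat, Int.toNat_of_nonneg (by omega), by omega, ?_, ?_, ?_, ?_⟩
  · have g1 : x ≤ (x + t).toNat + m := by omega
    have g2 : x / m ≤ ((x + t).toNat + m) / m := Nat.div_le_div_right g1
    rw [Nat.add_div_right _ hm0] at g2
    omega
  · have g1 : (x + t).toNat ≤ x + m := by omega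
    have g2 : (x + t).toNat / m ≤ (x + m) / m := Nat.div_le_div_right g1
    rw [Nat.add_div_right _ hm0] at g2
    omega
  · intro h
    have g1 : m * (D + 2) ≤ m * b := Nat.mul_le_mul_left m (by omega)
    have g2 : m * (D + 2) = D * m + 2 * m := by ring
    push_cast
    have g3 : ((D * m : ℕ) : ℤ) = (D : ℤ) * m := by push_cast; ring
    omega
  · intro h
    have g1 : m * (b + 2) ≤ m * D := Nat.mul_le_mul_left m (by omega)
    have g2 : m * D = D * m := by ring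
    have g3 : ((D * m : ℕ) : ℤ) = (D : ℤ) * m := by push_cast; ring
    push_cast
    omega

/-- an integer point which is a site of the padded rectangle of `X` -/
def tcGood (Q : Sq) (H1 : ℕ) (X : Finset Q.g.I) (z : ℤ × ℤ) : Prop :=
  ∃ w : Q.G.V, Q.G.ι w = z ∧ Q.InRect H1 X (((Q.g.blk w).1 : ℕ), ((Q.g.blk w).2 : ℕ))

/-- geometry of a wall-free shift-good support: the points within two steps of `D_m (X)` are sites of the padded rectangle, at distance `≥ m - 1` from the centre -/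
theorem tc_near (Q : Sq) (hm : 2 ≤ Q.m) (H0 H1 : ℕ) (hH0 : 3 ≤ H0) (hH1 : 3 ≤ H1) (X : Finset Q.g.I) (hX : clG Q H0 H1 X)
    (v : Q.G.V) (hv : v ∈ Q.g.Dm X) (u : ℤ × ℤ) (hu1 : |u.1| ≤ 2) (hu2 : |u.2| ≤ 2) :
    ∃ w : Q.G.V, Q.G.ι w = Q.G.ι v + u ∧ Q.InRect H1 X (((Q.g.blk w).1 : ℕ), ((Q.g.blk w).2 : ℕ)) ∧
      (Q.m : ℝ) ≤ 1 + cdist Q.n (Q.G.ι w) := by
  obtain ⟨a, haX, had⟩ := (Reg.regd_mem_collar Q.g X _).1 ((Reg.reg_mem_Dm Q.g X v).1 hv)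
  have had' : max (((a.1 : ℕ) : ℤ) - (((v.1 : ℕ) / Q.m : ℕ) : ℤ)).natAbs (((a.2 : ℕ) : ℤ) - (((v.2 : ℕ) / Q.m : ℕ) : ℤ)).natAbs ≤ 2 := had
  have had1 := (le_max_left _ _).trans had'
  have had2 := (le_max_right _ _).trans had'
  obtain ⟨w1, w2, w3, w4⟩ := hX.1 a haX
  obtain ⟨y1, p1, p2, p3, p4, p5, p6⟩ := tc_near1 Q.m Q.D (v.1 : ℕ) (a.1 : ℕ) hm (by omega) (by omega) (by omega) (by omega) u.1 hu1
  obtain ⟨y2, q1, q2, q3, q4, q5, q6⟩ := tc_near1 Q.m Q.D (v.2 : ℕ) (a.2 : ℕ) hm (by omega) (by omega) (by omega) (by omega) u.2 hu2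
  have hsg : Q.D + H1 < (a.1 : ℕ) ∨ (a.1 : ℕ) + H1 < Q.D ∨ Q.D + H1 < (a.2 : ℕ) ∨ (a.2 : ℕ) + H1 < Q.D := by
    by_contra hc
    simp only [not_or, not_lt] at hc
    exact hX.2 ⟨⟨a, haX, hc.1⟩, ⟨a, haX, hc.2.1⟩, ⟨a, haX, hc.2.2.1⟩, ⟨a, haX, hc.2.2.2⟩⟩
  refine ⟨(⟨y1, p2⟩, ⟨y2, q2⟩), Prod.ext p1 q1, ⟨⟨a, haX, ?_⟩, ⟨a, haX, ?_⟩, ⟨a, haX, ?_⟩, ⟨a, haX, ?_⟩⟩, ?_⟩
  · show (a.1 : ℕ) ≤ y1 / Q.m + H1
    omega
  · show y1 / Q.m ≤ (a.1 : ℕ) + H1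
    omega
  · show (a.2 : ℕ) ≤ y2 / Q.m + H1
    omega
  · show y2 / Q.m ≤ (a.2 : ℕ) + H1
    omega
  · show (Q.m : ℝ) ≤ 1 + max |((y1 : ℤ) : ℝ) - ((Q.D * Q.m : ℕ) : ℝ)| |((y2 : ℤ) : ℝ) - ((Q.D * Q.m : ℕ) : ℝ)|
    rcases hsg with h | h | h | h
    · have := p5 (by omega)
      have h' : (((Q.D * Q.m : ℕ) : ℤ) : ℝ) + ((Q.m : ℤ) : ℝ) ≤ ((y1 : ℤ) : ℝ) := by exact_mod_cast this
      have h2 := le_abs_self (((y1 : ℤ) : ℝ) - ((Q.D * Q.m : ℕ) : ℝ))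
      have h3 := le_max_left |((y1 : ℤ) : ℝ) - ((Q.D * Q.m : ℕ) : ℝ)| |((y2 : ℤ) : ℝ) - ((Q.D * Q.m : ℕ) : ℝ)|
      simp only [Int.cast_natCast] at h' h2 h3 ⊢
      linarith
    · have := p6 (by omega)
      have h' : ((y1 : ℤ) : ℝ) + ((Q.m : ℤ) : ℝ) ≤ (((Q.D * Q.m : ℕ) : ℤ) : ℝ) + 1 := by exact_mod_cast this
      have h2 := neg_abs_le (((y1 : ℤ) : ℝ) - ((Q.D * Q.m : ℕ) : ℝ))
      have h3 := le_max_left |((y1 : ℤ) : ℝ) - ((Q.D * Q.m : ℕ) : ℝ)| |((y2 : ℤ) : ℝ) - ((Q.D * Q.m : ℕ) : ℝ)|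
      simp only [Int.cast_natCast] at h' h2 h3 ⊢
      linarith
    · have := q5 (by omega)
      have h' : (((Q.D * Q.m : ℕ) : ℤ) : ℝ) + ((Q.m : ℤ) : ℝ) ≤ ((y2 : ℤ) : ℝ) := by exact_mod_cast this
      have h2 := le_abs_self (((y2 : ℤ) : ℝ) - ((Q.D * Q.m : ℕ) : ℝ))
      have h3 := le_max_right |((y1 : ℤ) : ℝ) - ((Q.D * Q.m : ℕ) : ℝ)| |((y2 : ℤ) : ℝ) - ((Q.D * Q.m : ℕ) : ℝ)|
      simp only [Int.cast_natCast] at h' h2 h3 ⊢
      linarith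
    · have := q6 (by omega)
      have h' : ((y2 : ℤ) : ℝ) + ((Q.m : ℤ) : ℝ) ≤ (((Q.D * Q.m : ℕ) : ℤ) : ℝ) + 1 := by exact_mod_cast this
      have h2 := neg_abs_le (((y2 : ℤ) : ℝ) - ((Q.D * Q.m : ℕ) : ℝ))
      have h3 := le_max_right |((y1 : ℤ) : ℝ) - ((Q.D * Q.m : ℕ) : ℝ)| |((y2 : ℤ) : ℝ) - ((Q.D * Q.m : ℕ) : ℝ)|
      simp only [Int.cast_natCast] at h' h2 h3 ⊢
      linarith

/-- the lift along one forward bond between two sites of the padded rectangle -/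
theorem tc_good_step (Q : Sq) (α : ℝ) (v : Q.G.V → ℝ) (H1 : ℕ) (X : Finset Q.g.I) (lam : Q.G.V → ℝ) (hl : Q.IsLift α v H1 X lam)
    (z : ℤ × ℤ) (d : Bool) (hz : tcGood Q H1 X z) (hz' : tcGood Q H1 X (z + bdir d)) :
    Q.G.lift lam (z + bdir d) - Q.G.lift lam z = elift (etaE Q.n v) z d / α := by
  obtain ⟨w, rfl, hw⟩ := hz
  obtain ⟨w', hw'e, hw'⟩ := hz'
  have h1 : Q.G.π (Q.G.ι w + bdir d) = w' := by rw [← hw'e, Reg.reg_pi_iota]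
  have h2 : stp w d = w' := h1
  have h3 : w' ≠ w := by
    intro h
    rw [h] at hw'e
    have : bdir d = 0 := by simpa using hw'e.symm
    cases d <;> simp [bdir] at this
  unfold elift Geom.lift
  rw [h1, Reg.reg_pi_iota, if_neg h3, h2, if_pos rfl]
  have := hl (w, d) (by simp only; rw [h2]; exact h3) hw (by simp only; rw [h2]; exact hw')
  simp only at this
  rw [h2] at this
  exact this

/-- the four differences of the lift are `± η / α` -/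
theorem tc_good_dif (Q : Sq) (α : ℝ) (v : Q.G.V → ℝ) (H1 : ℕ) (X : Finset Q.g.I) (lam : Q.G.V → ℝ) (hl : Q.IsLift α v H1 X lam) (e : Fin 4) :
    ∃ (d : Bool) (s : ℤ × ℤ) (σ : ℝ), |σ| = 1 ∧ |s.1| ≤ 1 ∧ |s.2| ≤ 1 ∧ ∀ z, tcGood Q H1 X z → tcGood Q H1 X (z + dir e) →
      dif (dir e) (Q.G.lift lam) z = σ * (elift (etaE Q.n v) (z + s) d / α) := by
  have hback : ∀ (d : Bool) (z : ℤ × ℤ), tcGood Q H1 X z → tcGood Q H1 X (z + -bdir d) →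
      Q.G.lift lam (z + -bdir d) - Q.G.lift lam z = -1 * (elift (etaE Q.n v) (z + -bdir d) d / α) := by
    intro d z hz hz'
    have := tc_good_step Q α v H1 X lam hl (z + -bdir d) d hz' (by rw [neg_add_cancel_right]; exact hz)
    rw [neg_add_cancel_right] at this
    linarith
  have e0 : dir 0 = bdir true := rfl
  have e1 : dir 1 = -bdir true := by simp [dir, bdir]
  have e2 : dir 2 = bdir false := rfl
  have e3 : dir 3 = -bdir false := by simp [dir, bdir]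
  fin_cases e
  · refine ⟨true, 0, 1, by simp, by simp, by simp, fun z hz hz' => ?_⟩
    have := tc_good_step Q α v H1 X lam hl z true hz hz'
    simp only [add_zero, one_mul]
    exact this
  · refine ⟨true, -bdir true, -1, by simp, by simp [bdir], by simp [bdir], fun z hz hz' => ?_⟩
    show Q.G.lift lam (z + dir 1) - Q.G.lift lam z = _
    have hz'' : tcGood Q H1 X (z + dir 1) := hz'
    rw [e1] at hz'' ⊢
    exact hback true z hz hz''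
  · refine ⟨false, 0, 1, by simp, by simp, by simp, fun z hz hz' => ?_⟩
    have := tc_good_step Q α v H1 X lam hl z false hz hz'
    simp only [add_zero, one_mul]
    exact this
  · refine ⟨false, -bdir false, -1, by simp, by simp [bdir], by simp [bdir], fun z hz hz' => ?_⟩
    show Q.G.lift lam (z + dir 3) - Q.G.lift lam z = _
    have hz'' : tcGood Q H1 X (z + dir 3) := hz'
    rw [e3] at hz'' ⊢
    exact hback false z hz hz''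

theorem tc_dir_abs (e : Fin 4) : |(dir e).1| ≤ 1 ∧ |(dir e).2| ≤ 1 := by
  fin_cases e <;> simp [dir]

/-- **(obs:terminal-translation) for the lifts on wall-free shift-good supports** (wall-free, `H0 ≥ 3`: no stencil crosses a wall, no reflection).  The sites of `D_m (X)` are at distance `≥ m` from the centre (`H1 ≥ 3`, collar `2`); the stencils (two steps, `m ≥ 2`) stay in the padded rectangle, where
`∇ λ = η / α` (`tc_lift_dif`); `m |∇λ| + m² |∇²λ| ≤ C / α`; `|D_m (X)| ≤ 100 m² k`, `≤ 25 k` blocks, boundary `≤ 25 k · 8 m` sites. -/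
theorem tc_lift_energy (a : ℝ) (ha : 0 < a) : ∃ Ctr : ℝ, 0 ≤ Ctr ∧ ∀ (Q : Sq), 2 ≤ Q.m → ∀ v : Q.G.V → ℝ, CoCl Q v → ∀ H0 H1 : ℕ, 3 ≤ H0 → 3 ≤ H1 →
    ∀ X : Finset Q.g.I, clG Q H0 H1 X → ∀ lam : Q.G.V → ℝ, Q.IsLift (Real.sqrt a) v H1 X lam → ∀ δ : ℝ, 0 ≤ δ → δ ≤ 1 →
      U Q.g δ X lam + bondE (Q.g.Dm X) lam ≤ Ctr * X.card := by
  obtain ⟨C, c0, ηP, hC, -, -, -, hE⟩ := tc_eta_ok
  have hα : 0 < Real.sqrt a := Real.sqrt_pos.2 ha
  set α := Real.sqrt a with hαdef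
  have hA : 0 ≤ C / α := by positivity
  refine ⟨2825 * (C / α) ^ 2, by positivity, fun Q hm v hv H0 H1 hH0 hH1 X hX lam hl δ hδ0 hδ1 => ?_⟩
  have hdec := (hE Q v hv).decay
  have hmR : (0 : ℝ) < Q.m := by exact_mod_cast Q.m_pos
  have good : ∀ x ∈ Q.g.Dm X, ∀ u : ℤ × ℤ, |u.1| ≤ 2 → |u.2| ≤ 2 → tcGood Q H1 X (Q.G.ι x + u) := by
    intro x hx u h1 h2
    obtain ⟨w, hw, hr, -⟩ := tc_near Q hm H0 H1 hH0 hH1 X hX x hx u h1 h2
    exact ⟨w, hw, hr⟩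
  have key := tc_U_smooth Q.g (tc_g_ok Q) δ hδ0 X lam (C / α) (C / α) hA hA ?_ ?_
  · have hk : (0 : ℝ) ≤ X.card := Nat.cast_nonneg _
    have hsq : 0 ≤ (C / α) ^ 2 := by positivity
    refine key.trans (mul_le_mul_of_nonneg_right ?_ hk)
    nlinarith
  · intro x hx e
    obtain ⟨d, s, σ, hσ, hs1, hs2, hdif⟩ := tc_good_dif Q α v H1 X lam hl e
    obtain ⟨he1, he2⟩ := tc_dir_abs e
    have g0 : tcGood Q H1 X (Q.G.ι x) := by
      have := good x hx 0 (by simp) (by simp)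
      rwa [add_zero] at this
    rw [hdif _ g0 (good x hx (dir e) (by linarith) (by linarith)), abs_mul, hσ, one_mul, abs_div, abs_of_pos hα]
    obtain ⟨w, hw, -, hcd⟩ := tc_near Q hm H0 H1 hH0 hH1 X hX x hx s (by linarith) (by linarith)
    have h0 := hdec 0 (by norm_num) ![] w d
    have h0' : difs ![] (fun x' => elift (etaE Q.n v) x' d) (Q.G.ι w) = elift (etaE Q.n v) (Q.G.ι w) d := by
      simp [difs]
    rw [h0', hw] at h0
    rw [hw] at hcd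
    show _ ≤ C / α / (Q.m : ℝ)
    rw [div_right_comm]
    refine div_le_div_of_nonneg_right (h0.trans ?_) hα.le
    rw [div_eq_mul_inv]
    refine mul_le_mul_of_nonneg_left ?_ hC.le
    simp only [add_zero, pow_one]
    exact inv_anti₀ hmR hcd
  · intro x hx e e'
    obtain ⟨d, s, σ, hσ, hs1, hs2, hdif⟩ := tc_good_dif Q α v H1 X lam hl e'
    obtain ⟨he1, he2⟩ := tc_dir_abs e
    obtain ⟨he1', he2'⟩ := tc_dir_abs e'
    have g0 : tcGood Q H1 X (Q.G.ι x) := by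
      have := good x hx 0 (by simp) (by simp)
      rwa [add_zero] at this
    have g1 := good x hx (dir e') (by linarith) (by linarith)
    have g2 := good x hx (dir e) (by linarith) (by linarith)
    have g3 : tcGood Q H1 X (Q.G.ι x + dir e + dir e') := by
      have := good x hx (dir e + dir e') ((abs_add_le _ _).trans (by linarith)) ((abs_add_le _ _).trans (by linarith))
      rwa [← add_assoc] at this
    obtain ⟨w, hw, -, hcd⟩ := tc_near Q hm H0 H1 hH0 hH1 X hX x hx s (by linarith) (by linarith)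
    have h1 := hdec 1 (by norm_num) ![e] w d
    rw [Reg.reg_difs_one] at h1
    have hexp : dif (dir e) (dif (dir e') (Q.G.lift lam)) (Q.G.ι x)
        = σ * (dif (dir e) (fun x' => elift (etaE Q.n v) x' d) (Q.G.ι w) / α) := by
      show dif (dir e') (Q.G.lift lam) (Q.G.ι x + dir e) - dif (dir e') (Q.G.lift lam) (Q.G.ι x) = _
      rw [hdif _ g2 g3, hdif _ g0 g1, hw]
      show _ = σ * ((elift (etaE Q.n v) (Q.G.ι x + s + dir e) d - elift (etaE Q.n v) (Q.G.ι x + s) d) / α)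
      rw [add_right_comm]
      ring
    rw [hexp, abs_mul, hσ, one_mul, abs_div, abs_of_pos hα]
    show _ ≤ C / α / (Q.m : ℝ) ^ 2
    rw [div_right_comm]
    refine div_le_div_of_nonneg_right (h1.trans ?_) hα.le
    rw [div_eq_mul_inv]
    refine mul_le_mul_of_nonneg_left ?_ hC.le
    refine inv_anti₀ (by positivity) ?_
    exact pow_le_pow_left₀ hmR.le hcd 2

/-- **class `𝔚`**: automatically shift-good; the lift is small.  `X` has a block within `H0` of a wall and `k ≤ D / N` blocks, `RR`-connected: all its padded sites are at distance `≥ n / 2` from the centre;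
`|η| ≤ 2 C / n`, `|∇η| ≤ 4 C / n²`; values along L-shaped paths of `≤ 2 (RR k + 5) m` steps inside the enclosing rectangle. -/
theorem tc_wall_lift (a : ℝ) (ha : 0 < a) (H0 H1 : ℕ) (hH1 : 3 ≤ H1) : ∃ (C : ℝ) (N0 D1 : ℕ), 0 ≤ C ∧ ∀ (Q : Sq), 2 ≤ Q.m → D1 ≤ Q.D →
    ∀ v : Q.G.V → ℝ, CoCl Q v → ∀ N ≥ N0, ∀ X : Finset Q.g.I, Q.g.Conn RR X → ¬ Q.WallFree H0 X → N * X.card ≤ Q.D →
      Q.ShiftGood H1 X ∧ ∀ lam : Q.G.V → ℝ, Q.IsLift (Real.sqrt a) v H1 X lam → ∀ x0 ∈ Q.g.Dm X,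
        (anorm Q.g X x0 lam : ℝ) ≤ C * (1 + X.card) / Q.D := by
  obtain ⟨C0, c0, ηP, hC0, _, _, _, hη⟩ := tc_eta_ok
  obtain ⟨C, N0, D1, hC, h⟩ := tcl_wall_lift a ha H0 H1 hH1 C0 hC0.le
  exact ⟨C, N0, D1, hC, fun Q hm hD v hv => h Q (tc_g_ok Q) hm hD v (hη Q v hv).decay⟩

/-- **class `ℭ`**: the relative background `Δ = (v₁ ∘ e - v₀) / α`, extended to the larger square.  `∇Δ = (η₁ ∘ e - η₀) / α` (the connections `2π τ` coincide), both compared with the plane field (`EtaOK.plane`):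
`|∇Δ| ≤ 2 C / (α n₀)`, `|∇²Δ| ≤ 2 C / (α n₀²)` in the central region.  `Dl` is `0` outside the image of `e`. -/
theorem tc_pair_background (a : ℝ) (ha : 0 < a) (H1 : ℕ) : ∃ (C Ctr : ℝ) (N0 D1 : ℕ), 0 ≤ C ∧ 0 ≤ Ctr ∧ ∀ P : SqPair, 2 ≤ P.Q0.m → D1 ≤ P.Q0.D →
    ∀ (v0 : P.Q0.G.V → ℝ) (v1 : P.Q1.G.V → ℝ), CoCl P.Q0 v0 → CoCl P.Q1 v1 →
    ∃ Dl : P.Q1.G.V → ℝ, (∀ x, Dl (P.eV x) = (v1 (P.eV x) - v0 x) / Real.sqrt a) ∧
      ∀ N ≥ N0, ∀ X : Finset P.Q0.g.I, P.Q0.g.Conn RR X → ¬ P.Q0.ShiftGood H1 X → N * X.card ≤ P.Q0.D →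
        (∀ δ : ℝ, 0 ≤ δ → δ ≤ 1 → U P.Q1.g δ (X.image P.eI) (-Dl) + bondE (P.Q1.g.Dm (X.image P.eI)) (-Dl) ≤ Ctr * X.card) ∧
        ∀ x0 ∈ P.Q1.g.Dm (X.image P.eI), (anorm P.Q1.g (X.image P.eI) x0 Dl : ℝ) ≤ C * (1 + X.card) / P.Q0.D := by
  obtain ⟨C0, c0, ηP, hC0, hc0, hc1, _, hη⟩ := tc_eta_ok
  obtain ⟨C, Ctr, N0, D1, hC, hCtr, h⟩ := tcl_pair_background a ha H1 C0 c0 hC0.le hc0 hc1 ηP
  exact ⟨C, Ctr, N0, D1, hC, hCtr, fun P hm hD v0 v1 h0 h1 =>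
    h P (tc_g_ok P.Q1) hm hD v0 v1 (hη P.Q0 v0 h0).plane (hη P.Q1 v1 h1).plane⟩

/-! ## 5. LEAVES `L-OBS-TC7`, `TC8`: the energy allocation (obs:energy-allocation) -/

theorem tc_pi_iota {G : Geom} (x : G.V) : G.π (G.ι x) = x := by
  apply Prod.ext <;> simp [Geom.π, Geom.ι, Reg.reg_fold_coe]

theorem tc_elift_fwd {G : Geom} (η : G.V × Bool → ℝ) (x : G.V) (d : Bool) :
    elift η (G.ι x) d = if stp x d = x then 0 else η (x, d) := by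
  unfold elift
  rw [tc_pi_iota]
  have h : G.π (G.ι x + bdir d) = stp x d := rfl
  rw [h, if_pos rfl]

theorem tc_stp_back {G : Geom} (x : G.V) (d : Bool) (h : G.π (G.ι x - bdir d) ≠ x) :
    stp (G.π (G.ι x - bdir d)) d = x := by
  obtain ⟨i, j⟩ := x
  cases d
  · have e1 : G.π (G.ι (i, j) - bdir false) = (i, G.fold (((j : ℕ) : ℤ) + -1)) := by
      apply Prod.ext <;> simp [Geom.π, Geom.ι, bdir, Reg.reg_fold_coe, sub_eq_add_neg]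
    rw [e1] at h ⊢
    have h2 : G.fold (((j : ℕ) : ℤ) + -1) ≠ j := fun h3 => h (by rw [h3])
    have h3 := Reg.regl_step_rev G j (-1) (Or.inr rfl) h2
    apply Prod.ext
    · simp [stp, Geom.π, Geom.ι, bdir, Reg.reg_fold_coe]
    · simpa [stp, Geom.π, Geom.ι, bdir] using h3
  · have e1 : G.π (G.ι (i, j) - bdir true) = (G.fold (((i : ℕ) : ℤ) + -1), j) := by
      apply Prod.ext <;> simp [Geom.π, Geom.ι, bdir, Reg.reg_fold_coe, sub_eq_add_neg]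
    rw [e1] at h ⊢
    have h2 : G.fold (((i : ℕ) : ℤ) + -1) ≠ i := fun h3 => h (by rw [h3])
    have h3 := Reg.regl_step_rev G i (-1) (Or.inr rfl) h2
    apply Prod.ext
    · simpa [stp, Geom.π, Geom.ι, bdir] using h3
    · simp [stp, Geom.π, Geom.ι, bdir, Reg.reg_fold_coe]

theorem tc_elift_bwd {G : Geom} (η : G.V × Bool → ℝ) (x : G.V) (d : Bool) :
    elift η (G.ι x - bdir d) d = if G.π (G.ι x - bdir d) = x then 0 else η (G.π (G.ι x - bdir d), d) := by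
  unfold elift
  rw [sub_add_cancel, tc_pi_iota]
  by_cases h : G.π (G.ι x - bdir d) = x
  · rw [if_pos h.symm, if_pos h]
  · rw [if_neg (Ne.symm h), if_neg h, if_pos (tc_stp_back x d h).symm]

/-- a step of the free square moves one coordinate by at most one -/
theorem tc_fold_step {G : Geom} (hG : G.bc = BC.free) (i : Fin G.M) (σ : ℤ) (hσ : σ = 1 ∨ σ = -1 ∨ σ = 0) :
    ((G.fold (((i : ℕ) : ℤ) + σ) : ℕ) : ℤ) ≤ (i : ℕ) + 1 ∧ ((i : ℕ) : ℤ) ≤ ((G.fold (((i : ℕ) : ℤ) + σ) : ℕ) : ℤ) + 1 := by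
  have hi := i.2
  by_cases hin : 0 ≤ ((i : ℕ) : ℤ) + σ ∧ ((i : ℕ) : ℤ) + σ < G.M
  · rw [Reg.regl_fold_in G _ hin.1 hin.2]
    omega
  · rcases hσ with rfl | rfl | rfl
    · have h1 : ((i : ℕ) : ℤ) + 1 = G.M := by omega
      rw [h1, Reg.regl_fold_M_free G hG]
      omega
    · have h1 : ((i : ℕ) : ℤ) + -1 = -1 := by omega
      rw [h1, Reg.regl_fold_neg_free G hG]
      omega
    · omega

theorem tc_div_near (m a b : ℕ) (hm : 0 < m) (h : a ≤ b + 1) : a / m ≤ b / m + 1 := by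
  calc a / m ≤ (b + m) / m := Nat.div_le_div_right (by omega)
    _ = b / m + 1 := Nat.add_div_right b hm

/-- coordinates of a neighbour in the free square -/
theorem tc_nb_near {G : Geom} (hG : G.bc = BC.free) (x : G.V) (u : ℤ × ℤ)
    (h1 : u.1 = 1 ∨ u.1 = -1 ∨ u.1 = 0) (h2 : u.2 = 1 ∨ u.2 = -1 ∨ u.2 = 0) :
    ((G.π (G.ι x + u)).1 : ℕ) ≤ (x.1 : ℕ) + 1 ∧ (x.1 : ℕ) ≤ ((G.π (G.ι x + u)).1 : ℕ) + 1 ∧
      ((G.π (G.ι x + u)).2 : ℕ) ≤ (x.2 : ℕ) + 1 ∧ (x.2 : ℕ) ≤ ((G.π (G.ι x + u)).2 : ℕ) + 1 := by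
  have a := tc_fold_step hG x.1 u.1 h1
  have b := tc_fold_step hG x.2 u.2 h2
  have e1 : ((G.π (G.ι x + u)).1 : ℕ) = (G.fold (((x.1 : ℕ) : ℤ) + u.1) : ℕ) := rfl
  have e2 : ((G.π (G.ι x + u)).2 : ℕ) = (G.fold (((x.2 : ℕ) : ℤ) + u.2) : ℕ) := rfl
  rw [e1, e2]
  omega

/-- a neighbour of a site of `B` lies in the padded rectangle of `{B}` -/
theorem tc_nb_inRect (Q : Sq) (H1 : ℕ) (hH1 : 1 ≤ H1) (B : Q.g.I) (x y : Q.G.V) (hx : Q.g.blk x = B)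
    (h : (y.1 : ℕ) ≤ (x.1 : ℕ) + 1 ∧ (x.1 : ℕ) ≤ (y.1 : ℕ) + 1 ∧ (y.2 : ℕ) ≤ (x.2 : ℕ) + 1 ∧ (x.2 : ℕ) ≤ (y.2 : ℕ) + 1) :
    Q.InRect H1 {B} (((Q.g.blk y).1 : ℕ), ((Q.g.blk y).2 : ℕ)) := by
  obtain ⟨h1, h2, h3, h4⟩ := h
  have hm := Q.m_pos
  have b1 : (B.1 : ℕ) = (x.1 : ℕ) / Q.m := by rw [← hx]; rfl
  have b2 : (B.2 : ℕ) = (x.2 : ℕ) / Q.m := by rw [← hx]; rfl
  have c1 : ((Q.g.blk y).1 : ℕ) = (y.1 : ℕ) / Q.m := rfl
  have c2 : ((Q.g.blk y).2 : ℕ) = (y.2 : ℕ) / Q.m := rfl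
  have d1 := tc_div_near Q.m _ _ hm h1
  have d2 := tc_div_near Q.m _ _ hm h2
  have d3 := tc_div_near Q.m _ _ hm h3
  have d4 := tc_div_near Q.m _ _ hm h4
  refine ⟨⟨B, Finset.mem_singleton_self _, ?_⟩, ⟨B, Finset.mem_singleton_self _, ?_⟩,
    ⟨B, Finset.mem_singleton_self _, ?_⟩, ⟨B, Finset.mem_singleton_self _, ?_⟩⟩ <;> simp only [b1, b2, c1, c2] <;> omega

theorem tc_lift_fwd (Q : Sq) (α : ℝ) (v : Q.G.V → ℝ) (H1 : ℕ) (hH1 : 1 ≤ H1) (B : Q.g.I) (lam : Q.G.V → ℝ)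
    (hl : Q.IsLift α v H1 {B} lam) (x : Q.G.V) (hx : Q.g.blk x = B) (d : Bool) :
    lam (stp x d) - lam x = elift (etaE Q.n v) (Q.G.ι x) d / α := by
  rw [tc_elift_fwd]
  by_cases h : stp x d = x
  · rw [if_pos h, h]; simp
  · rw [if_neg h]
    refine hl (x, d) h (tc_nb_inRect Q H1 hH1 B x x hx (by omega)) (tc_nb_inRect Q H1 hH1 B x _ hx ?_)
    exact tc_nb_near rfl x (bdir d) (by cases d <;> simp [bdir]) (by cases d <;> simp [bdir])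

theorem tc_lift_bwd (Q : Sq) (α : ℝ) (v : Q.G.V → ℝ) (H1 : ℕ) (hH1 : 1 ≤ H1) (B : Q.g.I) (lam : Q.G.V → ℝ)
    (hl : Q.IsLift α v H1 {B} lam) (x : Q.G.V) (hx : Q.g.blk x = B) (d : Bool) :
    lam (Q.G.π (Q.G.ι x - bdir d)) - lam x = - (elift (etaE Q.n v) (Q.G.ι x - bdir d) d / α) := by
  rw [tc_elift_bwd]
  by_cases h : Q.G.π (Q.G.ι x - bdir d) = x
  · rw [if_pos h, h]; simp
  · rw [if_neg h]
    have hb := tc_stp_back x d h
    have hn : ((Q.G.π (Q.G.ι x - bdir d)).1 : ℕ) ≤ (x.1 : ℕ) + 1 ∧ (x.1 : ℕ) ≤ ((Q.G.π (Q.G.ι x - bdir d)).1 : ℕ) + 1 ∧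
      ((Q.G.π (Q.G.ι x - bdir d)).2 : ℕ) ≤ (x.2 : ℕ) + 1 ∧ (x.2 : ℕ) ≤ ((Q.G.π (Q.G.ι x - bdir d)).2 : ℕ) + 1 := by
      rw [sub_eq_add_neg]
      exact tc_nb_near rfl x (-bdir d) (by cases d <;> simp [bdir]) (by cases d <;> simp [bdir])
    have := hl (Q.G.π (Q.G.ι x - bdir d), d) (by simp only; rw [hb]; exact Ne.symm h)
      (tc_nb_inRect Q H1 hH1 B x _ hx hn) (by simp only; rw [hb]; exact tc_nb_inRect Q H1 hH1 B x x hx (by omega))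
    simp only at this
    rw [hb] at this
    linarith

/-- `E_{n,B} = e_B^0 (λ_B)`: the four differences at `x ∈ B` are `± elift η / α` (`tc_lift_dif`; the neighbours lie in blocks at index distance `≤ 1 ≤ H1`) -/
theorem tc_eB_lift (Q : Sq) (α : ℝ) (hα : 0 < α) (v : Q.G.V → ℝ) (H1 : ℕ) (hH1 : 1 ≤ H1) (B : Q.g.I) (lam : Q.G.V → ℝ)
    (hl : Q.IsLift α v H1 {B} lam) : eB Q.g B lam = alloc Q (etaE Q.n v) B / α ^ 2 := by
  unfold eB gE alloc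
  rw [mul_div_assoc, Finset.sum_div]
  congr 1
  refine Finset.sum_congr rfl fun x hx => ?_
  have hxB : Q.g.blk x = B := by
    have := (Finset.mem_filter.1 hx).2
    exact Finset.mem_singleton.1 this
  rw [Fin.sum_univ_four, Fintype.sum_bool]
  have f1 := tc_lift_fwd Q α v H1 hH1 B lam hl x hxB true
  have f2 := tc_lift_fwd Q α v H1 hH1 B lam hl x hxB false
  have g1 := tc_lift_bwd Q α v H1 hH1 B lam hl x hxB true
  have g2 := tc_lift_bwd Q α v H1 hH1 B lam hl x hxB false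
  have e0 : dif (dir 0) (Q.G.lift lam) (Q.G.ι x) = lam (stp x true) - lam x := by
    show lam (Q.G.π (Q.G.ι x + dir 0)) - lam (Q.G.π (Q.G.ι x)) = _
    rw [tc_pi_iota]; rfl
  have e2 : dif (dir 2) (Q.G.lift lam) (Q.G.ι x) = lam (stp x false) - lam x := by
    show lam (Q.G.π (Q.G.ι x + dir 2)) - lam (Q.G.π (Q.G.ι x)) = _
    rw [tc_pi_iota]; rfl
  have e1 : dif (dir 1) (Q.G.lift lam) (Q.G.ι x) = lam (Q.G.π (Q.G.ι x - bdir true)) - lam x := by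
    show lam (Q.G.π (Q.G.ι x + dir 1)) - lam (Q.G.π (Q.G.ι x)) = _
    rw [tc_pi_iota]
    have : Q.G.ι x + dir 1 = Q.G.ι x - bdir true := by
      apply Prod.ext <;> simp [dir, bdir, sub_eq_add_neg]
    rw [this]
  have e3 : dif (dir 3) (Q.G.lift lam) (Q.G.ι x) = lam (Q.G.π (Q.G.ι x - bdir false)) - lam x := by
    show lam (Q.G.π (Q.G.ι x + dir 3)) - lam (Q.G.π (Q.G.ι x)) = _
    rw [tc_pi_iota]
    have : Q.G.ι x + dir 3 = Q.G.ι x - bdir false := by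
      apply Prod.ext <;> simp [dir, bdir, sub_eq_add_neg]
    rw [this]
  rw [e0, e1, e2, e3, f1, f2, g1, g2]
  field_simp
  ring

theorem tc_back_stp {G : Geom} (x : G.V) (d : Bool) (h : stp x d ≠ x) : G.π (G.ι (stp x d) - bdir d) = x := by
  obtain ⟨i, j⟩ := x
  cases d
  · have e1 : stp ((i, j) : G.V) false = (i, G.fold (((j : ℕ) : ℤ) + 1)) := by
      apply Prod.ext <;> simp [stp, Geom.π, Geom.ι, bdir, Reg.reg_fold_coe]
    rw [e1] at h ⊢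
    have h2 : G.fold (((j : ℕ) : ℤ) + 1) ≠ j := fun h3 => h (by rw [h3])
    have h3 := Reg.regl_step_rev G j 1 (Or.inl rfl) h2
    apply Prod.ext
    · simp [Geom.π, Geom.ι, bdir, Reg.reg_fold_coe]
    · simpa [Geom.π, Geom.ι, bdir, sub_eq_add_neg] using h3
  · have e1 : stp ((i, j) : G.V) true = (G.fold (((i : ℕ) : ℤ) + 1), j) := by
      apply Prod.ext <;> simp [stp, Geom.π, Geom.ι, bdir, Reg.reg_fold_coe]
    rw [e1] at h ⊢
    have h2 : G.fold (((i : ℕ) : ℤ) + 1) ≠ i := fun h3 => h (by rw [h3])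
    have h3 := Reg.regl_step_rev G i 1 (Or.inl rfl) h2
    apply Prod.ext
    · simpa [Geom.π, Geom.ι, bdir, sub_eq_add_neg] using h3
    · simp [Geom.π, Geom.ι, bdir, Reg.reg_fold_coe]

/-- the unit field vanishes through a wall -/
theorem tc_eta_wall (Q : Sq) (v : Q.G.V → ℝ) (x : Q.G.V) (d : Bool) (h : stp x d = x) : etaE Q.n v (x, d) = 0 := by
  unfold etaE
  simp only
  rw [h, sub_self, zero_add]
  have : tauE Q.n ((x, d) : Q.G.V × Bool) = 0 := by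
    unfold tauE
    rw [if_neg]
    rintro ⟨h1, h2, -⟩
    simp only at h1 h2
    subst h1
    have hn := Q.n_pos
    have hM : Q.G.M = 2 * Q.n := rfl
    have h3 : (((Q.G.fold (((x.2 : ℕ) : ℤ) + 1) : Fin Q.G.M) : ℕ) : ℤ) = ((x.2 : ℕ) : ℤ) + 1 :=
      Reg.regl_fold_in Q.G _ (by omega) (by
        have : ((Q.G.M : ℕ) : ℤ) = 2 * (Q.n : ℤ) := by rw [hM]; push_cast; ring
        omega)
    have h4 : (stp x false).2 = Q.G.fold (((x.2 : ℕ) : ℤ) + 1) := by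
      simp [stp, Geom.π, Geom.ι, bdir]
    rw [h] at h4
    rw [← h4] at h3
    omega
  rw [this]
  simp

theorem tc_sum_bwd {G : Geom} (η : G.V × Bool → ℝ) (hη : ∀ x d, stp x d = x → η (x, d) = 0) (d : Bool) :
    ∑ x : G.V, elift η (G.ι x - bdir d) d ^ 2 = ∑ x : G.V, η (x, d) ^ 2 := by
  have hne : ∀ a : G.V, elift η (G.ι a - bdir d) d ^ 2 ≠ 0 → G.π (G.ι a - bdir d) ≠ a := by
    intro a ha h
    apply ha
    rw [tc_elift_bwd, if_pos h]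
    simp
  refine Finset.sum_bij_ne_zero (fun x _ _ => G.π (G.ι x - bdir d)) (fun _ _ _ => Finset.mem_univ _) ?_ ?_ ?_
  · intro a₁ _ h₁ a₂ _ h₂ h
    rw [← tc_stp_back a₁ d (hne a₁ h₁), ← tc_stp_back a₂ d (hne a₂ h₂), h]
  · intro b _ hb
    have h1 : stp b d ≠ b := by
      intro h
      apply hb
      rw [hη b d h]
      simp
    have h2 := tc_back_stp b d h1
    refine ⟨stp b d, Finset.mem_univ _, ?_, h2⟩
    rw [tc_elift_bwd, h2, if_neg (Ne.symm h1)]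
    exact hb
  · intro a _ ha
    rw [tc_elift_bwd, if_neg (hne a ha)]

theorem tc_alloc_total (Q : Sq) (η : Q.G.V × Bool → ℝ) : ∑ B : Q.g.I, alloc Q η B =
    (1 / 2) * ∑ x : Q.G.V, ∑ d : Bool, (elift η (Q.G.ι x) d ^ 2 + elift η (Q.G.ι x - bdir d) d ^ 2) := by
  unfold alloc
  rw [← Finset.mul_sum]
  congr 1
  have := Finset.sum_fiberwise (Finset.univ : Finset Q.G.V) Q.g.blk
    (fun x => ∑ d : Bool, (elift η (Q.G.ι x) d ^ 2 + elift η (Q.G.ι x - bdir d) d ^ 2))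
  rw [← this]
  refine Finset.sum_congr rfl fun B _ => ?_
  refine Finset.sum_congr ?_ fun _ _ => rfl
  ext x
  simp [Grid.sites]

/-- every internal bond is counted at its two endpoints; the bonds through a wall carry `0` -/
theorem tc_alloc_sum (Q : Sq) (v : Q.G.V → ℝ) : ∑ B : Q.g.I, alloc Q (etaE Q.n v) B = ∑ e : Q.G.V × Bool, etaE Q.n v e ^ 2 := by
  rw [tc_alloc_total]
  have h0 : ∑ e : Q.G.V × Bool, etaE Q.n v e ^ 2 = ∑ x : Q.G.V, ∑ d : Bool, etaE Q.n v (x, d) ^ 2 :=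
    Fintype.sum_prod_type _
  rw [h0, Finset.sum_comm]
  have h1 : ∀ d : Bool, ∑ x : Q.G.V, (elift (etaE Q.n v) (Q.G.ι x) d ^ 2 + elift (etaE Q.n v) (Q.G.ι x - bdir d) d ^ 2) =
      2 * ∑ x : Q.G.V, etaE Q.n v (x, d) ^ 2 := by
    intro d
    rw [Finset.sum_add_distrib, tc_sum_bwd _ (tc_eta_wall Q v) d, two_mul]
    congr 1
    refine Finset.sum_congr rfl fun x _ => ?_
    rw [tc_elift_fwd]
    by_cases h : stp x d = x
    · rw [if_pos h, tc_eta_wall Q v x d h]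
    · rw [if_neg h]
  rw [Finset.sum_congr rfl fun d _ => h1 d, ← Finset.mul_sum, Finset.sum_comm]
  ring

theorem tc8_difs_zero {α : Type} [AddGroup α] (a : Fin 0 → Fin 4) (f : ℤ × ℤ → α) : difs a f = f := by
  simp [difs]

theorem tc8_eta_dec0 {C c0 : ℝ} {ηP : ℤ × ℤ → Bool → ℝ} {n : ℕ} {G : Geom} {η : G.V × Bool → ℝ} (h : EtaOK C c0 ηP n G η)
    (w : G.V) (d : Bool) : |elift η (G.ι w) d| ≤ C * (1 + cdist n (G.ι w))⁻¹ := by
  have := h.decay 0 (by omega) (fun i => i.elim0) w d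
  rw [tc8_difs_zero] at this
  simpa using this

theorem tc8_eta_pl0 {C c0 : ℝ} {ηP : ℤ × ℤ → Bool → ℝ} {n : ℕ} {G : Geom} {η : G.V × Bool → ℝ} (h : EtaOK C c0 ηP n G η)
    (w : G.V) (d : Bool) (hw : cdist n (G.ι w) ≤ c0 * n) :
    |elift η (G.ι w) d - ηP (G.ι w - ((n : ℤ), (n : ℤ))) d| ≤ C * (n : ℝ)⁻¹ := by
  have := h.plane 0 (by omega) (fun i => i.elim0) w d hw
  rw [tc8_difs_zero] at this
  simpa using this

theorem tc8_cdist_nonneg (n : ℕ) (x : ℤ × ℤ) : 0 ≤ cdist n x := le_max_of_le_left (abs_nonneg _)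

theorem tc8_elift_bwd_eq {G : Geom} (η : G.V × Bool → ℝ) (x : G.V) (d : Bool) (h : G.π (G.ι x - bdir d) ≠ x) :
    elift η (G.ι x - bdir d) d = elift η (G.ι (G.π (G.ι x - bdir d))) d := by
  rw [tc_elift_bwd, if_neg h, tc_elift_fwd, tc_stp_back x d h, if_neg (Ne.symm h)]

theorem tc8_elift_sq_le {C c0 : ℝ} {ηP : ℤ × ℤ → Bool → ℝ} {n : ℕ} {G : Geom} {η : G.V × Bool → ℝ} (h : EtaOK C c0 ηP n G η)
    (w : G.V) (d : Bool) (t : ℝ) (ht : 0 < t) (hw : t ≤ 1 + cdist n (G.ι w)) : elift η (G.ι w) d ^ 2 ≤ C ^ 2 / t ^ 2 := by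
  have h1 := tc8_eta_dec0 h w d
  have hs : 0 < 1 + cdist n (G.ι w) := lt_of_lt_of_le ht hw
  have hC : 0 ≤ C := by
    by_contra hc
    push Not at hc
    have : C * (1 + cdist n (G.ι w))⁻¹ < 0 := mul_neg_of_neg_of_pos hc (inv_pos.2 hs)
    linarith [abs_nonneg (elift η (G.ι w) d)]
  have h2 : C * (1 + cdist n (G.ι w))⁻¹ ≤ C * t⁻¹ := mul_le_mul_of_nonneg_left (inv_anti₀ ht hw) hC
  have h3 : |elift η (G.ι w) d| ≤ C * t⁻¹ := h1.trans h2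
  calc elift η (G.ι w) d ^ 2 = |elift η (G.ι w) d| ^ 2 := (sq_abs _).symm
    _ ≤ (C * t⁻¹) ^ 2 := pow_le_pow_left₀ (abs_nonneg _) h3 2
    _ = C ^ 2 / t ^ 2 := by rw [mul_pow, inv_pow]; rfl

/-- `y` is `x` or a neighbour of `x` -/
def tc8Near {G : Geom} (x y : G.V) : Prop :=
  (y.1 : ℕ) ≤ (x.1 : ℕ) + 1 ∧ (x.1 : ℕ) ≤ (y.1 : ℕ) + 1 ∧ (y.2 : ℕ) ≤ (x.2 : ℕ) + 1 ∧ (x.2 : ℕ) ≤ (y.2 : ℕ) + 1

theorem tc8_near_self {G : Geom} (x : G.V) : tc8Near x x := ⟨by omega, by omega, by omega, by omega⟩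

theorem tc8_near_bwd {G : Geom} (hG : G.bc = BC.free) (x : G.V) (d : Bool) : tc8Near x (G.π (G.ι x - bdir d)) := by
  rw [sub_eq_add_neg]
  exact tc_nb_near hG x (-bdir d) (by cases d <;> simp [bdir]) (by cases d <;> simp [bdir])

/-- the four terms of the allocation at one site -/
theorem tc8_site_le {C c0 : ℝ} {ηP : ℤ × ℤ → Bool → ℝ} {n : ℕ} {G : Geom} {η : G.V × Bool → ℝ} (hG : G.bc = BC.free)
    (h : EtaOK C c0 ηP n G η) (x : G.V) (t : ℝ) (ht : 0 < t) (hw : ∀ y : G.V, tc8Near x y → t ≤ 1 + cdist n (G.ι y)) :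
    ∑ d : Bool, (elift η (G.ι x) d ^ 2 + elift η (G.ι x - bdir d) d ^ 2) ≤ 4 * (C ^ 2 / t ^ 2) := by
  have h1 : ∀ d : Bool, elift η (G.ι x) d ^ 2 + elift η (G.ι x - bdir d) d ^ 2 ≤ 2 * (C ^ 2 / t ^ 2) := by
    intro d
    have a1 := tc8_elift_sq_le h x d t ht (hw x (tc8_near_self x))
    have a2 : elift η (G.ι x - bdir d) d ^ 2 ≤ C ^ 2 / t ^ 2 := by
      by_cases hx : G.π (G.ι x - bdir d) = x
      · rw [tc_elift_bwd, if_pos hx]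
        have : 0 ≤ C ^ 2 / t ^ 2 := by positivity
        simpa using this
      · rw [tc8_elift_bwd_eq η x d hx]
        exact tc8_elift_sq_le h _ d t ht (hw _ (tc8_near_bwd hG x d))
    linarith
  rw [Fintype.sum_bool]
  linarith [h1 true, h1 false]

theorem tc8_cdist_iota {G : Geom} (n : ℕ) (y : G.V) :
    cdist n (G.ι y) = max |((y.1 : ℕ) : ℝ) - n| |((y.2 : ℕ) : ℝ) - n| := by
  simp [cdist, Geom.ι]

theorem tc8_wall_far (Q : Sq) (H0 : ℕ) (h4 : 4 * H0 ≤ Q.D) (x y : Q.G.V) (hbad : ¬ Q.WallFree H0 {Q.g.blk x})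
    (hn : tc8Near x y) : (Q.n : ℝ) / 2 ≤ 1 + cdist Q.n (Q.G.ι y) := by
  obtain ⟨n1, n2, n3, n4⟩ := hn
  have hm := Q.m_pos
  have ha : 4 * (H0 * Q.m) ≤ Q.n := by
    have := Nat.mul_le_mul_right Q.m h4
    unfold Sq.n
    rw [Nat.mul_assoc] at this
    exact this
  have key : ∀ i j : ℕ, j ≤ i + 1 → i ≤ j + 1 → (i / Q.m < H0 ∨ 2 * Q.D ≤ i / Q.m + H0) → (Q.n : ℝ) / 2 ≤ 1 + |(j : ℝ) - Q.n| := by
    intro i j h1 h2 h
    rcases h with h | h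
    · have h5 : i < H0 * Q.m := (Nat.div_lt_iff_lt_mul hm).1 h
      have h6 : 4 * j ≤ Q.n + 4 := by omega
      have h7 : (4 : ℝ) * j ≤ Q.n + 4 := by exact_mod_cast h6
      have h8 := neg_le_abs ((j : ℝ) - Q.n)
      have h9 : (0 : ℝ) ≤ Q.n := Nat.cast_nonneg _
      linarith
    · have h5 : i / Q.m * Q.m ≤ i := Nat.div_mul_le_self i Q.m
      have h6 : 2 * Q.D * Q.m ≤ (i / Q.m + H0) * Q.m := Nat.mul_le_mul_right _ h
      have h7 : 2 * Q.n ≤ i + H0 * Q.m := by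
        unfold Sq.n
        rw [Nat.add_mul] at h6
        rw [← Nat.mul_assoc]
        omega
      have h8 : 7 * Q.n ≤ 4 * j + 4 := by omega
      have h9 : (7 : ℝ) * Q.n ≤ 4 * j + 4 := by exact_mod_cast h8
      have h10 := le_abs_self ((j : ℝ) - Q.n)
      have h11 : (0 : ℝ) ≤ Q.n := Nat.cast_nonneg _
      linarith
  rw [tc8_cdist_iota]
  have hb : ((x.1 : ℕ) / Q.m < H0 ∨ 2 * Q.D ≤ (x.1 : ℕ) / Q.m + H0) ∨ ((x.2 : ℕ) / Q.m < H0 ∨ 2 * Q.D ≤ (x.2 : ℕ) / Q.m + H0) := by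
    by_contra hc
    push Not at hc
    apply hbad
    intro b hb
    rw [Finset.mem_singleton] at hb
    subst hb
    have c1 : ((Q.g.blk x).1 : ℕ) = (x.1 : ℕ) / Q.m := rfl
    have c2 : ((Q.g.blk x).2 : ℕ) = (x.2 : ℕ) / Q.m := rfl
    rw [c1, c2]
    omega
  rcases hb with hb | hb
  · have := key _ _ n1 n2 hb
    have h2 := le_max_left |((y.1 : ℕ) : ℝ) - Q.n| |((y.2 : ℕ) : ℝ) - Q.n|
    linarith
  · have := key _ _ n3 n4 hb
    have h2 := le_max_right |((y.1 : ℕ) : ℝ) - Q.n| |((y.2 : ℕ) : ℝ) - Q.n|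
    linarith

theorem tc8_card_lt (M a : ℕ) : (Finset.univ.filter (fun i : Fin M => (i : ℕ) < a)).card ≤ a := by
  have := Finset.card_le_card_of_injOn (s := Finset.univ.filter (fun i : Fin M => (i : ℕ) < a)) (t := Finset.range a)
    (fun i => (i : ℕ)) (fun i hi => by
      have := (Finset.mem_filter.1 (Finset.mem_coe.1 hi)).2
      simpa using this) (fun i _ j _ h => Fin.ext h)
  simpa using this

theorem tc8_card_ge (M a : ℕ) : (Finset.univ.filter (fun i : Fin M => M ≤ (i : ℕ) + a)).card ≤ a := by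
  have := Finset.card_le_card_of_injOn (s := Finset.univ.filter (fun i : Fin M => M ≤ (i : ℕ) + a)) (t := Finset.range a)
    (fun i => M - 1 - (i : ℕ)) (fun i hi => by
      have h1 := (Finset.mem_filter.1 (Finset.mem_coe.1 hi)).2
      have h2 := i.2
      simp only [Finset.coe_range, Set.mem_Iio]
      omega) (fun i _ j _ h => Fin.ext (by
      have h1 := i.2
      have h2 := j.2
      simp only at h
      omega))
  simpa using this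

theorem tc8_card_strip (M a : ℕ) (p : Fin M → Prop) [DecidablePred p] (hp : (Finset.univ.filter p).card ≤ a) :
    (Finset.univ.filter (fun x : Fin M × Fin M => p x.1)).card ≤ a * M ∧
      (Finset.univ.filter (fun x : Fin M × Fin M => p x.2)).card ≤ a * M := by
  have e1 : Finset.univ.filter (fun x : Fin M × Fin M => p x.1) = (Finset.univ.filter p) ×ˢ Finset.univ := by
    ext x; simp
  have e2 : Finset.univ.filter (fun x : Fin M × Fin M => p x.2) = Finset.univ ×ˢ (Finset.univ.filter p) := by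
    ext x; simp
  rw [e1, e2, Finset.card_product, Finset.card_product, Finset.card_univ, Fintype.card_fin]
  exact ⟨Nat.mul_le_mul_right _ hp, by rw [Nat.mul_comm]; exact Nat.mul_le_mul_right _ hp⟩

/-- sums of allocations over a class of blocks as sums over sites -/
theorem tc8_alloc_filter (Q : Sq) (η : Q.G.V × Bool → ℝ) (p : Q.g.I → Prop) [DecidablePred p]
    [DecidablePred fun x : Q.G.V => p (Q.g.blk x)] :
    ∑ B ∈ Finset.univ.filter p, alloc Q η B = (1 / 2) * ∑ x ∈ Finset.univ.filter (fun x : Q.G.V => p (Q.g.blk x)),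
      ∑ d : Bool, (elift η (Q.G.ι x) d ^ 2 + elift η (Q.G.ι x - bdir d) d ^ 2) := by
  unfold alloc
  rw [← Finset.mul_sum]
  congr 1
  have := Finset.sum_fiberwise_of_maps_to (s := Finset.univ.filter (fun x : Q.G.V => p (Q.g.blk x)))
    (t := Finset.univ.filter p) (g := Q.g.blk) (fun x hx => by
      have := (Finset.mem_filter.1 hx).2
      exact Finset.mem_filter.2 ⟨Finset.mem_univ _, this⟩)
    (fun x => ∑ d : Bool, (elift η (Q.G.ι x) d ^ 2 + elift η (Q.G.ι x - bdir d) d ^ 2))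
  rw [← this]
  refine Finset.sum_congr rfl fun B hB => ?_
  refine Finset.sum_congr ?_ fun _ _ => rfl
  have hB' := (Finset.mem_filter.1 hB).2
  ext x
  simp only [Grid.sites, Finset.mem_filter, Finset.mem_univ, true_and, Finset.mem_singleton]
  constructor
  · intro h; exact ⟨by rw [h]; exact hB', h⟩
  · intro h; exact h.2

open Classical in
theorem tc8_wall_card (Q : Sq) (H0 : ℕ) :
    (Finset.univ.filter (fun x : Q.G.V => ¬ Q.WallFree H0 {Q.g.blk x})).card ≤ 4 * (H0 * Q.m * (2 * Q.n)) := by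
  have hm := Q.m_pos
  have hM : Q.G.M = 2 * Q.n := rfl
  have s1 := tc8_card_strip Q.G.M (H0 * Q.m) _ (tc8_card_lt Q.G.M (H0 * Q.m))
  have s2 := tc8_card_strip Q.G.M (H0 * Q.m) _ (tc8_card_ge Q.G.M (H0 * Q.m))
  have hsub : Finset.univ.filter (fun x : Q.G.V => ¬ Q.WallFree H0 {Q.g.blk x}) ⊆
      ((Finset.univ.filter (fun x : Fin Q.G.M × Fin Q.G.M => (x.1 : ℕ) < H0 * Q.m)) ∪
        (Finset.univ.filter (fun x : Fin Q.G.M × Fin Q.G.M => Q.G.M ≤ (x.1 : ℕ) + H0 * Q.m))) ∪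
      ((Finset.univ.filter (fun x : Fin Q.G.M × Fin Q.G.M => (x.2 : ℕ) < H0 * Q.m)) ∪
        (Finset.univ.filter (fun x : Fin Q.G.M × Fin Q.G.M => Q.G.M ≤ (x.2 : ℕ) + H0 * Q.m))) := by
    intro x hx
    have hbad := (Finset.mem_filter.1 hx).2
    simp only [Finset.mem_union, Finset.mem_filter, Finset.mem_univ, true_and]
    by_contra hc
    push Not at hc
    obtain ⟨⟨c1, c2⟩, c3, c4⟩ := hc
    apply hbad
    intro b hb
    rw [Finset.mem_singleton] at hb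
    subst hb
    have d1 : ((Q.g.blk x).1 : ℕ) = (x.1 : ℕ) / Q.m := rfl
    have d2 : ((Q.g.blk x).2 : ℕ) = (x.2 : ℕ) / Q.m := rfl
    rw [d1, d2]
    have key : ∀ i : ℕ, H0 * Q.m ≤ i → i + H0 * Q.m < Q.G.M → H0 ≤ i / Q.m ∧ i / Q.m + H0 < 2 * Q.D := by
      intro i h1 h2
      refine ⟨(Nat.le_div_iff_mul_le hm).2 h1, ?_⟩
      have h3 : (i + H0 * Q.m) / Q.m < 2 * Q.D := by
        rw [Nat.div_lt_iff_lt_mul hm]
        have : 2 * Q.D * Q.m = Q.G.M := by rw [hM]; unfold Sq.n; ring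
        omega
      rwa [Nat.add_mul_div_right _ _ hm] at h3
    exact ⟨(key _ c1 c2).1, (key _ c1 c2).2, (key _ c3 c4).1, (key _ c3 c4).2⟩
  have h1 := Finset.card_le_card hsub
  have h2 := Finset.card_union_le
    ((Finset.univ.filter (fun x : Fin Q.G.M × Fin Q.G.M => (x.1 : ℕ) < H0 * Q.m)) ∪
        (Finset.univ.filter (fun x : Fin Q.G.M × Fin Q.G.M => Q.G.M ≤ (x.1 : ℕ) + H0 * Q.m)))
    ((Finset.univ.filter (fun x : Fin Q.G.M × Fin Q.G.M => (x.2 : ℕ) < H0 * Q.m)) ∪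
        (Finset.univ.filter (fun x : Fin Q.G.M × Fin Q.G.M => Q.G.M ≤ (x.2 : ℕ) + H0 * Q.m)))
  have h3 := Finset.card_union_le (Finset.univ.filter (fun x : Fin Q.G.M × Fin Q.G.M => (x.1 : ℕ) < H0 * Q.m))
        (Finset.univ.filter (fun x : Fin Q.G.M × Fin Q.G.M => Q.G.M ≤ (x.1 : ℕ) + H0 * Q.m))
  have h4 := Finset.card_union_le (Finset.univ.filter (fun x : Fin Q.G.M × Fin Q.G.M => (x.2 : ℕ) < H0 * Q.m))
        (Finset.univ.filter (fun x : Fin Q.G.M × Fin Q.G.M => Q.G.M ≤ (x.2 : ℕ) + H0 * Q.m))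
  have t1 := s1.1
  have t2 := s1.2
  have t3 := s2.1
  have t4 := s2.2
  show _ ≤ 4 * (H0 * Q.m * Q.G.M)
  omega

open Classical in
/-- the wall strip: `≤ 16 H0 D` blocks, each of energy `≤ C / D²` -/
theorem tc_alloc_wall (C c0 : ℝ) (ηP : ℤ × ℤ → Bool → ℝ) (H0 : ℕ) : ∃ C' : ℝ, ∀ (Q : Sq), 4 * H0 ≤ Q.D → ∀ η : Q.G.V × Bool → ℝ,
    EtaOK C c0 ηP Q.n Q.G η → ∑ B ∈ Finset.univ.filter (fun B : Q.g.I => ¬ Q.WallFree H0 {B}), alloc Q η B ≤ C' / Q.D := by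
  refine ⟨64 * C ^ 2 * H0, fun Q h4 η hη => ?_⟩
  rw [tc8_alloc_filter Q η (fun B => ¬ Q.WallFree H0 {B})]
  have hn : (0 : ℝ) < Q.n := by exact_mod_cast Q.n_pos
  have hD : (0 : ℝ) < Q.D := by exact_mod_cast Q.hD
  have hm : (0 : ℝ) < Q.m := by exact_mod_cast Q.m_pos
  have h1 : ∀ x ∈ Finset.univ.filter (fun x : Q.G.V => ¬ Q.WallFree H0 {Q.g.blk x}),
      ∑ d : Bool, (elift η (Q.G.ι x) d ^ 2 + elift η (Q.G.ι x - bdir d) d ^ 2) ≤ 4 * (C ^ 2 / ((Q.n : ℝ) / 2) ^ 2) := by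
    intro x hx
    exact tc8_site_le rfl hη x _ (by positivity) fun y hy => tc8_wall_far Q H0 h4 x y (Finset.mem_filter.1 hx).2 hy
  have h2 := Finset.sum_le_card_nsmul _ _ _ h1
  rw [nsmul_eq_mul] at h2
  have h3 : ((Finset.univ.filter (fun x : Q.G.V => ¬ Q.WallFree H0 {Q.g.blk x})).card : ℝ) ≤ 4 * (H0 * Q.m * (2 * Q.n)) := by
    exact_mod_cast tc8_wall_card Q H0
  have h4 : (0 : ℝ) ≤ 4 * (C ^ 2 / ((Q.n : ℝ) / 2) ^ 2) := by positivity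
  have h5 := mul_le_mul_of_nonneg_right h3 h4
  have hnD : (Q.n : ℝ) = Q.D * Q.m := by unfold Sq.n; push_cast; ring
  have h6 : 1 / 2 * (4 * (H0 * Q.m * (2 * Q.n)) * (4 * (C ^ 2 / ((Q.n : ℝ) / 2) ^ 2))) = 64 * C ^ 2 * H0 / Q.D := by
    rw [hnD]
    field_simp
    ring
  rw [← h6]
  linarith

/-- distance of a coordinate to the centre -/
def tc8Dl (n : ℕ) {M : ℕ} (i : Fin M) : ℕ := (((i : ℕ) : ℤ) - n).natAbs

theorem tc8_card_dl (n M k : ℕ) : (Finset.univ.filter (fun j : Fin M => tc8Dl n j ≤ k)).card ≤ 2 * k + 1 := by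
  have := Finset.card_le_card_of_injOn (s := Finset.univ.filter (fun j : Fin M => tc8Dl n j ≤ k))
    (t := Finset.Icc ((n : ℤ) - k) (n + k)) (fun j => ((j : ℕ) : ℤ)) (fun j hj => by
      have h1 := (Finset.mem_filter.1 (Finset.mem_coe.1 hj)).2
      unfold tc8Dl at h1
      simp only [Finset.coe_Icc, Set.mem_Icc]
      omega) (fun i _ j _ h => Fin.ext (by simpa using h))
  rw [Int.card_Icc] at this
  omega

/-- `∑ 1 / (1 + |x|_∞) ≤ 4 (2 R + 1)` over a square of radius `R` -/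
theorem tc8_weight_sum (n M R : ℕ) (S : Finset (Fin M × Fin M)) (hS : ∀ x ∈ S, tc8Dl n x.1 ≤ R ∧ tc8Dl n x.2 ≤ R) :
    ∑ x ∈ S, (1 + max (tc8Dl n x.1 : ℝ) (tc8Dl n x.2 : ℝ))⁻¹ ≤ 4 * (2 * R + 1) := by
  obtain ⟨T, hT⟩ : ∃ T : Finset (Fin M), T = Finset.univ.filter (fun i : Fin M => tc8Dl n i ≤ R) := ⟨_, rfl⟩
  have hsub : S ⊆ T ×ˢ T := by
    intro x hx
    rw [Finset.mem_product, hT]
    exact ⟨Finset.mem_filter.2 ⟨Finset.mem_univ _, (hS x hx).1⟩, Finset.mem_filter.2 ⟨Finset.mem_univ _, (hS x hx).2⟩⟩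
  have h1 : ∑ x ∈ S, (1 + max (tc8Dl n x.1 : ℝ) (tc8Dl n x.2 : ℝ))⁻¹ ≤
      ∑ x ∈ T ×ˢ T, (1 + max (tc8Dl n x.1 : ℝ) (tc8Dl n x.2 : ℝ))⁻¹ :=
    Finset.sum_le_sum_of_subset_of_nonneg hsub fun x _ _ => by positivity
  rw [Finset.sum_product] at h1
  obtain ⟨u, hu⟩ : ∃ u : Fin M → Fin M → ℝ, u = fun i j => if tc8Dl n j ≤ tc8Dl n i then (1 + (tc8Dl n i : ℝ))⁻¹ else 0 := ⟨_, rfl⟩
  have hu0 : ∀ i j, 0 ≤ u i j := by
    intro i j
    rw [hu]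
    simp only
    split_ifs
    · positivity
    · exact le_rfl
  have h2 : ∀ i j : Fin M, (1 + max (tc8Dl n i : ℝ) (tc8Dl n j : ℝ))⁻¹ ≤ u i j + u j i := by
    intro i j
    rcases le_total (tc8Dl n j) (tc8Dl n i) with h | h
    · have e : u i j = (1 + (tc8Dl n i : ℝ))⁻¹ := by rw [hu]; simp only; rw [if_pos h]
      rw [max_eq_left (by exact_mod_cast h), e]
      linarith [hu0 j i]
    · have e : u j i = (1 + (tc8Dl n j : ℝ))⁻¹ := by rw [hu]; simp only; rw [if_pos h]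
      rw [max_eq_right (by exact_mod_cast h), e]
      linarith [hu0 i j]
  have h3 : ∑ i ∈ T, ∑ j ∈ T, (1 + max (tc8Dl n i : ℝ) (tc8Dl n j : ℝ))⁻¹ ≤ ∑ i ∈ T, ∑ j ∈ T, u i j + ∑ i ∈ T, ∑ j ∈ T, u i j := by
    calc ∑ i ∈ T, ∑ j ∈ T, (1 + max (tc8Dl n i : ℝ) (tc8Dl n j : ℝ))⁻¹ ≤ ∑ i ∈ T, ∑ j ∈ T, (u i j + u j i) :=
          Finset.sum_le_sum fun i _ => Finset.sum_le_sum fun j _ => h2 i j
      _ = ∑ i ∈ T, ∑ j ∈ T, u i j + ∑ i ∈ T, ∑ j ∈ T, u j i := by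
          simp only [Finset.sum_add_distrib]
      _ = ∑ i ∈ T, ∑ j ∈ T, u i j + ∑ i ∈ T, ∑ j ∈ T, u i j := by
          congr 1
          exact Finset.sum_comm
  have h4 : ∀ i ∈ T, ∑ j ∈ T, u i j ≤ 2 := by
    intro i _
    rw [hu]
    simp only
    rw [← Finset.sum_filter, Finset.sum_const, nsmul_eq_mul]
    have c1 : (T.filter (fun j => tc8Dl n j ≤ tc8Dl n i)).card ≤ 2 * tc8Dl n i + 1 := by
      refine le_trans (Finset.card_le_card ?_) (tc8_card_dl n M (tc8Dl n i))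
      intro j hj
      exact Finset.mem_filter.2 ⟨Finset.mem_univ _, (Finset.mem_filter.1 hj).2⟩
    have c2 : ((T.filter (fun j => tc8Dl n j ≤ tc8Dl n i)).card : ℝ) ≤ 2 * (tc8Dl n i : ℝ) + 1 := by exact_mod_cast c1
    have c3 : (0 : ℝ) ≤ (tc8Dl n i : ℝ) := Nat.cast_nonneg _
    rw [← div_eq_mul_inv, div_le_iff₀ (by positivity)]
    linarith
  have h5 : ∑ i ∈ T, ∑ j ∈ T, u i j ≤ 2 * (2 * R + 1) := by
    have := Finset.sum_le_card_nsmul T _ 2 h4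
    rw [nsmul_eq_mul] at this
    have c1 : (T.card : ℝ) ≤ 2 * R + 1 := by
      rw [hT]
      exact_mod_cast tc8_card_dl n M R
    linarith
  linarith

theorem tc8_cdist_dl {G : Geom} (n : ℕ) (y : G.V) : cdist n (G.ι y) = max (tc8Dl n y.1 : ℝ) (tc8Dl n y.2 : ℝ) := by
  have h : ∀ i : Fin G.M, (tc8Dl n i : ℝ) = |((i : ℕ) : ℝ) - n| := by
    intro i
    unfold tc8Dl
    rw [Nat.cast_natAbs, Int.cast_abs]
    push_cast
    rfl
  rw [h, h]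
  simp [cdist, Geom.ι]

theorem tc8_pair_m (P : SqPair) : P.Q1.m = P.Q0.m := by
  unfold Sq.m
  rw [P.hr, P.hs]

theorem tc8_pair_n (P : SqPair) : P.Q1.n - P.Q0.n = (P.Q1.D - P.Q0.D) * P.Q0.m := by
  unfold Sq.n
  rw [tc8_pair_m, Nat.sub_mul]

theorem tc8_blk_eV (P : SqPair) (x : P.Q0.G.V) : P.Q1.g.blk (P.eV x) = P.eI (P.Q0.g.blk x) := by
  have hm := P.Q0.m_pos
  have key : ∀ i : ℕ, (i + (P.Q1.n - P.Q0.n)) / P.Q1.m = i / P.Q0.m + (P.Q1.D - P.Q0.D) := by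
    intro i
    rw [tc8_pair_n, tc8_pair_m, Nat.add_mul_div_right _ _ hm]
  apply Prod.ext
  · exact Fin.ext (key _)
  · exact Fin.ext (key _)

theorem tc8_eV_inj (P : SqPair) : Function.Injective P.eV := by
  intro x y h
  have h1 : ((P.eV x).1 : ℕ) = ((P.eV y).1 : ℕ) := by rw [h]
  have h2 : ((P.eV x).2 : ℕ) = ((P.eV y).2 : ℕ) := by rw [h]
  have e1 : ((P.eV x).1 : ℕ) = (x.1 : ℕ) + (P.Q1.n - P.Q0.n) := rfl
  have e2 : ((P.eV x).2 : ℕ) = (x.2 : ℕ) + (P.Q1.n - P.Q0.n) := rfl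
  have e3 : ((P.eV y).1 : ℕ) = (y.1 : ℕ) + (P.Q1.n - P.Q0.n) := rfl
  have e4 : ((P.eV y).2 : ℕ) = (y.2 : ℕ) + (P.Q1.n - P.Q0.n) := rfl
  apply Prod.ext
  · exact Fin.ext (by omega)
  · exact Fin.ext (by omega)

theorem tc8_eI_inj (P : SqPair) : Function.Injective P.eI := by
  intro x y h
  have h1 : ((P.eI x).1 : ℕ) = ((P.eI y).1 : ℕ) := by rw [h]
  have h2 : ((P.eI x).2 : ℕ) = ((P.eI y).2 : ℕ) := by rw [h]
  have e1 : ((P.eI x).1 : ℕ) = (x.1 : ℕ) + (P.Q1.D - P.Q0.D) := rfl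
  have e2 : ((P.eI x).2 : ℕ) = (x.2 : ℕ) + (P.Q1.D - P.Q0.D) := rfl
  have e3 : ((P.eI y).1 : ℕ) = (y.1 : ℕ) + (P.Q1.D - P.Q0.D) := rfl
  have e4 : ((P.eI y).2 : ℕ) = (y.2 : ℕ) + (P.Q1.D - P.Q0.D) := rfl
  apply Prod.ext
  · exact Fin.ext (by omega)
  · exact Fin.ext (by omega)

open Classical in
theorem tc8_sites_eI (P : SqPair) (B : P.Q0.g.I) : P.Q1.g.sites {P.eI B} = (P.Q0.g.sites {B}).image P.eV := by
  have hm := P.Q0.m_pos
  ext x'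
  simp only [Grid.sites, Finset.mem_filter, Finset.mem_univ, true_and, Finset.mem_singleton, Finset.mem_image]
  constructor
  · intro h
    have h1 : ((P.Q1.g.blk x').1 : ℕ) = (B.1 : ℕ) + (P.Q1.D - P.Q0.D) := by rw [h]; rfl
    have h2 : ((P.Q1.g.blk x').2 : ℕ) = (B.2 : ℕ) + (P.Q1.D - P.Q0.D) := by rw [h]; rfl
    have c1 : ((P.Q1.g.blk x').1 : ℕ) = (x'.1 : ℕ) / P.Q1.m := rfl
    have c2 : ((P.Q1.g.blk x').2 : ℕ) = (x'.2 : ℕ) / P.Q1.m := rfl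
    rw [c1, tc8_pair_m] at h1
    rw [c2, tc8_pair_m] at h2
    have key : ∀ (i b : ℕ), b < 2 * P.Q0.D → i / P.Q0.m = b + (P.Q1.D - P.Q0.D) →
        (P.Q1.n - P.Q0.n) ≤ i ∧ i - (P.Q1.n - P.Q0.n) < 2 * P.Q0.n := by
      intro i b hb hi
      rw [tc8_pair_n]
      have a1 : (b + (P.Q1.D - P.Q0.D)) * P.Q0.m ≤ i := by rw [← hi]; exact Nat.div_mul_le_self _ _
      have a2 : i < (b + (P.Q1.D - P.Q0.D) + 1) * P.Q0.m := by
        rw [← hi]; exact (Nat.div_lt_iff_lt_mul hm).1 (Nat.lt_succ_self _)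
      have a3 : (b + 1) * P.Q0.m ≤ 2 * P.Q0.D * P.Q0.m := Nat.mul_le_mul_right _ (by omega)
      have a4 : 2 * P.Q0.n = 2 * P.Q0.D * P.Q0.m := by unfold Sq.n; ring
      have a5 : (b + (P.Q1.D - P.Q0.D)) * P.Q0.m = b * P.Q0.m + (P.Q1.D - P.Q0.D) * P.Q0.m := Nat.add_mul _ _ _
      have a6 : (b + (P.Q1.D - P.Q0.D) + 1) * P.Q0.m = (b + 1) * P.Q0.m + (P.Q1.D - P.Q0.D) * P.Q0.m := by ring
      constructor <;> omega
    obtain ⟨k1, k2⟩ := key _ _ B.1.2 h1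
    obtain ⟨k3, k4⟩ := key _ _ B.2.2 h2
    refine ⟨(⟨(x'.1 : ℕ) - (P.Q1.n - P.Q0.n), k2⟩, ⟨(x'.2 : ℕ) - (P.Q1.n - P.Q0.n), k4⟩), ?_, ?_⟩
    · have e : P.eV (⟨(x'.1 : ℕ) - (P.Q1.n - P.Q0.n), k2⟩, ⟨(x'.2 : ℕ) - (P.Q1.n - P.Q0.n), k4⟩) = x' := by
        apply Prod.ext
        · exact Fin.ext (Nat.sub_add_cancel k1)
        · exact Fin.ext (Nat.sub_add_cancel k3)
      have h3 := tc8_blk_eV P (⟨(x'.1 : ℕ) - (P.Q1.n - P.Q0.n), k2⟩, ⟨(x'.2 : ℕ) - (P.Q1.n - P.Q0.n), k4⟩)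
      rw [e, h] at h3
      exact (tc8_eI_inj P h3).symm
    · apply Prod.ext
      · exact Fin.ext (Nat.sub_add_cancel k1)
      · exact Fin.ext (Nat.sub_add_cancel k3)
  · rintro ⟨x, hx, rfl⟩
    rw [tc8_blk_eV, hx]

theorem tc8_iota_eV (P : SqPair) (x : P.Q0.G.V) :
    P.Q1.G.ι (P.eV x) = P.Q0.G.ι x + (((P.Q1.n - P.Q0.n : ℕ) : ℤ), ((P.Q1.n - P.Q0.n : ℕ) : ℤ)) := by
  apply Prod.ext <;> simp [Geom.ι, SqPair.eV]

theorem tc8_cdist_eV (P : SqPair) (x : P.Q0.G.V) : cdist P.Q1.n (P.Q1.G.ι (P.eV x)) = cdist P.Q0.n (P.Q0.G.ι x) := by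
  rw [tc8_cdist_iota, tc8_cdist_iota]
  have e1 : ((P.eV x).1 : ℕ) = (x.1 : ℕ) + (P.Q1.n - P.Q0.n) := rfl
  have e2 : ((P.eV x).2 : ℕ) = (x.2 : ℕ) + (P.Q1.n - P.Q0.n) := rfl
  rw [e1, e2]
  push_cast [Nat.cast_sub P.n_le]
  congr 2 <;> ring

theorem tc8_centre_eV (P : SqPair) (x : P.Q0.G.V) :
    P.Q1.G.ι (P.eV x) - ((P.Q1.n : ℤ), (P.Q1.n : ℤ)) = P.Q0.G.ι x - ((P.Q0.n : ℤ), (P.Q0.n : ℤ)) := by
  rw [tc8_iota_eV]
  have := P.n_le
  apply Prod.ext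
  · simp only [Prod.fst_sub, Prod.fst_add]; omega
  · simp only [Prod.snd_sub, Prod.snd_add]; omega

theorem tc8_pair_sq {C c0 : ℝ} (hc0 : 0 < c0) {ηP : ℤ × ℤ → Bool → ℝ} (P : SqPair) {η0 : P.Q0.G.V × Bool → ℝ}
    {η1 : P.Q1.G.V × Bool → ℝ} (h0 : EtaOK C c0 ηP P.Q0.n P.Q0.G η0) (h1 : EtaOK C c0 ηP P.Q1.n P.Q1.G η1) (w : P.Q0.G.V) (d : Bool)
    (hw : cdist P.Q0.n (P.Q0.G.ι w) ≤ c0 * P.Q0.n) :
    |elift η1 (P.Q1.G.ι (P.eV w)) d ^ 2 - elift η0 (P.Q0.G.ι w) d ^ 2| ≤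
      4 * C ^ 2 / P.Q0.n * (1 + cdist P.Q0.n (P.Q0.G.ι w))⁻¹ := by
  have hn0 : (0 : ℝ) < P.Q0.n := by exact_mod_cast P.Q0.n_pos
  have hn01 : (P.Q0.n : ℝ) ≤ P.Q1.n := by exact_mod_cast P.n_le
  have hn1 : (0 : ℝ) < P.Q1.n := lt_of_lt_of_le hn0 hn01
  have hs : 0 < 1 + cdist P.Q0.n (P.Q0.G.ι w) := by have := tc8_cdist_nonneg P.Q0.n (P.Q0.G.ι w); linarith
  have a0 := tc8_eta_dec0 h0 w d
  have a1 := tc8_eta_dec0 h1 (P.eV w) d
  rw [tc8_cdist_eV] at a1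
  have b0 := tc8_eta_pl0 h0 w d hw
  have b1 := tc8_eta_pl0 h1 (P.eV w) d (by rw [tc8_cdist_eV]; exact hw.trans (mul_le_mul_of_nonneg_left hn01 hc0.le))
  rw [tc8_centre_eV] at b1
  have hC : 0 ≤ C := by
    by_contra hc
    push Not at hc
    have : C * (P.Q0.n : ℝ)⁻¹ < 0 := mul_neg_of_neg_of_pos hc (inv_pos.2 hn0)
    linarith [abs_nonneg (elift η0 (P.Q0.G.ι w) d - ηP (P.Q0.G.ι w - ((P.Q0.n : ℤ), (P.Q0.n : ℤ))) d)]
  have b1' : |elift η1 (P.Q1.G.ι (P.eV w)) d - ηP (P.Q0.G.ι w - ((P.Q0.n : ℤ), (P.Q0.n : ℤ))) d| ≤ C * (P.Q0.n : ℝ)⁻¹ :=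
    b1.trans (mul_le_mul_of_nonneg_left (inv_anti₀ hn0 hn01) hC)
  have c1 : |elift η1 (P.Q1.G.ι (P.eV w)) d - elift η0 (P.Q0.G.ι w) d| ≤ 2 * (C * (P.Q0.n : ℝ)⁻¹) := by
    have := abs_sub_le (elift η1 (P.Q1.G.ι (P.eV w)) d) (ηP (P.Q0.G.ι w - ((P.Q0.n : ℤ), (P.Q0.n : ℤ))) d) (elift η0 (P.Q0.G.ι w) d)
    rw [abs_sub_comm (ηP (P.Q0.G.ι w - ((P.Q0.n : ℤ), (P.Q0.n : ℤ))) d)] at this
    linarith
  have c2 : |elift η1 (P.Q1.G.ι (P.eV w)) d + elift η0 (P.Q0.G.ι w) d| ≤ 2 * (C * (1 + cdist P.Q0.n (P.Q0.G.ι w))⁻¹) := by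
    have := abs_add_le (elift η1 (P.Q1.G.ι (P.eV w)) d) (elift η0 (P.Q0.G.ι w) d)
    linarith
  have e : elift η1 (P.Q1.G.ι (P.eV w)) d ^ 2 - elift η0 (P.Q0.G.ι w) d ^ 2 =
      (elift η1 (P.Q1.G.ι (P.eV w)) d - elift η0 (P.Q0.G.ι w) d) * (elift η1 (P.Q1.G.ι (P.eV w)) d + elift η0 (P.Q0.G.ι w) d) := by ring
  rw [e, abs_mul]
  calc _ ≤ 2 * (C * (P.Q0.n : ℝ)⁻¹) * (2 * (C * (1 + cdist P.Q0.n (P.Q0.G.ι w))⁻¹)) :=
        mul_le_mul c1 c2 (abs_nonneg _) (by positivity)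
    _ = 4 * C ^ 2 / P.Q0.n * (1 + cdist P.Q0.n (P.Q0.G.ι w))⁻¹ := by
        rw [div_eq_mul_inv]; ring

theorem tc8_iota_bwd {G : Geom} (x : G.V) (d : Bool) (h1 : 1 ≤ (x.1 : ℕ)) (h2 : 1 ≤ (x.2 : ℕ)) :
    G.ι (G.π (G.ι x - bdir d)) = G.ι x - bdir d := by
  have i1 := x.1.2
  have i2 := x.2.2
  apply Prod.ext
  · show (((G.fold ((G.ι x - bdir d).1) : Fin G.M) : ℕ) : ℤ) = _
    refine Reg.regl_fold_in G _ ?_ ?_ <;> cases d <;> simp [Geom.ι, bdir] <;> omega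
  · show (((G.fold ((G.ι x - bdir d).2) : Fin G.M) : ℕ) : ℤ) = _
    refine Reg.regl_fold_in G _ ?_ ?_ <;> cases d <;> simp [Geom.ι, bdir] <;> omega

theorem tc8_cdist_near {G : Geom} (n : ℕ) (x y : G.V) (h : tc8Near x y) :
    cdist n (G.ι y) ≤ cdist n (G.ι x) + 1 ∧ cdist n (G.ι x) ≤ cdist n (G.ι y) + 1 := by
  obtain ⟨h1, h2, h3, h4⟩ := h
  rw [tc8_cdist_iota, tc8_cdist_iota]
  have key : ∀ i j : ℕ, j ≤ i + 1 → i ≤ j + 1 → |(j : ℝ) - n| ≤ |(i : ℝ) - n| + 1 := by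
    intro i j a b
    have a' : (j : ℝ) ≤ i + 1 := by exact_mod_cast a
    have b' : (i : ℝ) ≤ j + 1 := by exact_mod_cast b
    have e : (j : ℝ) - n = ((i : ℝ) - n) + ((j : ℝ) - i) := by ring
    rw [e]
    refine (abs_add_le _ _).trans ?_
    have : |(j : ℝ) - i| ≤ 1 := abs_le.2 ⟨by linarith, by linarith⟩
    linarith
  constructor
  · refine max_le ?_ ?_
    · exact (key _ _ h1 h2).trans (add_le_add_left (le_max_left _ _) _)
    · exact (key _ _ h3 h4).trans (add_le_add_left (le_max_right _ _) _)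
  · refine max_le ?_ ?_
    · exact (key _ _ h2 h1).trans (add_le_add_left (le_max_left _ _) _)
    · exact (key _ _ h4 h3).trans (add_le_add_left (le_max_right _ _) _)

theorem tc8_pair_site {C c0 : ℝ} (hc0 : 0 < c0) {ηP : ℤ × ℤ → Bool → ℝ} (P : SqPair) {η0 : P.Q0.G.V × Bool → ℝ}
    {η1 : P.Q1.G.V × Bool → ℝ} (h0 : EtaOK C c0 ηP P.Q0.n P.Q0.G η0) (h1 : EtaOK C c0 ηP P.Q1.n P.Q1.G η1) (x : P.Q0.G.V)
    (hx1 : 1 ≤ (x.1 : ℕ)) (hx2 : 1 ≤ (x.2 : ℕ)) (hx : cdist P.Q0.n (P.Q0.G.ι x) + 1 ≤ c0 * P.Q0.n) :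
    |∑ d : Bool, (elift η1 (P.Q1.G.ι (P.eV x)) d ^ 2 + elift η1 (P.Q1.G.ι (P.eV x) - bdir d) d ^ 2)
      - ∑ d : Bool, (elift η0 (P.Q0.G.ι x) d ^ 2 + elift η0 (P.Q0.G.ι x - bdir d) d ^ 2)| ≤
      24 * C ^ 2 / P.Q0.n * (1 + cdist P.Q0.n (P.Q0.G.ι x))⁻¹ := by
  have hn0 : (0 : ℝ) < P.Q0.n := by exact_mod_cast P.Q0.n_pos
  have hcx := tc8_cdist_nonneg P.Q0.n (P.Q0.G.ι x)
  have key : ∀ d : Bool, |(elift η1 (P.Q1.G.ι (P.eV x)) d ^ 2 + elift η1 (P.Q1.G.ι (P.eV x) - bdir d) d ^ 2)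
      - (elift η0 (P.Q0.G.ι x) d ^ 2 + elift η0 (P.Q0.G.ι x - bdir d) d ^ 2)| ≤
      12 * C ^ 2 / P.Q0.n * (1 + cdist P.Q0.n (P.Q0.G.ι x))⁻¹ := by
    intro d
    obtain ⟨y, hy⟩ : ∃ y : P.Q0.G.V, y = P.Q0.G.π (P.Q0.G.ι x - bdir d) := ⟨_, rfl⟩
    have e0 : P.Q0.G.ι x - bdir d = P.Q0.G.ι y := by rw [hy, tc8_iota_bwd x d hx1 hx2]
    have e1 : P.Q1.G.ι (P.eV x) - bdir d = P.Q1.G.ι (P.eV y) := by
      rw [tc8_iota_eV, tc8_iota_eV, ← e0]; abel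
    have hnear : tc8Near x y := by rw [hy]; exact tc8_near_bwd rfl x d
    obtain ⟨n1, n2⟩ := tc8_cdist_near P.Q0.n x y hnear
    have hcy := tc8_cdist_nonneg P.Q0.n (P.Q0.G.ι y)
    have a1 := tc8_pair_sq hc0 P h0 h1 x d (by linarith)
    have a2 := tc8_pair_sq hc0 P h0 h1 y d (by linarith)
    rw [e0, e1]
    have a3 : (1 + cdist P.Q0.n (P.Q0.G.ι y))⁻¹ ≤ 2 * (1 + cdist P.Q0.n (P.Q0.G.ι x))⁻¹ := by
      rw [← div_eq_mul_inv, inv_eq_one_div, div_le_div_iff₀ (by linarith) (by linarith)]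
      linarith
    have hK : 0 ≤ 4 * C ^ 2 / P.Q0.n := by positivity
    have a4 := mul_le_mul_of_nonneg_left a3 hK
    have e : (elift η1 (P.Q1.G.ι (P.eV x)) d ^ 2 + elift η1 (P.Q1.G.ι (P.eV y)) d ^ 2)
      - (elift η0 (P.Q0.G.ι x) d ^ 2 + elift η0 (P.Q0.G.ι y) d ^ 2) =
      (elift η1 (P.Q1.G.ι (P.eV x)) d ^ 2 - elift η0 (P.Q0.G.ι x) d ^ 2) +
        (elift η1 (P.Q1.G.ι (P.eV y)) d ^ 2 - elift η0 (P.Q0.G.ι y) d ^ 2) := by ring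
    rw [e]
    refine (abs_add_le _ _).trans ?_
    have e2 : 12 * C ^ 2 / P.Q0.n * (1 + cdist P.Q0.n (P.Q0.G.ι x))⁻¹ =
      4 * C ^ 2 / P.Q0.n * (1 + cdist P.Q0.n (P.Q0.G.ι x))⁻¹ + 4 * C ^ 2 / P.Q0.n * (2 * (1 + cdist P.Q0.n (P.Q0.G.ι x))⁻¹) := by ring
    rw [e2]
    linarith
  rw [← Finset.sum_sub_distrib, Fintype.sum_bool]
  refine (abs_add_le _ _).trans ?_
  have e2 : 24 * C ^ 2 / P.Q0.n * (1 + cdist P.Q0.n (P.Q0.G.ι x))⁻¹ =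
      12 * C ^ 2 / P.Q0.n * (1 + cdist P.Q0.n (P.Q0.G.ι x))⁻¹ + 12 * C ^ 2 / P.Q0.n * (1 + cdist P.Q0.n (P.Q0.G.ι x))⁻¹ := by ring
  rw [e2]
  exact add_le_add (key true) (key false)

theorem tc8_center_near (Q : Sq) (H1 : ℕ) (x : Q.G.V) (hbad : ¬ Q.ShiftGood H1 {Q.g.blk x}) :
    Q.n ≤ (x.1 : ℕ) + H1 * Q.m ∧ (x.1 : ℕ) < Q.n + (H1 + 1) * Q.m ∧ Q.n ≤ (x.2 : ℕ) + H1 * Q.m ∧ (x.2 : ℕ) < Q.n + (H1 + 1) * Q.m := by
  have hm := Q.m_pos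
  unfold Sq.ShiftGood at hbad
  rw [not_not] at hbad
  obtain ⟨⟨a1, ha1, h1⟩, ⟨a2, ha2, h2⟩, ⟨a3, ha3, h3⟩, ⟨a4, ha4, h4⟩⟩ := hbad
  rw [Finset.mem_singleton] at ha1 ha2 ha3 ha4
  subst ha1 ha2 ha3 ha4
  have c1 : ((Q.g.blk x).1 : ℕ) = (x.1 : ℕ) / Q.m := rfl
  have c2 : ((Q.g.blk x).2 : ℕ) = (x.2 : ℕ) / Q.m := rfl
  simp only [c1, c2] at h1 h2 h3 h4
  have key : ∀ i : ℕ, i / Q.m ≤ Q.D + H1 → Q.D ≤ i / Q.m + H1 → Q.n ≤ i + H1 * Q.m ∧ i < Q.n + (H1 + 1) * Q.m := by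
    intro i a b
    have b1 : i / Q.m * Q.m ≤ i := Nat.div_mul_le_self i Q.m
    have b2 : Q.D * Q.m ≤ (i / Q.m + H1) * Q.m := Nat.mul_le_mul_right _ b
    have b3 : i < (Q.D + H1 + 1) * Q.m := (Nat.div_lt_iff_lt_mul hm).1 (by omega)
    have b4 : (Q.D + H1 + 1) * Q.m = Q.D * Q.m + (H1 + 1) * Q.m := by ring
    rw [Nat.add_mul] at b2
    unfold Sq.n
    constructor <;> omega
  exact ⟨(key _ h1 h2).1, (key _ h1 h2).2, (key _ h3 h4).1, (key _ h3 h4).2⟩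

/-- sums over the sites of a class of blocks -/
theorem tc8_sites_filter (Q : Sq) (f : Q.G.V → ℝ) (p : Q.g.I → Prop) [DecidablePred p]
    [DecidablePred fun x : Q.G.V => p (Q.g.blk x)] :
    ∑ B ∈ Finset.univ.filter p, ∑ x ∈ Q.g.sites {B}, f x = ∑ x ∈ Finset.univ.filter (fun x : Q.G.V => p (Q.g.blk x)), f x := by
  have := Finset.sum_fiberwise_of_maps_to (s := Finset.univ.filter (fun x : Q.G.V => p (Q.g.blk x)))
    (t := Finset.univ.filter p) (g := Q.g.blk) (fun x hx => by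
      have := (Finset.mem_filter.1 hx).2
      exact Finset.mem_filter.2 ⟨Finset.mem_univ _, this⟩) f
  rw [← this]
  refine Finset.sum_congr rfl fun B hB => ?_
  refine Finset.sum_congr ?_ fun _ _ => rfl
  have hB' := (Finset.mem_filter.1 hB).2
  ext x
  simp only [Grid.sites, Finset.mem_filter, Finset.mem_univ, true_and, Finset.mem_singleton]
  constructor
  · intro h; exact ⟨by rw [h]; exact hB', h⟩
  · intro h; exact h.2

open Classical in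
/-- the identical central sets: `|η₁² - η₀²| ≤ |η₁ - η₀| (|η₁| + |η₀|) ≤ (2 C / n₀) (2 C / (1 + |x|))`, summed over `|x| ≤ (H1 + 2) m` -/
theorem tc_alloc_center (C c0 : ℝ) (hc0 : 0 < c0) (ηP : ℤ × ℤ → Bool → ℝ) (H1 : ℕ) : ∃ (C' : ℝ) (D1 : ℕ), ∀ P : SqPair, D1 ≤ P.Q0.D →
    ∀ (η0 : P.Q0.G.V × Bool → ℝ) (η1 : P.Q1.G.V × Bool → ℝ), EtaOK C c0 ηP P.Q0.n P.Q0.G η0 → EtaOK C c0 ηP P.Q1.n P.Q1.G η1 →
      ∑ B ∈ Finset.univ.filter (fun B : P.Q0.g.I => ¬ P.Q0.ShiftGood H1 {B}), |alloc P.Q1 η1 (P.eI B) - alloc P.Q0 η0 B| ≤ C' / P.Q0.D := by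
  refine ⟨144 * C ^ 2 * (H1 + 1), max (H1 + 1) ⌈((H1 : ℝ) + 2) / c0⌉₊, fun P hD η0 η1 h0 h1 => ?_⟩
  have hDa : H1 + 1 ≤ P.Q0.D := (le_max_left _ _).trans hD
  have hDb : ((H1 : ℝ) + 2) / c0 ≤ P.Q0.D := (Nat.le_ceil _).trans (by exact_mod_cast (le_max_right _ _).trans hD)
  rw [div_le_iff₀ hc0] at hDb
  have hmN := P.Q0.m_pos
  have hm : (0 : ℝ) < P.Q0.m := by exact_mod_cast hmN
  have hm1 : (1 : ℝ) ≤ P.Q0.m := by exact_mod_cast hmN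
  have hn0 : (0 : ℝ) < P.Q0.n := by exact_mod_cast P.Q0.n_pos
  have hD0 : (0 : ℝ) < P.Q0.D := by exact_mod_cast P.Q0.hD
  have hnD : (P.Q0.n : ℝ) = P.Q0.D * P.Q0.m := by unfold Sq.n; push_cast; ring
  have hnDN : P.Q0.n = P.Q0.D * P.Q0.m := rfl
  -- the central sites
  have hcen : ∀ x : P.Q0.G.V, ¬ P.Q0.ShiftGood H1 {P.Q0.g.blk x} →
      1 ≤ (x.1 : ℕ) ∧ 1 ≤ (x.2 : ℕ) ∧ tc8Dl P.Q0.n x.1 ≤ (H1 + 1) * P.Q0.m ∧ tc8Dl P.Q0.n x.2 ≤ (H1 + 1) * P.Q0.m := by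
    intro x hx
    obtain ⟨a1, a2, a3, a4⟩ := tc8_center_near P.Q0 H1 x hx
    have b1 : (H1 + 1) * P.Q0.m ≤ P.Q0.n := by rw [hnDN]; exact Nat.mul_le_mul_right _ hDa
    have b2 : (H1 + 1) * P.Q0.m = H1 * P.Q0.m + P.Q0.m := Nat.succ_mul _ _
    unfold tc8Dl
    refine ⟨by omega, by omega, by omega, by omega⟩
  -- one block
  have hblk : ∀ B ∈ Finset.univ.filter (fun B : P.Q0.g.I => ¬ P.Q0.ShiftGood H1 {B}), |alloc P.Q1 η1 (P.eI B) - alloc P.Q0 η0 B| ≤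
      ∑ x ∈ P.Q0.g.sites {B}, 12 * C ^ 2 / P.Q0.n * (1 + cdist P.Q0.n (P.Q0.G.ι x))⁻¹ := by
    intro B hB
    have hB' := (Finset.mem_filter.1 hB).2
    unfold alloc
    rw [tc8_sites_eI, Finset.sum_image (fun a _ b _ h => tc8_eV_inj P h), ← mul_sub, ← Finset.sum_sub_distrib, abs_mul,
      abs_of_pos (by norm_num : (0 : ℝ) < 1 / 2)]
    have a1 : |∑ x ∈ P.Q0.g.sites {B},
          (∑ d, (elift η1 (P.Q1.G.ι (P.eV x)) d ^ 2 + elift η1 (P.Q1.G.ι (P.eV x) - bdir d) d ^ 2) -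
            ∑ d, (elift η0 (P.Q0.G.ι x) d ^ 2 + elift η0 (P.Q0.G.ι x - bdir d) d ^ 2))| ≤
        ∑ x ∈ P.Q0.g.sites {B}, 24 * C ^ 2 / P.Q0.n * (1 + cdist P.Q0.n (P.Q0.G.ι x))⁻¹ := by
      refine (Finset.abs_sum_le_sum_abs _ _).trans (Finset.sum_le_sum fun x hx => ?_)
      have hxB : P.Q0.g.blk x = B := Finset.mem_singleton.1 (Finset.mem_filter.1 hx).2
      obtain ⟨c1, c2, c3, c4⟩ := hcen x (by rw [hxB]; exact hB')
      refine tc8_pair_site hc0 P h0 h1 x c1 c2 ?_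
      rw [tc8_cdist_dl]
      have d1 : (tc8Dl P.Q0.n x.1 : ℝ) ≤ (H1 + 1) * P.Q0.m := by exact_mod_cast c3
      have d2 : (tc8Dl P.Q0.n x.2 : ℝ) ≤ (H1 + 1) * P.Q0.m := by exact_mod_cast c4
      have d3 : max (tc8Dl P.Q0.n x.1 : ℝ) (tc8Dl P.Q0.n x.2 : ℝ) ≤ (H1 + 1) * P.Q0.m := max_le d1 d2
      have d4 : ((H1 : ℝ) + 2) * P.Q0.m ≤ P.Q0.D * c0 * P.Q0.m := mul_le_mul_of_nonneg_right hDb hm.le
      rw [hnD]
      nlinarith
    have a2 : ∑ x ∈ P.Q0.g.sites {B}, 12 * C ^ 2 / P.Q0.n * (1 + cdist P.Q0.n (P.Q0.G.ι x))⁻¹ =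
        1 / 2 * ∑ x ∈ P.Q0.g.sites {B}, 24 * C ^ 2 / P.Q0.n * (1 + cdist P.Q0.n (P.Q0.G.ι x))⁻¹ := by
      rw [Finset.mul_sum]
      refine Finset.sum_congr rfl fun x _ => ?_
      ring
    rw [a2]
    linarith
  refine (Finset.sum_le_sum hblk).trans ?_
  rw [tc8_sites_filter P.Q0 (fun x => 12 * C ^ 2 / P.Q0.n * (1 + cdist P.Q0.n (P.Q0.G.ι x))⁻¹) (fun B => ¬ P.Q0.ShiftGood H1 {B}),
    ← Finset.mul_sum]
  have hw : ∑ x ∈ Finset.univ.filter (fun x : P.Q0.G.V => ¬ P.Q0.ShiftGood H1 {P.Q0.g.blk x}), (1 + cdist P.Q0.n (P.Q0.G.ι x))⁻¹ ≤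
      4 * (2 * ((H1 + 1) * P.Q0.m : ℕ) + 1) := by
    have := tc8_weight_sum P.Q0.n P.Q0.G.M ((H1 + 1) * P.Q0.m)
      (Finset.univ.filter (fun x : P.Q0.G.V => ¬ P.Q0.ShiftGood H1 {P.Q0.g.blk x})) (fun x hx => by
        obtain ⟨_, _, c3, c4⟩ := hcen x (Finset.mem_filter.1 hx).2
        exact ⟨c3, c4⟩)
    refine le_trans (le_of_eq ?_) this
    refine Finset.sum_congr rfl fun x _ => ?_
    rw [tc8_cdist_dl]
  have hK : 0 ≤ 12 * C ^ 2 / P.Q0.n := by positivity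
  refine (mul_le_mul_of_nonneg_left hw hK).trans ?_
  push_cast
  have e1 : 144 * C ^ 2 * ((H1 : ℝ) + 1) / P.Q0.D = 12 * C ^ 2 / P.Q0.n * (12 * (((H1 : ℝ) + 1) * P.Q0.m)) := by
    rw [hnD]
    field_simp
    ring
  rw [e1]
  refine mul_le_mul_of_nonneg_left ?_ hK
  have : (1 : ℝ) ≤ ((H1 : ℝ) + 1) * P.Q0.m := by
    have h2 : (0 : ℝ) ≤ H1 := Nat.cast_nonneg _
    nlinarith
  linarith

theorem tc8_bad_iff (Q : Sq) (H1 : ℕ) (B : Q.g.I) : ¬ Q.ShiftGood H1 {B} ↔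
    ((B.1 : ℕ) ≤ Q.D + H1 ∧ Q.D ≤ (B.1 : ℕ) + H1 ∧ (B.2 : ℕ) ≤ Q.D + H1 ∧ Q.D ≤ (B.2 : ℕ) + H1) := by
  simp [Sq.ShiftGood, Sq.InRect]

theorem tc8_wf_iff (Q : Sq) (H0 : ℕ) (B : Q.g.I) : Q.WallFree H0 {B} ↔
    (H0 ≤ (B.1 : ℕ) ∧ (B.1 : ℕ) + H0 < 2 * Q.D ∧ H0 ≤ (B.2 : ℕ) ∧ (B.2 : ℕ) + H0 < 2 * Q.D) := by
  simp [Sq.WallFree]

open Classical in
theorem tc8_split (Q : Sq) (H0 H1 : ℕ) (hD : H0 + H1 + 1 ≤ Q.D) (f : Q.g.I → ℝ) :
    ∑ B, f B = ∑ B ∈ Finset.univ.filter (fun B : Q.g.I => clG Q H0 H1 {B}), f B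
      + ∑ B ∈ Finset.univ.filter (fun B : Q.g.I => ¬ Q.WallFree H0 {B}), f B
      + ∑ B ∈ Finset.univ.filter (fun B : Q.g.I => ¬ Q.ShiftGood H1 {B}), f B := by
  rw [← Finset.sum_filter_add_sum_filter_not Finset.univ (fun B : Q.g.I => Q.WallFree H0 {B}),
    ← Finset.sum_filter_add_sum_filter_not (Finset.univ.filter (fun B : Q.g.I => Q.WallFree H0 {B}))
      (fun B : Q.g.I => Q.ShiftGood H1 {B}), Finset.filter_filter, Finset.filter_filter]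
  have e1 : Finset.univ.filter (fun B : Q.g.I => Q.WallFree H0 {B} ∧ Q.ShiftGood H1 {B}) =
      Finset.univ.filter (fun B : Q.g.I => clG Q H0 H1 {B}) := by
    ext B
    rw [Finset.mem_filter, Finset.mem_filter]
    rfl
  have e2 : Finset.univ.filter (fun B : Q.g.I => Q.WallFree H0 {B} ∧ ¬ Q.ShiftGood H1 {B}) =
      Finset.univ.filter (fun B : Q.g.I => ¬ Q.ShiftGood H1 {B}) := by
    ext B
    simp only [Finset.mem_filter, Finset.mem_univ, true_and]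
    constructor
    · exact fun h => h.2
    · intro h
      refine ⟨?_, h⟩
      rw [tc8_bad_iff] at h
      rw [tc8_wf_iff]
      omega
  rw [e1, e2]
  ring

theorem tc8_alloc_nonneg (Q : Sq) (η : Q.G.V × Bool → ℝ) (B : Q.g.I) : 0 ≤ alloc Q η B := by
  unfold alloc
  refine mul_nonneg (by norm_num) (Finset.sum_nonneg fun x _ => Finset.sum_nonneg fun d _ => ?_)
  positivity

open Classical in
theorem tc8_bad_image (P : SqPair) (H1 : ℕ) (hD : H1 + 1 ≤ P.Q0.D) :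
    Finset.univ.filter (fun B : P.Q1.g.I => ¬ P.Q1.ShiftGood H1 {B}) =
      (Finset.univ.filter (fun B : P.Q0.g.I => ¬ P.Q0.ShiftGood H1 {B})).image P.eI := by
  have hDD := P.hD
  ext B'
  simp only [Finset.mem_filter, Finset.mem_univ, true_and, Finset.mem_image]
  constructor
  · intro h
    rw [tc8_bad_iff] at h
    refine ⟨(⟨(B'.1 : ℕ) - (P.Q1.D - P.Q0.D), by show _ < 2 * P.Q0.D; omega⟩,
      ⟨(B'.2 : ℕ) - (P.Q1.D - P.Q0.D), by show _ < 2 * P.Q0.D; omega⟩), ?_, ?_⟩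
    · rw [tc8_bad_iff]
      simp only
      omega
    · apply Prod.ext
      · exact Fin.ext (by show (B'.1 : ℕ) - (P.Q1.D - P.Q0.D) + (P.Q1.D - P.Q0.D) = _; omega)
      · exact Fin.ext (by show (B'.2 : ℕ) - (P.Q1.D - P.Q0.D) + (P.Q1.D - P.Q0.D) = _; omega)
  · rintro ⟨B, hB, rfl⟩
    rw [tc8_bad_iff] at hB ⊢
    have e1 : ((P.eI B).1 : ℕ) = (B.1 : ℕ) + (P.Q1.D - P.Q0.D) := rfl
    have e2 : ((P.eI B).2 : ℕ) = (B.2 : ℕ) + (P.Q1.D - P.Q0.D) := rfl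
    rw [e1, e2]
    omega

open Classical in
/-- one square -/
theorem tc8_energy_one (a : ℝ) (ha : 0 < a) (H0 H1 : ℕ) (hH1 : 1 ≤ H1) (Q : Sq) (hD : H0 + H1 + 1 ≤ Q.D) (v : Q.G.V → ℝ)
    (lam : Finset Q.g.I → Q.G.V → ℝ) (hl : ∀ X, Q.ShiftGood H1 X → Q.IsLift (Real.sqrt a) v H1 X (lam X)) :
    ∑ B ∈ Finset.univ.filter (fun B : Q.g.I => clG Q H0 H1 {B}), eB Q.g B (lam {B}) =
      (∑ e : Q.G.V × Bool, etaE Q.n v e ^ 2
        - ∑ B ∈ Finset.univ.filter (fun B : Q.g.I => ¬ Q.WallFree H0 {B}), alloc Q (etaE Q.n v) B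
        - ∑ B ∈ Finset.univ.filter (fun B : Q.g.I => ¬ Q.ShiftGood H1 {B}), alloc Q (etaE Q.n v) B) / a := by
  have h1 : ∑ B ∈ Finset.univ.filter (fun B : Q.g.I => clG Q H0 H1 {B}), eB Q.g B (lam {B}) =
      (∑ B ∈ Finset.univ.filter (fun B : Q.g.I => clG Q H0 H1 {B}), alloc Q (etaE Q.n v) B) / a := by
    rw [Finset.sum_div]
    refine Finset.sum_congr rfl fun B hB => ?_
    have hB' : clG Q H0 H1 {B} := (Finset.mem_filter.1 hB).2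
    rw [tc_eB_lift Q (Real.sqrt a) (Real.sqrt_pos.2 ha) v H1 hH1 B (lam {B}) (hl _ hB'.2), Real.sq_sqrt ha.le]
  rw [h1, ← tc_alloc_sum Q v, tc8_split Q H0 H1 hD (alloc Q (etaE Q.n v))]
  congr 1
  ring

open Classical in
/-- **(obs:energy-allocation).**  `𝓘 = {B : {B} ∈ 𝔊}`; complement = wall strip ⊔ central set (disjoint for `D ≥ D1`); the central set of `Q₁` is the image of that of `Q₀` under `e`. -/
theorem tc_energy (a : ℝ) (ha : 0 < a) (H0 H1 : ℕ) (hH1 : 1 ≤ H1) : ∃ (C : ℝ) (D1 : ℕ), ∀ P : SqPair, D1 ≤ P.Q0.D →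
    ∀ (v0 : P.Q0.G.V → ℝ) (v1 : P.Q1.G.V → ℝ), CoCl P.Q0 v0 → CoCl P.Q1 v1 →
    ∀ (lam0 : Finset P.Q0.g.I → P.Q0.G.V → ℝ) (lam1 : Finset P.Q1.g.I → P.Q1.G.V → ℝ),
    (∀ X, P.Q0.ShiftGood H1 X → P.Q0.IsLift (Real.sqrt a) v0 H1 X (lam0 X)) →
    (∀ X, P.Q1.ShiftGood H1 X → P.Q1.IsLift (Real.sqrt a) v1 H1 X (lam1 X)) →
      |(∑ B ∈ Finset.univ.filter (fun B : P.Q1.g.I => clG P.Q1 H0 H1 {B}), eB P.Q1.g B (lam1 {B})
          - ∑ B ∈ Finset.univ.filter (fun B : P.Q0.g.I => clG P.Q0 H0 H1 {B}), eB P.Q0.g B (lam0 {B}))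
        - (∑ e : P.Q1.G.V × Bool, etaE P.Q1.n v1 e ^ 2 - ∑ e : P.Q0.G.V × Bool, etaE P.Q0.n v0 e ^ 2) / a| ≤ C / P.Q0.D := by
  obtain ⟨Ce, c0, ηP, _, hc0, _, _, hok⟩ := tc_eta_ok
  obtain ⟨Cw, hw⟩ := tc_alloc_wall Ce c0 ηP H0
  obtain ⟨Cc, Dc, hc⟩ := tc_alloc_center Ce c0 hc0 ηP H1
  refine ⟨(2 * Cw + Cc) / a, max (max Dc (4 * H0)) (H0 + H1 + 1), fun P hD v0 v1 hv0 hv1 lam0 lam1 hl0 hl1 => ?_⟩
  have hD1 : Dc ≤ P.Q0.D := ((le_max_left _ _).trans (le_max_left _ _)).trans hD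
  have hD2 : 4 * H0 ≤ P.Q0.D := ((le_max_right _ _).trans (le_max_left _ _)).trans hD
  have hD3 : H0 + H1 + 1 ≤ P.Q0.D := (le_max_right _ _).trans hD
  have hDD := P.hD
  have hD0 : (0 : ℝ) < P.Q0.D := by exact_mod_cast P.Q0.hD
  have hD01 : (P.Q0.D : ℝ) ≤ P.Q1.D := by exact_mod_cast hDD
  have hD1' : (0 : ℝ) < P.Q1.D := lt_of_lt_of_le hD0 hD01
  rw [tc8_energy_one a ha H0 H1 hH1 P.Q1 (by omega) v1 lam1 hl1, tc8_energy_one a ha H0 H1 hH1 P.Q0 hD3 v0 lam0 hl0]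
  have w0 := hw P.Q0 hD2 _ (hok P.Q0 v0 hv0)
  have w1 := hw P.Q1 (by omega) _ (hok P.Q1 v1 hv1)
  have w0' : 0 ≤ ∑ B ∈ Finset.univ.filter (fun B : P.Q0.g.I => ¬ P.Q0.WallFree H0 {B}), alloc P.Q0 (etaE P.Q0.n v0) B :=
    Finset.sum_nonneg fun B _ => tc8_alloc_nonneg _ _ _
  have w1' : 0 ≤ ∑ B ∈ Finset.univ.filter (fun B : P.Q1.g.I => ¬ P.Q1.WallFree H0 {B}), alloc P.Q1 (etaE P.Q1.n v1) B :=
    Finset.sum_nonneg fun B _ => tc8_alloc_nonneg _ _ _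
  have hCw : 0 ≤ Cw := by
    have := w0'.trans w0
    rwa [le_div_iff₀ hD0, zero_mul] at this
  have w1'' : ∑ B ∈ Finset.univ.filter (fun B : P.Q1.g.I => ¬ P.Q1.WallFree H0 {B}), alloc P.Q1 (etaE P.Q1.n v1) B ≤ Cw / P.Q0.D :=
    w1.trans (div_le_div_of_nonneg_left hCw hD0 hD01)
  have z := hc P hD1 _ _ (hok P.Q0 v0 hv0) (hok P.Q1 v1 hv1)
  rw [tc8_bad_image P H1 (by omega), Finset.sum_image (fun a _ b _ h => tc8_eI_inj P h)]
  have z' : |∑ B ∈ Finset.univ.filter (fun B : P.Q0.g.I => ¬ P.Q0.ShiftGood H1 {B}), alloc P.Q1 (etaE P.Q1.n v1) (P.eI B)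
      - ∑ B ∈ Finset.univ.filter (fun B : P.Q0.g.I => ¬ P.Q0.ShiftGood H1 {B}), alloc P.Q0 (etaE P.Q0.n v0) B| ≤ Cc / P.Q0.D := by
    rw [← Finset.sum_sub_distrib]
    exact (Finset.abs_sum_le_sum_abs _ _).trans z
  obtain ⟨z1, z2⟩ := abs_le.1 z'
  rw [← sub_div, ← sub_div, abs_div, abs_of_pos ha, div_div, mul_comm a, ← div_div, div_le_div_iff_of_pos_right ha]
  have e : (2 * Cw + Cc) / P.Q0.D = 2 * (Cw / P.Q0.D) + Cc / P.Q0.D := by ring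
  rw [e]
  exact abs_le.2 ⟨by linarith, by linarith⟩

/-! ## 6. LEAF `L-OBS-TC9`: one polymer on one square -/

theorem tc_nab_zero {G : Geom} (r : ℕ) (x : ℤ × ℤ) : nab r (G.lift (0 : G.V → ℝ)) x = 0 := by
  unfold nab
  refine le_antisymm (Finset.sup_le fun a _ => ?_) zero_le
  have h := Hol.difs_nnnorm_le a (G.lift (0 : G.V → ℝ)) 0 (fun y => by simp [Geom.lift]) x
  simpa using h

theorem tc_U_zero {G : Geom} (g : Grid G) (δ : ℝ) (X : Finset g.I) : U g δ X 0 = 0 := by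
  have h1 : ∀ (e : Fin 4) (x : ℤ × ℤ), dif (dir e) (G.lift (0 : G.V → ℝ)) x = 0 := fun e x => by simp [dif, Geom.lift]
  unfold U gE PE TE
  have h2 : ∀ x : g.I, ((g.sites {x}).sup fun _ : G.V => (0 : ℝ≥0)) = 0 := fun x =>
    le_antisymm (Finset.sup_le fun _ _ => le_rfl) zero_le
  simp [h1, tc_nab_zero, h2]

theorem tc_bondE_zero {G : Geom} (D : Finset G.V) : bondE D (0 : G.V → ℝ) = 0 := by
  have h1 : ∀ (e : Fin 4) (x : ℤ × ℤ), dif (dir e) (G.lift (0 : G.V → ℝ)) x = 0 := fun e x => by simp [dif, Geom.lift]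
  unfold bondE
  simp [h1]

theorem tc_zero_le {G : Geom} (g : Grid G) (δ Ctr : ℝ) (hCtr : 0 ≤ Ctr) (X : Finset g.I) :
    U g δ X 0 + bondE (g.Dm X) (0 : G.V → ℝ) ≤ Ctr * X.card := by
  rw [tc_U_zero, tc_bondE_zero, add_zero]
  positivity

theorem Std.ω_pos {fx : Fix} (hs : Std fx) : 0 < fx.p.ω := by
  rw [hs.ω_eq]
  have : 0 < fx.α := Real.sqrt_pos.2 fx.o.a_pos
  have := Real.pi_pos
  positivity

theorem tc_hadd (o : ObsPar) (Q : Sq) (V : Extra Q.g) (hV : IsObs o Q.c Q.g V) :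
    ∀ (X X' : Finset Q.g.I) (φ : Q.G.V → ℝ), Q.g.Sep (2 * pp + 8) X X' → V.V X φ + V.V X' φ ≤ V.V (X ∪ X') φ :=
  ta_obs_add o Q.c Q.g (tc_c_whole Q) (tc_g_ok Q) (tc_nest Q).some V hV

theorem tc_hVc (o : ObsPar) (Q : Sq) (V : Extra Q.g) (hV : IsObs o Q.c Q.g V) :
    ∀ X : Finset Q.g.I, Continuous fun φ : Q.G.V → ℝ => V.V X φ :=
  ta_obs_continuous o Q.c Q.g (tc_g_ok Q) V hV

/-- the translated retained singletons, block by block -/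
theorem tc_single_shift {G : Geom} (g : Grid G) (α t z : ℝ) (X : Finset g.I) (l : G.V → ℝ) :
    (fun w => single g α t z X (w + toC l)) = ∑ B : g.I, if X = {B} then
      ((t / 2 : ℝ) : ℂ) • (fun w => eBC g B (w + toC l)) + (z : ℂ) • (fun w => cBC g α B (w + toC l)) else (0 : Fn G) := by
  funext w
  simp only [single, Finset.sum_apply]
  refine Finset.sum_congr rfl fun B _ => ?_
  split_ifs <;> rfl

theorem tc_single_tame {G : Geom} (Γ : Matrix G.V G.V ℝ) (hΓ : Γ.PosSemidef) (g : Grid G) (α t z : ℝ) (X : Finset g.I) (l : G.V → ℝ) :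
    Tame Γ (fun w => single g α t z X (w + toC l)) := by
  rw [tc_single_shift]
  refine tame_sum Γ _ _ fun B _ => ?_
  split_ifs
  · exact tame_add Γ (tame_smul Γ _ (tb_tame_eBC Γ hΓ g B l)) (tame_smul Γ _ (tb_tame_cBC Γ g α B l))
  · exact tame_zero Γ

theorem tc_single_term {G : Geom} (Γ : Matrix G.V G.V ℝ) (hΓ : Γ.PosSemidef) (g : Grid G) (α t z : ℝ) (hα : 0 < α) (X : Finset g.I)
    (l : G.V → ℝ) :
    term (2 * Real.pi / α) Γ (fun w => single g α t z X (w + toC l))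
      = ∑ B : g.I, if X = {B} then ((t / 2 : ℝ) : ℂ) * term (2 * Real.pi / α) Γ (fun w => eBC g B (w + toC l)) else 0 := by
  rw [tc_single_shift, term_sum]
  · refine Finset.sum_congr rfl fun B _ => ?_
    split_ifs
    · rw [term_add _ Γ (tame_smul Γ _ (tb_tame_eBC Γ hΓ g B l)) (tame_smul Γ _ (tb_tame_cBC Γ g α B l)), term_smul, term_smul,
        tb_term_cBC α hα, mul_zero, add_zero]
    · exact term_zero _ Γ
  · intro B _
    split_ifs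
    · exact tame_add Γ (tame_smul Γ _ (tb_tame_eBC Γ hΓ g B l)) (tame_smul Γ _ (tb_tame_cBC Γ g α B l))
    · exact tame_zero Γ

/-- the exact expectation of the difference of the retained singletons -/
theorem tc_single_diff {G : Geom} (Γ : Matrix G.V G.V ℝ) (hΓ : Γ.PosSemidef) (g : Grid G) (α t z : ℝ) (hα : 0 < α) (X : Finset g.I)
    (l : G.V → ℝ) :
    term (2 * Real.pi / α) Γ (fun w => single g α t z X (w + toC l)) - term (2 * Real.pi / α) Γ (single g α t z X)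
      = ∑ B : g.I, if X = {B} then ((t / 2 * eB g B l : ℝ) : ℂ) else 0 := by
  have hω : 0 < 2 * Real.pi / α := by have := Real.pi_pos; positivity
  have h0 := tc_single_term Γ hΓ g α t z hα X 0
  simp only [Hol.toC_zero, add_zero] at h0
  rw [tc_single_term Γ hΓ g α t z hα X l, h0, ← Finset.sum_sub_distrib]
  refine Finset.sum_congr rfl fun B _ => ?_
  split_ifs
  · rw [← mul_sub, tb_term_eBC _ hω Γ hΓ g B l]
    push_cast
    ring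
  · simp

section onePolymerAux

variable {fx : Fix} {Q : Sq} {d : SqData Q} {t z ν ν2 vJ ps Ctr : ℝ} {cT : ℝ≥0} {Dk : ℕ}

/-- one function of size `≤ u A^{-k}`, translated by a field of bounded energy -/
theorem tc_shift_bound (hs : Std fx) (he : Env fx Q d ps Ctr cT Dk) (hps : 1 < ps) (hcT : 1 ≤ cT) (hV : IsObs fx.o Q.c Q.g d.V)
    (X : Finset Q.g.I) (F : Fn Q.G) (u : ℝ) (hu : 0 ≤ u)
    (hF : ENNReal.ofReal (fx.p.A ^ X.card) * fnSize fx.p Q.g d.V X F ≤ ENNReal.ofReal u) (f : Q.G.V → ℝ)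
    (hf : U Q.g fx.p.δ X f + bondE (Q.g.Dm X) f ≤ Ctr * X.card) :
    ‖term fx.p.ω d.Γ (fun w => F (w + toC f))‖ ≤ u * ((cT : ℝ) / fx.p.A) ^ X.card := by
  have hp : 0 < fx.p.A ^ X.card := pow_pos hs.A_pos _
  have h1 := ta_term_shift_le fx.p hs.h0_pos Q.g (tc_g_ok Q) d.V (tc_hadd fx.o Q d.V hV) (tc_hVc fx.o Q d.V hV) d.Γ hs.ω_pos X F f
  have h2 := he.first hps hcT hV X f hf
  have h3 : fnSize fx.p Q.g d.V X F ≤ ENNReal.ofReal (u * (fx.p.A ^ X.card)⁻¹) := by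
    rw [← div_eq_mul_inv, ENNReal.ofReal_div_of_pos hp,
      ENNReal.le_div_iff_mul_le (Or.inl (by simpa using hp)) (Or.inl ENNReal.ofReal_ne_top), mul_comm]
    exact hF
  have h4 : ((cT : ℝ≥0∞)) ^ X.card = ENNReal.ofReal ((cT : ℝ) ^ X.card) := by
    rw [ENNReal.ofReal_pow (NNReal.coe_nonneg cT), ENNReal.ofReal_coe_nnreal]
  refine tb_norm_le_of_enorm (by have := hs.A_pos; positivity) (h1.trans ((mul_le_mul' h3 h2).trans ?_))
  rw [h4, ← ENNReal.ofReal_mul (by positivity)]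
  apply ENNReal.ofReal_le_ofReal
  rw [div_pow]
  apply le_of_eq
  field_simp

theorem tc_first_zero (he : Env fx Q d ps Ctr cT Dk) (hps : 1 < ps) (hcT : 1 ≤ cT) (hCtr : 0 ≤ Ctr) (hV : IsObs fx.o Q.c Q.g d.V)
    (X : Finset Q.g.I) :
    ∫⁻ ζ, ENNReal.ofReal (Wt Q.g fx.p.δ fx.p.κ d.V X ζ) ∂(gauss Q.G d.Γ) ≤ ENNReal.ofReal ((cT : ℝ) ^ X.card) := by
  have h := he.first hps hcT hV X 0 (tc_zero_le Q.g fx.p.δ Ctr hCtr X)
  rw [ENNReal.ofReal_pow (NNReal.coe_nonneg cT), ENNReal.ofReal_coe_nnreal]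
  simpa only [add_zero] using h

theorem tc_Kt_shift (hs : Std fx) (hd : d.Ok fx t z ν ν2 vJ) (X : Finset Q.g.I) (hX : Q.ShiftGood fx.H1 X) :
    term fx.p.ω d.Γ (d.Kt X) = term fx.p.ω d.Γ (fun w => d.K0 X (w + toC (d.lam X))) :=
  term_congr _ _ fun φ => hd.shift X hX _ (tb_real_mem_strip _ hs.h0_pos _ _ φ)

end onePolymerAux

section onePolymer

variable {fx : Fix} {Q : Sq} {d : SqData Q} {t z ν ν2 vJ ps Ctr : ℝ} {cT : ℝ≥0} {Dk : ℕ}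

/-- the absolute bound (`ta_term_shift_le` with `f = 0`, `Env.first`, `actNorm`) -/
theorem tc_any (hs : Std fx) (he : Env fx Q d ps Ctr cT Dk) (hps : 1 < ps) (hcT : 1 ≤ cT) (hCtr : 0 ≤ Ctr) (hV : IsObs fx.o Q.c Q.g d.V)
    (K : Act Q.g) (u : ℝ) (hu : 0 ≤ u) (hK : actNorm fx.p Q.g d.V K ≤ ENNReal.ofReal u) (X : Finset Q.g.I) :
    ‖term fx.p.ω d.Γ (K X)‖ ≤ u * ((cT : ℝ) / fx.p.A) ^ X.card := by
  have h1 : ENNReal.ofReal (fx.p.A ^ X.card) * fnSize fx.p Q.g d.V X (K X) ≤ ENNReal.ofReal u :=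
    (le_iSup (fun X : Finset Q.g.I => ENNReal.ofReal (fx.p.A ^ X.card) * fnSize fx.p Q.g d.V X (K X)) X).trans hK
  have h := tc_shift_bound hs he hps hcT hV X (K X) u hu h1 0 (tc_zero_le Q.g fx.p.δ Ctr hCtr X)
  simpa only [Hol.toC_zero, add_zero] using h

open Classical in
/-- **class `𝔊`.**  On real fields `K^τ X (φ) = K^0 X (φ + λ_X) = single (φ + λ_X) + Rm X (φ + λ_X)`.  `term_congr`, `term_add`, `term_sub` (Tame: `tb_tame_eBC`, `tb_tame_cBC`; `Rm X = K^0 X - single X` on real fields is continuous,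
majorant from `Rm_bd` and `Env.first` at `f = λ_X`, `f = 0`); `tb_term_eBC`, `tb_term_cBC` (`ω = 2π/α`); `ta_term_shift_le`. -/
theorem tc_good (hs : Std fx) (hd : d.Ok fx t z ν ν2 vJ) (he : Env fx Q d ps Ctr cT Dk) (hps : 1 < ps) (hcT : 1 ≤ cT) (hCtr : 0 ≤ Ctr)
    (hν2 : 0 ≤ ν2) (X : Finset Q.g.I) (hX : clG Q fx.H0 fx.H1 X)
    (hlam : U Q.g fx.p.δ X (d.lam X) + bondE (Q.g.Dm X) (d.lam X) ≤ Ctr * X.card) :
    ‖dK d fx.p.ω X - ∑ B : Q.g.I, if X = {B} then ((t / 2 * eB Q.g B (d.lam X) : ℝ) : ℂ) else 0‖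
      ≤ 2 * ν2 * ((cT : ℝ) / fx.p.A) ^ X.card := by
  have hA := hs.A_pos
  have hV := hd.obs
  have hα : 0 < fx.α := Real.sqrt_pos.2 fx.o.a_pos
  have hΓ := hd.term.psd
  have hVc := tc_hVc fx.o Q d.V hV
  -- tameness of the translates of `K^0 X`
  have hfin : fnSize fx.p Q.g d.V X (d.K0 X) ≠ ⊤ :=
    ne_top_of_le_ne_top ENNReal.ofReal_ne_top (ta_fnSize_le fx.p Q.g d.V hA d.K0 ν hd.K0_bd X)
  have htK : ∀ f : Q.G.V → ℝ, U Q.g fx.p.δ X f + bondE (Q.g.Dm X) f ≤ Ctr * X.card →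
      Tame d.Γ (fun w => d.K0 X (w + toC f)) := fun f hf =>
    tb_tame_shift fx.p hs.h0_pos Q.g d.V hVc d.Γ X (d.K0 X) (hd.K0_ok.fn X).hol hfin f
      (ne_top_of_le_ne_top (ENNReal.pow_ne_top ENNReal.coe_ne_top) (he.first hps hcT hV X f hf))
  have htS : ∀ f : Q.G.V → ℝ, Tame d.Γ (fun w => single Q.g fx.α t z X (w + toC f)) :=
    fun f => tc_single_tame d.Γ hΓ Q.g fx.α t z X f
  -- the remainder
  have hR : ∀ f : Q.G.V → ℝ, U Q.g fx.p.δ X f + bondE (Q.g.Dm X) f ≤ Ctr * X.card →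
      ‖term fx.p.ω d.Γ (fun w => d.K0 X (w + toC f)) - term fx.p.ω d.Γ (fun w => single Q.g fx.α t z X (w + toC f))‖
        ≤ ν2 * ((cT : ℝ) / fx.p.A) ^ X.card := by
    intro f hf
    rw [← term_sub _ _ (htK f hf) (htS f)]
    have e : term fx.p.ω d.Γ ((fun w => d.K0 X (w + toC f)) - fun w => single Q.g fx.α t z X (w + toC f))
        = term fx.p.ω d.Γ (fun w => d.Rm X (w + toC f)) := by
      refine term_congr _ _ fun φ => ?_
      show d.K0 X (toC φ + toC f) - single Q.g fx.α t z X (toC φ + toC f) = d.Rm X (toC φ + toC f)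
      rw [← Hol.toC_add, hd.plane X hX.1 _ (tb_real_mem_strip _ hs.h0_pos _ _ _)]
      ring
    rw [e]
    exact tc_shift_bound hs he hps hcT hV X (d.Rm X) ν2 hν2 (hd.Rm_bd X hX.1) f hf
  have h1 := hR (d.lam X) hlam
  have h0 := hR 0 (tc_zero_le Q.g fx.p.δ Ctr hCtr X)
  simp only [Hol.toC_zero, add_zero] at h0
  have hdiff := tc_single_diff d.Γ hΓ Q.g fx.α t z hα X (d.lam X)
  rw [← hs.ω_eq] at hdiff
  unfold dK
  rw [tc_Kt_shift hs hd X hX.2, ← hdiff]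
  calc _ = ‖(term fx.p.ω d.Γ (fun w => d.K0 X (w + toC (d.lam X))) - term fx.p.ω d.Γ (fun w => single Q.g fx.α t z X (w + toC (d.lam X))))
          - (term fx.p.ω d.Γ (d.K0 X) - term fx.p.ω d.Γ (single Q.g fx.α t z X))‖ := by
        congr 1
        ring
    _ ≤ _ := (norm_sub_le _ _).trans (by linarith)

/-- **class `𝔚`** = `tb_even_shift` for `F = K^0 X`, `l = λ_X` -/
theorem tc_wall (hs : Std fx) (hd : d.Ok fx t z ν ν2 vJ) (he : Env fx Q d ps Ctr cT Dk) (hps : 1 < ps) (hcT : 1 ≤ cT) (hCtr : 0 ≤ Ctr)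
    (hν : 0 ≤ ν) (X : Finset Q.g.I) (hX : Q.ShiftGood fx.H1 X) (x0 : Q.G.V) (hl : 2 * anorm Q.g X x0 (d.lam X) ≤ fx.p.h0) :
    ‖dK d fx.p.ω X‖ ≤ 4 * ((anorm Q.g X x0 (d.lam X) : ℝ) / fx.p.h0) ^ 2 * ν * ((cT : ℝ) / fx.p.A) ^ X.card := by
  have hA := hs.A_pos
  have h := tb_even_shift fx.p hs.h0_pos hs.ω_pos d.col Q.g d.V (tc_hVc fx.o Q d.V hd.obs) d.Γ hd.term.psd X (d.K0 X)
    (hd.K0_ok.fn X) (hd.K0_even X) (ν * (fx.p.A ^ X.card)⁻¹) ((cT : ℝ) ^ X.card) (by positivity) (by positivity)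
    (ta_fnSize_le fx.p Q.g d.V hs.A_pos d.K0 ν hd.K0_bd X) (tc_first_zero he hps hcT hCtr hd.obs X) (d.lam X) x0 hl
  unfold dK
  rw [tc_Kt_shift hs hd X hX]
  refine h.trans (le_of_eq ?_)
  rw [div_pow (cT : ℝ)]
  field_simp

end onePolymer

/-! ## 7. LEAVES `L-OBS-TC10`, `TC11`: class `ℭ`, one polymer -/

/-- `(c^k)^{1/p} ≤ c^k` for `c ≥ 1`, `p ≥ 1` -/
theorem tc_root_le (x : ℝ≥0∞) (cT : ℝ≥0) (hcT : 1 ≤ cT) (k : ℕ) (ps : ℝ) (hps : 1 ≤ ps) (h : x ≤ (cT : ℝ≥0∞) ^ k) :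
    x ^ (1 / ps) ≤ ENNReal.ofReal ((cT : ℝ) ^ k) := by
  have h0 : 0 < ps := by linarith
  have h1 : (1 : ℝ≥0∞) ≤ (cT : ℝ≥0∞) ^ k := one_le_pow₀ (by exact_mod_cast hcT)
  rw [ENNReal.ofReal_pow (NNReal.coe_nonneg cT), ENNReal.ofReal_coe_nnreal]
  calc x ^ (1 / ps) ≤ ((cT : ℝ≥0∞) ^ k) ^ (1 / ps) := ENNReal.rpow_le_rpow h (by positivity)
    _ ≤ ((cT : ℝ≥0∞) ^ k) ^ (1 : ℝ) := ENNReal.rpow_le_rpow_of_exponent_le h1 ((div_le_one h0).2 hps)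
    _ = _ := ENNReal.rpow_one _

/-- **the terminal expectation is close to the short expectation** (one square).
PLAN: `v = 2^b m'`; `Γ_l` := a terminal covariance at `v` (`B4.exists_terminal`), `TermBounds` by `B4.terminal_bounds` (`2 v ≤ M` from `Dk ≥ 2`); `Γ_s = shell m' v` psd (`B4.shell_psd`); `tb_terminal_split`;
coarse grid `freeGrid Q.G v 0` (`tb_freeGrid_ok`); `tb_long_moment` (this gives `Clm`); `tb_long_removal` with `W₁ = cT^k`, `u = ν A^{-k}`, `hW := Env.mom` at `f = 0`, `hWs := Env.moms` at `-f`. -/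
theorem tc_short_approx (q : ℝ) (hq : 1 < q) : ∃ Clm : ℝ, 0 ≤ Clm ∧ ∀ (fx : Fix) (Q : Sq) (d : SqData Q) (ps Ctr : ℝ) (cT : ℝ≥0) (Dk : ℕ),
    Std fx → ps.HolderConjugate q → 1 ≤ cT → 0 ≤ Ctr → 2 ≤ Dk → Env fx Q d ps Ctr cT Dk → IsTerminal Q.G Fam.entry Q.m d.Γ → IsObs fx.o Q.c Q.g d.V →
    ∀ (K : Act Q.g) (col : ℕ) (u : ℝ), 0 ≤ u → Act.Ok fx.p col RR K → actNorm fx.p Q.g d.V K ≤ ENNReal.ofReal u →
    ∀ b : ℕ, 1 ≤ b → Dk * (2 ^ b * Q.m) < Q.G.M → ∀ (X : Finset Q.g.I) (ℓ : ℕ), ℓ ≤ 2 ^ b * Q.m →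
    (∀ x ∈ Q.g.Dm X, ∀ y ∈ Q.g.Dm X, (x.1 : ℕ) ≤ y.1 + ℓ ∧ (x.2 : ℕ) ≤ y.2 + ℓ) → ∀ x0 ∈ Q.g.Dm X, ∀ f : Q.G.V → ℝ,
    U Q.g fx.p.δ X (-f) + bondE (Q.g.Dm X) (-f) ≤ Ctr * X.card →
      ‖term fx.p.ω d.Γ (K X) - term fx.p.ω (shell Q.G Fam.entry Q.m (2 ^ b * Q.m)) (fun w => K X (w + toC (-f)))‖
        ≤ 4 / fx.p.h0 * (Clm * (((ℓ : ℝ) + Q.m) / (2 ^ b * Q.m : ℕ)) + anorm Q.g X x0 f) * u * ((cT : ℝ) / fx.p.A) ^ X.card := by
  obtain ⟨Ct, hCt⟩ := B4.terminal_bounds 1 1 64 0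
  obtain ⟨Clm, hClm0, hClm⟩ := tb_long_moment Ct q hq.le
  refine ⟨Clm, hClm0, fun fx Q d ps Ctr cT Dk hs hpq hcT hCtr hDk he hterm hV K col u hu hK hKb b hb hclear X ℓ hℓ hext x0 hx0 f hf => ?_⟩
  have hA := hs.A_pos
  have hm : 1 ≤ Q.m := Q.m_pos
  obtain ⟨v, hvd⟩ : ∃ v : ℕ, v = 2 ^ b * Q.m := ⟨_, rfl⟩
  rw [← hvd] at hclear hℓ ⊢
  have hv : 1 ≤ v := by rw [hvd]; exact Nat.mul_pos (by positivity) Q.m_pos
  have hmv : Q.m ≤ v := by rw [hvd]; exact Nat.le_mul_of_pos_left _ (by positivity)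
  have h2v : 2 * v ≤ Q.G.M := (Nat.mul_le_mul_right v hDk).trans hclear.le
  obtain ⟨Γl, hΓl⟩ := B4.exists_terminal Q.G Fam.entry B4.entry_adm v hv
  have hTB : TermBounds Q.G Ct v Γl := hCt Q.G Fam.entry B4.entry_adm le_rfl v hv h2v Γl hΓl
  have hgv : (freeGrid Q.G v 0).Ok := tb_freeGrid_ok Q.G rfl v hv (by omega)
  obtain ⟨c, hsplit⟩ := tb_terminal_split Q.G Q.m v hm hv d.Γ Γl hterm hΓl
  have hΓs : (shell Q.G Fam.entry Q.m v).PosSemidef := by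
    rw [hvd]; exact B4.shell_psd Q.G Fam.entry B4.entry_adm b Q.m hm
  have hN := hClm Q.G Q.g (freeGrid Q.G v 0) (tc_g_ok Q) hgv hmv Γl hΓl.psd hTB X ℓ hℓ hext x0 hx0 f
  have hps : 1 ≤ ps := hpq.lt.le
  have hW := tc_root_le _ cT hcT X.card ps hps (he.mom X 0 (tc_zero_le Q.g fx.p.δ Ctr hCtr X))
  simp only [add_zero] at hW
  have hWs := tc_root_le _ cT hcT X.card ps hps (he.moms b hb (by rw [← hvd]; exact hclear) X (-f) hf)
  rw [← hvd] at hWs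
  have h := tb_long_removal fx.p hs.h0_pos hs.ω_pos col Q.g d.V (tc_hVc fx.o Q d.V hV) d.Γ (shell Q.G Fam.entry Q.m v) Γl hterm.psd hΓs
    hΓl.psd c hsplit X (K X) (hK.fn X) (u * (fx.p.A ^ X.card)⁻¹) ((cT : ℝ) ^ X.card)
    (Clm * (((ℓ : ℝ) + Q.m) / (v : ℕ)) + anorm Q.g X x0 f) (by positivity) (by positivity) (by positivity)
    (ta_fnSize_le fx.p Q.g d.V hA K u hKb X) f x0 ps q hpq hW hWs hN
  refine h.trans (le_of_eq ?_)
  rw [div_pow (cT : ℝ)]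
  have hh : (fx.p.h0 : ℝ) ≠ 0 := by
    have := hs.h0_pos
    exact ne_of_gt (by exact_mod_cast this)
  field_simp

theorem tc_sc_mem_Dm {G : Geom} (g : Grid G) (X : Finset g.I) (x : G.V) : x ∈ g.Dm X ↔ ∃ a ∈ X, g.idist a (g.blk x) ≤ 2 := by
  simp [Grid.Dm, Grid.sites, Grid.collar]

/-- membership in `D_m (X)` on an aligned square, in coordinates -/
theorem tc_sc_mem_sq (Q : Sq) (X : Finset Q.g.I) (x : Q.G.V) : x ∈ Q.g.Dm X ↔
    ∃ a ∈ X, (a.1 : ℕ) ≤ (x.1 : ℕ) / Q.m + 2 ∧ (x.1 : ℕ) / Q.m ≤ (a.1 : ℕ) + 2 ∧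
      (a.2 : ℕ) ≤ (x.2 : ℕ) / Q.m + 2 ∧ (x.2 : ℕ) / Q.m ≤ (a.2 : ℕ) + 2 := by
  rw [tc_sc_mem_Dm]
  refine exists_congr fun a => and_congr_right fun _ => ?_
  obtain ⟨h1, h2⟩ := tc_blk Q x
  unfold Grid.idist
  rw [Geo.geo_idist1_free Q.g rfl, Geo.geo_idist1_free Q.g rfl, max_le_iff, h1, h2]
  omega

theorem tc_sc_m_eq (P : SqPair) : P.Q1.m = P.Q0.m := by
  unfold Sq.m
  rw [P.hr, P.hs]

theorem tc_sc_n_sub (P : SqPair) : P.Q1.n - P.Q0.n = (P.Q1.D - P.Q0.D) * P.Q0.m := by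
  unfold Sq.n
  rw [tc_sc_m_eq P, Nat.sub_mul]

theorem tc_sc_eV_inj (P : SqPair) : Function.Injective P.eV := by
  intro x y h
  have h1 := congrArg (fun z : P.Q1.G.V => (z.1 : ℕ)) h
  have h2 := congrArg (fun z : P.Q1.G.V => (z.2 : ℕ)) h
  simp only [SqPair.eV] at h1 h2
  exact Prod.ext (Fin.ext (by omega)) (Fin.ext (by omega))

theorem tc_sc_eI_inj (P : SqPair) : Function.Injective P.eI := by
  intro x y h
  have h1 := congrArg (fun z : P.Q1.g.I => (z.1 : ℕ)) h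
  have h2 := congrArg (fun z : P.Q1.g.I => (z.2 : ℕ)) h
  simp only [SqPair.eI] at h1 h2
  exact Prod.ext (Fin.ext (by omega)) (Fin.ext (by omega))

/-- away from the walls of the smaller square, `D_m (e X) ⊆ e (D_m (X))` -/
theorem tc_sc_Dm_image (P : SqPair) (X : Finset P.Q0.g.I)
    (hX : ∀ a ∈ X, 2 ≤ (a.1 : ℕ) ∧ (a.1 : ℕ) + 3 ≤ 2 * P.Q0.D ∧ 2 ≤ (a.2 : ℕ) ∧ (a.2 : ℕ) + 3 ≤ 2 * P.Q0.D) :
    ∀ y ∈ P.Q1.g.Dm (X.image P.eI), ∃ x ∈ P.Q0.g.Dm X, P.eV x = y := by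
  intro y hy
  rw [tc_sc_mem_sq] at hy
  obtain ⟨a', ha', h1, h2, h3, h4⟩ := hy
  obtain ⟨a, ha, rfl⟩ := Finset.mem_image.1 ha'
  obtain ⟨c1, c2, c3, c4⟩ := hX a ha
  have hm := P.Q0.m_pos
  rw [tc_sc_m_eq P] at h1 h2 h3 h4
  simp only [SqPair.eI] at h1 h2 h3 h4
  obtain ⟨sD, hsD⟩ : ∃ sD : ℕ, sD = P.Q1.D - P.Q0.D := ⟨_, rfl⟩
  rw [← hsD] at h1 h2 h3 h4
  have hsn : P.Q1.n - P.Q0.n = sD * P.Q0.m := by rw [hsD]; exact tc_sc_n_sub P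
  have key : ∀ i : ℕ, ∀ a : ℕ, 2 ≤ a → a + 3 ≤ 2 * P.Q0.D → a + sD ≤ i / P.Q0.m + 2 → i / P.Q0.m ≤ a + sD + 2 →
      sD * P.Q0.m ≤ i ∧ i - sD * P.Q0.m < 2 * P.Q0.n ∧ (i - sD * P.Q0.m) / P.Q0.m = i / P.Q0.m - sD := by
    intro i a e1 e2 e3 e4
    have f1 : sD * P.Q0.m ≤ i := (Nat.le_div_iff_mul_le hm).1 (by omega)
    have f2 : i < (2 * P.Q0.D + sD) * P.Q0.m := (Nat.div_lt_iff_lt_mul hm).1 (by omega)
    refine ⟨f1, ?_, ?_⟩
    · have : (2 * P.Q0.D + sD) * P.Q0.m = 2 * P.Q0.n + sD * P.Q0.m := by unfold Sq.n; ring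
      omega
    · rw [Nat.mul_comm sD, Nat.sub_mul_div]
  obtain ⟨k1, k2, k3⟩ := key y.1 a.1 c1 c2 h1 h2
  obtain ⟨l1, l2, l3⟩ := key y.2 a.2 c3 c4 h3 h4
  refine ⟨(⟨(y.1 : ℕ) - sD * P.Q0.m, k2⟩, ⟨(y.2 : ℕ) - sD * P.Q0.m, l2⟩), ?_, ?_⟩
  · rw [tc_sc_mem_sq]
    refine ⟨a, ha, ?_⟩
    show (a.1 : ℕ) ≤ ((y.1 : ℕ) - sD * P.Q0.m) / P.Q0.m + 2 ∧ ((y.1 : ℕ) - sD * P.Q0.m) / P.Q0.m ≤ (a.1 : ℕ) + 2 ∧
      (a.2 : ℕ) ≤ ((y.2 : ℕ) - sD * P.Q0.m) / P.Q0.m + 2 ∧ ((y.2 : ℕ) - sD * P.Q0.m) / P.Q0.m ≤ (a.2 : ℕ) + 2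
    rw [k3, l3]
    omega
  · refine Prod.ext (Fin.ext ?_) (Fin.ext ?_)
    · show (y.1 : ℕ) - sD * P.Q0.m + (P.Q1.n - P.Q0.n) = y.1
      omega
    · show (y.2 : ℕ) - sD * P.Q0.m + (P.Q1.n - P.Q0.n) = y.2
      omega

/-- the blocks of a support whose `D_m` is far from the walls -/
theorem tc_sc_clear (Q : Sq) (X : Finset Q.g.I) (w : ℕ) (hw : 3 * Q.m ≤ w)
    (hfar : ∀ x ∈ Q.g.Dm X, w ≤ (x.1 : ℕ) ∧ (x.1 : ℕ) + w < Q.G.M ∧ w ≤ (x.2 : ℕ) ∧ (x.2 : ℕ) + w < Q.G.M) :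
    ∀ a ∈ X, 2 ≤ (a.1 : ℕ) ∧ (a.1 : ℕ) + 3 ≤ 2 * Q.D ∧ 2 ≤ (a.2 : ℕ) ∧ (a.2 : ℕ) + 3 ≤ 2 * Q.D := by
  intro a ha
  have hm := Q.m_pos
  have b1 : (a.1 : ℕ) < 2 * Q.D := a.1.2
  have b2 : (a.2 : ℕ) < 2 * Q.D := a.2.2
  have hM : Q.G.M = 2 * Q.D * Q.m := by show 2 * (Q.D * Q.m) = _; ring
  have lt : ∀ i : ℕ, i < 2 * Q.D → i * Q.m < Q.G.M := fun i hi => by
    rw [hM]; exact Nat.mul_lt_mul_of_pos_right hi hm
  have hx : ((⟨(a.1 : ℕ) * Q.m, lt _ b1⟩, ⟨(a.2 : ℕ) * Q.m, lt _ b2⟩) : Q.G.V) ∈ Q.g.Dm X := by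
    rw [tc_sc_mem_sq]
    refine ⟨a, ha, ?_⟩
    show (a.1 : ℕ) ≤ (a.1 : ℕ) * Q.m / Q.m + 2 ∧ (a.1 : ℕ) * Q.m / Q.m ≤ (a.1 : ℕ) + 2 ∧
      (a.2 : ℕ) ≤ (a.2 : ℕ) * Q.m / Q.m + 2 ∧ (a.2 : ℕ) * Q.m / Q.m ≤ (a.2 : ℕ) + 2
    rw [Nat.mul_div_cancel _ hm, Nat.mul_div_cancel _ hm]
    omega
  obtain ⟨h1, h2, h3, h4⟩ := hfar _ hx
  simp only at h1 h2 h3 h4
  rw [hM] at h2 h4
  have key : ∀ i : ℕ, w ≤ i * Q.m → i * Q.m + w < 2 * Q.D * Q.m → 2 ≤ i ∧ i + 3 ≤ 2 * Q.D := by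
    intro i e1 e2
    constructor
    · have : 3 * Q.m ≤ i * Q.m := hw.trans e1
      have := Nat.le_of_mul_le_mul_right this hm
      omega
    · have : (i + 3) * Q.m < 2 * Q.D * Q.m := by
        have : (i + 3) * Q.m = i * Q.m + 3 * Q.m := by ring
        omega
      have := Nat.lt_of_mul_lt_mul_right this
      omega
  exact ⟨(key _ h1 h2).1, (key _ h1 h2).2, (key _ h3 h4).1, (key _ h3 h4).2⟩

/-- a collar of `col ≤ m / 4` lattice steps stays in `D_m (X)` -/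
theorem tc_sc_col_Dm {G : Geom} (g : Grid G) (hg : g.Ok) (col : ℕ) (hcol : 4 * col ≤ g.m) (X : Finset g.I) (x : G.V)
    (hx : ∃ w ∈ g.sites X, G.dist w x ≤ col) : x ∈ g.Dm X := by
  obtain ⟨w, hw, hd⟩ := hx
  rw [tc_sc_mem_Dm]
  refine ⟨g.blk w, by simpa [Grid.sites] using hw, ?_⟩
  have h := Scal.dist_of_idist g hg w x
  have hm := hg.pos
  by_contra hc
  have h3 : 3 * g.m ≤ g.idist (g.blk w) (g.blk x) * g.m := Nat.mul_le_mul_right _ (by omega)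
  omega


/-- **the two short expectations coincide**: `F` is local near `X` (collar `col ≤ m / 4`), the short covariances agree there (`tb_cov_copy_free`, `tb_shellP_degree`) and are psd (`B4.shell_psd`), `tb_gauss_copy` inside the phase integral. -/
theorem tc_short_copy (P : SqPair) (p : Par) (hh : 0 < p.h0) (col : ℕ) (X : Finset P.Q0.g.I) (F : Fn P.Q0.G) (hF : LocalFn p col P.Q0.g X F) (b v : ℕ)
    (hv : v = 2 ^ b * P.Q0.m)
    (hloc : ∀ x : P.Q0.G.V, (∃ w ∈ P.Q0.g.sites X, P.Q0.G.dist w x ≤ col) →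
      pp * v ≤ (x.1 : ℕ) ∧ (x.1 : ℕ) + pp * v < P.Q0.G.M ∧ pp * v ≤ (x.2 : ℕ) ∧ (x.2 : ℕ) + pp * v < P.Q0.G.M) :
    term p.ω (shell P.Q1.G Fam.entry P.Q0.m v) (fun w => F fun x => w (P.eV x)) = term p.ω (shell P.Q0.G Fam.entry P.Q0.m v) F := by
  classical
  have hm : 1 ≤ P.Q0.m := P.Q0.m_pos
  have hmv : P.Q0.m ≤ v := by rw [hv]; exact Nat.le_mul_of_pos_left _ (by positivity)
  have hdeg := tb_shellP_degree P.Q0.m v hm hmv
  have hΓ0 : (shell P.Q0.G Fam.entry P.Q0.m v).PosSemidef := by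
    rw [hv]; exact B4.shell_psd P.Q0.G Fam.entry B4.entry_adm b P.Q0.m hm
  have hΓ1 : (shell P.Q1.G Fam.entry P.Q0.m v).PosSemidef := by
    rw [hv]; exact B4.shell_psd P.Q1.G Fam.entry B4.entry_adm b P.Q0.m hm
  obtain ⟨S, hS⟩ : ∃ S : Finset P.Q0.G.V, S = Finset.univ.filter fun x => ∃ w ∈ P.Q0.g.sites X, P.Q0.G.dist w x ≤ col := ⟨_, rfl⟩
  have hSm : ∀ x, x ∈ S ↔ ∃ w ∈ P.Q0.g.sites X, P.Q0.G.dist w x ≤ col := fun x => by rw [hS]; simp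
  have hcov : ∀ x ∈ S, ∀ y ∈ S, shell P.Q1.G Fam.entry P.Q0.m v (P.eV x) (P.eV y) = shell P.Q0.G Fam.entry P.Q0.m v x y := by
    intro x hx y _
    obtain ⟨h1, h2, h3, h4⟩ := hloc x ((hSm x).1 hx)
    refine tb_cov_copy_free (Fam.entry.shellP P.Q0.m v) P.Q0.G P.Q1.G rfl rfl (P.Q1.n - P.Q0.n) ?_ P.eV (fun x => ⟨rfl, rfl⟩) x y
      ⟨hdeg.trans h1, by omega, hdeg.trans h3, by omega⟩
    have := P.n_le
    show 2 * P.Q1.n = 2 * P.Q0.n + 2 * (P.Q1.n - P.Q0.n)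
    omega
  unfold term
  congr 1
  refine intervalIntegral.integral_congr fun t _ => ?_
  have hc : Continuous fun φ : P.Q0.G.V → ℝ => F (fun v => ((φ v + t : ℝ) : ℂ)) :=
    (ta_hol_continuous p.h0 hh P.Q0.g X F hF.hol).comp (continuous_pi fun v => (continuous_apply v).add continuous_const)
  exact tb_gauss_copy _ _ hΓ0 hΓ1 S P.eV (tc_sc_eV_inj P).injOn hcov (fun φ => F (fun v => ((φ v + t : ℝ) : ℂ))) hc
    fun φ φ' h => hF.loc _ (tb_real_mem_strip p.h0 hh P.Q0.g X fun v => φ v + t) _ (tb_real_mem_strip p.h0 hh P.Q0.g X fun v => φ' v + t)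
      fun v hv' => by
        show ((φ v + t : ℝ) : ℂ) = ((φ' v + t : ℝ) : ℂ)
        rw [h v ((hSm v).2 hv')]

/-- **class `ℭ`, one polymer**, for a pair of activities which are copies of each other up to the background `Dl`.
`term₁ (K_b (e X)) ≈ term_{s,1} (K_b (e X) (· - Dl)) = term_{s,1} (K_a X (· ∘ e)) = term_{s,0} (K_a X) ≈ term₀ (K_a X)`:  `tc_short_approx` in `Q₁` (`f = Dl`) and in `Q₀` (`f = 0`), `term_congr` + `hcopy`, `tc_short_copy`.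
(`Q₁.m = Q₀.m` by `P.hr`, `P.hs`; the extents of `D_m (X)` and `D_m (e X)` agree.) -/
theorem tc_defect (q : ℝ) (hq : 1 < q) : ∃ Clm : ℝ, 0 ≤ Clm ∧ ∀ (fx : Fix) (P : SqPair) (d0 : SqData P.Q0) (d1 : SqData P.Q1) (ps Ctr : ℝ) (cT : ℝ≥0) (Dk : ℕ),
    Std fx → ps.HolderConjugate q → 1 ≤ cT → 0 ≤ Ctr → 2 ≤ Dk → Env fx P.Q0 d0 ps Ctr cT Dk → Env fx P.Q1 d1 ps Ctr cT Dk →
    IsTerminal P.Q0.G Fam.entry P.Q0.m d0.Γ → IsTerminal P.Q1.G Fam.entry P.Q1.m d1.Γ → IsObs fx.o P.Q0.c P.Q0.g d0.V → IsObs fx.o P.Q1.c P.Q1.g d1.V →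
    ∀ (Ka : Act P.Q0.g) (Kb : Act P.Q1.g) (col0 col1 : ℕ) (u : ℝ), 0 ≤ u → 4 * col0 ≤ P.Q0.m → Act.Ok fx.p col0 RR Ka → Act.Ok fx.p col1 RR Kb →
    actNorm fx.p P.Q0.g d0.V Ka ≤ ENNReal.ofReal u → actNorm fx.p P.Q1.g d1.V Kb ≤ ENNReal.ofReal u →
    ∀ (Dl : P.Q1.G.V → ℝ) (X : Finset P.Q0.g.I),
    (∀ w : P.Q1.G.V → ℝ, Kb (X.image P.eI) (toC w) = Ka X (toC fun x => w (P.eV x) + Dl (P.eV x))) →
    ∀ b : ℕ, 1 ≤ b → Dk * (2 ^ b * P.Q0.m) < P.Q0.G.M → ∀ ℓ : ℕ, ℓ ≤ 2 ^ b * P.Q0.m →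
    (∀ x ∈ P.Q0.g.Dm X, ∀ y ∈ P.Q0.g.Dm X, (x.1 : ℕ) ≤ y.1 + ℓ ∧ (x.2 : ℕ) ≤ y.2 + ℓ) →
    (∀ x ∈ P.Q0.g.Dm X, pp * (2 ^ b * P.Q0.m) ≤ (x.1 : ℕ) ∧ (x.1 : ℕ) + pp * (2 ^ b * P.Q0.m) < P.Q0.G.M ∧
      pp * (2 ^ b * P.Q0.m) ≤ (x.2 : ℕ) ∧ (x.2 : ℕ) + pp * (2 ^ b * P.Q0.m) < P.Q0.G.M) →
    U P.Q1.g fx.p.δ (X.image P.eI) (-Dl) + bondE (P.Q1.g.Dm (X.image P.eI)) (-Dl) ≤ Ctr * X.card →
    ∀ x0 ∈ P.Q1.g.Dm (X.image P.eI),
      ‖term fx.p.ω d1.Γ (Kb (X.image P.eI)) - term fx.p.ω d0.Γ (Ka X)‖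
        ≤ 4 / fx.p.h0 * (2 * Clm * (((ℓ : ℝ) + P.Q0.m) / (2 ^ b * P.Q0.m : ℕ)) + anorm P.Q1.g (X.image P.eI) x0 Dl) * u
          * ((cT : ℝ) / fx.p.A) ^ X.card := by
  obtain ⟨Clm, hClm0, hA⟩ := tc_short_approx q hq
  refine ⟨Clm, hClm0, fun fx P d0 d1 ps Ctr cT Dk hs hpq hcT hCtr hDk he0 he1 ht0 ht1 hV0 hV1 Ka Kb col0 col1 u hu hcol hKa hKb
    hKa_bd hKb_bd Dl X hcopy b hb hclear ℓ hℓ hext hfar hDl x0 hx0 => ?_⟩
  have hm := tc_sc_m_eq P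
  have hcard : (X.image P.eI).card = X.card := Finset.card_image_of_injective _ (tc_sc_eI_inj P)
  have hv2 : 3 * P.Q0.m ≤ pp * (2 ^ b * P.Q0.m) := by
    have h1 : 1 ≤ 2 ^ b := Nat.one_le_two_pow
    calc 3 * P.Q0.m ≤ pp * (1 * P.Q0.m) := by rw [one_mul]; exact Nat.mul_le_mul_right _ (by norm_num [pp])
      _ ≤ pp * (2 ^ b * P.Q0.m) := Nat.mul_le_mul_left _ (Nat.mul_le_mul_right _ h1)
  have himg := tc_sc_Dm_image P X (tc_sc_clear P.Q0 X _ hv2 hfar)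
  obtain ⟨x0', hx0', -⟩ := himg x0 hx0
  -- the larger square
  have h1 := hA fx P.Q1 d1 ps Ctr cT Dk hs hpq hcT hCtr hDk he1 ht1 hV1 Kb col1 u hu hKb hKb_bd b hb
    (by
      rw [hm]
      refine hclear.trans_le ?_
      have := P.n_le
      show 2 * P.Q0.n ≤ 2 * P.Q1.n
      omega) (X.image P.eI) ℓ (by rw [hm]; exact hℓ)
    (by
      intro x hx y hy
      obtain ⟨x', hx', rfl⟩ := himg x hx
      obtain ⟨y', hy', rfl⟩ := himg y hy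
      obtain ⟨e1, e2⟩ := hext x' hx' y' hy'
      constructor
      · show (x'.1 : ℕ) + (P.Q1.n - P.Q0.n) ≤ (y'.1 : ℕ) + (P.Q1.n - P.Q0.n) + ℓ
        omega
      · show (x'.2 : ℕ) + (P.Q1.n - P.Q0.n) ≤ (y'.2 : ℕ) + (P.Q1.n - P.Q0.n) + ℓ
        omega) x0 hx0 Dl (by rw [hcard]; exact hDl)
  rw [hm, hcard] at h1
  -- the copy
  have e2 : term fx.p.ω (shell P.Q1.G Fam.entry P.Q0.m (2 ^ b * P.Q0.m)) (fun w => Kb (X.image P.eI) (w + toC (-Dl)))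
      = term fx.p.ω (shell P.Q1.G Fam.entry P.Q0.m (2 ^ b * P.Q0.m)) (fun w => Ka X fun x => w (P.eV x)) := by
    refine term_congr _ _ fun φ => ?_
    show Kb (X.image P.eI) (toC φ + toC (-Dl)) = Ka X (fun x => toC φ (P.eV x))
    rw [← Hol.toC_add, hcopy]
    congr 1
    funext x
    simp [toC]
  have e3 := tc_short_copy P fx.p hs.h0_pos col0 X (Ka X) (hKa.fn X) b _ rfl
    fun x hx => hfar x (tc_sc_col_Dm P.Q0.g (tc_g_ok P.Q0) col0 hcol X x hx)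
  -- the smaller square
  have h0 := hA fx P.Q0 d0 ps Ctr cT Dk hs hpq hcT hCtr hDk he0 ht0 hV0 Ka col0 u hu hKa hKa_bd b hb hclear X ℓ hℓ hext x0' hx0' 0
    (by rw [neg_zero]; exact tc_zero_le P.Q0.g fx.p.δ Ctr hCtr X)
  simp only [neg_zero, Hol.toC_zero, add_zero, tb_anorm_zero, NNReal.coe_zero] at h0
  rw [e2, e3] at h1
  calc ‖term fx.p.ω d1.Γ (Kb (X.image P.eI)) - term fx.p.ω d0.Γ (Ka X)‖
      ≤ ‖term fx.p.ω d1.Γ (Kb (X.image P.eI)) - term fx.p.ω (shell P.Q0.G Fam.entry P.Q0.m (2 ^ b * P.Q0.m)) (Ka X)‖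
        + ‖term fx.p.ω d0.Γ (Ka X) - term fx.p.ω (shell P.Q0.G Fam.entry P.Q0.m (2 ^ b * P.Q0.m)) (Ka X)‖ := by
        rw [norm_sub_rev (term fx.p.ω d0.Γ (Ka X))]
        exact norm_sub_le_norm_sub_add_norm_sub _ _ _
    _ ≤ _ := (add_le_add h1 h0).trans (le_of_eq (by ring))

/-! ## 8. LEAF `L-OBS-TC12`: counting -/

/-- indices in a window of half-width `w` -/
theorem tc_window_card (n c w : ℕ) : (Finset.univ.filter fun i : Fin n => (i : ℕ) ≤ c + w ∧ c ≤ (i : ℕ) + w).card ≤ 2 * w + 1 := by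
  have h : (Finset.univ.filter fun i : Fin n => (i : ℕ) ≤ c + w ∧ c ≤ (i : ℕ) + w).card ≤ (Finset.Icc (c - w) (c + w)).card := by
    refine Finset.card_le_card_of_injOn (fun i => (i : ℕ)) ?_ ?_
    · intro i hi
      have hi' := (Finset.mem_filter.1 (Finset.mem_coe.1 hi)).2
      refine Finset.mem_coe.2 (Finset.mem_Icc.2 ⟨?_, hi'.1⟩)
      show c - w ≤ (i : ℕ)
      omega
    · intro i _ j _ hij
      exact Fin.ext hij
  rw [Nat.card_Icc] at h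
  omega

/-- indices within `H` of an end -/
theorem tc_end_card (n H : ℕ) : (Finset.univ.filter fun i : Fin n => (i : ℕ) < H ∨ n ≤ (i : ℕ) + H).card ≤ 2 * H := by
  have h : (Finset.univ.filter fun i : Fin n => (i : ℕ) < H ∨ n ≤ (i : ℕ) + H).card ≤ (Finset.range (2 * H)).card := by
    refine Finset.card_le_card_of_injOn (fun i => if (i : ℕ) < H then (i : ℕ) else H + (n - 1 - (i : ℕ))) ?_ ?_
    · intro i hi
      have hi' := (Finset.mem_filter.1 (Finset.mem_coe.1 hi)).2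
      have := i.2
      refine Finset.mem_coe.2 (Finset.mem_range.2 ?_)
      show (if (i : ℕ) < H then (i : ℕ) else H + (n - 1 - (i : ℕ))) < 2 * H
      split_ifs <;> omega
    · intro i _ j _ hij
      have hi := i.2
      have hj := j.2
      apply Fin.ext
      have hij' : (if (i : ℕ) < H then (i : ℕ) else H + (n - 1 - (i : ℕ))) = (if (j : ℕ) < H then (j : ℕ) else H + (n - 1 - (j : ℕ))) := hij
      split_ifs at hij' <;> omega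
  rwa [Finset.card_range] at h

open Classical in
/-- the blocks within `H0` of a wall -/
theorem tc_wall_roots (Q : Sq) (H0 : ℕ) : (Finset.univ.filter fun b : Q.g.I => ¬ Q.WallFree H0 {b}).card ≤ 16 * H0 * Q.D ∧
    ∀ X : Finset Q.g.I, ¬ Q.WallFree H0 X → ∃ b ∈ X, ¬ Q.WallFree H0 {b} := by
  constructor
  · set A : Finset (Fin Q.g.n) := Finset.univ.filter fun i : Fin Q.g.n => (i : ℕ) < H0 ∨ Q.g.n ≤ (i : ℕ) + H0 with hA
    have hAc : A.card ≤ 2 * H0 := tc_end_card _ _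
    have hn : Q.g.n = 2 * Q.D := rfl
    have hsub : (Finset.univ.filter fun b : Q.g.I => ¬ Q.WallFree H0 {b}) ⊆ A ×ˢ Finset.univ ∪ Finset.univ ×ˢ A := by
      intro b hb
      have hb' := (Finset.mem_filter.1 hb).2
      simp only [Sq.WallFree, Finset.mem_singleton, forall_eq] at hb'
      simp only [Finset.mem_union, Finset.mem_product, Finset.mem_univ, true_and, and_true, hA, Finset.mem_filter, hn]
      omega
    refine (Finset.card_le_card hsub).trans ((Finset.card_union_le _ _).trans ?_)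
    rw [Finset.card_product, Finset.card_product, Finset.card_univ, Fintype.card_fin]
    calc A.card * Q.g.n + Q.g.n * A.card = 4 * Q.D * A.card := by rw [show A.card * Q.g.n = A.card * (2 * Q.D) from rfl, show Q.g.n * A.card = 2 * Q.D * A.card from rfl]; ring
      _ ≤ 4 * Q.D * (2 * H0) := Nat.mul_le_mul_left _ hAc
      _ = 8 * H0 * Q.D := by ring
      _ ≤ 16 * H0 * Q.D := Nat.mul_le_mul_right _ (Nat.mul_le_mul_right _ (by norm_num))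
  · intro X hX
    unfold Sq.WallFree at hX
    rw [not_forall] at hX
    obtain ⟨b, hb⟩ := hX
    rw [Classical.not_imp] at hb
    exact ⟨b, hb.1, fun h => hb.2 (h b (Finset.mem_singleton_self b))⟩

/-- a chain from `f ≤ t` to `t < f` crosses the level `t` -/
theorem tc_cross {I : Type} (E : I → I → Prop) (f : I → ℕ) (t : ℕ) {a b : I} (h : Relation.ReflTransGen E a b)
    (ha : f a ≤ t) (hb : t < f b) : ∃ u v, E u v ∧ f u ≤ t ∧ t < f v := by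
  induction h with
  | refl => omega
  | @tail y z _ hyz ih =>
    by_cases hy : f y ≤ t
    · exact ⟨y, z, hyz, hy, hb⟩
    · exact ih (by omega)

/-- the extent of a chain-connected finite set along a function that moves by `≤ R` on every step -/
theorem tc_span {I : Type} (X : Finset I) (f : I → ℕ) (R : ℕ) (E : I → I → Prop)
    (hE : ∀ u v, E u v → v ∈ X ∧ f v ≤ f u + R) (hc : ∀ a ∈ X, ∀ b ∈ X, Relation.ReflTransGen E a b) (b : I) (hb : b ∈ X) :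
    ∀ (n : ℕ) (a : I), a ∈ X → (X.filter fun x => f a < f x ∧ f x ≤ f b).card ≤ n → f b ≤ f a + R * n := by
  intro n
  induction n with
  | zero =>
    intro a _ hn
    by_contra hlt
    have : b ∈ X.filter fun x => f a < f x ∧ f x ≤ f b := Finset.mem_filter.2 ⟨hb, by omega, le_rfl⟩
    have := Finset.card_pos.2 ⟨b, this⟩
    omega
  | succ n ih =>
    intro a ha hn
    by_cases hlt : f b ≤ f a
    · exact hlt.trans (Nat.le_add_right _ _)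
    obtain ⟨u, v, huv, hu, hv⟩ := tc_cross E f (f a) (hc a ha b hb) le_rfl (by omega)
    obtain ⟨hvX, hvR⟩ := hE u v huv
    have e : R * (n + 1) = R * n + R := by ring
    by_cases hvb : f v ≤ f b
    · have hss : (X.filter fun x => f v < f x ∧ f x ≤ f b) ⊂ (X.filter fun x => f a < f x ∧ f x ≤ f b) := by
        refine Finset.ssubset_iff_subset_ne.2 ⟨?_, fun heq => ?_⟩
        · intro x hx
          obtain ⟨h1, h2, h3⟩ := Finset.mem_filter.1 hx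
          exact Finset.mem_filter.2 ⟨h1, by omega, h3⟩
        · have : v ∈ X.filter fun x => f v < f x ∧ f x ≤ f b := by
            rw [heq]
            exact Finset.mem_filter.2 ⟨hvX, hv, hvb⟩
          have := (Finset.mem_filter.1 this).2.1
          omega
      have := Finset.card_lt_card hss
      have := ih v hvX (by omega)
      omega
    · omega

theorem tc_idist_free (Q : Sq) (u v : Q.g.I) :
    Q.g.idist u v = max ((u.1 : ℤ) - v.1).natAbs ((u.2 : ℤ) - v.2).natAbs := rfl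

/-- the extent of a polymer of the free square in each coordinate -/
theorem tc_extent (Q : Sq) (R : ℕ) (X : Finset Q.g.I) (hX : Q.g.Conn R X) (a b : Q.g.I) (ha : a ∈ X) (hb : b ∈ X) :
    (b.1 : ℕ) ≤ (a.1 : ℕ) + R * X.card ∧ (b.2 : ℕ) ≤ (a.2 : ℕ) + R * X.card := by
  constructor
  · refine tc_span X (fun x => (x.1 : ℕ)) R _ (fun u v huv => ⟨huv.2.1, ?_⟩) hX.2 b hb X.card a ha (Finset.card_filter_le _ _)
    have := huv.2.2
    rw [tc_idist_free] at this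
    have := (le_max_left _ _).trans this
    show (v.1 : ℕ) ≤ (u.1 : ℕ) + R
    omega
  · refine tc_span X (fun x => (x.2 : ℕ)) R _ (fun u v huv => ⟨huv.2.1, ?_⟩) hX.2 b hb X.card a ha (Finset.card_filter_le _ _)
    have := huv.2.2
    rw [tc_idist_free] at this
    have := (le_max_right _ _).trans this
    show (v.2 : ℕ) ≤ (u.2 : ℕ) + R
    omega

/-- a connected defect lies near the centre: its padded rectangle contains `(D, D)` and its extent is `≤ RR (k - 1)` in each coordinate -/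
theorem tc_defect_near (Q : Sq) (H1 : ℕ) (X : Finset Q.g.I) (hX : Q.g.Conn RR X) (hd : ¬ Q.ShiftGood H1 X) :
    ∀ b ∈ X, (b.1 : ℕ) ≤ Q.D + H1 + RR * X.card ∧ Q.D ≤ (b.1 : ℕ) + H1 + RR * X.card ∧
      (b.2 : ℕ) ≤ Q.D + H1 + RR * X.card ∧ Q.D ≤ (b.2 : ℕ) + H1 + RR * X.card := by
  intro b hb
  unfold Sq.ShiftGood at hd
  rw [not_not] at hd
  obtain ⟨⟨a1, h1, e1⟩, ⟨a2, h2, e2⟩, ⟨a3, h3, e3⟩, ⟨a4, h4, e4⟩⟩ := hd
  simp only at e1 e2 e3 e4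
  have f1 := (tc_extent Q RR X hX a1 b h1 hb).1
  have f2 := (tc_extent Q RR X hX b a2 hb h2).1
  have f3 := (tc_extent Q RR X hX a3 b h3 hb).2
  have f4 := (tc_extent Q RR X hX b a4 hb h4).2
  omega

open Classical in
/-- polynomially many roots: `#{X : |X| = k} ≤ (2 (H + R k) + 1)² C_an^k ≤ (2 H + 2 R + 1)² (4 C_an)^k` -/
theorem tc_center_sum_le (R : ℕ) : ∃ Can : ℕ, 1 ≤ Can ∧ ∀ (G : Geom) (g : Grid G), g.Ok → ∀ (x : ℝ), 0 ≤ x → 8 * Can * x ≤ 1 →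
    ∀ (c1 c2 H : ℕ) (𝒳 : Finset (Finset g.I)), (∀ X ∈ 𝒳, g.Conn R X ∧ ∃ b ∈ X, (b.1 : ℕ) ≤ c1 + H + R * X.card ∧ c1 ≤ (b.1 : ℕ) + H + R * X.card ∧
      (b.2 : ℕ) ≤ c2 + H + R * X.card ∧ c2 ≤ (b.2 : ℕ) + H + R * X.card) →
    ∑ X ∈ 𝒳, x ^ X.card ≤ (2 * H + 2 * R + 1 : ℕ) ^ 2 * (8 * Can * x) := by
  obtain ⟨C, hC⟩ := B4.geometry_animals R
  refine ⟨max C 1, le_max_right _ _, fun G g hg x hx hx8 c1 c2 H 𝒳 h𝒳 => ?_⟩
  set N := Fintype.card g.I + 1 with hN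
  set W := 2 * H + 2 * R + 1 with hW
  have hmaps : ∀ X ∈ 𝒳, X.card ∈ Finset.Ico 1 N := by
    intro X hX
    exact Finset.mem_Ico.2 ⟨Finset.card_pos.2 (h𝒳 X hX).1.1, Nat.lt_succ_of_le (Finset.card_le_univ X)⟩
  have hy : (0 : ℝ) ≤ 4 * ((max C 1 : ℕ) : ℝ) * x := mul_nonneg (mul_nonneg (by norm_num) (Nat.cast_nonneg _)) hx
  have hcount : ∀ k, 1 ≤ k → (𝒳.filter fun X => X.card = k).card ≤ W ^ 2 * (4 * max C 1) ^ k := by
    intro k hk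
    set w := H + R * k with hw
    set A1 : Finset (Fin g.n) := Finset.univ.filter fun i : Fin g.n => (i : ℕ) ≤ c1 + w ∧ c1 ≤ (i : ℕ) + w with hA1
    set A2 : Finset (Fin g.n) := Finset.univ.filter fun i : Fin g.n => (i : ℕ) ≤ c2 + w ∧ c2 ≤ (i : ℕ) + w with hA2
    have hsub : (𝒳.filter fun X => X.card = k) ⊆
        (A1 ×ˢ A2).biUnion fun b => Finset.univ.filter fun X : Finset g.I => g.Conn R X ∧ b ∈ X ∧ X.card = k := by
      intro X hX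
      obtain ⟨h1, h2⟩ := Finset.mem_filter.1 hX
      obtain ⟨hc, b, hb, e1, e2, e3, e4⟩ := h𝒳 X h1
      rw [h2] at e1 e2 e3 e4
      refine Finset.mem_biUnion.2 ⟨b, Finset.mem_product.2 ⟨?_, ?_⟩, Finset.mem_filter.2 ⟨Finset.mem_univ _, hc, hb, h2⟩⟩
      · exact Finset.mem_filter.2 ⟨Finset.mem_univ _, by omega, by omega⟩
      · exact Finset.mem_filter.2 ⟨Finset.mem_univ _, by omega, by omega⟩
    have h1 := (Finset.card_le_card hsub).trans (Finset.card_biUnion_le_card_mul _ _ (C ^ k) fun b _ => hC G g hg b k)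
    have hwk : 2 * w + 1 ≤ W * k := by
      have h0 : 2 * H + 1 ≤ (2 * H + 1) * k := Nat.le_mul_of_pos_right _ hk
      calc 2 * w + 1 = 2 * H + 1 + 2 * R * k := by rw [hw]; ring
        _ ≤ (2 * H + 1) * k + 2 * R * k := Nat.add_le_add_right h0 _
        _ = W * k := by rw [hW]; ring
    have hk2 : k ≤ 2 ^ k := Nat.lt_two_pow_self.le
    have hA : (A1 ×ˢ A2).card ≤ W ^ 2 * 4 ^ k := by
      rw [Finset.card_product]
      calc A1.card * A2.card ≤ (W * 2 ^ k) * (W * 2 ^ k) :=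
            Nat.mul_le_mul (((tc_window_card _ _ _).trans hwk).trans (Nat.mul_le_mul_left _ hk2))
              (((tc_window_card _ _ _).trans hwk).trans (Nat.mul_le_mul_left _ hk2))
        _ = W ^ 2 * (2 * 2) ^ k := by rw [mul_pow]; ring
        _ = W ^ 2 * 4 ^ k := by norm_num
    calc (𝒳.filter fun X => X.card = k).card ≤ (A1 ×ˢ A2).card * C ^ k := h1
      _ ≤ (W ^ 2 * 4 ^ k) * (max C 1) ^ k := Nat.mul_le_mul hA (Nat.pow_le_pow_left (le_max_left _ _) k)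
      _ = W ^ 2 * (4 * max C 1) ^ k := by rw [mul_pow]; ring
  rw [← Finset.sum_fiberwise_of_maps_to hmaps]
  have hfib : ∀ k ∈ Finset.Ico 1 N, ∑ X ∈ 𝒳.filter (fun X => X.card = k), x ^ X.card
      ≤ (W : ℝ) ^ 2 * (4 * ((max C 1 : ℕ) : ℝ) * x) ^ k := by
    intro k hk
    have e : ∑ X ∈ 𝒳.filter (fun X => X.card = k), x ^ X.card = ((𝒳.filter (fun X => X.card = k)).card : ℝ) * x ^ k := by
      rw [Finset.sum_congr rfl (fun X hX => by rw [(Finset.mem_filter.1 hX).2]), Finset.sum_const, nsmul_eq_mul]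
    rw [e, mul_pow, ← mul_assoc]
    refine mul_le_mul_of_nonneg_right ?_ (pow_nonneg hx k)
    exact_mod_cast hcount k (Finset.mem_Ico.1 hk).1
  refine (Finset.sum_le_sum hfib).trans ?_
  rw [← Finset.mul_sum]
  refine mul_le_mul_of_nonneg_left ?_ (by positivity)
  refine (ta_geom_tail _ hy (by linarith) 1 N).trans (le_of_eq ?_)
  ring

theorem tc_eI_val (P : SqPair) (b : P.Q0.g.I) : ((P.eI b).1 : ℕ) = (b.1 : ℕ) + (P.Q1.D - P.Q0.D) ∧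
    ((P.eI b).2 : ℕ) = (b.2 : ℕ) + (P.Q1.D - P.Q0.D) := ⟨rfl, rfl⟩

theorem tc_eI_inj (P : SqPair) : Function.Injective P.eI := by
  intro a b h
  have h1 : ((P.eI a).1 : ℕ) = ((P.eI b).1 : ℕ) := by rw [h]
  have h2 : ((P.eI a).2 : ℕ) = ((P.eI b).2 : ℕ) := by rw [h]
  rw [(tc_eI_val P a).1, (tc_eI_val P b).1] at h1
  rw [(tc_eI_val P a).2, (tc_eI_val P b).2] at h2
  exact Prod.ext (Fin.ext (by omega)) (Fin.ext (by omega))

theorem tc_eI_idist (P : SqPair) (a b : P.Q0.g.I) : P.Q1.g.idist (P.eI a) (P.eI b) = P.Q0.g.idist a b := by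
  rw [tc_idist_free, tc_idist_free, (tc_eI_val P a).1, (tc_eI_val P b).1, (tc_eI_val P a).2, (tc_eI_val P b).2]
  congr 1 <;> omega

theorem tc_conn_image (P : SqPair) (R : ℕ) (X : Finset P.Q0.g.I) : P.Q1.g.Conn R (X.image P.eI) ↔ P.Q0.g.Conn R X := by
  unfold Grid.Conn
  constructor
  · rintro ⟨hne, h⟩
    refine ⟨by simpa using hne, fun a ha b hb => ?_⟩
    have key : ∀ y, Relation.ReflTransGen (fun u v => u ∈ X.image P.eI ∧ v ∈ X.image P.eI ∧ P.Q1.g.idist u v ≤ R) (P.eI a) y →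
        ∃ b', y = P.eI b' ∧ Relation.ReflTransGen (fun u v => u ∈ X ∧ v ∈ X ∧ P.Q0.g.idist u v ≤ R) a b' := by
      intro y hy
      induction hy with
      | refl => exact ⟨a, rfl, Relation.ReflTransGen.refl⟩
      | @tail y z _ hyz ih =>
        obtain ⟨b', rfl, hb'⟩ := ih
        obtain ⟨h1, h2, h3⟩ := hyz
        obtain ⟨c, hc, rfl⟩ := Finset.mem_image.1 h2
        obtain ⟨c', hc', e'⟩ := Finset.mem_image.1 h1
        rw [tc_eI_inj P e'] at hc'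
        exact ⟨c, rfl, hb'.tail ⟨hc', hc, by rwa [tc_eI_idist] at h3⟩⟩
    obtain ⟨b', hbb, hp⟩ := key (P.eI b) (h _ (Finset.mem_image_of_mem _ ha) _ (Finset.mem_image_of_mem _ hb))
    rwa [tc_eI_inj P hbb]
  · rintro ⟨hne, h⟩
    refine ⟨by simpa using hne, ?_⟩
    intro a' ha' b' hb'
    obtain ⟨a, ha, rfl⟩ := Finset.mem_image.1 ha'
    obtain ⟨b, hb, rfl⟩ := Finset.mem_image.1 hb'
    exact Relation.ReflTransGen.lift P.eI (fun u v huv => ⟨Finset.mem_image_of_mem _ huv.1, Finset.mem_image_of_mem _ huv.2.1,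
      by rw [tc_eI_idist]; exact huv.2.2⟩) _ _ (h a ha b hb)

theorem tc_inRect_image (P : SqPair) (H : ℕ) (X : Finset P.Q0.g.I) :
    P.Q1.InRect H (X.image P.eI) (P.Q1.D, P.Q1.D) ↔ P.Q0.InRect H X (P.Q0.D, P.Q0.D) := by
  have hD := P.hD
  unfold Sq.InRect
  simp only [Finset.exists_mem_image, tc_eI_val]
  refine and_congr ?_ (and_congr ?_ (and_congr ?_ ?_)) <;>
    exact exists_congr fun a => and_congr_right fun _ => by omega

theorem tc_wallFree_image (P : SqPair) (H : ℕ) (X : Finset P.Q0.g.I) (h : P.Q0.WallFree H X) : P.Q1.WallFree H (X.image P.eI) := by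
  have hD := P.hD
  intro b hb
  obtain ⟨a, ha, rfl⟩ := Finset.mem_image.1 hb
  have := h a ha
  rw [(tc_eI_val P a).1, (tc_eI_val P a).2]
  omega

open Classical in
/-- the small wall-free defects of the two squares correspond under the centred embedding (for `N ≥ N0`, `D₀ ≥ D1`) -/
theorem tc_defect_bij (H0 H1 : ℕ) : ∃ N0 D1 : ℕ, ∀ P : SqPair, D1 ≤ P.Q0.D → ∀ N ≥ N0,
    (Finset.univ.filter fun X : Finset P.Q1.g.I => P.Q1.g.Conn RR X ∧ clC P.Q1 H0 H1 N P.Q0.D X)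
      = (Finset.univ.filter fun X : Finset P.Q0.g.I => P.Q0.g.Conn RR X ∧ clC P.Q0 H0 H1 N P.Q0.D X).image (fun X => X.image P.eI) ∧
    Set.InjOn (fun X : Finset P.Q0.g.I => X.image P.eI) Set.univ ∧ ∀ X : Finset P.Q0.g.I, (X.image P.eI).card = X.card := by
  refine ⟨2 * RR, 2 * (H0 + H1) + 2, fun P hD N hN => ⟨?_, ?_, ?_⟩⟩
  · have hDD := P.hD
    ext Y
    simp only [Finset.mem_filter, Finset.mem_univ, true_and, Finset.mem_image, clC, Sq.ShiftGood, not_not]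
    constructor
    · rintro ⟨hc, hw, hd, hn⟩
      have hnear := tc_defect_near P.Q1 H1 Y hc (by unfold Sq.ShiftGood; rwa [not_not])
      have hRk : 2 * (RR * Y.card) ≤ P.Q0.D := by
        calc 2 * (RR * Y.card) = 2 * RR * Y.card := by ring
          _ ≤ N * Y.card := Nat.mul_le_mul_right _ hN
          _ ≤ _ := hn
      set X : Finset P.Q0.g.I := Finset.univ.filter (fun b => P.eI b ∈ Y) with hX
      have hXY : X.image P.eI = Y := by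
        ext y
        simp only [hX, Finset.mem_image, Finset.mem_filter, Finset.mem_univ, true_and]
        constructor
        · rintro ⟨a, ha, rfl⟩
          exact ha
        · intro hy
          obtain ⟨n1, n2, n3, n4⟩ := hnear y hy
          have e : P.eI ((⟨(y.1 : ℕ) - (P.Q1.D - P.Q0.D), by show _ < 2 * P.Q0.D; omega⟩,
              ⟨(y.2 : ℕ) - (P.Q1.D - P.Q0.D), by show _ < 2 * P.Q0.D; omega⟩) : P.Q0.g.I) = y := by
            refine Prod.ext (Fin.ext ?_) (Fin.ext ?_)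
            · rw [(tc_eI_val P _).1]
              show (y.1 : ℕ) - (P.Q1.D - P.Q0.D) + (P.Q1.D - P.Q0.D) = y.1
              omega
            · rw [(tc_eI_val P _).2]
              show (y.2 : ℕ) - (P.Q1.D - P.Q0.D) + (P.Q1.D - P.Q0.D) = y.2
              omega
          exact ⟨_, by rw [e]; exact hy, e⟩
      have hcard : X.card = Y.card := by rw [← hXY, Finset.card_image_of_injective _ (tc_eI_inj P)]
      refine ⟨X, ⟨(tc_conn_image P RR X).1 (by rw [hXY]; exact hc), ?_, (tc_inRect_image P H1 X).1 (by rw [hXY]; exact hd),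
        by rw [hcard]; exact hn⟩, hXY⟩
      intro b hb
      have hbY : P.eI b ∈ Y := (Finset.mem_filter.1 hb).2
      obtain ⟨n1, n2, n3, n4⟩ := hnear _ hbY
      rw [(tc_eI_val P b).1] at n1 n2
      rw [(tc_eI_val P b).2] at n3 n4
      omega
    · rintro ⟨X, ⟨hc, hw, hd, hn⟩, rfl⟩
      exact ⟨(tc_conn_image P RR X).2 hc, tc_wallFree_image P H0 X hw, (tc_inRect_image P H1 X).2 hd,
        by rw [Finset.card_image_of_injective _ (tc_eI_inj P)]; exact hn⟩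
  · intro X _ X' _ h
    exact Finset.image_injective (tc_eI_inj P) h
  · intro X
    exact Finset.card_image_of_injective _ (tc_eI_inj P)

/-! ## 9. LEAVES `L-OBS-TC13`, `TC14`: the four sums -/

section sums

/-- a singleton is a polymer -/
theorem tc_conn_single {G : Geom} (g : Grid G) (R : ℕ) (B : g.I) : g.Conn R {B} := by
  refine ⟨Finset.singleton_nonempty B, fun a ha b hb => ?_⟩
  rw [Finset.mem_singleton] at ha hb
  rw [ha, hb]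

/-- non-polymers carry nothing -/
theorem tc_dK_nonpoly {fx : Fix} {Q : Sq} {d : SqData Q} {t z ν ν2 vJ : ℝ} (hd : d.Ok fx t z ν ν2 vJ) (X : Finset Q.g.I)
    (hX : ¬ Q.g.Conn RR X) : dK d fx.p.ω X = 0 := by
  unfold dK
  rw [hd.Kt_ok.poly X hX, hd.K0_ok.poly X hX, term_zero, sub_zero]

open Classical in
/-- a sum over a class, reduced to its polymers -/
theorem tc_class_norm_le {G : Geom} (g : Grid G) (p : Finset g.I → Prop) (f : Finset g.I → ℂ) (c y : ℝ)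
    (h0 : ∀ X, p X → ¬ g.Conn RR X → f X = 0) (h1 : ∀ X, p X → g.Conn RR X → ‖f X‖ ≤ c * y ^ X.card) :
    ‖∑ X ∈ Finset.univ.filter p, f X‖ ≤ c * ∑ X ∈ Finset.univ.filter (fun X => p X ∧ g.Conn RR X), y ^ X.card := by
  have e : ∑ X ∈ Finset.univ.filter p, f X = ∑ X ∈ Finset.univ.filter (fun X => p X ∧ g.Conn RR X), f X := by
    rw [← Finset.filter_filter]
    symm
    refine Finset.sum_filter_of_ne fun X hX hne => ?_
    by_contra hc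
    exact hne (h0 X (Finset.mem_filter.1 hX).2 hc)
  rw [e, Finset.mul_sum]
  refine (norm_sum_le _ _).trans (Finset.sum_le_sum fun X hX => ?_)
  obtain ⟨-, h2, h3⟩ := Finset.mem_filter.1 hX
  exact h1 X h2 h3

/-- `x = c_T / A` -/
theorem tc_x_small (Can : ℕ) (cT : ℝ≥0) (A K : ℝ) (hA : 0 < A) (hK : 0 < K) (h : 2 * K * Can * cT ≤ A) :
    0 ≤ (cT : ℝ) / A ∧ K * Can * ((cT : ℝ) / A) ≤ 1 / 2 := by
  refine ⟨by positivity, ?_⟩
  rw [← mul_div_assoc, div_le_iff₀ hA]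
  linarith

/-- `k³ ≤ 4 · 2^k` -/
theorem tc_cube_le (k : ℕ) : k ^ 3 ≤ 4 * 2 ^ k := by
  rcases Nat.lt_or_ge k 4 with h | h
  · interval_cases k <;> norm_num
  · induction k, h using Nat.le_induction with
    | base => norm_num
    | succ n hn ih =>
      have h1 : (n + 1) ^ 3 ≤ 2 * n ^ 3 := by
        have h2 : 4 * n ^ 2 ≤ n ^ 3 := by
          calc 4 * n ^ 2 ≤ n * n ^ 2 := Nat.mul_le_mul_right _ hn
            _ = n ^ 3 := by ring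
        have h3 : 4 * n ≤ n ^ 2 := by
          calc 4 * n ≤ n * n := Nat.mul_le_mul_right _ hn
            _ = n ^ 2 := by ring
        nlinarith
      calc (n + 1) ^ 3 ≤ 2 * n ^ 3 := h1
        _ ≤ 2 * (4 * 2 ^ n) := Nat.mul_le_mul_left _ ih
        _ = 4 * 2 ^ (n + 1) := by ring

/-- `D³ 2^{-(D/N + 1)} ≤ 4 N³` -/
theorem tc_cube_tail (N D : ℕ) (hN : 1 ≤ N) : (D : ℝ) ^ 3 * (1 / 2) ^ (D / N + 1) ≤ 4 * (N : ℝ) ^ 3 := by
  have h1 : D ≤ N * (D / N + 1) := (Nat.lt_mul_div_succ D (by omega)).le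
  have h2 := tc_cube_le (D / N + 1)
  have h3 : D ^ 3 ≤ N ^ 3 * (4 * 2 ^ (D / N + 1)) := by
    calc D ^ 3 ≤ (N * (D / N + 1)) ^ 3 := Nat.pow_le_pow_left h1 3
      _ = N ^ 3 * (D / N + 1) ^ 3 := by ring
      _ ≤ N ^ 3 * (4 * 2 ^ (D / N + 1)) := Nat.mul_le_mul_left _ h2
  have h4 : (D : ℝ) ^ 3 ≤ (N : ℝ) ^ 3 * (4 * 2 ^ (D / N + 1)) := by exact_mod_cast h3
  have h5 : (0 : ℝ) < 2 ^ (D / N + 1) := by positivity
  rw [one_div, inv_pow, ← div_eq_mul_inv, div_le_iff₀ h5]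
  linarith

/-- `(1 + k)² ≤ 4^k` -/
theorem tc_sq_le (k : ℕ) : (1 + (k : ℝ)) ^ 2 ≤ 4 ^ k := by
  have h1 : k + 1 ≤ 2 ^ k := Nat.lt_two_pow_self
  have h2 : (1 + (k : ℝ)) ≤ 2 ^ k := by
    have : ((k + 1 : ℕ) : ℝ) ≤ ((2 ^ k : ℕ) : ℝ) := by exact_mod_cast h1
    push_cast at this
    linarith
  calc (1 + (k : ℝ)) ^ 2 ≤ ((2 : ℝ) ^ k) ^ 2 := pow_le_pow_left₀ (by positivity) h2 2
    _ = 4 ^ k := by rw [← pow_mul, mul_comm, pow_mul]; norm_num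

open Classical in
/-- **`𝔊`**: `tc_good` (non-polymers: both sides vanish), `tc_lift_energy`, `ta_class_sum_le` with `S = univ`.  `Can` = the constant of `ta_class_sum_le RR`. -/
theorem tc_sum_G : ∃ Can : ℕ, 1 ≤ Can ∧ ∀ (fx : Fix) (Q : Sq) (d : SqData Q) (t z ν ν2 vJ ps Ctr : ℝ) (cT : ℝ≥0) (Dk : ℕ), Std fx → d.Ok fx t z ν ν2 vJ →
    Env fx Q d ps Ctr cT Dk → 1 < ps → 1 ≤ cT → 0 ≤ Ctr → 0 ≤ ν2 → 4 * Can * cT ≤ fx.p.A →
    (∀ X, clG Q fx.H0 fx.H1 X → U Q.g fx.p.δ X (d.lam X) + bondE (Q.g.Dm X) (d.lam X) ≤ Ctr * X.card) →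
      ‖∑ X ∈ Finset.univ.filter (clG Q fx.H0 fx.H1), dK d fx.p.ω X
          - ((t / 2 * ∑ B ∈ Finset.univ.filter (fun B : Q.g.I => clG Q fx.H0 fx.H1 {B}), eB Q.g B (d.lam {B}) : ℝ) : ℂ)‖
        ≤ 4 * (Q.D : ℝ) ^ 2 * ν2 := by
  obtain ⟨Can, hCan, H⟩ := ta_class_sum_le RR
  refine ⟨Can, hCan, ?_⟩
  intro fx Q d t z ν ν2 vJ ps Ctr cT Dk hs hd he hps hcT hCtr hν2 hA hlam
  obtain ⟨hx0, hx1⟩ := tc_x_small Can cT fx.p.A 2 hs.A_pos (by norm_num) (by linarith)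
  obtain ⟨x, hx⟩ : ∃ x : ℝ, x = (cT : ℝ) / fx.p.A := ⟨_, rfl⟩
  rw [← hx] at hx0 hx1
  -- the singletons
  have e1 : ((t / 2 * ∑ B ∈ Finset.univ.filter (fun B : Q.g.I => clG Q fx.H0 fx.H1 {B}), eB Q.g B (d.lam {B}) : ℝ) : ℂ)
      = ∑ X ∈ Finset.univ.filter (clG Q fx.H0 fx.H1), ∑ B : Q.g.I, if X = {B} then ((t / 2 * eB Q.g B (d.lam X) : ℝ) : ℂ) else 0 := by
    rw [Finset.sum_comm, Finset.mul_sum, Complex.ofReal_sum, Finset.sum_filter]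
    refine Finset.sum_congr rfl fun B _ => ?_
    rw [Finset.sum_ite_eq']
    simp only [Finset.mem_filter, Finset.mem_univ, true_and]
  rw [e1, ← Finset.sum_sub_distrib]
  have key := tc_class_norm_le Q.g (clG Q fx.H0 fx.H1)
    (fun X => dK d fx.p.ω X - ∑ B : Q.g.I, if X = {B} then ((t / 2 * eB Q.g B (d.lam X) : ℝ) : ℂ) else 0) (2 * ν2) x
    (fun X _ hc => by
      show dK d fx.p.ω X - _ = 0
      rw [tc_dK_nonpoly hd X hc, zero_sub, neg_eq_zero]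
      refine Finset.sum_eq_zero fun B _ => if_neg fun hB => hc ?_
      rw [hB]
      exact tc_conn_single _ _ _)
    (fun X hX _ => by
      rw [hx]
      exact tc_good hs hd he hps hcT hCtr hν2 X hX (hlam X hX))
  refine key.trans ?_
  have h2 := H Q.G Q.g (tc_g_ok Q) x hx0 (by linarith) Finset.univ 0
    (Finset.univ.filter (fun X => clG Q fx.H0 fx.H1 X ∧ Q.g.Conn RR X)) (fun X hX => by
      obtain ⟨-, -, h3⟩ := Finset.mem_filter.1 hX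
      obtain ⟨b, hb⟩ := h3.1
      exact ⟨h3, ⟨b, hb, Finset.mem_univ _⟩, Nat.zero_le _⟩)
  rw [Finset.card_univ, tc_card_I] at h2
  simp only [Nat.zero_max, pow_one] at h2
  have h3 : 4 * (Q.D : ℝ) ^ 2 * (2 * Can * x) ≤ 4 * (Q.D : ℝ) ^ 2 * (1 / 2) :=
    mul_le_mul_of_nonneg_left hx1 (by positivity)
  calc 2 * ν2 * ∑ X ∈ Finset.univ.filter (fun X => clG Q fx.H0 fx.H1 X ∧ Q.g.Conn RR X), x ^ X.card
      ≤ 2 * ν2 * (4 * (Q.D : ℝ) ^ 2 * (1 / 2)) := mul_le_mul_of_nonneg_left (h2.trans h3) (by positivity)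
    _ = 4 * (Q.D : ℝ) ^ 2 * ν2 := by ring

open Classical in
/-- **`𝔚`**: `tc_wall_lift` (gives `N0`, `D1`, `C`), `2 C (1 + k) / D ≤ h₀` for `N ≥ N0' (h₀)`, `D ≥ D1'`; `tc_wall`; `(1 + k)² ≤ 4^k`; `ta_class_sum_le` with the roots of `tc_wall_roots`. -/
theorem tc_sum_W (a : ℝ) (ha : 0 < a) (h0 : ℝ≥0) (hh : 0 < h0) (H0 H1 : ℕ) (hH1 : 3 ≤ H1) : ∃ (Can N0 : ℕ), 1 ≤ Can ∧ ∀ N ≥ N0, ∃ (C : ℝ) (D1 : ℕ),
    ∀ (fx : Fix) (Q : Sq) (d : SqData Q) (t z ν ν2 vJ ps Ctr : ℝ) (cT : ℝ≥0) (Dk : ℕ), Std fx → fx.o.a = a → fx.p.h0 = h0 → fx.H0 = H0 → fx.H1 = H1 →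
    d.Ok fx t z ν ν2 vJ → 2 ≤ Q.m → Env fx Q d ps Ctr cT Dk → 1 < ps → 1 ≤ cT → 0 ≤ Ctr → 0 ≤ ν → 16 * Can * cT ≤ fx.p.A →
    ∀ D : ℕ, D1 ≤ D → D ≤ Q.D →
      ‖∑ X ∈ Finset.univ.filter (clW Q H0 N D), dK d fx.p.ω X‖ ≤ C * ν / Q.D := by
  obtain ⟨Can, hCan, H⟩ := ta_class_sum_le RR
  obtain ⟨Cw, N0w, D1w, hCw, W⟩ := tc_wall_lift a ha H0 H1 hH1
  obtain ⟨n1, hn1⟩ := exists_nat_ge (4 * Cw / (h0 : ℝ))
  refine ⟨Can, max N0w (n1 + 1), hCan, fun N hN => ⟨32 * Cw ^ 2 * H0 / (h0 : ℝ) ^ 2, max D1w (n1 + 1), ?_⟩⟩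
  intro fx Q d t z ν ν2 vJ ps Ctr cT Dk hs hfa hfh hfH0 hfH1 hd hm he hps hcT hCtr hν hA D hD1 hDQ
  have hh' : (0 : ℝ) < h0 := by exact_mod_cast hh
  obtain ⟨hx0, hx1⟩ := tc_x_small Can cT fx.p.A 8 hs.A_pos (by norm_num) (by linarith)
  obtain ⟨x, hx⟩ : ∃ x : ℝ, x = (cT : ℝ) / fx.p.A := ⟨_, rfl⟩
  rw [← hx] at hx0 hx1
  have hQD : (0 : ℝ) < Q.D := by exact_mod_cast Q.hD
  have hNn : n1 + 1 ≤ N := le_trans (le_max_right _ _) hN
  have hDn : n1 + 1 ≤ Q.D := le_trans (le_trans (le_max_right _ _) hD1) hDQ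
  have hM2 : 4 * Cw ≤ (h0 : ℝ) * ((n1 : ℝ) + 1) := by
    rw [div_le_iff₀ hh'] at hn1
    nlinarith
  -- one polymer
  have one : ∀ X, clW Q H0 N D X → Q.g.Conn RR X →
      ‖dK d fx.p.ω X‖ ≤ (4 * Cw ^ 2 / ((h0 : ℝ) ^ 2 * (Q.D : ℝ) ^ 2) * ν) * (4 * x) ^ X.card := by
    intro X hX hc
    have hNX : N * X.card ≤ Q.D := hX.2.trans hDQ
    obtain ⟨hsg, hl⟩ := W Q hm (le_trans (le_trans (le_max_left _ _) hD1) hDQ) d.v hd.coclosed N (le_trans (le_max_left _ _) hN) X hc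
      hX.1 hNX
    have hsg' : Q.ShiftGood fx.H1 X := by rw [hfH1]; exact hsg
    have hlift : Q.IsLift (Real.sqrt a) d.v H1 X (d.lam X) := by
      have h := hd.lift X hsg'
      rw [hfH1] at h
      unfold Fix.α at h
      rw [hfa] at h
      exact h
    obtain ⟨b, hb⟩ := hc.1
    obtain ⟨x0, hx0'⟩ := obs_cells_nonempty Q.g (tc_g_ok Q) b
    have hx0D : x0 ∈ Q.g.Dm X := by
      rw [Reg.reg_mem_Dm]
      have h : Q.g.blk x0 = b := by simpa [Reg.reg_mem_sites] using hx0'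
      rw [h]
      exact Reg.reg_subset_collar Q.g X hb
    have han := hl _ hlift x0 hx0D
    have hM1 : ((n1 : ℝ) + 1) * (1 + (X.card : ℝ)) ≤ 2 * Q.D := by
      have h1 : (n1 + 1) * X.card ≤ Q.D := (Nat.mul_le_mul_right _ hNn).trans hNX
      have h2 : (n1 + 1) * (1 + X.card) ≤ 2 * Q.D := by nlinarith
      exact_mod_cast h2
    have hk0 : (0 : ℝ) ≤ 1 + (X.card : ℝ) := by positivity
    have hsmall : Cw * (1 + (X.card : ℝ)) / Q.D ≤ (h0 : ℝ) / 2 := by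
      rw [div_le_iff₀ hQD]
      have h1 := mul_le_mul_of_nonneg_right hM2 hk0
      have h2 := mul_le_mul_of_nonneg_left hM1 hh'.le
      nlinarith
    have hl2 : 2 * anorm Q.g X x0 (d.lam X) ≤ fx.p.h0 := by
      rw [hfh, ← NNReal.coe_le_coe]
      push_cast
      linarith
    have hw := tc_wall hs hd he hps hcT hCtr hν X hsg' x0 hl2
    rw [hfh, ← hx] at hw
    refine hw.trans ?_
    have h3 : ((anorm Q.g X x0 (d.lam X) : ℝ) / (h0 : ℝ)) ^ 2 ≤ (Cw * (1 + (X.card : ℝ)) / Q.D / (h0 : ℝ)) ^ 2 :=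
      pow_le_pow_left₀ (by positivity) (div_le_div_of_nonneg_right han hh'.le) 2
    have h4 := tc_sq_le X.card
    have hxk : 0 ≤ x ^ X.card := pow_nonneg hx0 _
    calc 4 * ((anorm Q.g X x0 (d.lam X) : ℝ) / (h0 : ℝ)) ^ 2 * ν * x ^ X.card
        ≤ 4 * (Cw * (1 + (X.card : ℝ)) / Q.D / (h0 : ℝ)) ^ 2 * ν * x ^ X.card := by
          refine mul_le_mul_of_nonneg_right (mul_le_mul_of_nonneg_right ?_ hν) hxk
          linarith
      _ = (4 * Cw ^ 2 / ((h0 : ℝ) ^ 2 * (Q.D : ℝ) ^ 2) * ν) * ((1 + (X.card : ℝ)) ^ 2 * x ^ X.card) := by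
          field_simp
      _ ≤ (4 * Cw ^ 2 / ((h0 : ℝ) ^ 2 * (Q.D : ℝ) ^ 2) * ν) * (4 ^ X.card * x ^ X.card) :=
          mul_le_mul_of_nonneg_left (mul_le_mul_of_nonneg_right h4 hxk) (by positivity)
      _ = _ := by rw [mul_pow]
  have key := tc_class_norm_le Q.g (clW Q H0 N D) (fun X => dK d fx.p.ω X) _ (4 * x)
    (fun X _ hc => tc_dK_nonpoly hd X hc) one
  refine key.trans ?_
  obtain ⟨hS, hroot⟩ := tc_wall_roots Q H0
  have h2 := H Q.G Q.g (tc_g_ok Q) (4 * x) (by positivity) (by linarith) (Finset.univ.filter fun b : Q.g.I => ¬ Q.WallFree H0 {b}) 0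
    (Finset.univ.filter (fun X => clW Q H0 N D X ∧ Q.g.Conn RR X)) (fun X hX => by
      obtain ⟨-, h4, h3⟩ := Finset.mem_filter.1 hX
      obtain ⟨b, hb, hb'⟩ := hroot X h4.1
      exact ⟨h3, ⟨b, hb, Finset.mem_filter.2 ⟨Finset.mem_univ _, hb'⟩⟩, Nat.zero_le _⟩)
  simp only [Nat.zero_max, pow_one] at h2
  have hS' : ((Finset.univ.filter fun b : Q.g.I => ¬ Q.WallFree H0 {b}).card : ℝ) ≤ 16 * H0 * Q.D := by exact_mod_cast hS
  have h5 : ∑ X ∈ Finset.univ.filter (fun X => clW Q H0 N D X ∧ Q.g.Conn RR X), (4 * x) ^ X.card ≤ 16 * H0 * Q.D * (1 / 2) := by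
    refine h2.trans ?_
    exact mul_le_mul hS' (by linarith) (by positivity) (by positivity)
  calc (4 * Cw ^ 2 / ((h0 : ℝ) ^ 2 * (Q.D : ℝ) ^ 2) * ν) * ∑ X ∈ Finset.univ.filter (fun X => clW Q H0 N D X ∧ Q.g.Conn RR X), (4 * x) ^ X.card
      ≤ (4 * Cw ^ 2 / ((h0 : ℝ) ^ 2 * (Q.D : ℝ) ^ 2) * ν) * (16 * H0 * Q.D * (1 / 2)) :=
        mul_le_mul_of_nonneg_left h5 (by positivity)
    _ = 32 * Cw ^ 2 * H0 / (h0 : ℝ) ^ 2 * ν / Q.D := by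
        field_simp
        ring

open Classical in
/-- **`𝔏`**: `tc_any` twice; `ta_class_sum_le` with `S = univ`, `k0 = D / N + 1`: `∑ ≤ |I| 2^{-D/N}`; `D³ 2^{-D/N} ≤ C (N)`. -/
theorem tc_sum_L (N ℓ : ℕ) (hN : 1 ≤ N) : ∃ (Can : ℕ) (C : ℝ), 1 ≤ Can ∧
    ∀ (fx : Fix) (Q : Sq) (d : SqData Q) (t z ν ν2 vJ ps Ctr : ℝ) (cT : ℝ≥0) (Dk : ℕ), Std fx →
    d.Ok fx t z ν ν2 vJ → Env fx Q d ps Ctr cT Dk → 1 < ps → 1 ≤ cT → 0 ≤ Ctr → 0 ≤ ν → 4 * Can * cT ≤ fx.p.A →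
    ∀ D : ℕ, 1 ≤ D → Q.D ≤ 2 ^ ℓ * D →
      ‖∑ X ∈ Finset.univ.filter (clL Q fx.H0 fx.H1 N D), dK d fx.p.ω X‖ ≤ C * ν / D := by
  obtain ⟨Can, hCan, H⟩ := ta_class_sum_le RR
  refine ⟨Can, 32 * ((2 : ℝ) ^ ℓ) ^ 2 * (N : ℝ) ^ 3, hCan, ?_⟩
  intro fx Q d t z ν ν2 vJ ps Ctr cT Dk hs hd he hps hcT hCtr hν hA D hD hQD
  obtain ⟨hx0, hx1⟩ := tc_x_small Can cT fx.p.A 2 hs.A_pos (by norm_num) (by linarith)
  obtain ⟨x, hx⟩ : ∃ x : ℝ, x = (cT : ℝ) / fx.p.A := ⟨_, rfl⟩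
  rw [← hx] at hx0 hx1
  have key := tc_class_norm_le Q.g (clL Q fx.H0 fx.H1 N D) (fun X => dK d fx.p.ω X) (2 * ν) x
    (fun X _ hc => tc_dK_nonpoly hd X hc)
    (fun X _ _ => by
      have a1 := tc_any hs he hps hcT hCtr hd.obs d.Kt ν hν hd.Kt_bd X
      have a2 := tc_any hs he hps hcT hCtr hd.obs d.K0 ν hν hd.K0_bd X
      rw [← hx] at a1 a2
      show ‖dK d fx.p.ω X‖ ≤ _
      unfold dK
      refine (norm_sub_le _ _).trans ?_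
      linarith)
  refine key.trans ?_
  have h2 := H Q.G Q.g (tc_g_ok Q) x hx0 (by linarith) Finset.univ (D / N + 1)
    (Finset.univ.filter (fun X => clL Q fx.H0 fx.H1 N D X ∧ Q.g.Conn RR X)) (fun X hX => by
      obtain ⟨-, h4, h3⟩ := Finset.mem_filter.1 hX
      obtain ⟨b, hb⟩ := h3.1
      refine ⟨h3, ⟨b, hb, Finset.mem_univ _⟩, ?_⟩
      have h5 : D < N * X.card := h4.2
      exact Nat.succ_le_of_lt (Nat.div_lt_of_lt_mul h5))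
  rw [Finset.card_univ, tc_card_I, max_eq_left (Nat.le_add_left 1 (D / N))] at h2
  have hDpos : (0 : ℝ) < D := by exact_mod_cast hD
  have h3 : (2 * (Can : ℝ) * x) ^ (D / N + 1) ≤ (1 / 2) ^ (D / N + 1) :=
    pow_le_pow_left₀ (by positivity) hx1 _
  have h4 : (Q.D : ℝ) ≤ 2 ^ ℓ * D := by exact_mod_cast hQD
  have h5 : (Q.D : ℝ) ^ 2 ≤ (2 ^ ℓ * D) ^ 2 := pow_le_pow_left₀ (by positivity) h4 2
  have h6 := tc_cube_tail N D hN
  have h7 : (0 : ℝ) ≤ (1 / 2) ^ (D / N + 1) := by positivity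
  have h8 : ∑ X ∈ Finset.univ.filter (fun X => clL Q fx.H0 fx.H1 N D X ∧ Q.g.Conn RR X), x ^ X.card
      ≤ 4 * (2 ^ ℓ * D) ^ 2 * (1 / 2) ^ (D / N + 1) := by
    refine h2.trans ?_
    exact mul_le_mul (by linarith) h3 (by positivity) (by positivity)
  rw [le_div_iff₀ hDpos]
  calc 2 * ν * (∑ X ∈ Finset.univ.filter (fun X => clL Q fx.H0 fx.H1 N D X ∧ Q.g.Conn RR X), x ^ X.card) * D
      ≤ 2 * ν * (4 * (2 ^ ℓ * D) ^ 2 * (1 / 2) ^ (D / N + 1)) * D :=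
        mul_le_mul_of_nonneg_right (mul_le_mul_of_nonneg_left h8 (by positivity)) hDpos.le
    _ = 8 * ν * ((2 : ℝ) ^ ℓ) ^ 2 * ((D : ℝ) ^ 3 * (1 / 2) ^ (D / N + 1)) := by ring
    _ ≤ 8 * ν * ((2 : ℝ) ^ ℓ) ^ 2 * (4 * (N : ℝ) ^ 3) := mul_le_mul_of_nonneg_left h6 (by positivity)
    _ = 32 * ((2 : ℝ) ^ ℓ) ^ 2 * (N : ℝ) ^ 3 * ν := by ring

/-- the block coordinates of a site of `D_m (X)` -/
theorem tc_C_block (Q : Sq) (X : Finset Q.g.I) (x : Q.G.V) (hx : x ∈ Q.g.Dm X) :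
    ∃ a ∈ X, (x.1 : ℕ) / Q.m ≤ (a.1 : ℕ) + 2 ∧ (a.1 : ℕ) ≤ (x.1 : ℕ) / Q.m + 2 ∧
      (x.2 : ℕ) / Q.m ≤ (a.2 : ℕ) + 2 ∧ (a.2 : ℕ) ≤ (x.2 : ℕ) / Q.m + 2 := by
  classical
  unfold Grid.Dm Grid.sites Grid.collar at hx
  simp only [Finset.mem_filter, Finset.mem_univ, true_and] at hx
  obtain ⟨a, ha, h⟩ := hx
  rw [tc_idist_free] at h
  have h1 := (le_max_left _ _).trans h
  have h2 := (le_max_right _ _).trans h
  rw [(tc_blk Q x).1] at h1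
  rw [(tc_blk Q x).2] at h2
  exact ⟨a, ha, by omega, by omega, by omega, by omega⟩

theorem tc_C_Dm_nonempty (Q : Sq) (X : Finset Q.g.I) (hX : X.Nonempty) : (Q.g.Dm X).Nonempty := by
  classical
  obtain ⟨b, hb⟩ := hX
  obtain ⟨x, hx⟩ := obs_cells_nonempty Q.g (tc_g_ok Q) b
  refine ⟨x, ?_⟩
  unfold Grid.sites at hx
  simp only [Finset.mem_filter, Finset.mem_univ, true_and, Finset.mem_singleton] at hx
  unfold Grid.Dm Grid.sites Grid.collar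
  simp only [Finset.mem_filter, Finset.mem_univ, true_and]
  refine ⟨b, hb, ?_⟩
  rw [hx, tc_idist_free]
  simp

theorem tc_C_ext (x y m c : ℕ) (hm : 0 < m) (h : x / m + 1 ≤ y / m + c) : x ≤ y + c * m := by
  have h1 := Nat.lt_mul_div_succ x hm
  have h2 := Nat.div_mul_le_self y m
  have h3 : m * (x / m + 1) ≤ m * (y / m + c) := Nat.mul_le_mul_left _ h
  have h4 : m * (y / m + c) = y / m * m + c * m := by ring
  omega

theorem tc_C_lo (x m c : ℕ) (h : c ≤ x / m) : c * m ≤ x := (Nat.mul_le_mul_right _ h).trans (Nat.div_mul_le_self x m)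

theorem tc_C_hi (x m c d : ℕ) (hm : 0 < m) (h : x / m + 1 + c ≤ d) : x + c * m < d * m := by
  have h1 := Nat.lt_mul_div_succ x hm
  have h3 : m * (x / m + 1 + c) ≤ m * d := Nat.mul_le_mul_left _ h
  have h4 : m * (x / m + 1 + c) = m * (x / m + 1) + c * m := by ring
  have h5 : m * d = d * m := Nat.mul_comm _ _
  omega

/-- extent and location of `D_m (X)` for a small defect, `K T ≤ D < 2 K T` -/
theorem tc_C_geo (Q : Sq) (H1 K T : ℕ) (X : Finset Q.g.I) (hX : Q.g.Conn RR X) (hd : ¬ Q.ShiftGood H1 X)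
    (hpp : 4 * pp ≤ K) (hKT : K * T ≤ Q.D) (hDT : Q.D < 2 * K * T) (h1 : 2 * K * (RR * X.card + 5) ≤ Q.D)
    (h2 : 2 * (H1 + RR * X.card + 3) ≤ Q.D) :
    (RR * X.card + 5) * Q.m ≤ T * Q.m ∧
    (∀ x ∈ Q.g.Dm X, ∀ y ∈ Q.g.Dm X, (x.1 : ℕ) ≤ y.1 + (RR * X.card + 5) * Q.m ∧ (x.2 : ℕ) ≤ y.2 + (RR * X.card + 5) * Q.m) ∧
    (∀ x ∈ Q.g.Dm X, pp * (T * Q.m) ≤ (x.1 : ℕ) ∧ (x.1 : ℕ) + pp * (T * Q.m) < Q.G.M ∧
      pp * (T * Q.m) ≤ (x.2 : ℕ) ∧ (x.2 : ℕ) + pp * (T * Q.m) < Q.G.M) := by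
  have hm := Q.m_pos
  refine ⟨Nat.mul_le_mul_right _ (Nat.lt_of_mul_lt_mul_left (lt_of_le_of_lt h1 hDT)).le, ?_, ?_⟩
  · intro x hx y hy
    obtain ⟨a, ha, a1, a2, a3, a4⟩ := tc_C_block Q X x hx
    obtain ⟨b, hb, b1, b2, b3, b4⟩ := tc_C_block Q X y hy
    have e := tc_extent Q RR X hX b a hb ha
    exact ⟨tc_C_ext _ _ _ _ hm (by omega), tc_C_ext _ _ _ _ hm (by omega)⟩
  · intro x hx
    obtain ⟨a, ha, a1, a2, a3, a4⟩ := tc_C_block Q X x hx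
    obtain ⟨n1, n2, n3, n4⟩ := tc_defect_near Q H1 X hX hd a ha
    have hpT : 4 * (pp * T) ≤ Q.D := by
      calc 4 * (pp * T) = 4 * pp * T := by ring
        _ ≤ K * T := Nat.mul_le_mul_right _ hpp
        _ ≤ _ := hKT
    have eM : Q.G.M = 2 * Q.D * Q.m := by
      show 2 * (Q.D * Q.m) = 2 * Q.D * Q.m
      ring
    rw [← Nat.mul_assoc]
    exact ⟨tc_C_lo _ _ _ (by omega), lt_of_lt_of_eq (tc_C_hi _ _ _ _ hm (by omega)) eM.symm, tc_C_lo _ _ _ (by omega),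
      lt_of_lt_of_eq (tc_C_hi _ _ _ _ hm (by omega)) eM.symm⟩

theorem tc_C_arith (h0 Clm Cp ν x D an R1 : ℝ) (K k : ℕ) (hh : 0 < h0) (hClm : 0 ≤ Clm) (hCp : 0 ≤ Cp) (hν : 0 ≤ ν) (hx : 0 ≤ x)
    (hD : 0 < D) (hR1 : R1 ≤ 2 * K * (RR * k + 6) / D) (han : an ≤ Cp * (1 + k) / D) :
    4 / h0 * (2 * Clm * R1 + an) * ν * x ^ k ≤ 4 / h0 * (4 * Clm * K * (RR + 6) + Cp) * (ν / D) * (2 * x) ^ k := by
  have hk : (1 + k : ℝ) ≤ 2 ^ k := by
    have : k + 1 ≤ 2 ^ k := Nat.lt_two_pow_self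
    have h' : ((k + 1 : ℕ) : ℝ) ≤ ((2 ^ k : ℕ) : ℝ) := Nat.cast_le.2 this
    push_cast at h'
    linarith
  have hk0 : (0 : ℝ) ≤ k := Nat.cast_nonneg _
  have hK0 : (0 : ℝ) ≤ K := Nat.cast_nonneg _
  have hR0 : (0 : ℝ) ≤ RR := Nat.cast_nonneg _
  have h1 : 2 * Clm * R1 + an ≤ (4 * Clm * K * (RR + 6) + Cp) * 2 ^ k / D := by
    have e1 : 2 * Clm * R1 ≤ 2 * Clm * (2 * K * (RR * k + 6) / D) := mul_le_mul_of_nonneg_left hR1 (by positivity)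
    have e2 : (RR * k + 6 : ℝ) ≤ (RR + 6) * (1 + k) := by nlinarith
    have e3 : 2 * Clm * (2 * K * (RR * k + 6) / D) + Cp * (1 + k) / D
        ≤ (4 * Clm * K * (RR + 6) + Cp) * (1 + k) / D := by
      rw [← sub_nonneg]
      have : (4 * Clm * K * (RR + 6) + Cp) * (1 + k) / D - (2 * Clm * (2 * K * (RR * k + 6) / D) + Cp * (1 + k) / D)
          = 4 * Clm * K * ((RR + 6) * (1 + k) - (RR * k + 6)) / D := by
        field_simp
        ring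
      rw [this]
      have : 0 ≤ (RR + 6 : ℝ) * (1 + k) - (RR * k + 6) := by linarith
      positivity
    have e4 : (4 * Clm * K * (RR + 6) + Cp) * (1 + k) / D ≤ (4 * Clm * K * (RR + 6) + Cp) * 2 ^ k / D := by
      refine div_le_div_of_nonneg_right (mul_le_mul_of_nonneg_left hk (by positivity)) hD.le
    linarith
  calc 4 / h0 * (2 * Clm * R1 + an) * ν * x ^ k
      ≤ 4 / h0 * ((4 * Clm * K * (RR + 6) + Cp) * 2 ^ k / D) * ν * x ^ k := by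
        refine mul_le_mul_of_nonneg_right (mul_le_mul_of_nonneg_right (mul_le_mul_of_nonneg_left h1 (by positivity)) hν)
          (pow_nonneg hx k)
    _ = _ := by
        rw [mul_pow]
        field_simp

open Classical in
/-- non-polymers do not contribute -/
theorem tc_C_conn {Q : Sq} (d : SqData Q) (fx : Fix) {t z ν ν2 vJ : ℝ} (hd : d.Ok fx t z ν ν2 vJ) (p : Finset Q.g.I → Prop) :
    ∑ X ∈ Finset.univ.filter p, dK d fx.p.ω X = ∑ X ∈ Finset.univ.filter (fun X => Q.g.Conn RR X ∧ p X), dK d fx.p.ω X := by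
  symm
  refine Finset.sum_subset (fun X hX => ?_) (fun X hX hX' => ?_)
  · exact Finset.mem_filter.2 ⟨Finset.mem_univ _, ((Finset.mem_filter.1 hX).2).2⟩
  · have hc : ¬ Q.g.Conn RR X := fun hc => hX' (Finset.mem_filter.2 ⟨Finset.mem_univ _, hc, (Finset.mem_filter.1 hX).2⟩)
    unfold dK
    rw [hd.Kt_ok.poly X hc, hd.K0_ok.poly X hc, sub_self]

open Classical in
/-- **`ℭ`**: `tc_defect_bij` (reindex the sum of `Q₁`; non-polymers vanish), `tc_pair_background` (`Dl`), `tc_choose_v` with `K = max Dk (4 pp)`, `tc_defect_near` (location, extent `ℓ = (RR k + 5) m`),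
`tc_defect` for `(K^τ₀, K^τ₁, Dl)` (`PairOk.copyt`) and `(K^0₀, K^0₁, 0)` (`PairOk.copy0`); `(1 + k) ≤ 2^k`; `tc_center_sum_le`. -/
theorem tc_sum_C (a : ℝ) (ha : 0 < a) (h0 : ℝ≥0) (hh : 0 < h0) (H0 H1 : ℕ) (q : ℝ) (hq : 1 < q) (Dk : ℕ) (hDk : 2 ≤ Dk) :
    ∃ (Can N0 : ℕ) (Ctr0 : ℝ), 1 ≤ Can ∧ ∀ N ≥ N0, ∃ (C : ℝ) (D1 : ℕ),
    ∀ (fx : Fix) (P : SqPair) (d0 : SqData P.Q0) (d1 : SqData P.Q1) (t z ν ν2 vJ ps Ctr : ℝ) (cT : ℝ≥0), Std fx → fx.o.a = a → fx.p.h0 = h0 →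
    fx.H0 = H0 → fx.H1 = H1 → d0.Ok fx t z ν ν2 vJ → d1.Ok fx t z ν ν2 vJ → PairOk fx P d0 d1 → 2 ≤ P.Q0.m →
    Env fx P.Q0 d0 ps Ctr cT Dk → Env fx P.Q1 d1 ps Ctr cT Dk → ps.HolderConjugate q → 1 ≤ cT → Ctr0 ≤ Ctr → 0 ≤ ν → 32 * Can * cT ≤ fx.p.A →
    D1 ≤ P.Q0.D →
      ‖∑ X ∈ Finset.univ.filter (clC P.Q1 H0 H1 N P.Q0.D), dK d1 fx.p.ω X - ∑ X ∈ Finset.univ.filter (clC P.Q0 H0 H1 N P.Q0.D), dK d0 fx.p.ω X‖
        ≤ C * ν / P.Q0.D := by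
  obtain ⟨Can, hCan, Hsum⟩ := tc_center_sum_le RR
  obtain ⟨Nb, Db, Hbij⟩ := tc_defect_bij H0 H1
  obtain ⟨Cp, Ctrp, Np, Dp, hCp, hCtrp, Hbg⟩ := tc_pair_background a ha H1
  obtain ⟨Clm, hClm, Hdef⟩ := tc_defect q hq
  obtain ⟨K, hK⟩ : ∃ K : ℕ, K = max Dk (4 * pp) := ⟨_, rfl⟩
  have hKDk : Dk ≤ K := hK ▸ le_max_left _ _
  have hKpp : 4 * pp ≤ K := hK ▸ le_max_right _ _
  have hK0 : 0 < K := by omega
  refine ⟨Can, max (max Nb Np) (4 * K * RR), Ctrp, hCan, fun N hN => ?_⟩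
  have hNb : Nb ≤ N := ((le_max_left _ _).trans (le_max_left _ _)).trans hN
  have hNp : Np ≤ N := ((le_max_right _ _).trans (le_max_left _ _)).trans hN
  have hNK : 4 * K * RR ≤ N := (le_max_right _ _).trans hN
  obtain ⟨B, hB⟩ : ∃ B : ℝ, B = 4 / (h0 : ℝ) * (4 * Clm * K * (RR + 6) + Cp) := ⟨_, rfl⟩
  have hh' : (0 : ℝ) < h0 := by exact_mod_cast hh
  have hB0 : 0 ≤ B := by rw [hB]; positivity
  refine ⟨2 * B * ((2 * H1 + 2 * RR + 1 : ℕ) : ℝ) ^ 2, max (max Db Dp) (max (20 * K) (4 * (H1 + 3))), ?_⟩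
  intro fx P d0 d1 t z ν ν2 vJ ps Ctr cT hs hfa hfh hfH0 hfH1 hd0 hd1 hpair hm he0 he1 hpq hcT hCtr hν hA hD
  have hDb : Db ≤ P.Q0.D := ((le_max_left _ _).trans (le_max_left _ _)).trans hD
  have hDp : Dp ≤ P.Q0.D := ((le_max_right _ _).trans (le_max_left _ _)).trans hD
  have hDK : 20 * K ≤ P.Q0.D := ((le_max_left _ _).trans (le_max_right _ _)).trans hD
  have hDH : 4 * (H1 + 3) ≤ P.Q0.D := ((le_max_right _ _).trans (le_max_right _ _)).trans hD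
  have hCtr0 : 0 ≤ Ctr := hCtrp.trans hCtr
  have hm0 := P.Q0.m_pos
  have hDpos : (0 : ℝ) < P.Q0.D := by exact_mod_cast P.Q0.hD
  have hAp := hs.A_pos
  -- the intermediate scale
  obtain ⟨b, hb, hb1, hb2⟩ := tc_choose_v K P.Q0.m P.Q0.D hK0 hm0 (by omega)
  have hKT : K * 2 ^ b ≤ P.Q0.D := by
    rw [← Nat.mul_assoc] at hb1
    exact Nat.le_of_mul_le_mul_right hb1 hm0
  have hDT : P.Q0.D < 2 * K * 2 ^ b := by
    rw [← Nat.mul_assoc] at hb2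
    exact Nat.lt_of_mul_lt_mul_right hb2
  have hbM : Dk * (2 ^ b * P.Q0.m) < P.Q0.G.M := by
    have h1 : Dk * (2 ^ b * P.Q0.m) ≤ K * (2 ^ b * P.Q0.m) := Nat.mul_le_mul_right _ hKDk
    have h2 : 0 < P.Q0.D * P.Q0.m := Nat.mul_pos P.Q0.hD hm0
    show _ < 2 * (P.Q0.D * P.Q0.m)
    omega
  -- the background
  obtain ⟨Dl, hDl, HDl⟩ := Hbg P hm hDp d0.v d1.v hd0.coclosed hd1.coclosed
  -- reduction to polymers, reindexing
  obtain ⟨hbij, hinj, hcard⟩ := Hbij P hDb N hNb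
  rw [tc_C_conn d1 fx hd1, tc_C_conn d0 fx hd0, hbij,
    Finset.sum_image (fun X _ X' _ h => hinj (Set.mem_univ X) (Set.mem_univ X') h), ← Finset.sum_sub_distrib]
  obtain ⟨x, hx⟩ : ∃ x : ℝ, x = 2 * ((cT : ℝ) / fx.p.A) := ⟨_, rfl⟩
  have hcT0 : (0 : ℝ) ≤ cT := cT.2
  have hx0 : 0 ≤ x := by rw [hx]; positivity
  have hx8 : 8 * (Can : ℝ) * x ≤ 1 := by
    rw [hx]
    have : 8 * (Can : ℝ) * (2 * ((cT : ℝ) / fx.p.A)) = 16 * Can * cT / fx.p.A := by ring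
    rw [this, div_le_one hAp]
    have : (0 : ℝ) ≤ Can * cT := by positivity
    nlinarith
  -- one polymer
  have hone : ∀ X ∈ Finset.univ.filter (fun X : Finset P.Q0.g.I => P.Q0.g.Conn RR X ∧ clC P.Q0 H0 H1 N P.Q0.D X),
      ‖dK d1 fx.p.ω (X.image P.eI) - dK d0 fx.p.ω X‖ ≤ 2 * B * (ν / P.Q0.D) * x ^ X.card := by
    intro X hX
    obtain ⟨hc, hw, hdf, hn⟩ := (Finset.mem_filter.1 hX).2
    have hw' : P.Q0.WallFree fx.H0 X := by rw [hfH0]; exact hw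
    obtain ⟨hen, han⟩ := HDl N hNp X hc hdf hn
    have hu : 4 * (K * RR * X.card) ≤ P.Q0.D := by
      calc 4 * (K * RR * X.card) = 4 * K * RR * X.card := by ring
        _ ≤ N * X.card := Nat.mul_le_mul_right _ hNK
        _ ≤ _ := hn
    have hu' : RR * X.card ≤ K * RR * X.card := by
      rw [Nat.mul_assoc]
      exact Nat.le_mul_of_pos_left _ hK0
    have g1 : 2 * K * (RR * X.card + 5) ≤ P.Q0.D := by
      have e : 2 * K * (RR * X.card + 5) = 2 * (K * RR * X.card) + 10 * K := by ring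
      omega
    have g2 : 2 * (H1 + RR * X.card + 3) ≤ P.Q0.D := by omega
    obtain ⟨hℓ, hext, hloc⟩ := tc_C_geo P.Q0 H1 K (2 ^ b) X hc hdf hKpp hKT hDT g1 g2
    obtain ⟨x0, hx0'⟩ := tc_C_Dm_nonempty P.Q1 (X.image P.eI) (hc.1.image _)
    have hR1 : ((((RR * X.card + 5) * P.Q0.m : ℕ) : ℝ) + P.Q0.m) / ((2 ^ b * P.Q0.m : ℕ) : ℝ)
        ≤ 2 * K * (RR * X.card + 6) / P.Q0.D := by
      have hmR : (0 : ℝ) < P.Q0.m := by exact_mod_cast hm0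
      have hTR : (0 : ℝ) < (2 : ℝ) ^ b := by positivity
      have hDT' : (P.Q0.D : ℝ) ≤ 2 * K * 2 ^ b := by exact_mod_cast hDT.le
      push_cast
      rw [div_le_div_iff₀ (by positivity) hDpos]
      have hk0 : (0 : ℝ) ≤ (RR : ℝ) * X.card + 6 := by positivity
      have : (((RR : ℝ) * X.card + 5) * P.Q0.m + P.Q0.m) * P.Q0.D = ((RR : ℝ) * X.card + 6) * P.Q0.m * P.Q0.D := by ring
      rw [this]
      have : 2 * (K : ℝ) * ((RR : ℝ) * X.card + 6) * (2 ^ b * P.Q0.m) = ((RR : ℝ) * X.card + 6) * P.Q0.m * (2 * K * 2 ^ b) := by ring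
      rw [this]
      exact mul_le_mul_of_nonneg_left hDT' (by positivity)
    -- the unit activities
    have hcopyt : ∀ w : P.Q1.G.V → ℝ, d1.Kt (X.image P.eI) (toC w) = d0.Kt X (toC fun y => w (P.eV y) + Dl (P.eV y)) := by
      intro w
      rw [hpair.copyt X hw' (toC w) (tb_real_mem_strip _ hs.h0_pos _ _ w)]
      congr 1
      funext y
      simp only [toC]
      rw [hDl y]
      have : fx.α = Real.sqrt a := by unfold Fix.α; rw [hfa]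
      rw [this]
      push_cast
      ring
    have hcopy0 : ∀ w : P.Q1.G.V → ℝ, d1.K0 (X.image P.eI) (toC w)
        = d0.K0 X (toC fun y => w (P.eV y) + (0 : P.Q1.G.V → ℝ) (P.eV y)) := by
      intro w
      rw [hpair.copy0 X hw' (toC w) (tb_real_mem_strip _ hs.h0_pos _ _ w)]
      congr 1
      funext y
      simp [toC]
    have hent : U P.Q1.g fx.p.δ (X.image P.eI) (-Dl) + bondE (P.Q1.g.Dm (X.image P.eI)) (-Dl) ≤ Ctr * X.card :=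
      (hen fx.p.δ hs.δ_pos.le hs.δ_le).trans (mul_le_mul_of_nonneg_right hCtr (Nat.cast_nonneg _))
    have hen0 : U P.Q1.g fx.p.δ (X.image P.eI) (-(0 : P.Q1.G.V → ℝ)) + bondE (P.Q1.g.Dm (X.image P.eI)) (-(0 : P.Q1.G.V → ℝ))
        ≤ Ctr * X.card := by
      rw [neg_zero, tc_U_zero, tc_bondE_zero, add_zero]
      positivity
    have T1 := Hdef fx P d0 d1 ps Ctr cT Dk hs hpq hcT hCtr0 hDk he0 he1 hd0.term hd1.term hd0.obs hd1.obs d0.Kt d1.Kt d0.col d1.col ν hν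
      hd0.col hd0.Kt_ok hd1.Kt_ok hd0.Kt_bd hd1.Kt_bd Dl X hcopyt b hb hbM _ hℓ hext hloc hent x0 hx0'
    have T0 := Hdef fx P d0 d1 ps Ctr cT Dk hs hpq hcT hCtr0 hDk he0 he1 hd0.term hd1.term hd0.obs hd1.obs d0.K0 d1.K0 d0.col d1.col ν hν
      hd0.col hd0.K0_ok hd1.K0_ok hd0.K0_bd hd1.K0_bd 0 X hcopy0 b hb hbM _ hℓ hext hloc hen0 x0 hx0'
    have hq0 : (0 : ℝ) ≤ (cT : ℝ) / fx.p.A := by positivity
    have A1 := tc_C_arith (h0 : ℝ) Clm Cp ν ((cT : ℝ) / fx.p.A) P.Q0.D _ _ K X.card hh' hClm hCp hν hq0 hDpos hR1 (han x0 hx0')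
    have A0 := tc_C_arith (h0 : ℝ) Clm Cp ν ((cT : ℝ) / fx.p.A) P.Q0.D ((anorm P.Q1.g (X.image P.eI) x0 0 : ℝ≥0) : ℝ) _ K X.card hh' hClm hCp
      hν hq0 hDpos hR1 (by rw [tb_anorm_zero]; simp only [NNReal.coe_zero]; positivity)
    rw [hfh] at T1 T0
    rw [← hB, ← hx] at A1 A0
    have e : dK d1 fx.p.ω (X.image P.eI) - dK d0 fx.p.ω X
        = (term fx.p.ω d1.Γ (d1.Kt (X.image P.eI)) - term fx.p.ω d0.Γ (d0.Kt X))
          - (term fx.p.ω d1.Γ (d1.K0 (X.image P.eI)) - term fx.p.ω d0.Γ (d0.K0 X)) := by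
      unfold dK
      ring
    rw [e]
    refine (norm_sub_le _ _).trans ?_
    have := T1.trans A1
    have := T0.trans A0
    linarith
  refine (norm_sum_le _ _).trans ((Finset.sum_le_sum hone).trans ?_)
  rw [← Finset.mul_sum]
  have hS := Hsum P.Q0.G P.Q0.g (tc_g_ok P.Q0) x hx0 hx8 P.Q0.D P.Q0.D H1
    (Finset.univ.filter (fun X : Finset P.Q0.g.I => P.Q0.g.Conn RR X ∧ clC P.Q0 H0 H1 N P.Q0.D X)) (by
      intro X hX
      obtain ⟨hc, hw, hdf, hn⟩ := (Finset.mem_filter.1 hX).2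
      obtain ⟨b', hb'⟩ := hc.1
      exact ⟨hc, b', hb', tc_defect_near P.Q0 H1 X hc hdf b' hb'⟩)
  have hW0 : (0 : ℝ) ≤ ((2 * H1 + 2 * RR + 1 : ℕ) : ℝ) ^ 2 := by positivity
  have hS' : ∑ X ∈ Finset.univ.filter (fun X : Finset P.Q0.g.I => P.Q0.g.Conn RR X ∧ clC P.Q0 H0 H1 N P.Q0.D X), x ^ X.card
      ≤ ((2 * H1 + 2 * RR + 1 : ℕ) : ℝ) ^ 2 := hS.trans (by
    calc ((2 * H1 + 2 * RR + 1 : ℕ) : ℝ) ^ 2 * (8 * (Can : ℝ) * x) ≤ ((2 * H1 + 2 * RR + 1 : ℕ) : ℝ) ^ 2 * 1 :=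
          mul_le_mul_of_nonneg_left hx8 hW0
      _ = _ := mul_one _)
  calc 2 * B * (ν / P.Q0.D) * ∑ X ∈ Finset.univ.filter (fun X : Finset P.Q0.g.I => P.Q0.g.Conn RR X ∧ clC P.Q0 H0 H1 N P.Q0.D X), x ^ X.card
      ≤ 2 * B * (ν / P.Q0.D) * ((2 * H1 + 2 * RR + 1 : ℕ) : ℝ) ^ 2 := mul_le_mul_of_nonneg_left hS' (by positivity)
    _ = _ := by ring

end sums

/-! ## 10. LEAF `L-OBS-TC15`: assembly -/

/-- the energies of the zero field vanish -/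
theorem tc_zero_energy {G : Geom} (g : Grid G) (δ : ℝ) (X : Finset g.I) : U g δ X 0 + bondE (g.Dm X) 0 = 0 := by
  have h1 : ∀ (e : Fin 4) (x : ℤ × ℤ), dif (dir e) (G.lift (0 : G.V → ℝ)) x = 0 := fun e x => by simp [dif, Geom.lift]
  have h3 : ∀ (r : ℕ) (x : ℤ × ℤ), nab r (G.lift (0 : G.V → ℝ)) x = 0 := fun r x => by
    unfold nab
    refine le_antisymm (Finset.sup_le fun a _ => ?_) zero_le
    have h := Hol.difs_nnnorm_le a (G.lift (0 : G.V → ℝ)) 0 (fun y => by simp [Geom.lift]) x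
    simpa using h
  have h2 : ∀ x : g.I, ((g.sites {x}).sup fun _ : G.V => (0 : ℝ≥0)) = 0 := fun x =>
    le_antisymm (Finset.sup_le fun _ _ => le_rfl) zero_le
  unfold U gE PE TE bondE
  simp [h1, h3, h2]

/-- **one square**: the four bounds on `T`, the bound on `\dot T`, and `log (T^τ / T^0) = Re ∑_X dK X + O (b²)`, `b = 4 D² ν`. -/
theorem tc_square : ∃ Can : ℕ, 1 ≤ Can ∧ ∀ (fx : Fix) (Q : Sq) (d : SqData Q) (t z ν ν2 vJ ps Ctr : ℝ) (cT : ℝ≥0) (Dk : ℕ), Std fx →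
    d.Ok fx t z ν ν2 vJ → Env fx Q d ps Ctr cT Dk → 1 < ps → 1 ≤ cT → 0 ≤ Ctr → 0 ≤ ν → 0 ≤ vJ → 4 * Can * cT ≤ fx.p.A →
    4 * (Q.D : ℝ) ^ 2 * ν ≤ 1 / 4 →
      (1 / 2 ≤ d.T0 fx.p.ω ∧ d.T0 fx.p.ω ≤ 2) ∧ (1 / 2 ≤ d.Tt fx.p.ω ∧ d.Tt fx.p.ω ≤ 2) ∧
      |d.Td fx.p.ω| ≤ 12 * (Q.D : ℝ) ^ 2 * vJ ∧
      |Real.log (d.Tt fx.p.ω / d.T0 fx.p.ω) - (∑ X : Finset Q.g.I, dK d fx.p.ω X).re| ≤ 8 * (4 * (Q.D : ℝ) ^ 2 * ν) ^ 2 := by
  obtain ⟨Can, hCan, E⟩ := terminal_expansion_abs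
  refine ⟨Can, hCan, ?_⟩
  intro fx Q d t z ν ν2 vJ ps Ctr cT Dk hs hd he hps hcT hCtr hν hvJ hA hb
  have hω : 0 < fx.p.ω := by
    rw [hs.ω_eq]
    have : 0 < fx.α := Real.sqrt_pos.2 fx.o.a_pos
    positivity
  obtain ⟨N⟩ := tc_nest Q
  have hreg : ∀ X : Finset Q.g.I, ∫⁻ ζ, ENNReal.ofReal (Wt Q.g fx.p.δ fx.p.κ d.V X ζ) ∂(gauss Q.G d.Γ) ≤ (cT : ℝ≥0∞) ^ X.card := by
    intro X
    have h := he.first hps hcT hd.obs X 0 (by rw [tc_zero_energy]; positivity)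
    simpa using h
  have hcard := tc_card_I Q
  have hadd : ∀ (X X' : Finset Q.g.I) (φ : Q.G.V → ℝ), Q.g.Sep (2 * pp + 8) X X' → d.V.V X φ + d.V.V X' φ ≤ d.V.V (X ∪ X') φ :=
    fun X X' φ h => ta_obs_add fx.o Q.c Q.g (tc_c_whole Q) (tc_g_ok Q) N d.V hd.obs X X' φ h
  have hcont := ta_obs_continuous fx.o Q.c Q.g (tc_g_ok Q) d.V hd.obs
  have hb1 : (Fintype.card Q.g.I : ℝ) * ν ≤ 1 := by rw [hcard]; linarith
  have E0 := E fx.p cT hs.h0_pos hω hcT hA Q.G Q.g (tc_g_ok Q) d.V d.Γ hadd hcont hreg d.col d.K0 d.J hd.K0_ok hd.J_ok ν vJ hν hvJ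
    hd.K0_bd hd.J_bd hb1
  have Et := E fx.p cT hs.h0_pos hω hcT hA Q.G Q.g (tc_g_ok Q) d.V d.Γ hadd hcont hreg d.col d.Kt d.J hd.Kt_ok hd.J_ok ν vJ hν hvJ
    hd.Kt_bd hd.J_bd hb1
  rw [hcard] at E0 Et
  obtain ⟨a1, a2, -⟩ := E0
  obtain ⟨b1, b2, b3⟩ := Et
  have l0 := tc_log (d.T0 fx.p.ω) (∑ X : Finset Q.g.I, term fx.p.ω d.Γ (d.K0 X)).re _ hb ((Complex.abs_re_le_norm _).trans a1)
    (by
      have := (Complex.abs_re_le_norm _).trans a2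
      simpa [SqData.T0] using this)
  have lt := tc_log (d.Tt fx.p.ω) (∑ X : Finset Q.g.I, term fx.p.ω d.Γ (d.Kt X)).re _ hb ((Complex.abs_re_le_norm _).trans b1)
    (by
      have := (Complex.abs_re_le_norm _).trans b2
      simpa [SqData.Tt] using this)
  obtain ⟨p1, p2, p3⟩ := l0
  obtain ⟨q1, q2, q3⟩ := lt
  refine ⟨⟨p1, p2⟩, ⟨q1, q2⟩, ?_, ?_⟩
  · have := (Complex.abs_re_le_norm _).trans b3
    calc |d.Td fx.p.ω| ≤ 3 * (4 * (Q.D : ℝ) ^ 2) * vJ := this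
      _ = 12 * (Q.D : ℝ) ^ 2 * vJ := by ring
  · rw [Real.log_div (by linarith) (by linarith)]
    have e : (∑ X : Finset Q.g.I, dK d fx.p.ω X).re
        = (∑ X : Finset Q.g.I, term fx.p.ω d.Γ (d.Kt X)).re - (∑ X : Finset Q.g.I, term fx.p.ω d.Γ (d.K0 X)).re := by
      simp only [dK, Finset.sum_sub_distrib, Complex.sub_re]
    rw [e]
    have h3 := abs_le.1 p3
    have h4 := abs_le.1 q3
    rw [abs_le]
    constructor <;> linarith [h3.1, h3.2, h4.1, h4.2]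

/-- the arithmetic of the assembly -/
theorem tc_final_arith (L1 L0 : ℝ) (S1 S0 G1 G0 W1 W0 C1 C0 R1 R0 : ℂ) (E1 E0 g1 g0 t a ν ν2 D Λ CW CL CC CE : ℝ)
    (ha : 0 < a) (hD : 0 < D) (hΛ : 1 ≤ Λ) (ht : |t| ≤ ν) (hν2 : 0 ≤ ν2)
    (p1 : S1 = G1 + W1 + C1 + R1) (p0 : S0 = G0 + W0 + C0 + R0)
    (s1 : |L1 - S1.re| ≤ 8 * (4 * (Λ * D) ^ 2 * ν) ^ 2) (s0 : |L0 - S0.re| ≤ 8 * (4 * D ^ 2 * ν) ^ 2)
    (g1' : ‖G1 - ((t / 2 * E1 : ℝ) : ℂ)‖ ≤ 4 * (Λ * D) ^ 2 * ν2) (g0' : ‖G0 - ((t / 2 * E0 : ℝ) : ℂ)‖ ≤ 4 * D ^ 2 * ν2)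
    (w1 : ‖W1‖ ≤ CW * ν / (Λ * D)) (w0 : ‖W0‖ ≤ CW * ν / D) (l1 : ‖R1‖ ≤ CL * ν / D) (l0 : ‖R0‖ ≤ CL * ν / D)
    (c : ‖C1 - C0‖ ≤ CC * ν / D) (en : |(E1 - E0) - (g1 - g0) / a| ≤ CE / D) :
    |(L1 - L0) - t / (2 * a) * (g1 - g0)|
      ≤ (128 * Λ ^ 4 + 128 + 4 * Λ ^ 2 + 4 + 2 * |CW| + 2 * |CL| + |CC| + |CE| + 12 * Λ ^ 2 + 12) * (D ^ 4 * ν ^ 2 + ν / D + D ^ 2 * ν2) := by
  have hν : 0 ≤ ν := (abs_nonneg t).trans ht
  have hΛ0 : 0 < Λ := lt_of_lt_of_le one_pos hΛ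
  obtain ⟨X1, hX1e⟩ : ∃ X1, X1 = D ^ 4 * ν ^ 2 := ⟨_, rfl⟩
  obtain ⟨X2, hX2e⟩ : ∃ X2, X2 = ν / D := ⟨_, rfl⟩
  obtain ⟨X3, hX3e⟩ : ∃ X3, X3 = D ^ 2 * ν2 := ⟨_, rfl⟩
  have hX1 : 0 ≤ X1 := by rw [hX1e]; positivity
  have hX2 : 0 ≤ X2 := by rw [hX2e]; positivity
  have hX3 : 0 ≤ X3 := by rw [hX3e]; positivity
  rw [← hX1e, ← hX2e, ← hX3e]
  -- the real parts
  have rg1 : |G1.re - t / 2 * E1| ≤ 4 * Λ ^ 2 * X3 := by
    have h := (Complex.abs_re_le_norm _).trans g1'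
    rw [Complex.sub_re, Complex.ofReal_re] at h
    calc _ ≤ _ := h
      _ = 4 * Λ ^ 2 * X3 := by rw [hX3e]; ring
  have rg0 : |G0.re - t / 2 * E0| ≤ 4 * X3 := by
    have h := (Complex.abs_re_le_norm _).trans g0'
    rw [Complex.sub_re, Complex.ofReal_re] at h
    calc _ ≤ _ := h
      _ = 4 * X3 := by rw [hX3e]; ring
  have gen : ∀ K : ℝ, K * ν / D ≤ |K| * X2 := fun K => by
    rw [hX2e, mul_div_assoc]
    exact mul_le_mul_of_nonneg_right (le_abs_self K) (by positivity)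
  have rw1 : |W1.re| ≤ |CW| * X2 := by
    refine ((Complex.abs_re_le_norm _).trans w1).trans ?_
    have e : CW * ν / (Λ * D) = (CW * ν / D) / Λ := by field_simp
    rw [e]
    have h2 : 0 ≤ |CW| * X2 := mul_nonneg (abs_nonneg _) hX2
    calc CW * ν / D / Λ ≤ |CW| * X2 / Λ := div_le_div_of_nonneg_right (gen CW) hΛ0.le
      _ ≤ |CW| * X2 := div_le_self h2 hΛ
  have rw0 : |W0.re| ≤ |CW| * X2 := ((Complex.abs_re_le_norm _).trans w0).trans (gen CW)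
  have rl1 : |R1.re| ≤ |CL| * X2 := ((Complex.abs_re_le_norm _).trans l1).trans (gen CL)
  have rl0 : |R0.re| ≤ |CL| * X2 := ((Complex.abs_re_le_norm _).trans l0).trans (gen CL)
  have rc : |C1.re - C0.re| ≤ |CC| * X2 := by
    have h := ((Complex.abs_re_le_norm _).trans c).trans (gen CC)
    rwa [Complex.sub_re] at h
  have rs1 : |L1 - S1.re| ≤ 128 * Λ ^ 4 * X1 := by
    calc _ ≤ _ := s1
      _ = 128 * Λ ^ 4 * X1 := by rw [hX1e]; ring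
  have rs0 : |L0 - S0.re| ≤ 128 * X1 := by
    calc _ ≤ _ := s0
      _ = 128 * X1 := by rw [hX1e]; ring
  obtain ⟨y, hy⟩ : ∃ y, y = t / 2 * ((E1 - E0) - (g1 - g0) / a) := ⟨_, rfl⟩
  have ry : |y| ≤ |CE| * X2 := by
    rw [hy, abs_mul, abs_div, abs_of_pos (two_pos : (0 : ℝ) < 2)]
    have h1 : |(E1 - E0) - (g1 - g0) / a| ≤ |CE| / D := en.trans (div_le_div_of_nonneg_right (le_abs_self _) hD.le)
    have h2 : |t| / 2 ≤ ν := by linarith [abs_nonneg t]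
    calc |t| / 2 * |(E1 - E0) - (g1 - g0) / a| ≤ ν * (|CE| / D) :=
          mul_le_mul h2 h1 (abs_nonneg _) hν
      _ = |CE| * X2 := by rw [hX2e]; ring
  have e1 : S1.re = G1.re + W1.re + C1.re + R1.re := by rw [p1]; simp
  have e0 : S0.re = G0.re + W0.re + C0.re + R0.re := by rw [p0]; simp
  have key : (L1 - L0) - t / (2 * a) * (g1 - g0)
      = (L1 - S1.re) - (L0 - S0.re) + (G1.re - t / 2 * E1) - (G0.re - t / 2 * E0) + W1.re - W0.re + (C1.re - C0.re) + R1.re - R0.re + y := by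
    rw [e1, e0, hy]
    field_simp
    ring
  rw [key]
  have b1 : 128 * Λ ^ 4 * X1 + 128 * X1 + 4 * Λ ^ 2 * X3 + 4 * X3 + |CW| * X2 + |CW| * X2 + |CC| * X2 + |CL| * X2 + |CL| * X2 + |CE| * X2
      ≤ (128 * Λ ^ 4 + 128 + 4 * Λ ^ 2 + 4 + 2 * |CW| + 2 * |CL| + |CC| + |CE| + 12 * Λ ^ 2 + 12) * (X1 + X2 + X3) := by
    have hK1 : 0 ≤ 128 * Λ ^ 4 + 128 := by positivity
    have hK2 : 0 ≤ 2 * |CW| + 2 * |CL| + |CC| + |CE| := by positivity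
    have hK3 : 0 ≤ 4 * Λ ^ 2 + 4 := by positivity
    have hK4 : 0 ≤ 12 * Λ ^ 2 + 12 := by positivity
    have e : (128 * Λ ^ 4 + 128 + 4 * Λ ^ 2 + 4 + 2 * |CW| + 2 * |CL| + |CC| + |CE| + 12 * Λ ^ 2 + 12) * (X1 + X2 + X3)
        = (128 * Λ ^ 4 * X1 + 128 * X1 + 4 * Λ ^ 2 * X3 + 4 * X3 + |CW| * X2 + |CW| * X2 + |CC| * X2 + |CL| * X2 + |CL| * X2 + |CE| * X2)
          + ((128 * Λ ^ 4 + 128) * X2 + (128 * Λ ^ 4 + 128) * X3 + (2 * |CW| + 2 * |CL| + |CC| + |CE|) * X1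
            + (2 * |CW| + 2 * |CL| + |CC| + |CE|) * X3 + (4 * Λ ^ 2 + 4) * X1 + (4 * Λ ^ 2 + 4) * X2
            + (12 * Λ ^ 2 + 12) * X1 + (12 * Λ ^ 2 + 12) * X2 + (12 * Λ ^ 2 + 12) * X3) := by ring
    rw [e]
    have := mul_nonneg hK1 hX2; have := mul_nonneg hK1 hX3; have := mul_nonneg hK2 hX1; have := mul_nonneg hK2 hX3
    have := mul_nonneg hK3 hX1; have := mul_nonneg hK3 hX2; have := mul_nonneg hK4 hX1; have := mul_nonneg hK4 hX2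
    have := mul_nonneg hK4 hX3
    linarith
  refine le_trans ?_ b1
  have := abs_le.1 rg1; have := abs_le.1 rg0; have := abs_le.1 rw1; have := abs_le.1 rw0; have := abs_le.1 rl1
  have := abs_le.1 rl0; have := abs_le.1 rc; have := abs_le.1 rs1; have := abs_le.1 rs0; have := abs_le.1 ry
  rw [abs_le]
  constructor <;> linarith [rg1]


/-- **(obs:terminal-energy)** = `F6.terminal_energy` with the extra hypothesis `2 ≤ m'`.
PLAN.  Constants: `tc_env o` (`ps, Dk, δ0, κ0`); `δ0 := min δ0 1`; `q` = conjugate of `ps`; after `h0, H0, H1, ℓ`: `Ctr := max` of `tc_lift_energy`, `Ctr0` of `tc_sum_C`, `0`; `cT` from `tc_env`; `N := max` of the `N0`;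
`A0 := 32 Can cT` (`Can` = max of all); `C`, `D1` = sums / max; `c1 := 1 / (16 · 4^ℓ)`.
(1) `terminal_expansion_abs` for `(K^0, J)`, `(K^τ, J)` on both squares (`hreg` := `Env.first` at `f = 0`; `ta_obs_add`, `ta_obs_continuous`; `tc_g_ok`, ..): `b_i = |I_i| ν = 4 D_i² ν ≤ 4 · 4^ℓ D₀² ν ≤ 1/4`.
(2) `tc_log` with `T = Re term (ZA ..)`, `s = Re ∑_X term (K X)`: the four bounds on `T`, `|log T - s| ≤ 4 b²`; `log (T^τ / T^0) = log T^τ - log T^0`.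
(3) `∑_X term (K^τ X) - ∑_X term (K^0 X) = ∑_X dK X`, `tc_partition` with `D = D₀` on both squares; `tc_sum_G`, `tc_sum_W`, `tc_sum_L` on each square, `tc_sum_C` for the pair.
(4) `tc_energy` and `SqData.Ok.unitEnergy_eq`; `|t| ≤ ν`. -/
theorem terminal_energy (o : ObsPar) : ∃ δ0 > (0 : ℝ), ∀ δ ∈ Set.Ioc 0 δ0, ∃ κ0 > (0 : ℝ), ∀ κ ∈ Set.Ioc 0 κ0, ∀ h0 > (0 : ℝ≥0),
    ∀ H0 H1 ℓ : ℕ, 3 ≤ H0 → 3 ≤ H1 → ∃ A0 : ℝ, ∀ A ≥ A0, ∃ (C c1 : ℝ) (D1 : ℕ), 0 < c1 ∧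
    ∀ P : SqPair, P.Q1.D = 2 ^ ℓ * P.Q0.D → D1 ≤ P.Q0.D → 2 ≤ P.Q0.m → ∀ b t z ν ν2 vJ Dex cex : ℝ,
    ∀ S : Stop ⟨⟨δ, κ, h0, A, 2 * Real.pi / Real.sqrt o.a⟩, o, H0, H1⟩ b P t z ν ν2 vJ Dex cex,
      |t| ≤ ν → 0 ≤ ν2 → ν2 ≤ ν → 0 ≤ vJ → (P.Q0.D : ℝ) ^ 2 * ν ≤ c1 →
      let ω := 2 * Real.pi / Real.sqrt o.a
      (1 / 2 ≤ S.d0.T0 ω ∧ 1 / 2 ≤ S.d0.Tt ω ∧ 1 / 2 ≤ S.d1.T0 ω ∧ 1 / 2 ≤ S.d1.Tt ω) ∧
      (S.d0.T0 ω ≤ 2 ∧ S.d1.T0 ω ≤ 2) ∧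
      (|S.d0.Td ω| ≤ C * (P.Q0.D : ℝ) ^ 2 * vJ ∧ |S.d1.Td ω| ≤ C * (P.Q0.D : ℝ) ^ 2 * vJ) ∧
      |(Real.log (S.d1.Tt ω / S.d1.T0 ω) - Real.log (S.d0.Tt ω / S.d0.T0 ω))
          - t / (2 * o.a) * (Glue.unitEnergy P.Q1.n - Glue.unitEnergy P.Q0.n)|
        ≤ C * ((P.Q0.D : ℝ) ^ 4 * ν ^ 2 + ν / P.Q0.D + (P.Q0.D : ℝ) ^ 2 * ν2) := by
  classical
  obtain ⟨ps, Dk, hps, hDk, δ0, hδ0, HE⟩ := tc_env o
  refine ⟨min δ0 1, lt_min hδ0 one_pos, fun δ hδ => ?_⟩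
  have hδ' : δ ∈ Set.Ioc 0 δ0 := ⟨hδ.1, hδ.2.trans (min_le_left _ _)⟩
  have hδ1 : δ ≤ 1 := hδ.2.trans (min_le_right _ _)
  obtain ⟨κ0, hκ0, HE⟩ := HE δ hδ'
  refine ⟨κ0, hκ0, fun κ hκ h0 hh H0 H1 ℓ hH0 hH1 => ?_⟩
  have hpq : ps.HolderConjugate (Real.conjExponent ps) := Real.HolderConjugate.conjExponent hps
  have hq : 1 < Real.conjExponent ps := hpq.symm.lt
  -- the constants
  obtain ⟨Ctr1, hCtr1, HL⟩ := tc_lift_energy o.a o.a_pos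
  obtain ⟨CanC, N0C, Ctr0, hCanC, HC⟩ := tc_sum_C o.a o.a_pos h0 hh H0 H1 _ hq Dk hDk
  obtain ⟨CanW, N0W, hCanW, HW⟩ := tc_sum_W o.a o.a_pos h0 hh H0 H1 hH1
  obtain ⟨N, hN⟩ : ∃ N, N = max (max N0C N0W) 1 := ⟨_, rfl⟩
  obtain ⟨CC, D1C, HC⟩ := HC N (by rw [hN]; exact le_trans (le_max_left _ _) (le_max_left _ _))
  obtain ⟨CW, D1W, HW⟩ := HW N (by rw [hN]; exact le_trans (le_max_right _ _) (le_max_left _ _))
  obtain ⟨CanL, CL, hCanL, HLL⟩ := tc_sum_L N ℓ (by rw [hN]; exact le_max_right _ _)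
  obtain ⟨CanG, hCanG, HG⟩ := tc_sum_G
  obtain ⟨CanS, hCanS, HS⟩ := tc_square
  obtain ⟨CE, D1E, HEn⟩ := tc_energy o.a o.a_pos H0 H1 (by omega)
  obtain ⟨Ctr, hCtrE⟩ : ∃ Ctr, Ctr = max (max Ctr1 Ctr0) 0 := ⟨_, rfl⟩
  have hCtr : 0 ≤ Ctr := by rw [hCtrE]; exact le_max_right _ _
  have hCtr1' : Ctr1 ≤ Ctr := by rw [hCtrE]; exact le_trans (le_max_left _ _) (le_max_left _ _)
  have hCtr0' : Ctr0 ≤ Ctr := by rw [hCtrE]; exact le_trans (le_max_right _ _) (le_max_left _ _)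
  obtain ⟨cT, hcT, HE⟩ := HE Ctr
  obtain ⟨Can, hCan⟩ : ∃ Can : ℕ, Can = CanC + CanW + CanL + CanG + CanS := ⟨_, rfl⟩
  refine ⟨32 * Can * cT, fun A hA => ?_⟩
  obtain ⟨Λ, hΛe⟩ : ∃ Λ : ℝ, Λ = 2 ^ ℓ := ⟨_, rfl⟩
  have hΛ : 1 ≤ Λ := by rw [hΛe]; exact one_le_pow₀ (by norm_num)
  have hΛ0 : 0 < Λ := lt_of_lt_of_le one_pos hΛ
  refine ⟨128 * Λ ^ 4 + 128 + 4 * Λ ^ 2 + 4 + 2 * |CW| + 2 * |CL| + |CC| + |CE| + 12 * Λ ^ 2 + 12, 1 / (16 * Λ ^ 2),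
    max (max D1C D1W) D1E, by positivity, ?_⟩
  intro P hP hD1 hm b t z ν ν2 vJ Dex cex S ht hν2 hν2' hvJ hsm ω
  have hν : 0 ≤ ν := (abs_nonneg t).trans ht
  have hcT' : (1 : ℝ) ≤ cT := by exact_mod_cast hcT
  have hAk : ∀ (k : ℝ) (c : ℕ), 0 ≤ k → k ≤ 32 → c ≤ Can → k * c * cT ≤ A := by
    intro k c hk0 hk hc
    refine le_trans ?_ hA
    have hc' : (c : ℝ) ≤ Can := by exact_mod_cast hc
    have : k * c ≤ 32 * Can := mul_le_mul hk hc' (Nat.cast_nonneg _) (by norm_num)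
    exact mul_le_mul_of_nonneg_right this (by linarith)
  have hApos : 0 < A := by
    have h := hAk 32 CanS (by norm_num) le_rfl (by omega)
    have h1 : (1 : ℝ) ≤ CanS := by exact_mod_cast hCanS
    have : (32 : ℝ) * 1 * 1 ≤ 32 * CanS * cT := by
      apply mul_le_mul _ hcT' (by norm_num) (by positivity)
      linarith
    linarith
  have hs : Std ⟨⟨δ, κ, h0, A, 2 * Real.pi / Real.sqrt o.a⟩, o, H0, H1⟩ := ⟨hh, hδ.1, hδ1, hApos, rfl, hH0, hH1⟩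
  have he0 := HE κ hκ h0 A (2 * Real.pi / Real.sqrt o.a) H0 H1 P.Q0 S.d0 S.ok0.term S.ok0.obs
  have he1 := HE κ hκ h0 A (2 * Real.pi / Real.sqrt o.a) H0 H1 P.Q1 S.d1 S.ok1.term S.ok1.obs
  -- sizes
  have hD0 : (0 : ℝ) < P.Q0.D := by exact_mod_cast P.Q0.hD
  have hD1e : (P.Q1.D : ℝ) = Λ * P.Q0.D := by rw [hP, hΛe]; push_cast; ring
  have hsm' : 16 * Λ ^ 2 * ((P.Q0.D : ℝ) ^ 2 * ν) ≤ 1 := by
    rw [le_div_iff₀ (by positivity)] at hsm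
    linarith
  have hx : 0 ≤ (P.Q0.D : ℝ) ^ 2 * ν := by positivity
  have hb1 : 4 * (P.Q1.D : ℝ) ^ 2 * ν ≤ 1 / 4 := by
    rw [hD1e]
    have e : 4 * (Λ * (P.Q0.D : ℝ)) ^ 2 * ν = (16 * Λ ^ 2 * ((P.Q0.D : ℝ) ^ 2 * ν)) / 4 := by ring
    rw [e]
    linarith
  have hb0 : 4 * (P.Q0.D : ℝ) ^ 2 * ν ≤ 1 / 4 := by
    have h1 : (1 : ℝ) ≤ Λ ^ 2 := one_le_pow₀ hΛ
    have h2 : 1 * ((P.Q0.D : ℝ) ^ 2 * ν) ≤ Λ ^ 2 * ((P.Q0.D : ℝ) ^ 2 * ν) := mul_le_mul_of_nonneg_right h1 hx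
    linarith
  have hDC : D1C ≤ P.Q0.D := le_trans (le_trans (le_max_left _ _) (le_max_left _ _)) hD1
  have hDW : D1W ≤ P.Q0.D := le_trans (le_trans (le_max_right _ _) (le_max_left _ _)) hD1
  have hDE : D1E ≤ P.Q0.D := le_trans (le_max_right _ _) hD1
  -- the two squares
  obtain ⟨⟨s01, s02⟩, ⟨s03, -⟩, s05, s06⟩ := HS _ P.Q0 S.d0 t z ν ν2 vJ ps Ctr cT Dk hs S.ok0 he0 hps hcT hCtr hν hvJ
    (hAk 4 CanS (by norm_num) (by norm_num) (by omega)) hb0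
  obtain ⟨⟨s11, s12⟩, ⟨s13, -⟩, s15, s16⟩ := HS _ P.Q1 S.d1 t z ν ν2 vJ ps Ctr cT Dk hs S.ok1 he1 hps hcT hCtr hν hvJ
    (hAk 4 CanS (by norm_num) (by norm_num) (by omega)) hb1
  have p0 := tc_partition P.Q0 H0 H1 N P.Q0.D (dK S.d0 ω)
  have p1 := tc_partition P.Q1 H0 H1 N P.Q0.D (dK S.d1 ω)
  have g0 := HG _ P.Q0 S.d0 t z ν ν2 vJ ps Ctr cT Dk hs S.ok0 he0 hps hcT hCtr hν2
    (hAk 4 CanG (by norm_num) (by norm_num) (by omega))
    (fun X hX => (HL P.Q0 hm S.d0.v S.ok0.coclosed H0 H1 hH0 hH1 X hX (S.d0.lam X) (S.ok0.lift X hX.2) δ hδ.1.le hδ1).trans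
      (mul_le_mul_of_nonneg_right hCtr1' (Nat.cast_nonneg _)))
  have g1 := HG _ P.Q1 S.d1 t z ν ν2 vJ ps Ctr cT Dk hs S.ok1 he1 hps hcT hCtr hν2
    (hAk 4 CanG (by norm_num) (by norm_num) (by omega))
    (fun X hX => (HL P.Q1 S.ok1.m_ge S.d1.v S.ok1.coclosed H0 H1 hH0 hH1 X hX (S.d1.lam X) (S.ok1.lift X hX.2) δ hδ.1.le hδ1).trans
      (mul_le_mul_of_nonneg_right hCtr1' (Nat.cast_nonneg _)))
  have w0 := HW _ P.Q0 S.d0 t z ν ν2 vJ ps Ctr cT Dk hs rfl rfl rfl rfl S.ok0 hm he0 hps hcT hCtr hν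
    (hAk 16 CanW (by norm_num) (by norm_num) (by omega)) P.Q0.D hDW le_rfl
  have w1 := HW _ P.Q1 S.d1 t z ν ν2 vJ ps Ctr cT Dk hs rfl rfl rfl rfl S.ok1 S.ok1.m_ge he1 hps hcT hCtr hν
    (hAk 16 CanW (by norm_num) (by norm_num) (by omega)) P.Q0.D hDW P.hD
  have l0 := HLL _ P.Q0 S.d0 t z ν ν2 vJ ps Ctr cT Dk hs S.ok0 he0 hps hcT hCtr hν
    (hAk 4 CanL (by norm_num) (by norm_num) (by omega)) P.Q0.D P.Q0.hD (Nat.le_mul_of_pos_left _ (by positivity))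
  have l1 := HLL _ P.Q1 S.d1 t z ν ν2 vJ ps Ctr cT Dk hs S.ok1 he1 hps hcT hCtr hν
    (hAk 4 CanL (by norm_num) (by norm_num) (by omega)) P.Q0.D P.Q0.hD hP.le
  have c01 := HC _ P S.d0 S.d1 t z ν ν2 vJ ps Ctr cT hs rfl rfl rfl rfl S.ok0 S.ok1 S.pair hm he0 he1 hpq hcT hCtr0' hν
    (hAk 32 CanC (by norm_num) (by norm_num) (by omega)) hDC
  have en := HEn P hDE S.d0.v S.d1.v S.ok0.coclosed S.ok1.coclosed S.d0.lam S.d1.lam S.ok0.lift S.ok1.lift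
  rw [← S.ok0.unitEnergy_eq, ← S.ok1.unitEnergy_eq] at en
  rw [hD1e] at s15 s16 g1 w1
  have hK : 12 * Λ ^ 2 ≤ 128 * Λ ^ 4 + 128 + 4 * Λ ^ 2 + 4 + 2 * |CW| + 2 * |CL| + |CC| + |CE| + 12 * Λ ^ 2 + 12 := by
    have : 0 ≤ 128 * Λ ^ 4 + 128 + 4 * Λ ^ 2 + 4 + 2 * |CW| + 2 * |CL| + |CC| + |CE| + 12 := by positivity
    linarith
  have hK' : (12 : ℝ) ≤ 128 * Λ ^ 4 + 128 + 4 * Λ ^ 2 + 4 + 2 * |CW| + 2 * |CL| + |CC| + |CE| + 12 * Λ ^ 2 + 12 := by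
    have : 0 ≤ 128 * Λ ^ 4 + 128 + 4 * Λ ^ 2 + 4 + 2 * |CW| + 2 * |CL| + |CC| + |CE| + 12 * Λ ^ 2 := by positivity
    linarith
  have hy : 0 ≤ (P.Q0.D : ℝ) ^ 2 * vJ := by positivity
  refine ⟨⟨s01, s03, s11, s13⟩, ⟨s02, s12⟩, ⟨?_, ?_⟩, ?_⟩
  · refine s05.trans ?_
    rw [mul_assoc, mul_assoc]
    exact mul_le_mul_of_nonneg_right hK' hy
  · refine s15.trans ?_
    have e : 12 * (Λ * (P.Q0.D : ℝ)) ^ 2 * vJ = 12 * Λ ^ 2 * ((P.Q0.D : ℝ) ^ 2 * vJ) := by ring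
    rw [e, mul_assoc _ ((P.Q0.D : ℝ) ^ 2)]
    exact mul_le_mul_of_nonneg_right hK hy
  · exact tc_final_arith _ _ _ _ _ _ _ _ _ _ _ _ _ _ _ _ t o.a ν ν2 P.Q0.D Λ CW CL CC CE o.a_pos hD0 hΛ ht hν2 p1 p0 s16 s06 g1 g0 w1 w0
      l1 l0 c01 en

end

end Claimed.Agent.R285.Obs
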